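import Crest.Agent.R116.CD1b_120
import Crest.Agent.R116.CD0_899

/-!
# R116, FACT [CD] (helper120), part 3: the model statement

`cd_model` : a `C`-increment (at `D` coarse) and a `D`-increment (at `C` coarse), both positive
at every step ⊢ `σ y ≤ ν (C, D fine) - ν (C, D, P fine)`.
-/

set_option autoImplicit false
set_option linter.unusedVariables false
set_option linter.unusedSectionVars false

open Filter Topology Finset

namespace Crest.Agent.R116.CD120

open Crest.Agent.R138.Ex926 (Base U)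
open Crest.Agent.R138.Fal658 Crest.Agent.R136.Gf356 Crest.Agent.R116.Kr710
open Crest.Agent.R116.EvL504 (comp evoS SL LvS LnS hgt)
open Crest.Agent.R116.Tp389 (nS evo3 evo4 ev_pair loose0)
open Crest.Agent.R116.CD899 (pin_law evo1)

/-- comparison of exponents from the small losses -/
theorem le_of_ev_small (B : Base) (α β C C0 ε0 : ℝ) (hC : 0 ≤ C) (hC0 : 0 ≤ C0) (h0 : 0 < ε0)
    (h : ∀ ε : ℝ, 0 < ε → ε ≤ ε0 → ∀ᶠ n in (U : Filter ℕ),
      B.d n ^ (α + C * ε) ≤ C0 * B.d n ^ (β - C * ε)) : β ≤ α := by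
  refine le_of_ev B α β C C0 fun ε hε => ?_
  filter_upwards [h (min ε ε0) (lt_min hε h0) (min_le_right _ _)] with n hn
  have e1 : C * min ε ε0 ≤ C * ε := mul_le_mul_of_nonneg_left (min_le_left _ _) hC
  calc B.d n ^ (α + C * ε) ≤ B.d n ^ (α + C * min ε ε0) := rpow_anti B n (by linarith)
    _ ≤ C0 * B.d n ^ (β - C * min ε ε0) := hn
    _ ≤ C0 * B.d n ^ (β - C * ε) :=
        mul_le_mul_of_nonneg_left (rpow_anti B n (by linarith)) hC0

variable {B : Base} {G : ℕ → RCfg (Fin 12)} {Leg : Set (Fin 12 → ℝ)} {ν : (Fin 12 → ℝ) → ℝ}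
  {σ R D : ℝ} {S : Finset (Fin 12)} {own : ℕ → ℕ → ℕ → ℕ → Fin 12 → ℝ} {x y : ℝ}

/-- **FACT [CD], one threshold** -/
theorem cd_thr (H : RModel B G σ R Leg ν D) (L : LLaw B G S own x)
    (h1 : (1 : Fin 12) ∉ S) (h2 : (2 : Fin 12) ∉ S) (h7 : (7 : Fin 12) ∉ S)
    (h8 : (8 : Fin 12) ∉ S) (hy : 0 < y) (hyx : y ≤ x) (hyR : y ≤ R)
    {p pf q0 r1 r2 : Fin 12 → ℝ} (hp : p ∈ Leg) (hpf : pf ∈ Leg) (hq0 : q0 ∈ Leg)
    (hr1 : r1 ∈ Leg) (hr2 : r2 ∈ Leg)
    (pfin : ∀ s : Fin 12, (s = 5 ∨ s = 6 ∨ s = 9 ∨ s = 10) → y ≤ p s)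
    (pff : ∀ s, pf s ≤ p s ∨ pf s ≤ 0 ∨ ((s = 1 ∨ s = 3 ∨ s = 4) ∧ pf s ≤ y))
    (hq : ∀ s, q0 s ≤ 0) (hqr : ∀ s, q0 s ≤ r1 s) (r11 : y ≤ r1 1) (r13 : y ≤ r1 3)
    (r14 : y ≤ r1 4) (hrr : ∀ s, r1 s ≤ r2 s) (r210 : y ≤ r2 10)
    (hdec : ν q0 - ν r1 ≤ ν p - ν pf) {t : ℝ} (ht : 0 < t) (hty : 3 * t < y)
    {pc pd : Fin 12 → ℝ} (hpc : pc ∈ Leg) (hpd : pd ∈ Leg)
    (c1 : ∀ s, pc s ≤ p s ∨ pc s ≤ 0 ∨ ((s = 3 ∨ s = 4) ∧ pc s ≤ t)) (c2 : ν pc < ν p)
    (d1 : ∀ s, pd s ≤ p s ∨ pd s ≤ 0 ∨ (s = 1 ∧ pd s ≤ t)) (d2 : ν pd < ν p) :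
    σ * (y - 3 * t) ≤ ν r1 - ν r2 := by
  classical
  have hD := H.D1
  have hD0 : 0 < D := by linarith
  have hσ := H.σ_nonneg
  -- constants
  have hD5 : 1 ≤ D ^ 5 := one_le_pow₀ hD
  have hD10 : D ^ 5 ≤ D ^ 10 := pow_le_pow_right₀ hD (by norm_num)
  have hD7 : D ^ 5 ≤ D ^ 7 := pow_le_pow_right₀ hD (by norm_num)
  obtain ⟨C1, hC1, hlaw⟩ := pin_law H L h1 h2 h7 h8 hy.le hyx (D ^ 10) (by positivity)
  set C3 : ℝ := D ^ 7 + 1 with hC3d
  have hC3 : 0 < C3 := by positivity
  set C4 : ℝ := C1 + D ^ 10 + 1 with hC4d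
  have hC4 : 0 < C4 := by positivity
  set g : ℝ := min (ν p - ν pc) (ν p - ν pd) with hg
  have hg0 : 0 < g := lt_min (by linarith) (by linarith)
  set ε0 : ℝ := min (g / (D ^ 6 + 7)) ((y - 3 * t) / C4) with hε0d
  have hε0 : 0 < ε0 := lt_min (by positivity) (div_pos (by linarith) hC4)
  set C5 : ℝ := (D ^ 2 + 7 + D * C3) + (σ * C4 + (D ^ 2 + 1) * D ^ 5 + 1) with hC5
  have hC50 : 0 ≤ C5 := by positivity
  have key := le_of_ev_small B 0 (-(ν r1 - ν r2) + σ * (y - 3 * t)) C5 1 ε0 hC50 zero_le_one hε0 (by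
    intro ε hε hεε
    have hεg : (D ^ 6 + 7) * ε ≤ g := by
      have : ε ≤ g / (D ^ 6 + 7) := hεε.trans (min_le_left _ _)
      rw [le_div_iff₀ (by positivity)] at this
      linarith
    have hεX : C4 * ε ≤ y - 3 * t := by
      have : ε ≤ (y - 3 * t) / C4 := hεε.trans (min_le_right _ _)
      rw [le_div_iff₀ hC4] at this
      linarith
    have hX0 : 0 ≤ y - 3 * t - C4 * ε := by linarith
    have hXR : y - 3 * t - C4 * ε ≤ R := by
      have : 0 < C4 * ε := by positivity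
      linarith
    have hD5ε : 0 < D ^ 5 * ε := by positivity
    -- the pin
    have hpin := pin H hp hpf hq0 hr1 hqr hdec hε hC3
      (fun n k i j => |(G n).rel k i j 1| < B.d n ^ t ∨
        (|(G n).rel k i j 3| < B.d n ^ t ∧ |(G n).rel k i j 4| < B.d n ^ t))
      (by
        filter_upwards [H.up pc hpc (D ^ 5 * ε) hD5ε, H.up pd hpd (D ^ 5 * ε) hD5ε, L.bd ε hε,
          ev_const_le B hε 2] with n hc hd hbd hn2
        intro i k hik T hT hTb
        have hpow : ∀ t : ℝ, 0 < B.d n ^ t := fun t => rpos B n t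
        have hsub : T ⊆ (G n).box pd (D ^ 5 * ε) i k ∪ (G n).box pc (D ^ 5 * ε) i k := by
          intro j hj
          obtain ⟨b1, b2⟩ := RCfg.mem_box.1 (hT hj)
          have hjk : (j, k) ∈ (G n).I := (RCfg.mem_slice.1 b1).2
          have hsm : ∀ {v : ℝ}, |v| ≤ B.d n ^ (-ε) → ∀ {u : ℝ}, u ≤ 0 →
              |v| ≤ (G n).ρ ^ (u - D ^ 5 * ε) := fun hv _ hu => loose0 H hε hD5 hu hv
          rcases hTb j hj with h | ⟨h3, h4⟩
          · refine Finset.mem_union_left _ (RCfg.mem_box.2 ⟨b1, fun s => ?_⟩)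
            rcases d1 s with e | e | ⟨rfl, e⟩
            · refine (b2 s).trans ?_
              rw [H.base n]
              exact rpow_anti B n (by linarith)
            · exact hsm (hbd k i j hik hjk s) e
            · rw [H.base n]
              exact h.le.trans (rpow_anti B n (by linarith))
          · refine Finset.mem_union_right _ (RCfg.mem_box.2 ⟨b1, fun s => ?_⟩)
            rcases c1 s with e | e | ⟨e', e⟩
            · refine (b2 s).trans ?_
              rw [H.base n]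
              exact rpow_anti B n (by linarith)
            · exact hsm (hbd k i j hik hjk s) e
            · rw [H.base n]
              rcases e' with rfl | rfl
              · exact h3.le.trans (rpow_anti B n (by linarith))
              · exact h4.le.trans (rpow_anti B n (by linarith))
        have e6 : D * (D ^ 5 * ε) = D ^ 6 * ε := by ring
        have e1 : (T.card : ℝ) ≤ B.d n ^ (-ν pd - D * (D ^ 5 * ε)) +
            B.d n ^ (-ν pc - D * (D ^ 5 * ε)) := by
          calc (T.card : ℝ) ≤ (((G n).box pd (D ^ 5 * ε) i k ∪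
                (G n).box pc (D ^ 5 * ε) i k).card : ℝ) := by
                exact_mod_cast Finset.card_le_card hsub
            _ ≤ (((G n).box pd (D ^ 5 * ε) i k).card : ℝ) +
                (((G n).box pc (D ^ 5 * ε) i k).card : ℝ) := by
                exact_mod_cast Finset.card_union_le _ _
            _ ≤ _ := add_le_add (hd i k hik) (hc i k hik)
        have e2 : B.d n ^ (-ν pd - D * (D ^ 5 * ε)) ≤ B.d n ^ (-ν p + 7 * ε) := by
          rw [e6]
          refine rpow_anti B n ?_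
          have : g ≤ ν p - ν pd := min_le_right _ _
          linarith
        have e3 : B.d n ^ (-ν pc - D * (D ^ 5 * ε)) ≤ B.d n ^ (-ν p + 7 * ε) := by
          rw [e6]
          refine rpow_anti B n ?_
          have : g ≤ ν p - ν pc := min_le_left _ _
          linarith
        have e4 : 2 * B.d n ^ (-ν p + 7 * ε) ≤ B.d n ^ (-ν p + 6 * ε) := by
          have : B.d n ^ (-ν p + 6 * ε) = B.d n ^ (-ε) * B.d n ^ (-ν p + 7 * ε) := by
            rw [← rpow_add']; congr 1; ring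
          rw [this]
          exact mul_le_mul_of_nonneg_right hn2 (hpow _).le
        linarith)
      (by
        filter_upwards [L.bd ε hε] with n hbd
        intro k i i' hi hi' s
        rw [H.base n]
        exact (hbd k i i' hi hi' s).trans (rpow_anti B n (by linarith [hq s])))
      (by
        filter_upwards [H.symm p hp (D ^ 5 * ε) hD5ε, H.tri p hp (D ^ 6 * ε) (by positivity),
          ev_pair H L hε, L.bd ε hε] with n hsy htr hev hbd
        intro k h i j j' ik jk jk' ih jh jh' lj lj' lr s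
        obtain ⟨g8, hev⟩ := hev
        obtain ⟨g1, g2, g3, g4, g5⟩ := hev h k j j' jh jh' jk jk'
        have a1 := hsy k i j ik jk lj
        have e6 : D * (D ^ 5 * ε) = D ^ 6 * ε := by ring
        rw [e6] at a1
        have a2 : (G n).loose p (D ^ 6 * ε) k i j' := H.loose_mono (fun _ => le_rfl) (by
          have : D ^ 5 ≤ D ^ 6 := pow_le_pow_right₀ hD (by norm_num)
          exact mul_le_mul_of_nonneg_right this hε.le) lj'
        have a3 := htr k j i j' jk ik jk' a1 a2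
        have e7 : D * (D ^ 6 * ε) = D ^ 7 * ε := by ring
        rw [e7] at a3
        have f : ∀ s : Fin 12, s ∉ S → evoS S (own n j h k) ((G n).rel h j j') s =
            (G n).rel h j j' s → y ≤ r1 s → pf s ≤ y →
            |(G n).rel k j j' s| ≤ (G n).ρ ^ (pf s - C3 * ε) := by
          intro s hs he hrs hps
          have b1 := g5 s hs
          rw [he] at b1
          have b2 := lr s
          rw [H.base n] at b2 ⊢
          have b3 : |(G n).rel k j j' s| ≤ |(G n).rel k j j' s - (G n).rel h j j' s| +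
              |(G n).rel h j j' s| := by
            have := abs_add_le ((G n).rel k j j' s - (G n).rel h j j' s) ((G n).rel h j j' s)
            rwa [sub_add_cancel] at this
          refine b3.trans (pwK2 B (s := pf s) (K := C3) (K1 := 1) (K2 := D ^ 5) hε g8
            (b1.trans (rpow_anti B n (by linarith)))
            (b2.trans (rpow_anti B n (by linarith))) ?_ ?_)
          · rw [hC3d]
            linarith
          · rw [hC3d]
            linarith
        rcases pff s with e | e | ⟨e', e⟩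
        · refine (a3 s).trans ?_
          rw [H.base n]
          refine rpow_anti B n ?_
          have : D ^ 7 * ε ≤ C3 * ε := mE hε (by rw [hC3d]; linarith)
          linarith
        · exact loose0 H hε (by rw [hC3d]; linarith) e (hbd k j j' jk jk' s)
        · rcases e' with rfl | rfl | rfl
          · exact f 1 h1 (evo1 L.S0 L.SSL h1 h2 h7 h8 _ _) r11 e
          · exact f 3 (nS L.SSL (by decide)) (evo3 L.SSL _ _) r13 e
          · exact f 4 (nS L.SSL (by decide)) (evo4 L.SSL _ _) r14 e)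
    have hD5ε' : 0 < D ^ 5 * ε := hD5ε
    filter_upwards [hpin, H.exists_lab_loose r1 r2 hr1 hr2 hrr hD5ε, hlaw ε hε,
      H.frost (y - 3 * t - C4 * ε) hX0 hXR ε hε, ev_const_le B hε 8]
      with n hpn hlab hlawn hfro h8
    obtain ⟨i, h, K, jj, hih, hKZ, hK1, hK2, hKc⟩ := hpn
    have hpow : ∀ t : ℝ, 0 < B.d n ^ t := fun t => rpos B n t
    have hZ0 : (0 : ℝ) < (G n).Z.card := by
      exact_mod_cast Finset.card_pos.2 ⟨h, H.memZ hih⟩
    have hKne : K.Nonempty := by
      rw [← Finset.card_pos]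
      have : (0 : ℝ) < (K.card : ℝ) := lt_of_lt_of_le (mul_pos (hpow _) hZ0) hKc
      exact_mod_cast this
    -- the `P`-labels
    obtain ⟨lab, l1, l2⟩ := hlab h (K.image jj)
      (by
        intro j hj
        obtain ⟨k, hk, rfl⟩ := Finset.mem_image.1 hj
        exact H.memSlice.2 (hK1 k hk).2.2.1)
      (by
        intro j hj j' hj'
        obtain ⟨k, hk, rfl⟩ := Finset.mem_image.1 hj
        obtain ⟨k', hk', rfl⟩ := Finset.mem_image.1 hj'
        exact hK2 k hk k' hk')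
    rw [Finset.image_image] at l2
    obtain ⟨k0, hk0, hfib⟩ := exists_fibre K (lab ∘ jj) hKne l2
    have hfb : ((K.filter fun k => (lab ∘ jj) k = (lab ∘ jj) k0).card : ℝ) ≤
        B.d n ^ (σ * (y - 3 * t - C4 * ε) - ε) * ((G n).Z.card : ℝ) := by
      refine le_trans ?_ (hfro k0 (hKZ hk0))
      refine mod_cast Finset.card_le_card ?_
      intro k hk
      obtain ⟨hkK, hke⟩ := Finset.mem_filter.1 hk
      unfold RCfg.hbox
      refine Finset.mem_filter.2 ⟨hKZ hkK, ?_⟩
      rw [H.base n]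
      obtain ⟨a1, a2, a3, a4, a5⟩ := hK1 k0 hk0
      obtain ⟨b1, b2, b3, b4, b5⟩ := hK1 k hkK
      -- `P` is fine
      have hP := l1 (jj k0) (Finset.mem_image_of_mem _ hk0) (jj k) (Finset.mem_image_of_mem _ hkK)
        hke.symm 10
      rw [H.base n] at hP
      have hP' : |(G n).rel h (jj k0) (jj k) 10| ≤ B.d n ^ (y - D ^ 10 * ε) := by
        refine hP.trans (rpow_anti B n ?_)
        have : D ^ 5 * (D ^ 5 * ε) = D ^ 10 * ε := by ring
        linarith
      have hle : D ^ 5 * ε ≤ D ^ 10 * ε := mE hε hD10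
      have near : ∀ {k : ℕ}, (G n).loose p (D ^ 5 * ε) k i (jj k) →
          ∀ s : Fin 12, (s = 5 ∨ s = 6 ∨ s = 9 ∨ s = 10) →
          |(G n).rel k i (jj k) s| ≤ B.d n ^ (y - D ^ 10 * ε) := by
        intro k hl s hs
        have := hl s
        rw [H.base n] at this
        exact this.trans (rpow_anti B n (by linarith [pfin s hs]))
      have hpr : ∀ s : Fin 12, (s = 3 ∨ s = 4) →
          |(G n).rel h (jj k0) (jj k) s| ≤ B.d n ^ (y - D ^ 10 * ε) := by
        intro s hs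
        have := hK2 k0 hk0 k hkK s
        rw [H.base n] at this
        refine this.trans (rpow_anti B n ?_)
        rcases hs with rfl | rfl
        · linarith
        · linarith
      have law := hlawn h k0 k i (jj k0) (jj k) hih a3 b3 a1 a2 b1 b2 (near a4) (near b4) hpr
      set P := (G n).rel h (jj k0) (jj k) 10 with hPd
      set d := (G n).rel k0 i (jj k0) 1 with hdd
      set u := (G n).rel k0 i (jj k0) 3 with hud
      set v := (G n).rel k0 i (jj k0) 4 with hvd
      set w := (G n).z k0 - (G n).z k with hwd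
      push Not at a5
      obtain ⟨a6, a7⟩ := a5
      have q1 : B.d n ^ (2 * t) ≤ u ^ 2 + v ^ 2 := by
        have e : B.d n ^ (2 * t) = B.d n ^ t * B.d n ^ t := by
          rw [← rpow_add']; congr 1; ring
        by_cases hu : |u| < B.d n ^ t
        · have hv := a7 hu
          have : B.d n ^ t * B.d n ^ t ≤ |v| * |v| :=
            mul_le_mul hv hv (hpow _).le (abs_nonneg _)
          rw [e]
          rw [abs_mul_abs_self] at this
          nlinarith [sq_nonneg u]
        · push Not at hu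
          have : B.d n ^ t * B.d n ^ t ≤ |u| * |u| :=
            mul_le_mul hu hu (hpow _).le (abs_nonneg _)
          rw [e]
          rw [abs_mul_abs_self] at this
          nlinarith [sq_nonneg v]
      have q2 : B.d n ^ (3 * t) ≤ |d| * (u ^ 2 + v ^ 2) := by
        have e : B.d n ^ (3 * t) = B.d n ^ t * B.d n ^ (2 * t) := by
          rw [← rpow_add']; congr 1; ring
        rw [e]
        exact mul_le_mul a6 q1 (hpow _).le (abs_nonneg _)
      have q3 : |d * (u ^ 2 + v ^ 2) * w| ≤ B.d n ^ (y - (C1 + D ^ 10 + 1) * ε) := by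
        have e : |d * (u ^ 2 + v ^ 2) * w| ≤ |P - d * (u ^ 2 + v ^ 2) * w| + |P| := by
          have := abs_sub P (P - d * (u ^ 2 + v ^ 2) * w)
          have e2 : P - (P - d * (u ^ 2 + v ^ 2) * w) = d * (u ^ 2 + v ^ 2) * w := by ring
          rw [e2] at this
          linarith
        refine e.trans (pwK2 B hε h8 law hP' ?_ ?_)
        · have : (1 : ℝ) ≤ D ^ 10 := one_le_pow₀ hD
          linarith
        · linarith
      have q4 : B.d n ^ (3 * t) * |w| ≤ B.d n ^ (y - (C1 + D ^ 10 + 1) * ε) := by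
        refine le_trans ?_ q3
        rw [abs_mul, abs_mul, abs_of_nonneg (by positivity : 0 ≤ u ^ 2 + v ^ 2)]
        exact mul_le_mul_of_nonneg_right q2 (abs_nonneg _)
      have q5 : |w| ≤ B.d n ^ (y - 3 * t - C4 * ε) := by
        have e : B.d n ^ (y - (C1 + D ^ 10 + 1) * ε) =
            B.d n ^ (3 * t) * B.d n ^ (y - 3 * t - C4 * ε) := by
          rw [← rpow_add']
          congr 1
          rw [hC4d]
          ring
        rw [e] at q4
        exact le_of_mul_le_mul_left q4 (hpow _)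
      rw [abs_sub_comm]
      exact q5
    -- the end
    have f1 : B.d n ^ ((D ^ 2 + 7 + D * C3) * ε) * ((G n).Z.card : ℝ) ≤
        B.d n ^ (-(ν r1 - ν r2) - (D ^ 2 + 1) * (D ^ 5 * ε) + (σ * (y - 3 * t - C4 * ε) - ε)) *
          ((G n).Z.card : ℝ) := by
      calc B.d n ^ ((D ^ 2 + 7 + D * C3) * ε) * ((G n).Z.card : ℝ) ≤ (K.card : ℝ) := hKc
        _ ≤ _ := hfib
        _ ≤ B.d n ^ (-(ν r1 - ν r2) - (D ^ 2 + 1) * (D ^ 5 * ε)) *
            (B.d n ^ (σ * (y - 3 * t - C4 * ε) - ε) * ((G n).Z.card : ℝ)) :=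
            mul_le_mul_of_nonneg_left hfb (hpow _).le
        _ = _ := by rw [rpow_add']; ring
    have f2 := le_of_mul_le_mul_right f1 hZ0
    rw [one_mul]
    calc B.d n ^ (0 + C5 * ε) ≤ B.d n ^ ((D ^ 2 + 7 + D * C3) * ε) := by
          refine rpow_anti B n ?_
          have : 0 ≤ (σ * C4 + (D ^ 2 + 1) * D ^ 5 + 1) * ε := by positivity
          rw [hC5]
          nlinarith
      _ ≤ _ := f2
      _ ≤ B.d n ^ (-(ν r1 - ν r2) + σ * (y - 3 * t) - C5 * ε) := by
          refine rpow_anti B n ?_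
          have : 0 ≤ (D ^ 2 + 7 + D * C3) * ε := by positivity
          rw [hC5]
          nlinarith)
  linarith

/-- **FACT [CD], the model statement** -/
theorem cd_model (H : RModel B G σ R Leg ν D) (L : LLaw B G S own x)
    (h1 : (1 : Fin 12) ∉ S) (h2 : (2 : Fin 12) ∉ S) (h7 : (7 : Fin 12) ∉ S)
    (h8 : (8 : Fin 12) ∉ S) (hy : 0 < y) (hyx : y ≤ x) (hyR : y ≤ R)
    {p pf q0 r1 r2 : Fin 12 → ℝ} (hp : p ∈ Leg) (hpf : pf ∈ Leg) (hq0 : q0 ∈ Leg)
    (hr1 : r1 ∈ Leg) (hr2 : r2 ∈ Leg)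
    (pfin : ∀ s : Fin 12, (s = 5 ∨ s = 6 ∨ s = 9 ∨ s = 10) → y ≤ p s)
    (pff : ∀ s, pf s ≤ p s ∨ pf s ≤ 0 ∨ ((s = 1 ∨ s = 3 ∨ s = 4) ∧ pf s ≤ y))
    (hq : ∀ s, q0 s ≤ 0) (hqr : ∀ s, q0 s ≤ r1 s) (r11 : y ≤ r1 1) (r13 : y ≤ r1 3)
    (r14 : y ≤ r1 4) (hrr : ∀ s, r1 s ≤ r2 s) (r210 : y ≤ r2 10)
    (hdec : ν q0 - ν r1 ≤ ν p - ν pf)
    (hC : ∀ t, 0 < t → t ≤ y → ∃ pc ∈ Leg,
      (∀ s, pc s ≤ p s ∨ pc s ≤ 0 ∨ ((s = 3 ∨ s = 4) ∧ pc s ≤ t)) ∧ ν pc < ν p)
    (hDD : ∀ t, 0 < t → t ≤ y → ∃ pd ∈ Leg,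
      (∀ s, pd s ≤ p s ∨ pd s ≤ 0 ∨ (s = 1 ∧ pd s ≤ t)) ∧ ν pd < ν p) :
    σ * y ≤ ν r1 - ν r2 := by
  have hσ := H.σ_nonneg
  by_contra hcon
  push Not at hcon
  set g : ℝ := σ * y - (ν r1 - ν r2) with hg
  have hg0 : 0 < g := by linarith
  set t : ℝ := min (y / 6) (g / (6 * (σ + 1))) with ht
  have ht0 : 0 < t := lt_min (by positivity) (by positivity)
  have ht1 : t ≤ y / 6 := min_le_left _ _
  have ht2 : t ≤ g / (6 * (σ + 1)) := min_le_right _ _
  rw [le_div_iff₀ (by positivity)] at ht2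
  obtain ⟨pc, m1, m2, m3⟩ := hC t ht0 (by linarith)
  obtain ⟨pd, e1, e2, e3⟩ := hDD t ht0 (by linarith)
  have := cd_thr H L h1 h2 h7 h8 hy hyx hyR hp hpf hq0 hr1 hr2 pfin pff hq hqr r11 r13 r14 hrr r210
    hdec ht0 (by linarith) m1 e1 m2 m3 e2 e3
  nlinarith

end Crest.Agent.R116.CD120
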