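import Crest.Agent.R136.Net1_191

/-!
# R116: the light-ray chart with conformal flags (helper222), part 1

Ray `(c1, c2; x1, x2; h)` (form of 79): `X (s) = x + s c`, `H (s) = h + s |c|² / 2`.  Incidence = ray,
height `z`, flag = conformal function through the ray, in the frame of the ray
`φ (w, N, u) = b · w + et N + d (|w|² - 2 u N)`,
`w = X - X_i (z)`, `N = H - H_i (z) - c_i · w`, `u = height - z_i`
(thick marks: `et = d = 0`, `b = (-e, 1)`; `|b| = 1` iff `disc φ = 1`).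

Relative coordinates of the incidence `j` seen from `i`, in the frame of `i`, at the height of `i`:
`0 : z`, `1 : D`, `2 : E`, `3, 4 : C`, `5, 6 : X`, `7, 8 : B`, `9 : N`, `10 : P` (slope of `φ_i`
along `j`), `11 : F` (value of `φ_i` on `j` at the height of `i`).

`coL_add` : exact cocycle identities; `chartL` : they form a triangular chart (`Net191.Chart`) with
constant `2`; `legalL_iff` : the walls (16 of them, the others are consequences).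
-/

set_option autoImplicit false

namespace Crest.Agent.R116.ChL222

open Finset
open Crest.Agent.R136.Net191

/-- an incidence (light ray, height) with its conformal flag -/
structure LInc where
  /-- velocity, first coordinate -/
  c1 : ℝ
  /-- velocity, second coordinate -/
  c2 : ℝ
  /-- lateral position at height `0`, first coordinate -/
  x1 : ℝ
  /-- lateral position at height `0`, second coordinate -/
  x2 : ℝ
  /-- null position at height `0` -/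
  h : ℝ
  /-- the height of the incidence -/
  z : ℝ
  /-- flag: lateral gradient, first coordinate -/
  b1 : ℝ
  /-- flag: lateral gradient, second coordinate -/
  b2 : ℝ
  /-- flag: null derivative -/
  et : ℝ
  /-- flag: coefficient of the quadratic form -/
  d : ℝ

/-- lateral position at height `s`, first coordinate -/
def LInc.p1 (i : LInc) (s : ℝ) : ℝ := i.x1 + s * i.c1
/-- lateral position at height `s`, second coordinate -/
def LInc.p2 (i : LInc) (s : ℝ) : ℝ := i.x2 + s * i.c2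
/-- null position at height `s` -/
noncomputable def LInc.ph (i : LInc) (s : ℝ) : ℝ := i.h + s * ((i.c1 ^ 2 + i.c2 ^ 2) / 2)

/-- `N` coordinate of `j` seen from `i` at height `s` -/
noncomputable def nuL (i j : LInc) (s : ℝ) : ℝ :=
  (j.ph s - i.ph s) - i.c1 * (j.p1 s - i.p1 s) - i.c2 * (j.p2 s - i.p2 s)

/-- relative coordinates of `j` seen from `i` -/
noncomputable def coL (i j : LInc) : Fin 12 → ℝ :=
  ![j.z - i.z,
    j.d - i.d,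
    j.et - i.et + 2 * i.d * (j.z - i.z),
    j.c1 - i.c1,
    j.c2 - i.c2,
    j.p1 i.z - i.p1 i.z,
    j.p2 i.z - i.p2 i.z,
    j.b1 - (i.b1 + i.et * (j.c1 - i.c1) + 2 * i.d * (j.p1 i.z - i.p1 i.z)),
    j.b2 - (i.b2 + i.et * (j.c2 - i.c2) + 2 * i.d * (j.p2 i.z - i.p2 i.z)),
    nuL i j i.z,
    i.b1 * (j.c1 - i.c1) + i.b2 * (j.c2 - i.c2) +
      i.et * (((j.c1 - i.c1) ^ 2 + (j.c2 - i.c2) ^ 2) / 2) +
      2 * i.d * ((j.p1 i.z - i.p1 i.z) * (j.c1 - i.c1) +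
        (j.p2 i.z - i.p2 i.z) * (j.c2 - i.c2) - nuL i j i.z),
    i.b1 * (j.p1 i.z - i.p1 i.z) + i.b2 * (j.p2 i.z - i.p2 i.z) + i.et * nuL i j i.z +
      i.d * ((j.p1 i.z - i.p1 i.z) ^ 2 + (j.p2 i.z - i.p2 i.z) ^ 2)]

/-- the monomials -/
def mfL : Fin 12 → Finset (Fin 12 → ℕ) :=
  ![
    ∅,
    ∅,
    {![1, 1, 0, 0, 0, 0, 0, 0, 0, 0, 0, 0]},
    ∅,
    ∅,
    {![1, 0, 0, 1, 0, 0, 0, 0, 0, 0, 0, 0]},
    {![1, 0, 0, 0, 1, 0, 0, 0, 0, 0, 0, 0]},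
    {![0, 0, 1, 1, 0, 0, 0, 0, 0, 0, 0, 0],
      ![0, 1, 0, 0, 0, 1, 0, 0, 0, 0, 0, 0]},
    {![0, 0, 1, 0, 1, 0, 0, 0, 0, 0, 0, 0],
      ![0, 1, 0, 0, 0, 0, 1, 0, 0, 0, 0, 0]},
    {![1, 0, 0, 2, 0, 0, 0, 0, 0, 0, 0, 0],
      ![1, 0, 0, 0, 2, 0, 0, 0, 0, 0, 0, 0],
      ![0, 0, 0, 1, 0, 1, 0, 0, 0, 0, 0, 0],
      ![0, 0, 0, 0, 1, 0, 1, 0, 0, 0, 0, 0]},
    {![0, 0, 0, 1, 0, 0, 0, 1, 0, 0, 0, 0],
      ![0, 0, 0, 0, 1, 0, 0, 0, 1, 0, 0, 0],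
      ![0, 0, 1, 2, 0, 0, 0, 0, 0, 0, 0, 0],
      ![0, 0, 1, 0, 2, 0, 0, 0, 0, 0, 0, 0],
      ![0, 1, 0, 1, 0, 1, 0, 0, 0, 0, 0, 0],
      ![0, 1, 0, 0, 1, 0, 1, 0, 0, 0, 0, 0],
      ![0, 1, 0, 0, 0, 0, 0, 0, 0, 1, 0, 0]},
    {![1, 0, 0, 0, 0, 0, 0, 0, 0, 0, 1, 0],
      ![0, 0, 0, 0, 0, 1, 0, 1, 0, 0, 0, 0],
      ![0, 0, 0, 0, 0, 0, 1, 0, 1, 0, 0, 0],
      ![1, 0, 0, 1, 0, 0, 0, 1, 0, 0, 0, 0],
      ![1, 0, 0, 0, 1, 0, 0, 0, 1, 0, 0, 0],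
      ![0, 0, 1, 0, 0, 0, 0, 0, 0, 1, 0, 0],
      ![1, 0, 1, 2, 0, 0, 0, 0, 0, 0, 0, 0],
      ![1, 0, 1, 0, 2, 0, 0, 0, 0, 0, 0, 0],
      ![0, 1, 0, 0, 0, 2, 0, 0, 0, 0, 0, 0],
      ![0, 1, 0, 0, 0, 0, 2, 0, 0, 0, 0, 0],
      ![1, 1, 0, 1, 0, 1, 0, 0, 0, 0, 0, 0],
      ![1, 1, 0, 0, 1, 0, 1, 0, 0, 0, 0, 0],
      ![1, 1, 0, 0, 0, 0, 0, 0, 0, 1, 0, 0]}]

/-- the monomials as a `Mons` -/
def monL : Mons 12 where
  mon := mfL
  low := by decide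
  ne := by decide

theorem sumL2 (x : Fin 12 → ℝ) : ∑ e ∈ mfL 2, ∏ s, x s ^ e s =
    x 0 * x 1 := by
  show ∑ e ∈ ({![1, 1, 0, 0, 0, 0, 0, 0, 0, 0, 0, 0]} : Finset (Fin 12 → ℕ)),
    ∏ s, x s ^ e s = _
  rw [Finset.sum_singleton]
  simp [Fin.prod_univ_succ]

theorem sumL5 (x : Fin 12 → ℝ) : ∑ e ∈ mfL 5, ∏ s, x s ^ e s =
    x 0 * x 3 := by
  show ∑ e ∈ ({![1, 0, 0, 1, 0, 0, 0, 0, 0, 0, 0, 0]} : Finset (Fin 12 → ℕ)),
    ∏ s, x s ^ e s = _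
  rw [Finset.sum_singleton]
  simp [Fin.prod_univ_succ]

theorem sumL6 (x : Fin 12 → ℝ) : ∑ e ∈ mfL 6, ∏ s, x s ^ e s =
    x 0 * x 4 := by
  show ∑ e ∈ ({![1, 0, 0, 0, 1, 0, 0, 0, 0, 0, 0, 0]} : Finset (Fin 12 → ℕ)),
    ∏ s, x s ^ e s = _
  rw [Finset.sum_singleton]
  simp [Fin.prod_univ_succ]

theorem sumL7 (x : Fin 12 → ℝ) : ∑ e ∈ mfL 7, ∏ s, x s ^ e s =
    x 2 * x 3 +
      x 1 * x 5 := by
  show ∑ e ∈ ({![0, 0, 1, 1, 0, 0, 0, 0, 0, 0, 0, 0],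
      ![0, 1, 0, 0, 0, 1, 0, 0, 0, 0, 0, 0]} : Finset (Fin 12 → ℕ)),
    ∏ s, x s ^ e s = _
  rw [Finset.sum_insert (by decide),
    Finset.sum_singleton]
  simp [Fin.prod_univ_succ]

theorem sumL8 (x : Fin 12 → ℝ) : ∑ e ∈ mfL 8, ∏ s, x s ^ e s =
    x 2 * x 4 +
      x 1 * x 6 := by
  show ∑ e ∈ ({![0, 0, 1, 0, 1, 0, 0, 0, 0, 0, 0, 0],
      ![0, 1, 0, 0, 0, 0, 1, 0, 0, 0, 0, 0]} : Finset (Fin 12 → ℕ)),
    ∏ s, x s ^ e s = _
  rw [Finset.sum_insert (by decide),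
    Finset.sum_singleton]
  simp [Fin.prod_univ_succ]

theorem sumL9 (x : Fin 12 → ℝ) : ∑ e ∈ mfL 9, ∏ s, x s ^ e s =
    x 0 * x 3 ^ 2 +
      x 0 * x 4 ^ 2 +
      x 3 * x 5 +
      x 4 * x 6 := by
  show ∑ e ∈ ({![1, 0, 0, 2, 0, 0, 0, 0, 0, 0, 0, 0],
      ![1, 0, 0, 0, 2, 0, 0, 0, 0, 0, 0, 0],
      ![0, 0, 0, 1, 0, 1, 0, 0, 0, 0, 0, 0],
      ![0, 0, 0, 0, 1, 0, 1, 0, 0, 0, 0, 0]} : Finset (Fin 12 → ℕ)),
    ∏ s, x s ^ e s = _
  rw [Finset.sum_insert (by decide), Finset.sum_insert (by decide), Finset.sum_insert (by decide),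
    Finset.sum_singleton]
  simp [Fin.prod_univ_succ]
  ring

theorem sumL10 (x : Fin 12 → ℝ) : ∑ e ∈ mfL 10, ∏ s, x s ^ e s =
    x 7 * x 3 +
      x 8 * x 4 +
      x 2 * x 3 ^ 2 +
      x 2 * x 4 ^ 2 +
      x 1 * x 5 * x 3 +
      x 1 * x 6 * x 4 +
      x 1 * x 9 := by
  show ∑ e ∈ ({![0, 0, 0, 1, 0, 0, 0, 1, 0, 0, 0, 0],
      ![0, 0, 0, 0, 1, 0, 0, 0, 1, 0, 0, 0],
      ![0, 0, 1, 2, 0, 0, 0, 0, 0, 0, 0, 0],
      ![0, 0, 1, 0, 2, 0, 0, 0, 0, 0, 0, 0],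
      ![0, 1, 0, 1, 0, 1, 0, 0, 0, 0, 0, 0],
      ![0, 1, 0, 0, 1, 0, 1, 0, 0, 0, 0, 0],
      ![0, 1, 0, 0, 0, 0, 0, 0, 0, 1, 0, 0]} : Finset (Fin 12 → ℕ)),
    ∏ s, x s ^ e s = _
  rw [Finset.sum_insert (by decide), Finset.sum_insert (by decide), Finset.sum_insert (by decide), Finset.sum_insert (by decide), Finset.sum_insert (by decide), Finset.sum_insert (by decide),
    Finset.sum_singleton]
  simp [Fin.prod_univ_succ]
  ring

theorem sumL11 (x : Fin 12 → ℝ) : ∑ e ∈ mfL 11, ∏ s, x s ^ e s =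
    x 0 * x 10 +
      x 7 * x 5 +
      x 8 * x 6 +
      x 0 * x 7 * x 3 +
      x 0 * x 8 * x 4 +
      x 2 * x 9 +
      x 0 * x 2 * x 3 ^ 2 +
      x 0 * x 2 * x 4 ^ 2 +
      x 1 * x 5 ^ 2 +
      x 1 * x 6 ^ 2 +
      x 0 * x 1 * x 5 * x 3 +
      x 0 * x 1 * x 6 * x 4 +
      x 0 * x 1 * x 9 := by
  show ∑ e ∈ ({![1, 0, 0, 0, 0, 0, 0, 0, 0, 0, 1, 0],
      ![0, 0, 0, 0, 0, 1, 0, 1, 0, 0, 0, 0],
      ![0, 0, 0, 0, 0, 0, 1, 0, 1, 0, 0, 0],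
      ![1, 0, 0, 1, 0, 0, 0, 1, 0, 0, 0, 0],
      ![1, 0, 0, 0, 1, 0, 0, 0, 1, 0, 0, 0],
      ![0, 0, 1, 0, 0, 0, 0, 0, 0, 1, 0, 0],
      ![1, 0, 1, 2, 0, 0, 0, 0, 0, 0, 0, 0],
      ![1, 0, 1, 0, 2, 0, 0, 0, 0, 0, 0, 0],
      ![0, 1, 0, 0, 0, 2, 0, 0, 0, 0, 0, 0],
      ![0, 1, 0, 0, 0, 0, 2, 0, 0, 0, 0, 0],
      ![1, 1, 0, 1, 0, 1, 0, 0, 0, 0, 0, 0],
      ![1, 1, 0, 0, 1, 0, 1, 0, 0, 0, 0, 0],
      ![1, 1, 0, 0, 0, 0, 0, 0, 0, 1, 0, 0]} : Finset (Fin 12 → ℕ)),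
    ∏ s, x s ^ e s = _
  rw [Finset.sum_insert (by decide), Finset.sum_insert (by decide), Finset.sum_insert (by decide), Finset.sum_insert (by decide), Finset.sum_insert (by decide), Finset.sum_insert (by decide), Finset.sum_insert (by decide), Finset.sum_insert (by decide), Finset.sum_insert (by decide), Finset.sum_insert (by decide), Finset.sum_insert (by decide), Finset.sum_insert (by decide),
    Finset.sum_singleton]
  simp [Fin.prod_univ_succ]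
  ring
/-- **the cocycle identities** -/
theorem coL_add (i j l : LInc) :
    coL i l 0 = coL i j 0 + coL j l 0 ∧
    coL i l 1 = coL i j 1 + coL j l 1 ∧
    coL i l 2 = coL i j 2 + coL j l 2 - 2 * (coL i j 1 * coL j l 0) ∧
    coL i l 3 = coL i j 3 + coL j l 3 ∧
    coL i l 4 = coL i j 4 + coL j l 4 ∧
    coL i l 5 = coL i j 5 + coL j l 5 - coL i j 0 * coL j l 3 ∧
    coL i l 6 = coL i j 6 + coL j l 6 - coL i j 0 * coL j l 4 ∧
    coL i l 7 = coL i j 7 + coL j l 7 + coL i j 2 * coL j l 3 + 2 * (coL i j 1 * coL j l 5) ∧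
    coL i l 8 = coL i j 8 + coL j l 8 + coL i j 2 * coL j l 4 + 2 * (coL i j 1 * coL j l 6) ∧
    coL i l 9 = coL i j 9 + coL j l 9 - coL i j 0 * ((coL j l 3 ^ 2 + coL j l 4 ^ 2) / 2) +
      coL i j 3 * (coL j l 5 - coL i j 0 * coL j l 3) +
      coL i j 4 * (coL j l 6 - coL i j 0 * coL j l 4) ∧
    coL i l 10 = coL i j 10 + coL j l 10 - coL i j 7 * coL j l 3 - coL i j 8 * coL j l 4 -
      coL i j 2 * ((coL j l 3 ^ 2 + coL j l 4 ^ 2) / 2) -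
      2 * (coL i j 1 * (coL j l 5 * coL j l 3 + coL j l 6 * coL j l 4 - coL j l 9)) ∧
    coL i l 11 = coL i j 11 + coL j l 11 - coL i j 0 * coL j l 10 -
      coL i j 7 * (coL j l 5 - coL i j 0 * coL j l 3) -
      coL i j 8 * (coL j l 6 - coL i j 0 * coL j l 4) -
      coL i j 2 * (coL j l 9 - coL i j 0 * ((coL j l 3 ^ 2 + coL j l 4 ^ 2) / 2)) -
      coL i j 1 * (coL j l 5 ^ 2 + coL j l 6 ^ 2 -
        2 * (coL i j 0 * (coL j l 5 * coL j l 3 + coL j l 6 * coL j l 4 - coL j l 9))) := by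
  simp only [coL, nuL, LInc.p1, LInc.p2, LInc.ph, Matrix.cons_val]
  refine ⟨by ring, by ring, by ring, by ring, by ring, by ring, by ring, by ring, by ring,
    by ring, by ring, by ring⟩


theorem aux_m2 {a b u w : ℝ} (ha : |a| ≤ u) (hb : |b| ≤ w) : |a * b| ≤ u * w := by
  rw [abs_mul]
  exact mul_le_mul ha hb (abs_nonneg _) ((abs_nonneg _).trans ha)

theorem aux_m3 {a b c u v w : ℝ} (ha : |a| ≤ u) (hb : |b| ≤ v) (hc : |c| ≤ w) :
    |a * b * c| ≤ u * v * w := aux_m2 (aux_m2 ha hb) hc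

theorem aux_m4 {a b c d u v w t : ℝ} (ha : |a| ≤ u) (hb : |b| ≤ v) (hc : |c| ≤ w)
    (hd : |d| ≤ t) : |a * b * c * d| ≤ u * v * w * t := aux_m2 (aux_m3 ha hb hc) hd

/-- **the light-ray chart** -/
theorem chartL {ι : Type*} (I : Finset ι) (f : ι → LInc) :
    Chart I (fun i j => coL (f i) (f j)) monL 2 where
  C0 := zero_le_two
  refl := by
    intro i _ k
    fin_cases k <;> simp [coL, nuL]
  add := by
    intro i _ j _ l _ k
    obtain ⟨h0, h1, h2, h3, h4, h5, h6, h7, h8, h9, h10, h11⟩ := coL_add (f i) (f j) (f l)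
    set x : Fin 12 → ℝ := fun s => max |coL (f i) (f j) s| |coL (f j) (f l) s| with hx
    have hl : ∀ s, |coL (f i) (f j) s| ≤ x s := fun s => le_max_left _ _
    have hr : ∀ s, |coL (f j) (f l) s| ≤ x s := fun s => le_max_right _ _
    have hx0 : ∀ s, 0 ≤ x s := fun s => (abs_nonneg _).trans (hl s)
    have hm : ∀ s t, 0 ≤ x s * x t := fun s t => mul_nonneg (hx0 s) (hx0 t)
    have hm3 : ∀ s t r, 0 ≤ x s * x t * x r := fun s t r => mul_nonneg (hm s t) (hx0 r)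
    have hm4 : ∀ s t r q, 0 ≤ x s * x t * x r * x q := fun s t r q =>
      mul_nonneg (hm3 s t r) (hx0 q)
    set a := coL (f i) (f j) with ha
    set b := coL (f j) (f l) with hb
    set c := coL (f i) (f l) with hc
    show |c k - a k - b k| ≤ 2 * ∑ e ∈ mfL k, ∏ s, x s ^ e s
    fin_cases k
    · show |c 0 - a 0 - b 0| ≤ _
      rw [h0]; simp [mfL]
    · show |c 1 - a 1 - b 1| ≤ _
      rw [h1]; simp [mfL]
    · show |c 2 - a 2 - b 2| ≤ _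
      rw [show (⟨2, _⟩ : Fin 12) = 2 from rfl, sumL2, h2]
      have t1 := abs_le.1 (aux_m2 (hl 1) (hr 0))
      rw [abs_le]; constructor <;> linarith [t1.1, t1.2]
    · show |c 3 - a 3 - b 3| ≤ _
      rw [h3]; simp [mfL]
    · show |c 4 - a 4 - b 4| ≤ _
      rw [h4]; simp [mfL]
    · show |c 5 - a 5 - b 5| ≤ _
      rw [show (⟨5, _⟩ : Fin 12) = 5 from rfl, sumL5, h5]
      have t1 := abs_le.1 (aux_m2 (hl 0) (hr 3))
      have n1 := hm 0 3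
      rw [abs_le]; constructor <;> linarith [t1.1, t1.2]
    · show |c 6 - a 6 - b 6| ≤ _
      rw [show (⟨6, _⟩ : Fin 12) = 6 from rfl, sumL6, h6]
      have t1 := abs_le.1 (aux_m2 (hl 0) (hr 4))
      have n1 := hm 0 4
      rw [abs_le]; constructor <;> linarith [t1.1, t1.2]
    · show |c 7 - a 7 - b 7| ≤ _
      rw [show (⟨7, _⟩ : Fin 12) = 7 from rfl, sumL7, h7]
      have t1 := abs_le.1 (aux_m2 (hl 2) (hr 3))
      have t2 := abs_le.1 (aux_m2 (hl 1) (hr 5))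
      have n1 := hm 2 3
      have n2 := hm 1 5
      rw [abs_le]; constructor <;> linarith [t1.1, t1.2, t2.1, t2.2]
    · show |c 8 - a 8 - b 8| ≤ _
      rw [show (⟨8, _⟩ : Fin 12) = 8 from rfl, sumL8, h8]
      have t1 := abs_le.1 (aux_m2 (hl 2) (hr 4))
      have t2 := abs_le.1 (aux_m2 (hl 1) (hr 6))
      have n1 := hm 2 4
      have n2 := hm 1 6
      rw [abs_le]; constructor <;> linarith [t1.1, t1.2, t2.1, t2.2]
    · show |c 9 - a 9 - b 9| ≤ _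
      rw [show (⟨9, _⟩ : Fin 12) = 9 from rfl, sumL9, h9]
      have t1 := abs_le.1 (aux_m3 (hl 0) (hr 3) (hr 3))
      have t2 := abs_le.1 (aux_m3 (hl 0) (hr 4) (hr 4))
      have t3 := abs_le.1 (aux_m2 (hl 3) (hr 5))
      have t4 := abs_le.1 (aux_m2 (hl 4) (hr 6))
      have t5 := abs_le.1 (aux_m3 (hl 0) (hl 3) (hr 3))
      have t6 := abs_le.1 (aux_m3 (hl 0) (hl 4) (hr 4))
      have n1 := hm3 0 3 3
      have n2 := hm3 0 4 4
      have n3 := hm 3 5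
      have n4 := hm 4 6
      rw [abs_le]; constructor <;>
        linarith [t1.1, t1.2, t2.1, t2.2, t3.1, t3.2, t4.1, t4.2, t5.1, t5.2, t6.1, t6.2]
    · show |c 10 - a 10 - b 10| ≤ _
      rw [show (⟨10, _⟩ : Fin 12) = 10 from rfl, sumL10, h10]
      have t1 := abs_le.1 (aux_m2 (hl 7) (hr 3))
      have t2 := abs_le.1 (aux_m2 (hl 8) (hr 4))
      have t3 := abs_le.1 (aux_m3 (hl 2) (hr 3) (hr 3))
      have t4 := abs_le.1 (aux_m3 (hl 2) (hr 4) (hr 4))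
      have t5 := abs_le.1 (aux_m3 (hl 1) (hr 5) (hr 3))
      have t6 := abs_le.1 (aux_m3 (hl 1) (hr 6) (hr 4))
      have t7 := abs_le.1 (aux_m2 (hl 1) (hr 9))
      have n1 := hm 7 3
      have n2 := hm 8 4
      have n3 := hm3 2 3 3
      have n4 := hm3 2 4 4
      have n5 := hm3 1 5 3
      have n6 := hm3 1 6 4
      have n7 := hm 1 9
      rw [abs_le]; constructor <;>
        linarith [t1.1, t1.2, t2.1, t2.2, t3.1, t3.2, t4.1, t4.2, t5.1, t5.2, t6.1, t6.2,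
          t7.1, t7.2]
    · show |c 11 - a 11 - b 11| ≤ _
      rw [show (⟨11, _⟩ : Fin 12) = 11 from rfl, sumL11, h11]
      have t1 := abs_le.1 (aux_m2 (hl 0) (hr 10))
      have t2 := abs_le.1 (aux_m2 (hl 7) (hr 5))
      have t3 := abs_le.1 (aux_m2 (hl 8) (hr 6))
      have t4 := abs_le.1 (aux_m3 (hl 0) (hl 7) (hr 3))
      have t5 := abs_le.1 (aux_m3 (hl 0) (hl 8) (hr 4))
      have t6 := abs_le.1 (aux_m2 (hl 2) (hr 9))
      have t7 := abs_le.1 (aux_m4 (hl 0) (hl 2) (hr 3) (hr 3))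
      have t8 := abs_le.1 (aux_m4 (hl 0) (hl 2) (hr 4) (hr 4))
      have t9 := abs_le.1 (aux_m3 (hl 1) (hr 5) (hr 5))
      have t10 := abs_le.1 (aux_m3 (hl 1) (hr 6) (hr 6))
      have t11 := abs_le.1 (aux_m4 (hl 0) (hl 1) (hr 5) (hr 3))
      have t12 := abs_le.1 (aux_m4 (hl 0) (hl 1) (hr 6) (hr 4))
      have t13 := abs_le.1 (aux_m3 (hl 0) (hl 1) (hr 9))
      have n1 := hm 0 10
      have n2 := hm 7 5
      have n3 := hm 8 6
      have n4 := hm3 0 7 3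
      have n5 := hm3 0 8 4
      have n6 := hm 2 9
      have n7 := hm4 0 2 3 3
      have n8 := hm4 0 2 4 4
      have n9 := hm3 1 5 5
      have n10 := hm3 1 6 6
      have n11 := hm4 0 1 5 3
      have n12 := hm4 0 1 6 4
      have n13 := hm3 0 1 9
      rw [abs_le]; constructor <;>
        linarith [t1.1, t1.2, t2.1, t2.2, t3.1, t3.2, t4.1, t4.2, t5.1, t5.2, t6.1, t6.2,
          t7.1, t7.2, t8.1, t8.2, t9.1, t9.2, t10.1, t10.2, t11.1, t11.2, t12.1, t12.2,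
          t13.1, t13.2]

/-- the walls of the chart, explicitly (minimal list) -/
theorem legalL_iff {p : Fin 12 → ℝ} : Legal monL p ↔ (∀ k, 0 ≤ p k) ∧
    p 2 ≤ p 0 + p 1 ∧
    p 5 ≤ p 0 + p 3 ∧
    p 6 ≤ p 0 + p 4 ∧
    p 7 ≤ p 2 + p 3 ∧
    p 7 ≤ p 1 + p 5 ∧
    p 8 ≤ p 2 + p 4 ∧
    p 8 ≤ p 1 + p 6 ∧
    p 9 ≤ p 3 + p 5 ∧
    p 9 ≤ p 4 + p 6 ∧
    p 10 ≤ p 3 + p 7 ∧
    p 10 ≤ p 4 + p 8 ∧
    p 10 ≤ p 1 + p 9 ∧
    p 11 ≤ p 0 + p 10 ∧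
    p 11 ≤ p 5 + p 7 ∧
    p 11 ≤ p 6 + p 8 ∧
    p 11 ≤ p 2 + p 9 := by
  have hs : ∀ e : Fin 12 → ℕ, ∑ s, (e s : ℝ) * p s = e 0 * p 0 + e 1 * p 1 + e 2 * p 2 +
      e 3 * p 3 + e 4 * p 4 + e 5 * p 5 + e 6 * p 6 + e 7 * p 7 + e 8 * p 8 + e 9 * p 9 +
      e 10 * p 10 + e 11 * p 11 := by
    intro e
    simp [Fin.sum_univ_succ]
    ring
  constructor
  · intro h
    have w := h.wall
    simp only [hs] at w
    refine ⟨h.nonneg, ?_, ?_, ?_, ?_, ?_, ?_, ?_, ?_, ?_, ?_, ?_, ?_, ?_, ?_, ?_, ?_⟩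
    · simpa using w 2 ![1, 1, 0, 0, 0, 0, 0, 0, 0, 0, 0, 0] (by decide)
    · simpa using w 5 ![1, 0, 0, 1, 0, 0, 0, 0, 0, 0, 0, 0] (by decide)
    · simpa using w 6 ![1, 0, 0, 0, 1, 0, 0, 0, 0, 0, 0, 0] (by decide)
    · simpa using w 7 ![0, 0, 1, 1, 0, 0, 0, 0, 0, 0, 0, 0] (by decide)
    · simpa using w 7 ![0, 1, 0, 0, 0, 1, 0, 0, 0, 0, 0, 0] (by decide)
    · simpa using w 8 ![0, 0, 1, 0, 1, 0, 0, 0, 0, 0, 0, 0] (by decide)
    · simpa using w 8 ![0, 1, 0, 0, 0, 0, 1, 0, 0, 0, 0, 0] (by decide)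
    · simpa using w 9 ![0, 0, 0, 1, 0, 1, 0, 0, 0, 0, 0, 0] (by decide)
    · simpa using w 9 ![0, 0, 0, 0, 1, 0, 1, 0, 0, 0, 0, 0] (by decide)
    · simpa using w 10 ![0, 0, 0, 1, 0, 0, 0, 1, 0, 0, 0, 0] (by decide)
    · simpa using w 10 ![0, 0, 0, 0, 1, 0, 0, 0, 1, 0, 0, 0] (by decide)
    · simpa using w 10 ![0, 1, 0, 0, 0, 0, 0, 0, 0, 1, 0, 0] (by decide)
    · simpa using w 11 ![1, 0, 0, 0, 0, 0, 0, 0, 0, 0, 1, 0] (by decide)
    · simpa using w 11 ![0, 0, 0, 0, 0, 1, 0, 1, 0, 0, 0, 0] (by decide)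
    · simpa using w 11 ![0, 0, 0, 0, 0, 0, 1, 0, 1, 0, 0, 0] (by decide)
    · simpa using w 11 ![0, 0, 1, 0, 0, 0, 0, 0, 0, 1, 0, 0] (by decide)
  · rintro ⟨h0, w0, w1, w2, w3, w4, w5, w6, w7, w8, w9, w10, w11, w12, w13, w14, w15⟩
    refine ⟨h0, fun k e he => ?_⟩
    rw [hs]
    change e ∈ mfL k at he
    fin_cases k <;> simp [mfL] at he
    · subst he; simp; linarith
    · subst he; simp; linarith
    · subst he; simp; linarith
    · rcases he with rfl | rfl <;> simp <;> linarith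
    · rcases he with rfl | rfl <;> simp <;> linarith
    · rcases he with rfl | rfl | rfl | rfl <;> simp <;> linarith
    · rcases he with rfl | rfl | rfl | rfl | rfl | rfl | rfl <;> simp <;> linarith
    · rcases he with rfl | rfl | rfl | rfl | rfl | rfl | rfl | rfl | rfl | rfl | rfl | rfl | rfl <;>
        simp <;> linarith

end Crest.Agent.R116.ChL222
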