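import Crest.Agent.R116.Th3_171
import Crest.Agent.R116.Pe1_794
import Crest.Agent.R116.Tp6_139

/-!
# R116, ties: own-strip facts of `B` on the planes above the record (helper171)

* `pbU8`, `pbU9`   : the plane data are a base in the sense of `PBaseU` (any legal offset with the
  five class equalities and `B` on its own level)
* **`fctU8`**, **`fctU9`** : helper139's `FctU` over the context (`oS`; `oS9`, `oSe`)
-/

set_option autoImplicit false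
set_option linter.unusedVariables false
set_option linter.unusedSectionVars false

open Set Filter Topology

namespace Crest.Agent.R116.Th171

open Crest.Agent.R138
open Crest.Agent.R138.Ex926 (Base U IsTan)
open Crest.Agent.R136
open Crest.Agent.R136.MkA627
open Crest.Agent.R136.TD627
open Crest.Agent.R136.Net191
open Crest.Agent.R136.Lq196
open Crest.Agent.R136.Qg926 Crest.Agent.R136.Gf356 Crest.Agent.R116.EvL504
open Crest.Agent.R116.ChL222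
open Crest.Agent.R116.PL504 (nb rL DN eL βL oL Shift eL_wall)
open Crest.Agent.R116.Sg337 (bx9)
open Crest.Agent.R116.Gd222 (TSet sN PDL DT)
open Crest.Agent.R116.KI439
open Crest.Agent.R116.KF439 (PL)
open Crest.Agent.R116.CtxB468
open Crest.Agent.R116.Rcx363 (fo fo_lip Prf rL_add)
open Crest.Agent.R116.RbM219
open Crest.Agent.R116.RbK219 (RS)
open Crest.Agent.R116.Kz647
open Crest.Agent.R116.Pd363
open Crest.Agent.R116.SgF665 (wl wl_add wl_smul LM0)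
open Crest.Agent.R116.WinG954 (LM)
open Crest.Agent.R116.Tq741 Crest.Agent.R116.Tq794
open Crest.Agent.R116.Tw369 (PBase TBase Slw EMd em8 em9 rz8E rz9E dE)
open Crest.Agent.R116.Tp139 (FctU)
open Sl741 (slice xt rs)

section planes

variable {R s : ℝ} {a b : Fin 2} {Vis' : Fin 12 → Prop} {θa θb w0 sa sb v0 t κ sg l α : ℝ}
    {f lam lam2 : Fin 2 → (Fin 12 → ℝ) → ℝ} {h' H : ℕ → ℝ} {X : ℕ → Fin 12 → ℝ}

theorem rL_nat (θa θb w0 sa sb v : ℝ) :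
    rL θa θb w0 sa sb v 7 = rL θa θb w0 sa sb v 2 + rL θa θb w0 sa sb v 3 ∧
    rL θa θb w0 sa sb v 8 = rL θa θb w0 sa sb v 2 + rL θa θb w0 sa sb v 4 ∧
    rL θa θb w0 sa sb v 11 = rL θa θb w0 sa sb v 2 + rL θa θb w0 sa sb v 9 ∧
    rL θa θb w0 sa sb v 7 = rL θa θb w0 sa sb v 1 + rL θa θb w0 sa sb v 5 ∧
    rL θa θb w0 sa sb v 8 = rL θa θb w0 sa sb v 1 + rL θa θb w0 sa sb v 6 ∧
    rL θa θb w0 sa sb v 10 = rL θa θb w0 sa sb v 1 + rL θa θb w0 sa sb v 9 := by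
  have r : rL θa θb w0 sa sb v = eL (w0 + v) (θa * (1 - v) + sa) (θb * (1 - v) + sb) := rfl
  rw [r]
  refine ⟨?_, ?_, ?_, ?_, ?_, ?_⟩ <;> simp [eL] <;> ring

/-- **the base of the plane data, `D` live** -/
theorem pbU9 {ν : (Fin 12 → ℝ) → ℝ} {Bo ρ ρ2 : Fin 9 → ℝ}
    (P : Pd9 R s a b Vis' θa θb w0 sa sb v0 κ Bo sg f lam ρ l α h' X H lam2 ρ2) (hν : f 0 = ν)
    (hv0 : 0 < v0) (hv1 : v0 < 1) (hL : Leg9 Bo)
    (b1 : Bo 3 = Bo 0 + Bo 1) (b2 : Bo 5 = Bo 1 + Bo 3) (b3 : Bo 4 = Bo 0 + Bo 2)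
    (b4 : Bo 4 = Bo 3 + Bo 6) (b5 : Bo 2 = Bo 1 + Bo 6) (b6 : Bo 6 = (θa - θb) * Bo 0) :
    ∃ v : ℕ → ℝ, PBaseU θa θb w0 sa sb v0 R {0, 7, 8} E9 LM ν X H v (lam2 0) ∧
      (Bo 7 ≤ (2 * θa - θb) * Bo 0 → ∀ m, X m 2 ≤ rL θa θb w0 sa sb (v m) 2) ∧
      (Bo 8 ≤ (2 * θa - θb - 1) * Bo 0 → ∀ m, X m 1 ≤ rL θa θb w0 sa sb (v m) 1) := by
  have hW := tw9 P b1 b2 b3 b4 b5
  have ht : IsTan (Leg monL R) LM ν X H (lam2 0) :=
    hν ▸ Rc683.tan_mono (P.tan 0) Subset.rfl LM_L9B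
  have Hp := P.prf.mono (LM_L9B (θa := θa) (θb := θb) (B := Bo) (sg := sg))
  have hpr := P.pairs
  obtain ⟨V, E, hV, hE, hEp, hb⟩ := P.base
  have key : ∀ m k, X m k = rL θa θb w0 sa sb (v0 + V m + E m * Bo 0) k +
      E m * (Bo (cl9 k) - Bo 0 * βL θa θb k) := by
    intro m k
    rw [hb m k, rL_add θa θb w0 sa sb (v0 + V m) (E m * Bo 0), Pi.add_apply, Pi.smul_apply,
      smul_eq_mul]
    ring
  refine ⟨fun m => v0 + V m + E m * Bo 0, ⟨P.pos, P.lim, ht, fun p hp q hq hpq => ?_,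
    ⟨hW.x1, hW.x2, fun m => ?_, fun m => ?_, hW.x5, fun m => ?_, fun m => ?_, fun m => ?_,
      fun m => ?_, fun m => ?_, fun w => ?_, fun m => (hpr m).1.symm, fun m => (hpr m).2.1.symm,
      fun m => (hpr m).2.2.symm⟩,
    ⟨hv0, hv1, ?_, fun m => ?_, fun m k hk => ?_⟩, fun j _ => ?_⟩, fun h7 m => ?_, fun h8 m => ?_⟩
  · have := (Hp.anti p hp q hq hpq).1
    linarith
  · rw [hb m 7, hb m 2, hb m 3, (rL_nat _ _ _ _ _ _).1]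
    have h1 : Bo (cl9 7) ≤ Bo (cl9 2) + Bo (cl9 3) := hL.B
    nlinarith [mul_le_mul_of_nonneg_left h1 (hEp m).le]
  · rw [hb m 8, hb m 2, hb m 4, (rL_nat _ _ _ _ _ _).2.1]
    have h1 : Bo (cl9 8) ≤ Bo (cl9 2) + Bo (cl9 4) := hL.B
    nlinarith [mul_le_mul_of_nonneg_left h1 (hEp m).le]
  · rw [hW.x6 m]; ring
  · rw [hW.x7 m]; ring
  · rw [hW.x8 m]; ring
  · rw [hW.x9 m]; ring
  · rw [hb m 11, hb m 2, hb m 9, (rL_nat _ _ _ _ _ _).2.2.1]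
    have h1 : Bo (cl9 11) ≤ Bo (cl9 2) + Bo (cl9 9) := hL.N3
    nlinarith [mul_le_mul_of_nonneg_left h1 (hEp m).le]
  · refine ⟨fun hg => Or.inl ⟨Eventually.of_forall fun m => ?_, hg⟩,
      fun hg => Or.inl ⟨Eventually.of_forall fun m => ?_, hg⟩,
      fun hg => Or.inl ⟨Eventually.of_forall fun m => ?_, hg⟩⟩
    · rw [hb m 7, hb m 1, hb m 5, (rL_nat _ _ _ _ _ _).2.2.2.1]
      have h1 : Bo (cl9 7) ≤ Bo (cl9 1) + Bo (cl9 5) := hL.BD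
      nlinarith [mul_le_mul_of_nonneg_left h1 (hEp m).le]
    · rw [hb m 8, hb m 1, hb m 6, (rL_nat _ _ _ _ _ _).2.2.2.2.1]
      have h1 : Bo (cl9 8) ≤ Bo (cl9 1) + Bo (cl9 6) := hL.BD
      nlinarith [mul_le_mul_of_nonneg_left h1 (hEp m).le]
    · rw [hb m 10, hb m 1, hb m 9, (rL_nat _ _ _ _ _ _).2.2.2.2.2]
      have h1 : Bo (cl9 10) ≤ Bo (cl9 1) + Bo (cl9 9) := hL.PD
      nlinarith [mul_le_mul_of_nonneg_left h1 (hEp m).le]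
  · have := (hV.const_add v0).add (hE.mul_const (Bo 0))
    simpa using this
  · rw [key m 0]
    show w0 + (v0 + V m + E m * Bo 0) + E m * (Bo 0 - Bo 0 * 1) = _
    ring
  · rw [key m k]
    have h3 : k = 0 ∨ k = 7 ∨ k = 8 := by simpa using hk
    have h4 : Bo (cl9 k) - Bo 0 * βL θa θb k = 0 := by
      rcases h3 with rfl | rfl | rfl
      · show Bo 0 - Bo 0 * 1 = 0
        ring
      · show Bo 6 - Bo 0 * (-θb - -θa) = 0
        rw [b6]; ring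
      · show Bo 6 - Bo 0 * (-θb - -θa) = 0
        rw [b6]; ring
    rw [h4, mul_zero, add_zero]
  · exact (tendsto_pi_nhds.1 P.xlim) j
  · rw [key m 2]
    have h4 : Bo (cl9 2) - Bo 0 * βL θa θb 2 ≤ 0 := by
      show Bo 7 - Bo 0 * (-θb - 2 * -θa) ≤ 0
      linarith
    nlinarith [mul_nonneg (hEp m).le (neg_nonneg.2 h4)]
  · rw [key m 1]
    have h4 : Bo (cl9 1) - Bo 0 * βL θa θb 1 ≤ 0 := by
      show Bo 8 - Bo 0 * (-θb - 2 * -θa - 1) ≤ 0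
      linarith
    nlinarith [mul_nonneg (hEp m).le (neg_nonneg.2 h4)]

/-- **the base of the plane data, `D` frozen** -/
theorem pbU8 {ν : (Fin 12 → ℝ) → ℝ} {Bo ρ ρ2 : Fin 8 → ℝ}
    (P : Pd8 R s a b Vis' θa θb w0 sa sb v0 t κ Bo sg f lam ρ l α h' X H lam2 ρ2) (hν : f 0 = ν)
    (ht0 : t ≠ 0) (hv0 : 0 < v0) (hv1 : v0 < 1) (hL : Leg8 Bo)
    (b1 : Bo 3 = Bo 0 + Bo 1) (b2 : Bo 5 = Bo 1 + Bo 3) (b3 : Bo 4 = Bo 0 + Bo 2)
    (b4 : Bo 4 = Bo 3 + Bo 6) (b5 : Bo 2 = Bo 1 + Bo 6) (b6 : Bo 6 = (θa - θb) * Bo 0) :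
    ∃ v : ℕ → ℝ, PBaseU θa θb w0 sa sb v0 R {0, 7, 8} E8 LM0 ν X H v (lam2 0) ∧
      (Bo 7 ≤ (2 * θa - θb) * Bo 0 → ∀ m, X m 2 ≤ rL θa θb w0 sa sb (v m) 2) := by
  have hW := tw8 P b1 b2 b3 b4 b5
  have ht : IsTan (Leg monL R) LM0 ν X H (lam2 0) :=
    hν ▸ Rc683.tan_mono (P.tan 0) Subset.rfl (LM0_L8B ht0)
  have Hp := P.prf.mono (LM0_L8B (θa := θa) (θb := θb) (B := Bo) (sg := sg) ht0)
  have hpr := P.pairs
  have hxD := slD_of_tan (leg_wall (R := R)) P.pos ht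
  have g : ∀ (k : Fin 12) (e : Fin 12 → ℕ), e ∈ mfL k → e 1 ≠ 0 → ∀ K : ℝ,
      ∀ᶠ l in atTop, X l k + K * H l ≤ wl e (X l) := hxD
  obtain ⟨V, E, hV, hE, hEp, hb⟩ := P.base
  have key : ∀ m k, k ≠ 1 → X m k = rL θa θb w0 sa sb (v0 + V m + E m * Bo 0) k +
      E m * (Bo (cl8 k) - Bo 0 * βL θa θb k) := by
    intro m k hk
    rw [hb m k hk, rL_add θa θb w0 sa sb (v0 + V m) (E m * Bo 0), Pi.add_apply, Pi.smul_apply,
      smul_eq_mul]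
    ring
  refine ⟨fun m => v0 + V m + E m * Bo 0, ⟨P.pos, P.lim, ht, fun p hp q hq hpq => ?_,
    ⟨hW.x1, hW.x2, fun m => ?_, fun m => ?_, hW.x5, fun m => ?_, fun m => ?_, fun m => ?_,
      fun m => ?_, fun m => ?_, fun w => ?_, fun m => (hpr m).1.symm, fun m => (hpr m).2.1.symm,
      fun m => (hpr m).2.2.symm⟩,
    ⟨hv0, hv1, ?_, fun m => ?_, fun m k hk => ?_⟩, fun j _ => ?_⟩, fun h7 m => ?_⟩
  · have := (Hp.anti p hp q hq hpq).1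
    linarith
  · rw [hb m 7 (by decide), hb m 2 (by decide), hb m 3 (by decide), (rL_nat _ _ _ _ _ _).1]
    have h1 : Bo (cl8 7) ≤ Bo (cl8 2) + Bo (cl8 3) := hL.B
    nlinarith [mul_le_mul_of_nonneg_left h1 (hEp m).le]
  · rw [hb m 8 (by decide), hb m 2 (by decide), hb m 4 (by decide), (rL_nat _ _ _ _ _ _).2.1]
    have h1 : Bo (cl8 8) ≤ Bo (cl8 2) + Bo (cl8 4) := hL.B
    nlinarith [mul_le_mul_of_nonneg_left h1 (hEp m).le]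
  · rw [hW.x6 m]; ring
  · rw [hW.x7 m]; ring
  · rw [hW.x8 m]; ring
  · rw [hW.x9 m]; ring
  · rw [hb m 11 (by decide), hb m 2 (by decide), hb m 9 (by decide),
      (rL_nat _ _ _ _ _ _).2.2.1]
    have h1 : Bo (cl8 11) ≤ Bo (cl8 2) + Bo (cl8 9) := hL.N3
    nlinarith [mul_le_mul_of_nonneg_left h1 (hEp m).le]
  · refine ⟨fun _ => Or.inr fun K => ?_, fun _ => Or.inr fun K => ?_, fun _ => Or.inr fun K => ?_⟩
    · filter_upwards [g 7 ![0, 1, 0, 0, 0, 1, 0, 0, 0, 0, 0, 0] (by decide) (by decide) K] with l hl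
      rw [wl12] at hl; simpa using hl
    · filter_upwards [g 8 ![0, 1, 0, 0, 0, 0, 1, 0, 0, 0, 0, 0] (by decide) (by decide) K] with l hl
      rw [wl12] at hl; simpa using hl
    · filter_upwards [g 10 ![0, 1, 0, 0, 0, 0, 0, 0, 0, 1, 0, 0] (by decide) (by decide) K] with l hl
      rw [wl12] at hl; simpa using hl
  · have := (hV.const_add v0).add (hE.mul_const (Bo 0))
    simpa using this
  · rw [key m 0 (by decide)]
    show w0 + (v0 + V m + E m * Bo 0) + E m * (Bo 0 - Bo 0 * 1) = _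
    ring
  · have h3 : k = 0 ∨ k = 7 ∨ k = 8 := by simpa using hk
    rw [key m k (by rcases h3 with rfl | rfl | rfl <;> decide)]
    have h4 : Bo (cl8 k) - Bo 0 * βL θa θb k = 0 := by
      rcases h3 with rfl | rfl | rfl
      · show Bo 0 - Bo 0 * 1 = 0
        ring
      · show Bo 6 - Bo 0 * (-θb - -θa) = 0
        rw [b6]; ring
      · show Bo 6 - Bo 0 * (-θb - -θa) = 0
        rw [b6]; ring
    rw [h4, mul_zero, add_zero]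
  · exact (tendsto_pi_nhds.1 P.xlim) j
  · rw [key m 2 (by decide)]
    have h4 : Bo (cl8 2) - Bo 0 * βL θa θb 2 ≤ 0 := by
      show Bo 7 - Bo 0 * (-θb - 2 * -θa) ≤ 0
      linarith
    nlinarith [mul_nonneg (hEp m).le (neg_nonneg.2 h4)]

end planes

section ctx

variable {G : Geo TSet (Fin 2)} {L : ℕ → ℕ → LRay} {r : ℕ → ℝ} {g s : ℝ} {θ q : Fin 2 → ℝ}
    {Rg : ℝ} {B : Base} {I : ℕ → Finset (ℕ × ℝ)} {lev : ℕ → ℚ → ℕ} {A : ℕ → ℝ}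
    {f : ℕ → ℚ → ℕ → ℤ → ℕ} {b : ℕ → ℚ → ℕ → TSet} {vm : ℕ → ℚ → ℝ} {wt : Fin 2 → ℕ → ℚ → ℝ}
    {fr : ℕ → ℚ → ℕ × ℝ → LInc} {fl : ℕ → ℕ × ℝ → LInc} {sc : Fin 12 → ℕ → ℝ}
    {w0 sa sb δ R : ℝ} {I0 I' : ℕ → Finset (ℕ × ℝ)} {ν own : (Fin 12 → ℝ) → ℝ} {c₀ : ℝ}
    {a b' : Fin 2} {Vis' : Fin 12 → Prop} {v0 t κ sg l α : ℝ}
    {lam lam2 : Fin 2 → (Fin 12 → ℝ) → ℝ} {h' H : ℕ → ℝ} {X : ℕ → Fin 12 → ℝ}

/-- visible slots are flags -/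
theorem vis_flag (C : CtxT G L r g s θ q Rg B I lev A f b vm wt fr fl sc w0 sa sb δ R I0 I' ν own
    c₀) {k : Fin 12} (hv : VisT B I fl sc k) : k = 0 ∨ k = 1 ∨ k = 2 ∨ k = 7 ∨ k = 8 := by
  by_contra hcon
  push Not at hcon
  refine hv (C.out.inv_ray ?_)
  obtain ⟨h0, h1, h2, h7, h8⟩ := hcon
  clear hv
  revert k
  decide

/-- **`FctU` on a plane above the record, `D` live** -/
theorem fctU9 {Bo ρ ρ2 : Fin 9 → ℝ}
    (P : Pd9 R s a b' Vis' (θ 0) (θ 1) w0 sa sb v0 κ Bo sg (fo ν own) lam ρ l α h' X H lam2 ρ2)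
    (C : CtxT G L r g s θ q Rg B I lev A f b vm wt fr fl sc w0 sa sb δ R I0 I' ν own c₀)
    (hθ : 0 < θ 0) (hv0 : 0 < v0) (hv1 : v0 < 1) (hL : Leg9 Bo)
    (b1 : Bo 3 = Bo 0 + Bo 1) (b2 : Bo 5 = Bo 1 + Bo 3) (b3 : Bo 4 = Bo 0 + Bo 2)
    (b4 : Bo 4 = Bo 3 + Bo 6) (b5 : Bo 2 = Bo 1 + Bo 6) (b6 : Bo 6 = (θ 0 - θ 1) * Bo 0)
    (hB : TieT θ B I lev fl sc 7 ∨ TieT θ B I lev fl sc 8)
    (hE : VisT B I fl sc 2 → Bo 7 ≤ (2 * θ 0 - θ 1) * Bo 0)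
    (hD : VisT B I fl sc 1 → Bo 8 ≤ (2 * θ 0 - θ 1 - 1) * Bo 0) {Sg : V9 → Prop}
    (hSg : ∀ w, LegM 0 w → Sg w → (VisT B I fl sc 2 → w 7 < (2 * θ 0 - θ 1) * w 0) ∧
      (VisT B I fl sc 1 → w 8 < (2 * θ 0 - θ 1 - 1) * w 0)) :
    FctU (θ 0 - θ 1) Sg (fun w => lam2 0 (RL9.vec w)) := by
  obtain ⟨v, pb, h2, h1⟩ := pbU9 (ν := ν) P rfl hv0 hv1 hL b1 b2 b3 b4 b5 b6
  obtain ⟨j, hj, hBj⟩ : ∃ j : Fin 12, (j = 7 ∨ j = 8) ∧ TieT θ B I lev fl sc j := by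
    rcases hB with h | h
    · exact ⟨7, Or.inl rfl, h⟩
    · exact ⟨8, Or.inr rfl, h⟩
  have hvis : ∀ w, LegM 0 w → Sg w → ∀ k, k ≠ 0 → VisT B I fl sc k → k = 7 ∨ k = 8 ∨
      ((∀ᶠ l in atTop, X l k ≤ rL (θ 0) (θ 1) w0 sa sb (v l) k) ∧
        E9 w k < βL (θ 0) (θ 1) k * w 0) := by
    intro w hw hS k hk hV
    obtain ⟨s2, s1⟩ := hSg w hw hS
    rcases vis_flag C hV with rfl | rfl | rfl | rfl | rfl
    · exact absurd rfl hk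
    · refine Or.inr (Or.inr ⟨Eventually.of_forall (h1 (hD hV)), ?_⟩)
      show w 8 < (-(θ 1) - 2 * -(θ 0) - 1) * w 0
      have := s1 hV
      linarith
    · refine Or.inr (Or.inr ⟨Eventually.of_forall (h2 (hE hV)), ?_⟩)
      show w 7 < (-(θ 1) - 2 * -(θ 0)) * w 0
      have := s2 hV
      linarith
    · exact Or.inl rfl
    · exact Or.inr (Or.inl rfl)
  have key : FctU (θ 0 - θ 1) Sg (fun w => lam2 0 (E9 w)) :=
    ⟨fun w R' ho h6 hS hLn => u3U C hθ hj hBj em9 rz9E pb (hvis w (Tw369.One.leg ho) hS) ho h6 hLn,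
      fun w R' ho h6 hS hLn => u2U C hθ hj hBj em9 rz9E pb (hvis w (Tw369.One.leg ho) hS) ho h6
        hLn⟩
  simpa only [E9_eq] using key

/-- **`FctU` on a plane above the record, `D` frozen** -/
theorem fctU8 {Bo ρ ρ2 : Fin 8 → ℝ}
    (P : Pd8 R s a b' Vis' (θ 0) (θ 1) w0 sa sb v0 t κ Bo sg (fo ν own) lam ρ l α h' X H lam2 ρ2)
    (C : CtxT G L r g s θ q Rg B I lev A f b vm wt fr fl sc w0 sa sb δ R I0 I' ν own c₀)
    (hθ : 0 < θ 0) (ht0 : t ≠ 0) (hv0 : 0 < v0) (hv1 : v0 < 1) (hL : Leg8 Bo)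
    (b1 : Bo 3 = Bo 0 + Bo 1) (b2 : Bo 5 = Bo 1 + Bo 3) (b3 : Bo 4 = Bo 0 + Bo 2)
    (b4 : Bo 4 = Bo 3 + Bo 6) (b5 : Bo 2 = Bo 1 + Bo 6) (b6 : Bo 6 = (θ 0 - θ 1) * Bo 0)
    (hB : TieT θ B I lev fl sc 7 ∨ TieT θ B I lev fl sc 8) (hV1 : InvT PL B I 1 fl (sc 1))
    (hE : VisT B I fl sc 2 → Bo 7 ≤ (2 * θ 0 - θ 1) * Bo 0) {Sg : V9 → Prop}
    (hSg : ∀ w, LegM 0 w → Sg w → VisT B I fl sc 2 → w 7 < (2 * θ 0 - θ 1) * w 0) :
    FctU (θ 0 - θ 1) Sg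
      (fun w => lam2 0 (xt kp 0 (RL8.vec (fun i : Fin 8 => w i.castSucc)))) := by
  obtain ⟨v, pb, h2⟩ := pbU8 (ν := ν) P rfl ht0 hv0 hv1 hL b1 b2 b3 b4 b5 b6
  obtain ⟨j, hj, hBj⟩ : ∃ j : Fin 12, (j = 7 ∨ j = 8) ∧ TieT θ B I lev fl sc j := by
    rcases hB with h | h
    · exact ⟨7, Or.inl rfl, h⟩
    · exact ⟨8, Or.inr rfl, h⟩
  have hvis : ∀ w, LegM 0 w → Sg w → ∀ k, k ≠ 0 → VisT B I fl sc k → k = 7 ∨ k = 8 ∨
      ((∀ᶠ l in atTop, X l k ≤ rL (θ 0) (θ 1) w0 sa sb (v l) k) ∧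
        E8 w k < βL (θ 0) (θ 1) k * w 0) := by
    intro w hw hS k hk hV
    rcases vis_flag C hV with rfl | rfl | rfl | rfl | rfl
    · exact absurd rfl hk
    · exact absurd hV1 hV
    · refine Or.inr (Or.inr ⟨Eventually.of_forall (h2 (hE hV)), ?_⟩)
      show w 7 < (-(θ 1) - 2 * -(θ 0)) * w 0
      have := hSg w hw hS hV
      linarith
    · exact Or.inl rfl
    · exact Or.inr (Or.inl rfl)
  have key : FctU (θ 0 - θ 1) Sg (fun w => lam2 0 (E8 w)) :=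
    ⟨fun w R' ho h6 hS hLn => u3U C hθ hj hBj em8 rz8E pb (hvis w (Tw369.One.leg ho) hS) ho h6 hLn,
      fun w R' ho h6 hS hLn => u2U C hθ hj hBj em8 rz8E pb (hvis w (Tw369.One.leg ho) hS) ho h6
        hLn⟩
  simpa only [E8_eq] using key

end ctx

end Crest.Agent.R116.Th171
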