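import Crest.Agent.R116.K1p3_736
import Crest.Agent.R116.Th4_171
import Crest.Agent.R116.FlK1_363
import Crest.Agent.R116.Pd3_363
import Crest.Agent.R116.Tp7_139
import Crest.Agent.R116.IIr4_460
import Crest.Agent.R116.Rz3_460

/-!
# R116 (K side, TIES), DOUBLE TIE at `k' = 2 θ0 - θ1 = 1` : the half above the record (helper736)

* `tvS8` : 139's `TV` of the plane `oS` from the values of the second tangent
* **`d2_up`** : `EUp'` over the context at the raised plane `oS`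
-/

set_option autoImplicit false
set_option linter.unusedSectionVars false
set_option linter.unusedVariables false

open Set Filter Topology MeasureTheory

namespace Crest.Agent.R116.D2u736

open Crest.Agent.R138
open Crest.Agent.R138.Ex926 (Base U IsTan)
open Crest.Agent.R136
open Crest.Agent.R136.MkA627
open Crest.Agent.R136.TD627
open Crest.Agent.R136.Net191
open Crest.Agent.R136.Lq196
open Crest.Agent.R116.ChL222
open Crest.Agent.R116.PL504 (nb rL DN eL βL oL Shift)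
open Crest.Agent.R116.Sg337 (bx9 coneL DL natB)
open Crest.Agent.R116.Gd222 (TSet sN PDL DT)
open Crest.Agent.R116.KI439 hiding kD
open Crest.Agent.R116.KF439 (PL)
open Crest.Agent.R116.KTop387
open Crest.Agent.R116.CtxB468
open Crest.Agent.R116.KTie794
open Crest.Agent.R116.Rcx363
open Crest.Agent.R116.RbM219
open Crest.Agent.R116.RbK219 (RS SOk Par dl Aln)
open Crest.Agent.R116.SgO219 (PP)
open Crest.Agent.R116.Kz647
open Crest.Agent.R116.Pd363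
open Crest.Agent.R116.Tq741
open Crest.Agent.R116.Tq794
open Crest.Agent.R116.Tq126
open Crest.Agent.R116.Tp139 hiding cl8
open Crest.Agent.R116.PosA348
open Crest.Agent.R116.Tie460
open Crest.Agent.R116.Rz460
open Crest.Agent.R116.K1p736
open Crest.Agent.R116.NZ90 (Lam8)
open Dg219 (mw Walls)
open Sl741 (slice xt rs)

section val

variable {s θ θb g qa qb t : ℝ} {lam lam2 : Fin 2 → (Fin 12 → ℝ) → ℝ} {ρ ρ2 : Fin 8 → ℝ}
    {l α : ℝ} {h : ℕ → ℝ}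

/-- 139's `TV` of the plane `oS`, no resonance -/
theorem tvS8 (H : Half8 θ θb t oS 1 lam 0 ρ (DL g s qa qb 0 1 1) l α h lam2 ρ2)
    (hT : lam2 0 (xt kp 0 (RL8.vec (nat8 1 (-θ) (-θb)))) = DL g s qa qb 1 (-θ) (-θb))
    (hb : θb < θ) (hb2 : θb < 2 * θ) (h1 : θ - θb ≠ 1) (h2 : θ - θb ≠ 1 / 2) :
    TV θ θb s g qa qb (ρ2 0) (ρ2 1) (ρ2 2) (ρ2 3) (ρ2 4) (ρ2 5) := by
  have eκ : DL g s qa qb 0 1 1 = -(4 + qa + qb) := by unfold DL; ring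
  rw [eκ] at H
  have a1 := cls_T H (rep_oS hb hb2 h1 h2)
  have a2 := cls_V H (rep_oS hb hb2 h1 h2)
  have h3 := H.rcd 1
  rw [one_smul] at h3
  have h4 : lam2 0 (xt kp 0 (RL8.vec (nat8 1 (-θ) (-θb)))) =
      lam 0 (xt kp 0 (RL8.vec (nat8 1 (-θ) (-θb)))) - lam 0 (xt kp 0 (0 : K8 → ℝ)) := h3
  simp only [← h4, hT] at a1
  rw [Finset.sum_insert (by decide), Finset.sum_insert (by decide), Finset.sum_insert (by decide),
    Finset.sum_insert (by decide), Finset.sum_insert (by decide), Finset.sum_singleton] at a1 a2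
  unfold DL at a1
  ev8
  exact ⟨by linarith, by linarith⟩

end val

section ctx

variable {G : Geo TSet (Fin 2)} {L : ℕ → ℕ → LRay} {r : ℕ → ℝ} {g s : ℝ} {θ q : Fin 2 → ℝ}
    {Rg : ℝ} {B : Base} {I : ℕ → Finset (ℕ × ℝ)} {lev : ℕ → ℚ → ℕ} {A : ℕ → ℝ}
    {f : ℕ → ℚ → ℕ → ℤ → ℕ} {b : ℕ → ℚ → ℕ → TSet} {vm : ℕ → ℚ → ℝ} {w : Fin 2 → ℕ → ℚ → ℝ}
    {fr : ℕ → ℚ → ℕ × ℝ → LInc} {fl : ℕ → ℕ × ℝ → LInc} {sc : Fin 12 → ℕ → ℝ}
    {w0 sa sb δ R : ℝ} {I0 I' : ℕ → Finset (ℕ × ℝ)} {ν own : (Fin 12 → ℝ) → ℝ} {c₀ : ℝ}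

/-- **double tie at `k' = 1`, above the record** -/
theorem d2_up
    (C : CtxT G L r g s θ q Rg B I lev A f b vm w fr fl sc w0 sa sb δ R I0 I' ν own c₀)
    (hθ0 : 0 < θ 0) (hs0 : 0 ≤ s) (hs1 : s ≤ 1) (hβ : 2 * θ 0 - θ 1 - 1 = 0)
    (hV1 : InvT PL B I 1 fl (sc 1)) (hB : TieT θ B I lev fl sc 7 ∨ TieT θ B I lev fl sc 8)
    (hk : θ 0 < θ 0 - θ 1) {v0 : ℝ} (hv0 : 0 < v0) (hv1 : v0 < 1)
    {a b' : Fin 2} {T : Type*} {Bs : T → Fin 8 → ℝ} {sgs : T → ℝ} {x : ℕ → Fin 12 → ℝ}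
    {hh : ℕ → ℝ} {lam : Fin 2 → (Fin 12 → ℝ) → ℝ}
    (O : Out8z R s a b' (VisT B I fl sc) (θ 0) (θ 1) g (q 0) (q 1) Bs sgs
      (rL (θ 0) (θ 1) w0 sa sb v0) (fo ν own) x hh lam)
    {cm cp cP : ℝ} (hcm : 0 < cm) (hcp : 0 < cp) (hcP : 0 < cP) {ρm ρp ρP : Fin 8 → ℝ}
    (hMm : (srf8 (θ 0) (θ 1) 0 kD (-1)).LW (Q8 0) cm ⊆
      (Q8 0).L (rs kp (y8 0)) (rs kp (r8 (θ 0) (θ 1))) 0)
    (hMp : (srf8 (θ 0) (θ 1) 0 oS 1).LW (Q8 0) cp ⊆
      (Q8 0).L (rs kp (y8 0)) (rs kp (r8 (θ 0) (θ 1))) 0)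
    (hMP : (srf8 (θ 0) (θ 1) 0 oP 1).LW (Q8 0) cP ⊆
      (Q8 0).L (rs kp (y8 0)) (rs kp (r8 (θ 0) (θ 1))) 0)
    (hRm : Rates8 (θ 0) (θ 1) 0 kD (-1) cm (lam 0) ρm)
    (hRp : Rates8 (θ 0) (θ 1) 0 oS 1 cp (lam 0) ρp)
    (hRP : Rates8 (θ 0) (θ 1) 0 oP 1 cP (lam 0) ρP) {A' : Pl} (hA : A'.m = ρm 1) :
    ∃ B' : Pl, EUp' (θ 0 - θ 1) (θ 0) s g (q 0) (q 1) A' B' := by
  have hb0 : θ 1 < 0 := by linarith
  have hkk : 0 < θ 0 - θ 1 := by linarith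
  have hbe : θ 1 = θ 0 - (θ 0 - θ 1) := by ring
  have hk1 : θ 0 - θ 1 < 1 := by linarith
  have hk2 : θ 0 - θ 1 ≠ 1 / 2 := by intro h; linarith
  have hk3 : θ 0 - θ 1 ≠ 1 := hk1.ne
  have hvis : ∀ i, VisT B I fl sc i → i = 0 ∨ i = 1 ∨ i = 2 ∨ i = 7 ∨ i = 8 :=
    fun i hi => Th171.vis_flag C hi
  have hSo := sok_oS (by linarith : θ 1 < θ 0) (by linarith : θ 1 < 2 * θ 0)
  obtain ⟨l', α', h'', X', H', lam3, lam4, ρ3, ρ4, -, -, -, P, hEq, hT⟩ :=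
    plane8z (Vis' := VisT B I fl sc) (v := 0) (c := 1) (p := 1) O hβ hSo leg80_oS hcp hRp (by
        refine all8 ?_ ?_ ?_ ?_ ?_ ?_ ?_ ?_ <;> ev8 <;> norm_num) (by norm_num)
      (not_not.2 hV1) (fun i hi => by
      have e6 : oS 6 = 0 := rfl
      have e7 : oS 7 = 0 := rfl
      have e0 : oS 0 = 0 := rfl
      left
      refine ⟨hi, ?_⟩
      rcases hvis i hi with rfl | rfl | rfl | rfl | rfl
      · change oS 0 ≤ oS 0 * _
        rw [e0, zero_mul]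
      · exact absurd hV1 hi
      · change oS 7 ≤ oS 0 * _
        rw [e0, zero_mul, e7]
      · change oS 6 ≤ oS 0 * _
        rw [e0, zero_mul, e6]
      · change oS 6 ≤ oS 0 * _
        rw [e0, zero_mul, e6]) (N := Set.univ)
      (Eventually.of_forall fun _ => trivial) (y := 1) one_pos
  obtain ⟨φ', hcl'⟩ := P.cls one_pos hSo (fun i hi => hvis i hi) (hc_oS hθ0 hkk hbe) h8_cS
    (hz_oS hθ0 hkk hbe)
  have F' : Fct9 (fun w => w 6 ≤ (θ 0 - θ 1) * w 0 ∧ w 7 ≤ (2 * θ 0 - θ 1) * w 0) s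
      (Lam8 (lam4 0)) := by
    refine Pd3x363.pd8_fctS P C hs0 hs1 one_ne_zero hθ0 hv0 hv1 fun w hw hS i hi => ?_
    rcases hvis i hi with rfl | rfl | rfl | rfl | rfl
    · change w 0 ≤ w 0 * βL (θ 0) (θ 1) 0
      have : βL (θ 0) (θ 1) 0 = 1 := rfl
      rw [this, mul_one]
    · exact absurd hV1 hi
    · change w 7 ≤ w 0 * βL (θ 0) (θ 1) 2
      have e2 : βL (θ 0) (θ 1) 2 = -(θ 1) - 2 * -(θ 0) := rfl
      rw [e2]; linarith [hS.2]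
    · change w 6 ≤ w 0 * βL (θ 0) (θ 1) 7
      have e2 : βL (θ 0) (θ 1) 7 = -(θ 1) - -(θ 0) := rfl
      rw [e2]; linarith [hS.1]
    · change w 6 ≤ w 0 * βL (θ 0) (θ 1) 8
      have e2 : βL (θ 0) (θ 1) 8 = -(θ 1) - -(θ 0) := rfl
      rw [e2]; linarith [hS.1]
  have FU : FctU (θ 0 - θ 1) (fun w => w 7 < (2 * θ 0 - θ 1) * w 0) (Lam8 (lam4 0)) := by
    refine Th171.fctU8 P C hθ0 one_ne_zero hv0 hv1 leg_oS ?_ ?_ ?_ ?_ ?_ ?_ hB hV1 (fun _ => ?_)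
      (fun w _ hw _ => hw) <;> ev8 <;> norm_num
  have PU := FlK363.plU_oS (θ := θ 0) (θb := θ 1) (k := θ 0 - θ 1)
  have GU : RgU (θ 0 - θ 1) (2 * θ 0 - θ 1) 1
      (fun w => w 6 ≤ (θ 0 - θ 1) * w 0 ∧ w 7 ≤ (2 * θ 0 - θ 1) * w 0)
      (fun w => w 7 < (2 * θ 0 - θ 1) * w 0) :=
    { k0 := hkk
      k1 := by linarith
      k2 := one_pos
      sk := fun w h1 h2 _ => ⟨h1.le, h2.le⟩
      sg := fun _ h _ => h
      h12 := fun h => absurd h hk2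
      h11 := fun h => absurd h hk3 }
  have hEF : EF' s (θ 0 - θ 1) (plS s (ρ4 0) (ρ4 1) (rE (cS (θ 0 - θ 1)) φ')
      (1 - xE (cS (θ 0 - θ 1)) φ') (ρ4 4) (1 - hE (cS (θ 0 - θ 1)) φ')) := by
    have e := FlK363.cS_gen hk3 hk2
    refine efU hcl' PU GU F' hs0 ?_ ?_ ?_ (fun _ => FU) (fun h => absurd h hk3)
    · right
      rw [e]
      intro t' ht'
      revert ht'
      fin_cases t' <;> decide
    · left
      rw [e]; rfl
    · left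
      rw [e]; rfl
  have hTV : TV (θ 0) (θ 0 - (θ 0 - θ 1)) s g (q 0) (q 1) (ρ4 0) (ρ4 1)
      (rE (cS (θ 0 - θ 1)) φ') (1 - xE (cS (θ 0 - θ 1)) φ') (ρ4 4)
      (1 - hE (cS (θ 0 - θ 1)) φ') := by
    have e := FlK363.cS_gen hk3 hk2
    have r2 : rE (cS (θ 0 - θ 1)) φ' = ρ4 2 := by
      rw [rE_al hcl' (by rw [e]; decide)]; rfl
    have r3 : 1 - xE (cS (θ 0 - θ 1)) φ' = ρ4 3 := by
      rw [xE_al hcl' (by rw [e]; decide)]
      show 1 - (1 - ρ4 3) = _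
      ring
    have r5 : 1 - hE (cS (θ 0 - θ 1)) φ' = ρ4 5 := by
      rw [hE_al hcl' (by rw [e]; decide)]
      show 1 - (1 - ρ4 5) = _
      ring
    rw [← hbe, r2, r3, r5]
    have h1 := hT 1
    rw [one_smul, mul_one, mul_one] at h1
    exact tvS8 P.half h1 (by linarith) (by linarith) hk3 hk2
  have hE1 : ρ4 1 = ρp 1 := hEq 1 (A1_ne hθ0)
  have hsup := O.sup8 hβ
  refine ⟨_, hEF, hTV.tan, hTV.ver, ?_, ?_⟩
  · change ρ4 1 ≤ A'.m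
    rw [hA, hE1]
    exact ant_S hsup hθ0 one_pos hcm hcp (by linarith) (by linarith) hMm hMp hRm hRp
  · change q 0 ≤ ρ4 1
    rw [hE1]
    exact (pos8z hcP hθ0 hb0 hRP O.rx.prf (O.zero 0) O.rx.dmax).trans
      (pos_eS hsup hθ0 hkk hcp hcP hbe hb0 hMp hMP hRp hRP)

end ctx

end Crest.Agent.R116.D2u736
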