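import Crest.Agent.R116.Th2b_899
import Crest.Agent.R116.Th4_171
import Crest.Agent.R116.FlH_850

/-!
# R116, ties, `1/2 ≤ s`, `T⁺` of the `e`-plane: the cells (helper899, second of helper171)

* `w3_oSe`   : W3 on the plane `oSe` over `CtxT` (helper171's `fctU9`)
* **`fillE_up`** : `e`-tie, `θ0 - θ1 < 1`, `2 θ0 ≤ 1 + (θ0 - θ1)`, `1/2 ≤ s` is impossible
* **`fillD_up`** : the same for the double tie, `2 θ0 - θ1 < 1`
-/

set_option autoImplicit false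
set_option linter.unusedVariables false
set_option linter.unusedSectionVars false

open Set Filter Topology MeasureTheory

namespace Crest.Agent.R116.Th899

open Crest.Agent.R136
open Crest.Agent.R138
open RbK219
open RbM219
open Kz647
open Crest.Agent.R116.PL504 (eL)
open Crest.Agent.R116.Sg337 (coneL DL)
open Crest.Agent.R116.Tq741
open Crest.Agent.R116.Tq126
open Crest.Agent.R138.Ex926 (Base U IsTan)
open Crest.Agent.R136.MkA627 Crest.Agent.R136.TD627 Crest.Agent.R136.Net191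
open Crest.Agent.R136.Lq196
open Crest.Agent.R116.ChL222
open Crest.Agent.R116.PL504 (rL βL Shift)
open Crest.Agent.R116.Gd222 (TSet sN)
open Crest.Agent.R116.KI439
open Crest.Agent.R116.KF439 (PL)
open Crest.Agent.R116.CtxB468
open Crest.Agent.R116.Rcx363
open Crest.Agent.R116.Pd363
open Crest.Agent.R116.KTie794
open Crest.Agent.R116.KTop387 (NumL)
open Crest.Agent.R116.Tp139 (oSe sok_oSe leg_oSe FctU)
open Crest.Agent.R116.FlH850 (VE VD SFill fill_of)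

section ctx

variable {G : Geo TSet (Fin 2)} {L : ℕ → ℕ → LRay} {r : ℕ → ℝ} {g s : ℝ} {θ q : Fin 2 → ℝ}
    {Rg : ℝ} {B : Base} {I : ℕ → Finset (ℕ × ℝ)} {lev : ℕ → ℚ → ℕ} {A : ℕ → ℝ}
    {f : ℕ → ℚ → ℕ → ℤ → ℕ} {b : ℕ → ℚ → ℕ → TSet} {vm : ℕ → ℚ → ℝ} {w : Fin 2 → ℕ → ℚ → ℝ}
    {fr : ℕ → ℚ → ℕ × ℝ → LInc} {fl : ℕ → ℕ × ℝ → LInc} {sc : Fin 12 → ℕ → ℝ}
    {w0 sa sb δ R : ℝ} {I0 I' : ℕ → Finset (ℕ × ℝ)} {ν own : (Fin 12 → ℝ) → ℝ} {c₀ : ℝ}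

/-- W3 on the plane `oSe` -/
theorem w3_oSe
    (C : CtxT G L r g s θ q Rg B I lev A f b vm w fr fl sc w0 sa sb δ R I0 I' ν own c₀)
    (hθ : 0 < θ 0) (hI1 : InvT PL B I 1 fl (sc 1))
    (hB : TieT θ B I lev fl sc 7 ∨ TieT θ B I lev fl sc 8)
    (e : ℝ) (a b' : Fin 2) (v0 κ l α : ℝ) (lam lam2 : Fin 2 → (Fin 12 → ℝ) → ℝ)
    (ρ ρ2 : Fin 9 → ℝ) (h' H : ℕ → ℝ) (Xb : ℕ → Fin 12 → ℝ) (he : 0 < e) (hv0 : 0 < v0)
    (hv1 : v0 < 1)
    (P : Pd9 R s a b' V278 (θ 0) (θ 1) w0 sa sb v0 κ (oSe e) 1 (fo ν own) lam ρ l α h' Xb H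
      lam2 ρ2) (w : V9) (Rw : V9) (ho : One 5 w) (w0' : w 0 = 0) (w6 : w 6 = 0) (w7 : w 7 < 0)
    (hL : LinS {0, 6, 7, 8} (fun w => lam2 0 (RL9.vec w)) w Rw) : Rw 1 ≤ Rw 2 := by
  have F := Th171.fctU9 (Sg := fun w => w 7 < (2 * θ 0 - θ 1) * w 0) P C hθ hv0 hv1 (leg_oSe he)
    (by change (1:ℝ) = 0 + 1; norm_num) (by change (2:ℝ) = 1 + 1; norm_num)
    (by change (1:ℝ) = 0 + 1; norm_num) (by change (1:ℝ) = 1 + 0; norm_num)
    (by change (1:ℝ) = 1 + 0; norm_num) (by change (0:ℝ) = _ * 0; rw [mul_zero]) hB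
    (fun _ => by change (0:ℝ) ≤ _ * 0; rw [mul_zero]) (fun h => absurd hI1 h)
    (fun w _ h => ⟨fun _ => h, fun h => absurd hI1 h⟩)
  exact F.W3 w Rw ho (by rw [w0', w6, mul_zero]) (by
    show w 7 < (2 * θ 0 - θ 1) * w 0
    rw [w0', mul_zero]; exact w7) hL

end ctx

/-- **`e`-tie, `T⁺`, `1/2 ≤ s`** -/
theorem fillE_up (η : ℝ) : Fill η VE fun g s θ q =>
    1 / 2 ≤ s → θ 0 - θ 1 < 1 → 2 * θ 0 ≤ 1 + (θ 0 - θ 1) → False := by
  refine fill_of ?_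
  intro G L r g s θ q Rg B I lev A f b vm w fr fl sc w0 sa sb δ R I0 I' ν own c₀ C hN hR0 hR1 hRg
    hV hs k1 hθ'
  exact eUp_ctx C hR0 hR1 (by linarith) hN.θa hs hN.s1 (by linarith [hN.gpos]) hN.qa.le hN.qb.le
    hV.2.2 (TieT.kB hV.1) k1 hθ' (w3_oSe C hN.θa hV.2.2 hV.1)

/-- **double tie, `T⁺`, `1/2 ≤ s`** -/
theorem fillD_up (η : ℝ) : Fill η VD fun g s θ q =>
    1 / 2 ≤ s → 2 * θ 0 - θ 1 < 1 → 2 * θ 0 ≤ 1 + (θ 0 - θ 1) → False := by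
  refine fill_of ?_
  intro G L r g s θ q Rg B I lev A f b vm w fr fl sc w0 sa sb δ R I0 I' ν own c₀ C hN hR0 hR1 hRg
    hV hs k1 hθ'
  have hD : InvT PL B I 1 fl (sc 1) := by
    rcases C.out.clsD with h | h
    · exact h
    · exfalso
      have h1 := h.2.1
      change 0 < -(θ 1) - 2 * -(θ 0) - 1 at h1
      linarith
  have hθ := hN.θa
  exact eUp_ctx C hR0 hR1 (by linarith) hN.θa hs hN.s1 (by linarith [hN.gpos]) hN.qa.le hN.qb.le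
    hD (TieT.kB hV.1) (by linarith) hθ' (w3_oSe C hN.θa hD hV.1)

end Crest.Agent.R116.Th899
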