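import Crest.Agent.R116.TwF5_369

/-!
# R116, ties (helper369): (W3k) at a `κ`-tie

* `k3` : `D` frozen (or live and slack); `B`, `D` invisible or strictly coarser than their own level
-/

set_option autoImplicit false
set_option linter.unusedVariables false
set_option linter.unusedSectionVars false

open Set Filter Topology

namespace Crest.Agent.R116.Tw369

open Crest.Agent.R138
open Crest.Agent.R138.Ex926 (Base U IsTan)
open Crest.Agent.R136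
open Crest.Agent.R136.MkA627
open Crest.Agent.R136.TD627
open Crest.Agent.R136.Net191
open Crest.Agent.R136.Lq196
open Crest.Agent.R136.Qg926 Crest.Agent.R136.Gf356 Crest.Agent.R116.EvL504
open Crest.Agent.R116.ChL222
open Crest.Agent.R116.PL504 (nb rL DN eL βL oL Shift eL_wall)
open Crest.Agent.R116.Sg337 (bx9)
open Crest.Agent.R116.Gd222 (TSet sN PDL DT)
open Crest.Agent.R116.KI439
open Crest.Agent.R116.KF439 (PL)
open Crest.Agent.R116.CtxB468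
open Crest.Agent.R116.Kst593 Crest.Agent.R116.KW420
open Crest.Agent.R116.Rcx363 (fo fo_lip Prf)
open Crest.Agent.R116.RbM219
open Crest.Agent.R116.SgF665 (wl wl_add wl_smul LM0)
open Crest.Agent.R116.WinG954 (LM)
open Crest.Agent.R116.Tq741 Crest.Agent.R116.Tq794

variable {G : Geo TSet (Fin 2)} {L : ℕ → ℕ → LRay} {r : ℕ → ℝ} {g s : ℝ} {θ q : Fin 2 → ℝ}
    {Rg : ℝ} {B : Base} {I : ℕ → Finset (ℕ × ℝ)} {lev : ℕ → ℚ → ℕ} {A : ℕ → ℝ}
    {f : ℕ → ℚ → ℕ → ℤ → ℕ} {b : ℕ → ℚ → ℕ → TSet} {vm : ℕ → ℚ → ℝ} {wt : Fin 2 → ℕ → ℚ → ℝ}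
    {fr : ℕ → ℚ → ℕ × ℝ → LInc} {fl : ℕ → ℕ × ℝ → LInc} {sc : Fin 12 → ℕ → ℝ}
    {w0 sa sb δ R : ℝ} {I0 I' : ℕ → Finset (ℕ × ℝ)} {ν own : (Fin 12 → ℝ) → ℝ} {c₀ : ℝ}


section ktie

variable {E : V9 → Fin 12 → ℝ} {M : Set (Fin 12 → ℝ)} {X : ℕ → Fin 12 → ℝ} {H v : ℕ → ℝ} {v0 : ℝ}
  {lam2 : (Fin 12 → ℝ) → ℝ} {w Rw : V9}

/-- the window at a `κ`-tied linear position -/
theorem winK (ctx : CtxT G L r g s θ q Rg B I lev A f b vm wt fr fl sc w0 sa sb δ R I0 I' ν own c₀)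
    (hG : TieT θ B I lev fl sc 2)
    (em : EMd E M) (rz : Rz M {1} (E dK))
    (pb : PBase (θ 0) (θ 1) w0 sa sb v0 R {0, 2} E M ν X H v lam2)
    (hvX : ∀ k, k ≠ 0 → VisT B I fl sc k → k = 2 ∨ Vw (θ 0) (θ 1) w0 sa sb X H v (E w) (w 0) k)
    (hwl : LegM 0 w) (h7 : w 7 = (2 * θ 0 - θ 1) * w 0)
    (hL : LinS {0, 7, 8} (fun w => lam2 (E w)) w Rw) :
    ∃ (ψ : ℕ → ℕ) (h' : ℕ → ℝ) (Q : (Fin 12 → ℝ) → ℝ) (Φ : V9 → ℝ), StrictMono ψ ∧
      (∀ m, 0 < h' m) ∧ Tendsto h' atTop (𝓝 0) ∧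
      (∀ d d' : V9, (∀ u ∈ ({0, 7, 8} : Finset (Fin 9)), d u = d' u) →
        LegM 0 (d + (1:ℝ) • dK) → LegM 0 (d' + (1:ℝ) • dK) → Φ d = Φ d') ∧
      (∀ d, LegM 0 (d + (1:ℝ) • dK) → Q (E d) =
        -(Φ d + ∑ u ∈ ({0, 7, 8} : Finset (Fin 9))ᶜ, Rw u * d u)) ∧
      ∃ (k : ℕ → ℕ) (W : Wnd 12 (fun _ => ℕ × ℝ)) (N : ℕ → ℝ) (cw : ∀ n : ℕ, ℕ × ℝ → ℤ)
        (E' : ∀ n : ℕ, Finset (ℕ × ℝ)) (g' : ℕ → ℝ),
        TWin B I0 I' (PL504.coN B lev wt w0 sa sb fl) (Xs X H (E w) ((1:ℝ) • E dK) ψ h')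
          (fun m => H (ψ m) * h' m) Q {0, 2} {1} {2} (fun _ => {0}) 0 1 k W N cw E' g'
          (fun _ _ _ => 0) := by
  obtain ⟨l0, l2, l3, l4, l5, l6, l7, l8, l9, l10, l11⟩ := em.lt w
  have eq1 : cT {0, 2} {1} 1 (fun _ => 1) = E ![1, 1, 1, 1, 1, 1, 1, 1, 0] := by
    rw [em.eq9 rfl]
    funext k
    fin_cases k <;> simp [cT, E9, bx9]
  have eq2 : cL {0, 2} {1} (fun _ => 1) = E ![0, 1, 1, 1, 1, 1, 1, 0, 0] := by
    rw [em.eq9 rfl]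
    funext k
    fin_cases k <;> simp [cL, E9, bx9]
  have eq3 : cT {0, 2} {1} 1 0 = E ![1, 0, 0, 0, 0, 0, 0, 1, 0] := by
    rw [em.eq9 rfl]
    funext k
    fin_cases k <;> simp [cT, E9, bx9]
  obtain ⟨ψ, h', Q, Φ, hψ, hp', h0', hΦ, hQ, hbase, k, W, N, cw, E', g', T⟩ :=
    core ctx em wsd_k rz leg_dK
      (fun k hk => by
        refine E_dK_off em ?_
        rintro rfl; revert hk; decide) pb.pos pb.h0 pb.tan pb.anti pb.base
      (Ts := {2}) (by decide)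
      (fun i hi => by rw [Finset.mem_singleton.1 hi]; exact hG.2.1) (Sl := fun _ => {0})
      (fun _ _ => Or.inl rfl)
      (fun i hi => by
        rw [Finset.mem_singleton.1 hi]
        exact stC_of_TwP (fun _ _ _ _ => rfl) hG.2.2.2) hwl
      (fun k hk => by
        have h3 : k = 0 ∨ k = 2 := by simpa using hk
        rcases h3 with rfl | rfl
        · rw [l0, βL0, one_mul]
        · rw [l2, βL2, h7])
      (fun k hk hV => by
        rcases hvX k hk hV with rfl | h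
        · exact Or.inl (by decide)
        · exact Or.inr h) hL eq1 eq2 eq3
      (by constructor <;> simp [dK] <;> norm_num) (by constructor <;> simp [dK] <;> norm_num)
      (by constructor <;> simp [dK] <;> norm_num) (by intro u hu; fin_cases u <;> simp at hu ⊢)
      (by intro u hu; fin_cases u <;> simp at hu ⊢) (by intro u hu; fin_cases u <;> simp at hu ⊢)
  exact ⟨ψ, h', Q, Φ, hψ, hp', h0', hΦ, hQ, k, W, N, cw, E', g', T⟩

/-- **(W3k) at a `κ`-tie** -/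
theorem k3 (ctx : CtxT G L r g s θ q Rg B I lev A f b vm wt fr fl sc w0 sa sb δ R I0 I' ν own c₀)
    (hG : TieT θ B I lev fl sc 2) (em : EMd E M) (rz : Rz M {1} (E dK))
    (pb : PBase (θ 0) (θ 1) w0 sa sb v0 R {0, 2} E M ν X H v lam2)
    (hvX : ∀ k, k ≠ 0 → VisT B I fl sc k → k = 2 ∨ Vw (θ 0) (θ 1) w0 sa sb X H v (E w) (w 0) k)
    (ho : One 2 w) (h7 : w 7 = (2 * θ 0 - θ 1) * w 0)
    (hL : LinS {0, 7, 8} (fun w => lam2 (E w)) w Rw) : Rw 1 ≤ Rw 6 := by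
  obtain ⟨ψ, h', Q, Φ, hψ, hp', h0', hΦ, hQ, k, W, N, cw, E', g', T⟩ :=
    winK ctx hG em rz pb hvX (One.leg ho) h7 hL
  obtain ⟨l0, l2, l3, l4, l5, l6, l7, l8, l9, l10, l11⟩ := em.lt w
  obtain ⟨X5, X6, X7, X8, X11, X11', X11'', X10, X10', X9⟩ := pb.nb.walls
  have g0 : gap w 2 = 0 := ho.1
  change w 7 + w 1 - w 6 = 0 at g0
  have z : ∀ {k : Fin 12}, k ≠ 1 → ((1:ℝ) • E dK) k = 0 := fun h1 => by
    rw [Pi.smul_apply, E_dK_off em h1, smul_zero]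
  have t1 := Xs_tight (H := H) (ψ := ψ) (h' := h') (ew := E w) (c0 := (1:ℝ) • E dK) X7
    (by rw [l7, l2, l3]; linarith)
    (by rw [z (by decide), z (by decide), z (by decide)]; ring)
  have t2 := Xs_tight (H := H) (ψ := ψ) (h' := h') (ew := E w) (c0 := (1:ℝ) • E dK) X8
    (by rw [l8, l2, l4]; linarith)
    (by rw [z (by decide), z (by decide), z (by decide)]; ring)
  have key := T.w3k one_pos (by decide) (fun _ _ => rfl) (Finset.mem_singleton_self _)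
    (Eventually.of_forall t1) (Eventually.of_forall t2)
    (Xs_slack pb.pos hψ hp' h0' (pb.nb.slD.2.2.2 (One.g0 ho (by decide))) 1)
    (Xs_slack pb.pos hψ hp' h0' (pb.nb.slD.1 (One.g3 ho (by decide))) 1)
    (Xs_slack pb.pos hψ hp' h0' (pb.nb.slD.2.1 (One.g3 ho (by decide))) 1)
    zero_le_one le_rfl
  have b1 : cT {0, 2} {1} 1 (bA 1 {7, 8}) = E ![1, 0, 0, 0, 0, 0, 1, 1, 0] := by
    rw [em.eq9 rfl]
    funext k
    fin_cases k <;> simp [cT, E9, bx9, bA]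
  have b2 : cT {0, 2} {1} 1 (bA 1 {3, 4, 7, 8}) = E ![1, 1, 0, 0, 0, 0, 1, 1, 0] := by
    rw [em.eq9 rfl]
    funext k
    fin_cases k <;> simp [cT, E9, bx9, bA]
  have b3 : cT {0, 2} {1} 1 0 = E ![1, 0, 0, 0, 0, 0, 0, 1, 0] := by
    rw [em.eq9 rfl]
    funext k
    fin_cases k <;> simp [cT, E9, bx9]
  have lg1 : LegM 0 (![1, 0, 0, 0, 0, 0, 1, 1, 0] + (1:ℝ) • dK) := by
    constructor <;> simp [dK] <;> norm_num
  have lg2 : LegM 0 (![1, 1, 0, 0, 0, 0, 1, 1, 0] + (1:ℝ) • dK) := by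
    constructor <;> simp [dK] <;> norm_num
  have lg3 : LegM 0 (![1, 0, 0, 0, 0, 0, 0, 1, 0] + (1:ℝ) • dK) := by
    constructor <;> simp [dK] <;> norm_num
  have f1 : Φ ![1, 0, 0, 0, 0, 0, 1, 1, 0] = Φ ![1, 0, 0, 0, 0, 0, 0, 1, 0] :=
    hΦ _ _ (by intro u hu; fin_cases u <;> simp at hu ⊢) lg1 lg3
  have f2 : Φ ![1, 1, 0, 0, 0, 0, 1, 1, 0] = Φ ![1, 0, 0, 0, 0, 0, 0, 1, 0] :=
    hΦ _ _ (by intro u hu; fin_cases u <;> simp at hu ⊢) lg2 lg3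
  rw [b1, b2, b3, hQ _ lg1, hQ _ lg2, hQ _ lg3, f1, f2, sumK, sumK, sumK] at key
  simp at key
  linarith

end ktie

end Crest.Agent.R116.Tw369
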