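import Crest.Agent.R116.Tk6_538
import Crest.Agent.R116.TwF6_369

/-!
# R116 (K side, ties), `κ`-tie, `T⁺`, `1/2 ≤ s` (helper538), no binder

* `plugK`  : (W3k) on the plane `kUe` (369's `k3`)
* **`fillH2`** : `κ`-tie, `1/2 < k < 1`, `θ ≤ (1+k)/3`, `1/2 ≤ s` is impossible
-/

set_option autoImplicit false
set_option linter.unusedVariables false
set_option linter.unusedSectionVars false

open Set Filter Topology MeasureTheory

namespace Crest.Agent.R116.Tk538

open Crest.Agent.R136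
open Crest.Agent.R138
open RbK219
open RbM219
open Kz647
open Crest.Agent.R116.PL504 (eL)
open Crest.Agent.R116.Tq741
open Crest.Agent.R138.Ex926 (Base U IsTan)
open Crest.Agent.R136.MkA627 Crest.Agent.R136.TD627 Crest.Agent.R136.Net191
open Crest.Agent.R136.Lq196
open Crest.Agent.R116.ChL222
open Crest.Agent.R116.PL504 (rL βL Shift)
open Crest.Agent.R116.Gd222 (TSet sN)
open Crest.Agent.R116.KI439
open Crest.Agent.R116.KF439 (PL)
open Crest.Agent.R116.CtxB468
open Crest.Agent.R116.Rcx363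
open Crest.Agent.R116.Pd363
open Crest.Agent.R116.WinG954 (LM)
open Crest.Agent.R116.Tq794 (E9)
open Crest.Agent.R116.Tw369
open Crest.Agent.R116.KTie794 (Fill InvB VisE VisB InvE)
open Crest.Agent.R116.KTop387 (NumL)

/-- **(W3k) on the plane `kUe`** -/
theorem plugK {η : ℝ} : PlugK η := by
  intro G L r g s θ q Rg B I lev A f b vm w fr fl sc w0 sa sb δ R I0 I' ν own c₀ C hN h1 h7 h8 hE
    hk e a b' v0 κ l α lam lam2 ρ ρ2 h' H Xb he hv0 hv1 P
  obtain ⟨v, pb⟩ := pbK he hv0 hv1 P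
  refine ⟨fun x Rw ho hx hL => ?_⟩
  have hL' : LinS {0, 7} (fun w => lam2 0 (E9 w)) x Rw := by
    simpa only [Tq794.E9_eq] using hL
  refine k3 C hE em9 rz9K pb (fun k hk0 hV => ?_) ho hx
    (linS_mono (by decide) hL')
  by_cases h2 : k = 2
  · exact Or.inl h2
  exfalso
  apply hV
  by_cases h1' : k = 1
  · subst h1'; exact h1
  by_cases h7' : k = 7
  · subst h7'; exact h7
  by_cases h8' : k = 8
  · subst h8'; exact h8
  refine C.out.inv_ray ?_
  clear hV
  revert hk0 h2 h1' h7' h8'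
  revert k
  decide

/-- **cell (H2)** : `κ`-tie, `T⁺`, `1/2 ≤ s` -/
theorem fillH2 {η : ℝ} :
    Fill η (fun θ B I lev fl sc => InvB B I fl sc ∧ VisE θ B I lev fl sc)
      fun g s θ q => 1 / 2 ≤ s → 1 / 2 < 2 * θ 0 - θ 1 → 2 * θ 0 - θ 1 < 1 →
        θ 0 ≤ (1 + (2 * θ 0 - θ 1)) / 3 → False :=
  fillH2_of plugK

end Crest.Agent.R116.Tk538
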