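import Crest.Agent.R116.Hm2_621
import Crest.Agent.R116.Th5c_658
import Crest.Agent.R116.Tk7_538
import Crest.Agent.R116.ApW_954
import Crest.Agent.R116.D0h5_708
import Crest.Agent.R116.D0h5_894

/-!
# R116, ROW TIE, `1/2 ≤ s`: coverage of the regions (helper858, second of helper850)

`k = θ0 - θ1`, `k' = 2 θ0 - θ1`.

* `eLo` : 621's cell (`e`-tie, `T⁻`, `k < 1`, `(1 + k)/2 ≤ θ0`), D0 of 708 and 894 plugged, no binder
* `fillH_e` : 171's `T⁺` cell and (H4) (`k = 1`) ⊢ every `e`-tie with `k ≤ 1`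
* `fillH_k` : 658's cell ⊢ every `κ`-tie with `k' < 1` (538's and 954's cells plugged)
* `fillH_d` : 171's `T⁺` cell, 658's cell ⊢ every double tie with `k' < 1`
-/

set_option autoImplicit false
set_option linter.unusedVariables false

open Finset Filter Topology

namespace Crest.Agent.R116.FlH858

open Crest.Agent.R138.Ex926 (Base U)
open Crest.Agent.R136.MkA627
open Crest.Agent.R136.TD627
open Crest.Agent.R116.KI439
open Crest.Agent.R116.Gd222 (TSet)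
open Crest.Agent.R116.ChL222 (LInc)
open Crest.Agent.R116.Tw468 (OutT OutR)
open Crest.Agent.R116.KF439 (PL)
open Crest.Agent.R116.KTop387
open Crest.Agent.R116.CtxB468
open Crest.Agent.R116.KTie794
open Crest.Agent.R116.Hm621 (XLo)
open Crest.Agent.R116.Th658 (reg5)

variable {η : ℝ}

/-- visible slots: `e`-tie -/
abbrev VE (θ : Fin 2 → ℝ) (B : Base) (I : ℕ → Finset (ℕ × ℝ)) (lev : ℕ → ℚ → ℕ)
    (fl : ℕ → ℕ × ℝ → LInc) (sc : Fin 12 → ℕ → ℝ) : Prop :=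
  VisB θ B I lev fl sc ∧ InvE B I fl sc

/-- visible slots: `κ`-tie -/
abbrev VK (θ : Fin 2 → ℝ) (B : Base) (I : ℕ → Finset (ℕ × ℝ)) (lev : ℕ → ℚ → ℕ)
    (fl : ℕ → ℕ × ℝ → LInc) (sc : Fin 12 → ℕ → ℝ) : Prop :=
  InvB B I fl sc ∧ VisE θ B I lev fl sc

/-- visible slots: double tie -/
abbrev VD (θ : Fin 2 → ℝ) (B : Base) (I : ℕ → Finset (ℕ × ℝ)) (lev : ℕ → ℚ → ℕ)
    (fl : ℕ → ℕ × ℝ → LInc) (sc : Fin 12 → ℕ → ℝ) : Prop :=
  VisB θ B I lev fl sc ∧ VisE θ B I lev fl sc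

/-- D0 for 621's cell, `β ≠ 0` -/
theorem d0_lo1 (hη : η < 1) : D0T η fun s θ => XLo s θ ∧ 2 * θ 0 - θ 1 ≠ 1 := by
  intro G L r g s θ q Rg B I lev A f b vm w fr fl sc w0 sa sb δ R I0 I' ν own c₀ C N h
  obtain ⟨⟨h1, h2, h3, h4⟩, h5⟩ := h
  exact D0h708.d0H2 hη C N ⟨h1, by linarith, by linarith, by linarith, fun h => h5 (by linarith),
    by linarith, fun h => by linarith [h.1, h.2]⟩

/-- D0 for 621's cell, `β = 0` -/
theorem d0_lo2 (hη : η < 1) : D0E η fun s θ => XLo s θ ∧ 2 * θ 0 - θ 1 = 1 := by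
  intro G L r g s θ q Rg B I lev A f b vm w fr fl sc w0 sa sb δ R I0 I' ν own c₀ C N h
  obtain ⟨⟨h1, h2, h3, h4⟩, h5⟩ := h
  exact D0h0894.D0Hz hη C N ⟨h1, h5, by linarith⟩

/-- **621's cell, no binder** -/
theorem eLo (hη : η < 1) : Fill η VE
    fun g s θ q => 1 / 2 ≤ s → θ 0 - θ 1 < 1 → 1 + (θ 0 - θ 1) ≤ 2 * θ 0 → False :=
  Hm621.fillE_lo' hη (d0_lo1 hη) (d0_lo2 hη)

/-- **every `e`-tie with `k ≤ 1`, `1/2 ≤ s`** -/
theorem fillH_e (hη : η < 1)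
    (h171 : Fill η VE fun g s θ q =>
      1 / 2 ≤ s → θ 0 - θ 1 < 1 → 2 * θ 0 ≤ 1 + (θ 0 - θ 1) → False)
    (h4 : Fill η VE fun g s θ q => 1 / 2 ≤ s → θ 0 - θ 1 = 1 → False) :
    Fill η VE fun g s θ q => 1 / 2 ≤ s → θ 0 - θ 1 ≤ 1 → False := by
  refine ((h171.and (eLo hη)).and h4).mono fun g s θ q _ h hs hk => ?_
  obtain ⟨⟨h1, h2⟩, h3⟩ := h
  rcases hk.lt_or_eq with hk | hk
  · rcases le_total (2 * θ 0) (1 + (θ 0 - θ 1)) with h | h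
    · exact h1 hs hk h
    · exact h2 hs hk h
  · exact h3 hs hk

/-- 658's D0 region from 708's -/
theorem d0_5 (hη : η < 1) : D0T η reg5 := by
  intro G L r g s θ q Rg B I lev A f b vm w fr fl sc w0 sa sb δ R I0 I' ν own c₀ C N h
  obtain ⟨h1, h2, h3, h4⟩ := h
  exact D0h708.d0H2 hη C N ⟨h1, by linarith, by linarith, by linarith, fun h => by linarith,
    by linarith, fun h => by linarith [h.1, h.2]⟩

/-- **every `κ`-tie with `k' < 1`, `1/2 ≤ s`** -/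
theorem fillH_k
    (h5 : Fill η VK fun g s θ q => 1 / 2 ≤ s → 1 / 2 < 2 * θ 0 - θ 1 →
      2 * θ 0 - θ 1 < 1 → 1 + (2 * θ 0 - θ 1) ≤ 3 * θ 0 → False) :
    Fill η VK fun g s θ q => 1 / 2 ≤ s → 2 * θ 0 - θ 1 < 1 → False := by
  have h954 : Fill η VK fun g s θ q => 1 / 2 ≤ s → 2 * θ 0 - θ 1 ≤ 1 / 2 → False :=
    ApV954.fillHk fun _ _ _ _ _ _ h => h.1
  refine ((h5.and h954).and Tk538.fillH2).mono fun g s θ q _ h hs hk => ?_
  obtain ⟨⟨h1, h2⟩, h3⟩ := h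
  rcases le_or_gt (2 * θ 0 - θ 1) (1 / 2) with hk2 | hk2
  · exact h2 hs hk2
  · rcases le_total (1 + (2 * θ 0 - θ 1)) (3 * θ 0) with h | h
    · exact h1 hs hk2 hk h
    · exact h3 hs hk2 hk (by linarith)

/-- **every double tie with `k' < 1`, `1/2 ≤ s`** -/
theorem fillH_d
    (h171 : Fill η VD fun g s θ q =>
      1 / 2 ≤ s → 2 * θ 0 - θ 1 < 1 → 2 * θ 0 ≤ 1 + (θ 0 - θ 1) → False)
    (h5 : Fill η VD fun g s θ q => 1 / 2 ≤ s → 1 / 2 < 2 * θ 0 - θ 1 →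
      2 * θ 0 - θ 1 < 1 → 1 + (2 * θ 0 - θ 1) ≤ 3 * θ 0 → False) :
    Fill η VD fun g s θ q => 1 / 2 ≤ s → 2 * θ 0 - θ 1 < 1 → False := by
  intro g s θ q hN
  obtain ⟨R1, h1⟩ := (h171.and h5) g s θ q hN
  refine ⟨R1, fun Rg hRg => ?_⟩
  intro G L r B I lev A f b vm w fr fl sc w0 sa sb δ R I0 I' ν own c₀ C hV hs hk
  have hk0 := TieT.kB hV.1
  obtain ⟨h1, h2⟩ := h1 Rg hRg G L r B I lev A f b vm w fr fl sc w0 sa sb δ R I0 I' ν own c₀ C hV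
  rcases le_or_gt (2 * θ 0) (1 + (θ 0 - θ 1)) with h | h
  · exact h1 hs hk h
  · exact h2 hs (by linarith) hk (by linarith)

end Crest.Agent.R116.FlH858
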