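import Crest.Agent.R116.TwF3_369

/-!
# R116, ties (helper369): (W3), (W2), (W3k) over the context, class letters, part 2

* `u3`, `u2` : (W3), (W2) at an `e`-tie; `E`, `D` invisible or strictly coarser than their own level
* `k3`       : (W3k) at a `κ`-tie, `D` raised, `B` invisible or strictly coarser than its own level
-/

set_option autoImplicit false
set_option linter.unusedVariables false
set_option linter.unusedSectionVars false

open Set Filter Topology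

namespace Crest.Agent.R116.Tw369

open Crest.Agent.R138
open Crest.Agent.R138.Ex926 (Base U IsTan)
open Crest.Agent.R136
open Crest.Agent.R136.MkA627
open Crest.Agent.R136.TD627
open Crest.Agent.R136.Net191
open Crest.Agent.R136.Lq196
open Crest.Agent.R136.Qg926 Crest.Agent.R136.Gf356 Crest.Agent.R116.EvL504
open Crest.Agent.R116.ChL222
open Crest.Agent.R116.PL504 (nb rL DN eL βL oL Shift eL_wall)
open Crest.Agent.R116.Sg337 (bx9)
open Crest.Agent.R116.Gd222 (TSet sN PDL DT)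
open Crest.Agent.R116.KI439
open Crest.Agent.R116.KF439 (PL)
open Crest.Agent.R116.CtxB468
open Crest.Agent.R116.Kst593 Crest.Agent.R116.KW420
open Crest.Agent.R116.Rcx363 (fo fo_lip Prf)
open Crest.Agent.R116.RbM219
open Crest.Agent.R116.SgF665 (wl wl_add wl_smul LM0)
open Crest.Agent.R116.WinG954 (LM)
open Crest.Agent.R116.Tq741 Crest.Agent.R116.Tq794

theorem leg_dE : LegM 0 dE := by constructor <;> simp [dE] <;> norm_num

theorem leg_dK : LegM 0 dK := by constructor <;> simp [dK] <;> norm_num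

theorem E_dE_off {E : V9 → Fin 12 → ℝ} {M : Set (Fin 12 → ℝ)} (em : EMd E M) {k : Fin 12}
    (h1 : k ≠ 1) (h2 : k ≠ 2) : E dE k = 0 := by
  rw [em.off _ _ h1, E9_dE]
  unfold cc
  rw [if_neg h1, if_neg h2]

theorem E_dK_off {E : V9 → Fin 12 → ℝ} {M : Set (Fin 12 → ℝ)} (em : EMd E M) {k : Fin 12}
    (h1 : k ≠ 1) : E dK k = 0 := by
  rw [em.off _ _ h1, E9_dK]
  unfold cc
  rw [if_neg h1]
  split_ifs <;> rfl

/-- letters of a box off slot `1` -/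
theorem EMd.lt {E : V9 → Fin 12 → ℝ} {M : Set (Fin 12 → ℝ)} (em : EMd E M) (w : V9) :
    E w 0 = w 0 ∧ E w 2 = w 7 ∧ E w 3 = w 1 ∧ E w 4 = w 1 ∧ E w 5 = w 3 ∧ E w 6 = w 3 ∧
      E w 7 = w 6 ∧ E w 8 = w 6 ∧ E w 9 = w 5 ∧ E w 10 = w 2 ∧ E w 11 = w 4 := by
  refine ⟨?_, ?_, ?_, ?_, ?_, ?_, ?_, ?_, ?_, ?_, ?_⟩ <;> (rw [em.off _ _ (by decide)]; rfl)

theorem βL0 (a b : ℝ) : βL a b 0 = 1 := rfl

theorem βL7 (a b : ℝ) : βL a b 7 = a - b := by
  show -b - -a = _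
  ring

theorem βL8 (a b : ℝ) : βL a b 8 = a - b := by
  show -b - -a = _
  ring

theorem βL2 (a b : ℝ) : βL a b 2 = 2 * a - b := by
  show -b - 2 * -a = _
  ring

variable {G : Geo TSet (Fin 2)} {L : ℕ → ℕ → LRay} {r : ℕ → ℝ} {g s : ℝ} {θ q : Fin 2 → ℝ}
    {Rg : ℝ} {B : Base} {I : ℕ → Finset (ℕ × ℝ)} {lev : ℕ → ℚ → ℕ} {A : ℕ → ℝ}
    {f : ℕ → ℚ → ℕ → ℤ → ℕ} {b : ℕ → ℚ → ℕ → TSet} {vm : ℕ → ℚ → ℝ} {wt : Fin 2 → ℕ → ℚ → ℝ}
    {fr : ℕ → ℚ → ℕ × ℝ → LInc} {fl : ℕ → ℕ × ℝ → LInc} {sc : Fin 12 → ℕ → ℝ}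
    {w0 sa sb δ R : ℝ} {I0 I' : ℕ → Finset (ℕ × ℝ)} {ν own : (Fin 12 → ℝ) → ℝ} {c₀ : ℝ}

/-- **plane data at a tie** : tangent `lam2` of `ν` at a natural base on the tie plane -/
structure PBase (θ0 θ1 w0 sa sb v0 R : ℝ) (S : Finset (Fin 12)) (E : V9 → Fin 12 → ℝ)
    (M : Set (Fin 12 → ℝ)) (ν : (Fin 12 → ℝ) → ℝ) (X : ℕ → Fin 12 → ℝ) (H v : ℕ → ℝ)
    (lam2 : (Fin 12 → ℝ) → ℝ) : Prop where
  pos : ∀ l, 0 < H l
  h0 : Tendsto H atTop (𝓝 0)
  tan : IsTan (Leg monL R) M ν X H lam2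
  anti : ∀ p ∈ M, ∀ q ∈ M, p ≤ q → lam2 q ≤ lam2 p
  nb : NBase E X H
  base : TBase θ0 θ1 w0 sa sb v0 S X v
  lim : ∀ j : Fin 12, 3 ≤ j → Tendsto (fun l => X l j) atTop (𝓝 (rL θ0 θ1 w0 sa sb v0 j))

/-- `Σ` over the free letters, `e`-tie -/
theorem sumE (Rw d : V9) : ∑ u ∈ ({0, 6, 7, 8} : Finset (Fin 9))ᶜ, Rw u * d u =
    Rw 1 * d 1 + Rw 2 * d 2 + Rw 3 * d 3 + Rw 4 * d 4 + Rw 5 * d 5 := by
  have e : ({0, 6, 7, 8} : Finset (Fin 9))ᶜ = {1, 2, 3, 4, 5} := by decide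
  rw [e, Finset.sum_insert (by decide), Finset.sum_insert (by decide),
    Finset.sum_insert (by decide), Finset.sum_insert (by decide), Finset.sum_singleton]
  ring

/-- `Σ` over the free letters, `κ`-tie -/
theorem sumK (Rw d : V9) : ∑ u ∈ ({0, 7, 8} : Finset (Fin 9))ᶜ, Rw u * d u =
    Rw 1 * d 1 + Rw 2 * d 2 + Rw 3 * d 3 + Rw 4 * d 4 + Rw 5 * d 5 + Rw 6 * d 6 := by
  have e : ({0, 7, 8} : Finset (Fin 9))ᶜ = {1, 2, 3, 4, 5, 6} := by decide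
  rw [e, Finset.sum_insert (by decide), Finset.sum_insert (by decide),
    Finset.sum_insert (by decide), Finset.sum_insert (by decide),
    Finset.sum_insert (by decide), Finset.sum_singleton]
  ring

section etie

variable {E : V9 → Fin 12 → ℝ} {M : Set (Fin 12 → ℝ)} {X : ℕ → Fin 12 → ℝ} {H v : ℕ → ℝ} {v0 : ℝ}
  {lam2 : (Fin 12 → ℝ) → ℝ} {w Rw : V9}

/-- the window at an `e`-tied linear position, with the direction of the slab -/
theorem winE (ctx : CtxT G L r g s θ q Rg B I lev A f b vm wt fr fl sc w0 sa sb δ R I0 I' ν own c₀)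
    (hθ0 : 0 < θ 0) {j : Fin 12} (hj : j = 7 ∨ j = 8) (hB : TieT θ B I lev fl sc j)
    (em : EMd E M) (rz : Rz M {1, 2} (E dE))
    (pb : PBase (θ 0) (θ 1) w0 sa sb v0 R {0, 7, 8} E M ν X H v lam2)
    (hvX : ∀ k, k ≠ 0 → VisT B I fl sc k → k = 7 ∨ k = 8 ∨
      Vw (θ 0) (θ 1) w0 sa sb X H v (E w) (w 0) k)
    (hwl : LegM 0 w) (h6 : w 6 = (θ 0 - θ 1) * w 0)
    (hL : LinS {0, 6, 7, 8} (fun w => lam2 (E w)) w Rw) :
    ∃ (ψ : ℕ → ℕ) (h' : ℕ → ℝ) (Q : (Fin 12 → ℝ) → ℝ) (Φ : V9 → ℝ), StrictMono ψ ∧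
      (∀ m, 0 < h' m) ∧ Tendsto h' atTop (𝓝 0) ∧
      (∀ d d' : V9, (∀ u ∈ ({0, 6, 7, 8} : Finset (Fin 9)), d u = d' u) →
        LegM 0 (d + (1:ℝ) • dE) → LegM 0 (d' + (1:ℝ) • dE) → Φ d = Φ d') ∧
      (∀ d, LegM 0 (d + (1:ℝ) • dE) → Q (E d) =
        -(Φ d + ∑ u ∈ ({0, 6, 7, 8} : Finset (Fin 9))ᶜ, Rw u * d u)) ∧
      ∃ (k : ℕ → ℕ) (W : Wnd 12 (fun _ => ℕ × ℝ)) (N : ℕ → ℝ) (cw : ∀ n : ℕ, ℕ × ℝ → ℤ)
        (E' : ∀ n : ℕ, Finset (ℕ × ℝ)) (g' : ℕ → ℝ),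
        TWin B I0 I' (PL504.coN B lev wt w0 sa sb fl) (Xs X H (E w) ((1:ℝ) • E dE) ψ h')
          (fun m => H (ψ m) * h' m) Q {0, 7, 8} {1, 2} {j} (fun _ => {0}) 0 1 k W N cw E' g'
          (fun _ _ _ => 0) ∧
        ∃ u u' : ℕ → ℝ, Dir W.B' (W.cfg E') (ownL W) u u' 1 := by
  obtain ⟨l0, l2, l3, l4, l5, l6, l7, l8, l9, l10, l11⟩ := em.lt w
  have hjS : ({j} : Finset (Fin 12)) ⊆ {0, 7, 8} := by
    rcases hj with rfl | rfl <;> decide
  have hk : 0 < θ 0 - θ 1 := by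
    have h1 := hB.2.1
    rcases hj with rfl | rfl
    · rwa [βL7] at h1
    · rwa [βL8] at h1
  have eq1 : cT {0, 7, 8} {1, 2} 1 (fun _ => 1) = E ![1, 1, 1, 1, 1, 1, 1, 0, 0] := by
    rw [em.eq9 rfl]
    funext k
    fin_cases k <;> simp [cT, E9, bx9]
  have eq2 : cL {0, 7, 8} {1, 2} (fun _ => 1) = E ![0, 1, 1, 1, 1, 1, 0, 0, 0] := by
    rw [em.eq9 rfl]
    funext k
    fin_cases k <;> simp [cL, E9, bx9]
  have eq3 : cT {0, 7, 8} {1, 2} 1 0 = E ![1, 0, 0, 0, 0, 0, 1, 0, 0] := by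
    rw [em.eq9 rfl]
    funext k
    fin_cases k <;> simp [cT, E9, bx9]
  obtain ⟨ψ, h', Q, Φ, hψ, hp', h0', hΦ, hQ, hbase, k, W, N, cw, E', g', T⟩ :=
    core ctx em wsd_e rz leg_dE
      (fun k hk => by
        refine E_dE_off em ?_ ?_
        · rintro rfl; revert hk; decide
        · rintro rfl; revert hk; decide) pb.pos pb.h0 pb.tan pb.anti pb.base hjS
      (fun i hi => by rw [Finset.mem_singleton.1 hi]; exact hB.2.1) (Sl := fun _ => {0})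
      (fun _ _ => Or.inl rfl)
      (fun i hi => by
        rw [Finset.mem_singleton.1 hi]
        exact stC_of_TwP (fun _ _ _ _ => rfl) hB.2.2.2) hwl
      (fun k hk => by
        have h3 : k = 0 ∨ k = 7 ∨ k = 8 := by simpa using hk
        rcases h3 with rfl | rfl | rfl
        · rw [l0, βL0, one_mul]
        · rw [l7, βL7, h6]
        · rw [l8, βL8, h6])
      (fun k hk hV => by
        rcases hvX k hk hV with rfl | rfl | h
        · exact Or.inl (by decide)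
        · exact Or.inl (by decide)
        · exact Or.inr h) hL eq1 eq2 eq3
      (by constructor <;> simp [dE] <;> norm_num) (by constructor <;> simp [dE] <;> norm_num)
      (by constructor <;> simp [dE] <;> norm_num) (by intro u hu; fin_cases u <;> simp at hu ⊢)
      (by intro u hu; fin_cases u <;> simp at hu ⊢) (by intro u hu; fin_cases u <;> simp at hu ⊢)
  have e3 : ∀ m, Xs X H (E w) ((1:ℝ) • E dE) ψ h' m 3 = Xs X H (E w) ((1:ℝ) • E dE) ψ h' m 4 := by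
    intro m
    rw [Xs_apply, Xs_apply, pb.nb.p3, l3, l4, Pi.smul_apply, Pi.smul_apply,
      E_dE_off em (by decide) (by decide), E_dE_off em (by decide) (by decide)]
  have e5 : ∀ m, Xs X H (E w) ((1:ℝ) • E dE) ψ h' m 5 = Xs X H (E w) ((1:ℝ) • E dE) ψ h' m 6 := by
    intro m
    rw [Xs_apply, Xs_apply, pb.nb.p5, l5, l6, Pi.smul_apply, Pi.smul_apply,
      E_dE_off em (by decide) (by decide), E_dE_off em (by decide) (by decide)]
  have e7 : ∀ m, Xs X H (E w) ((1:ℝ) • E dE) ψ h' m 7 = Xs X H (E w) ((1:ℝ) • E dE) ψ h' m 8 := by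
    intro m
    rw [Xs_apply, Xs_apply, pb.nb.p7, l7, l8, Pi.smul_apply, Pi.smul_apply,
      E_dE_off em (by decide) (by decide), E_dE_off em (by decide) (by decide)]
  obtain ⟨u, u', hd⟩ := TWin.dir ctx (tend_hh pb.h0 hψ h0') hbase
    (fun j hj => Xs_lim pb.h0 hψ h0' (pb.lim j hj)) (Eventually.of_forall e3)
    (Eventually.of_forall e5) (Eventually.of_forall e7) T hθ0 (by linarith) 1
  exact ⟨ψ, h', Q, Φ, hψ, hp', h0', hΦ, hQ, k, W, N, cw, E', g', T, u, u', hd⟩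

end etie

end Crest.Agent.R116.Tw369
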