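import Crest.Agent.R116.Pdx_658
import Crest.Agent.R116.Pe0_794
import Crest.Agent.R116.TwF4_369
import Crest.Agent.R116.Tp1_139

/-!
# R116 (K side, ties), 363's plane `kD` as 369's `PBase` (helper658)
-/

set_option autoImplicit false
set_option linter.unusedSectionVars false
set_option linter.unusedVariables false

open Set Filter Topology

namespace Crest.Agent.R116.Th658

open Crest.Agent.R138
open Crest.Agent.R138.Ex926 (Base U IsTan)
open Crest.Agent.R136
open Crest.Agent.R136.MkA627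
open Crest.Agent.R136.TD627
open Crest.Agent.R136.Net191
open Crest.Agent.R136.Lq196
open Crest.Agent.R116.ChL222
open Crest.Agent.R116.PL504 (nb rL DN eL βL oL Shift)
open Crest.Agent.R116.Gd222 (TSet sN PDL DT)
open Crest.Agent.R116.KI439
open Crest.Agent.R116.KF439 (PL)
open Crest.Agent.R116.CtxB468
open Crest.Agent.R116.Rcx363 (fo fo_lip Prf)
open Crest.Agent.R116.RbM219
open Crest.Agent.R116.RbK219 (RS)
open Crest.Agent.R116.Kz647
open Crest.Agent.R116.Pd363
open Crest.Agent.R116.SgF665 (LM0)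
open Crest.Agent.R116.Tq741
open Crest.Agent.R116.Tq794
open Crest.Agent.R116.Tw369
open Crest.Agent.R116.Tp139

section

variable {R s : ℝ} {a b : Fin 2} {Vis' : Fin 12 → Prop} {θa θb w0 sa sb v0 t κ l α : ℝ}
    {ν own : (Fin 12 → ℝ) → ℝ} {lam lam2 : Fin 2 → (Fin 12 → ℝ) → ℝ}
    {ρ ρ2 : Fin 8 → ℝ} {h' H : ℕ → ℝ} {X : ℕ → Fin 12 → ℝ}

/-- **the plane `kD` as a `PBase`** -/
theorem pbK8 (P : Pd8 R s a b Vis' θa θb w0 sa sb v0 t κ kD (-1) (fo ν own) lam ρ l α h' X H lam2 ρ2)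
    (ht : t ≠ 0) (hv0 : 0 < v0) (hv1 : v0 < 1) :
    PBase θa θb w0 sa sb v0 R {0, 2} E8 LM0 ν X H (fun l => X l 0 - w0) (lam2 0) := by
  have P' : Pd8 R s a b Vis' θa θb w0 sa sb v0 t κ (nat8 0 (-1) (-2)) (-1) (fo ν own) lam ρ l α h' X
    H lam2 ρ2 := P
  obtain ⟨zz, cc, pp, dd, hXn⟩ := pd8_natural P'
  have ht' : ∀ j, IsTan (Leg monL R) LM0 (fo ν own j) X H (lam2 j) := fun j =>
    Rc683.tan_mono (P.tan j) Subset.rfl (LM0_L8B ht)
  have Hp := P.prf.mono (LM0_L8B (θa := θa) (θb := θb) (B := kD) (sg := -1) ht)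
  obtain ⟨V, E, hV, hE, -, hb⟩ := P.base
  have e0 : ∀ m, X m 0 = rL θa θb w0 sa sb (v0 + V m) 0 := fun m => by
    rw [hb m 0 (by decide)]
    have : kD (cl8 0) = 0 := rfl
    rw [this, mul_zero, add_zero]
  have e2 : ∀ m, X m 2 = rL θa θb w0 sa sb (v0 + V m) 2 := fun m => by
    rw [hb m 2 (by decide)]
    have : kD (cl8 2) = 0 := by
      show kD 7 = 0
      ev8; norm_num
    rw [this, mul_zero, add_zero]
  have ev : ∀ m, X m 0 - w0 = v0 + V m := fun m => by
    rw [e0 m]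
    show w0 + (v0 + V m) - w0 = _
    ring
  refine ⟨P.pos, P.lim, ht' 0, fun p hp q hq hpq => ?_, nbase8 hXn (slack_of_tan P.pos (ht' 0) hXn),
    ⟨hv0, hv1, ?_, fun m => by ring, fun m k hk => ?_⟩, fun j _ => ?_⟩
  · have := (Hp.anti p hp q hq hpq).1
    linarith
  · have h1 : (fun m => X m 0 - w0) = fun m => v0 + V m := funext ev
    rw [h1]
    have := hV.const_add v0
    rwa [add_zero] at this
  · rw [ev m]
    have h3 : k = 0 ∨ k = 2 := by simpa using hk
    rcases h3 with rfl | rfl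
    · exact e0 m
    · exact e2 m
  · exact (tendsto_pi_nhds.1 P.xlim) j

end

end Crest.Agent.R116.Th658
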