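import Crest.Agent.R116.Fd9_348
import Crest.Agent.R116.Th2c_899
import Crest.Agent.R116.Th5k_363

/-!
# R116 (K side, TIES), DOUBLE TIE: `FalseD` from the cells `k' = 1`, `1 < k'` (helper348)
-/

set_option autoImplicit false

namespace Crest.Agent.R116.Fd348

open Crest.Agent.R116.KTop387
open Crest.Agent.R116.KTie794
open Crest.Agent.R116.Tie460

/-- **`FalseD`** from the two open cells -/
theorem falseD_of2 {η : ℝ} (hη : η < 1)
    (h2 : Fill η FlH850.VD fun g s θ q => 2 * θ 0 - θ 1 = 1 →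
      DTie' (θ 0 - θ 1) (2 * θ 0 - θ 1) (θ 0) s (g + 2 * s) (q 0) (q 1))
    (h3 : Fill η FlH850.VD fun g s θ q => 1 < 2 * θ 0 - θ 1 →
      DTie' (θ 0 - θ 1) (2 * θ 0 - θ 1) (θ 0) s (g + 2 * s) (q 0) (q 1)) : FalseD η :=
  falseD_of4 hη h2 h3 (Th899.fillD_up η) (Th5k363.fillH5_d hη)

end Crest.Agent.R116.Fd348
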