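import Crest.Agent.R116.Pk2_348
import Crest.Agent.R116.Pdx_658
import Crest.Agent.R116.Th5d_658
import Crest.Agent.R116.TwF6_369

/-!
# R116 (K side, TIES), the `κ`-plane BELOW the record, `D` frozen: own strip with `B` visible (helper348)

* `kdat8x` : `kdat8` with `Co8` (the slots `7, 8` are macroscopically coarser than their own level)
* **`fctK8V`** : 741's `FctK` on `kD`, `B` visible or not
-/

set_option autoImplicit false
set_option linter.unusedSectionVars false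
set_option linter.unusedVariables false

open Set Filter Topology MeasureTheory

namespace Crest.Agent.R116.Pk348

open Crest.Agent.R138
open Crest.Agent.R138.Ex926 (Base U IsTan)
open Crest.Agent.R136
open Crest.Agent.R136.MkA627
open Crest.Agent.R136.TD627
open Crest.Agent.R136.Net191
open Crest.Agent.R136.Lq196
open Crest.Agent.R116.ChL222
open Crest.Agent.R116.PL504 (nb rL DN eL βL oL Shift)
open Crest.Agent.R116.Sg337 (bx9 coneL DL natB)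
open Crest.Agent.R116.Gd222 (TSet sN PDL DT)
open Crest.Agent.R116.KI439 hiding kD
open Crest.Agent.R116.KF439 (PL)
open Crest.Agent.R116.CtxB468
open Crest.Agent.R116.Rcx363
open Crest.Agent.R116.RbM219
open Crest.Agent.R116.RbK219 (RS SOk Par dl Aln)
open Crest.Agent.R116.SgO219 (PP)
open Crest.Agent.R116.Kz647
open Crest.Agent.R116.Pd363
open Crest.Agent.R116.SgF665 (LM0)
open Crest.Agent.R116.WinG954 (LM)
open Crest.Agent.R116.Tq741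
open Crest.Agent.R116.Tq794
open Crest.Agent.R116.Tq126
open Crest.Agent.R116.Tp139 hiding cl8
open Crest.Agent.R116.PosA348
open Crest.Agent.R116.Tie460 (Pl)
open Crest.Agent.R116.NZ90 (Lam8)
open Dg219 (mw Walls)
open Sl741 (slice xt rs)

section ctx

variable {G : Geo TSet (Fin 2)} {L : ℕ → ℕ → LRay} {r : ℕ → ℝ} {g s : ℝ} {θ q : Fin 2 → ℝ}
    {Rg : ℝ} {B : Base} {I : ℕ → Finset (ℕ × ℝ)} {lev : ℕ → ℚ → ℕ} {A : ℕ → ℝ}
    {f : ℕ → ℚ → ℕ → ℤ → ℕ} {b : ℕ → ℚ → ℕ → TSet} {vm : ℕ → ℚ → ℝ} {w : Fin 2 → ℕ → ℚ → ℝ}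
    {fr : ℕ → ℚ → ℕ × ℝ → LInc} {fl : ℕ → ℕ × ℝ → LInc} {sc : Fin 12 → ℕ → ℝ}
    {w0 sa sb δ R : ℝ} {I0 I' : ℕ → Finset (ℕ × ℝ)} {ν own : (Fin 12 → ℝ) → ℝ} {c₀ : ℝ}
    {v0 t k c0 : ℝ} {a b' : Fin 2} {x : ℕ → Fin 12 → ℝ} {hh : ℕ → ℝ}
    {lam : Fin 2 → (Fin 12 → ℝ) → ℝ} {T : Type*}

/-- `kdat8` with `Co8` -/
theorem kdat8x
    (C : CtxT G L r g s θ q Rg B I lev A f b vm w fr fl sc w0 sa sb δ R I0 I' ν own c₀)
    (hs0 : 0 ≤ s) (hs1 : s ≤ 1) (hθ : 0 < θ 0) (hk : 0 < k) (hb : θ 1 = 2 * θ 0 - k)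
    (hv0 : 0 < v0) (hv1 : v0 < 1) (ht : 0 < t) (hI : InvT PL B I 1 fl (sc 1))
    {Bs : T → Fin 8 → ℝ} {sgs : T → ℝ}
    (O : Out8 R s a b' (VisT B I fl sc) (θ 0) (θ 1) g (q 0) (q 1) t Bs sgs
      (rL (θ 0) (θ 1) w0 sa sb v0) (fo ν own) x hh lam) (hc0 : 0 < c0)
    (hM : (srf8 (θ 0) (θ 1) t kD (-1)).LW (Q8 t) c0 ⊆
      (Q8 t).L (rs kp (y8 t)) (rs kp (r8 (θ 0) (θ 1))) 0) {ρ : Fin 8 → ℝ}
    (hR : Rates8 (θ 0) (θ 1) t kD (-1) c0 (lam 0) ρ) :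
    ∃ (l α : ℝ) (h' : ℕ → ℝ) (X : ℕ → Fin 12 → ℝ) (H : ℕ → ℝ)
      (lam2 : Fin 2 → (Fin 12 → ℝ) → ℝ) (ρ2 : Fin 8 → ℝ) (φ : Fin 9 → V9 → ℝ),
      KDat8 R s a b' (VisT B I fl sc) θ q g w0 sa sb v0 t k (fo ν own) lam ρ l α h' X H lam2 ρ2
        φ ∧ Co8 (θ 0) (θ 1) w0 sa sb kD X H := by
  have hS := sok_kD hθ hk hb
  have hvis : ∀ i, VisT B I fl sc i → i = 0 ∨ i = 1 ∨ i = 2 ∨ i = 7 ∨ i = 8 :=
    fun i hi => Fk647.vis_flag C.out i hi
  have hV1 : ¬ VisT B I fl sc 1 := not_not.2 hI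
  obtain ⟨l, α, h', X, H, lam2, ρ2, hl, -, -, P, co⟩ := plane8x (Vis' := VisK (VisT B I fl sc)) O ht hS
    leg_kD hc0 hR (v := 0) (c := -1) (p := -2) le_rfl hV1 (fun i hi => by
      have e6 : kD 6 = -1 := by ev8; norm_num
      have e7 : kD 7 = 0 := by ev8; norm_num
      have e0 : kD 0 = 0 := by ev8
      rcases hvis i hi with rfl | rfl | rfl | rfl | rfl
      · left
        refine ⟨⟨hi, by decide, by decide⟩, ?_⟩
        change kD 0 ≤ kD 0 * βL (θ 0) (θ 1) 0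
        rw [e0, zero_mul]
      · exact absurd hi hV1
      · left
        refine ⟨⟨hi, by decide, by decide⟩, ?_⟩
        change kD 7 ≤ kD 0 * βL (θ 0) (θ 1) 2
        rw [e0, zero_mul, e7]
      · right
        change kD 6 < kD 0 * βL (θ 0) (θ 1) 7
        rw [e0, zero_mul, e6]; norm_num
      · right
        change kD 6 < kD 0 * βL (θ 0) (θ 1) 8
        rw [e0, zero_mul, e6]; norm_num)
    (N := univ) (Eventually.of_forall fun _ => mem_univ _) one_pos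
  obtain ⟨φ, hcl⟩ := P.cls ht hS (fun i hi => hvis i hi.1) (hc_kD hθ hk hb) h8_cK
    (hz_kD hθ hk hb)
  refine ⟨l, α, h', X, H, lam2, ρ2, φ, ⟨P, hcl, ?_, ?_, ?_, ?_, ?_, ?_⟩, co⟩
  · refine pd8_fct P C hs0 hs1 ht.ne' (Kt710.flagZ_any C (fun n => Subset.rfl)
      (θ 1 * (1 - v0) + 1)) hθ hv0 hv1 (by
        have := mul_pos hθ (by linarith : (0:ℝ) < 1 - v0)
        linarith) ?_
    intro w hw hSk i hi
    rcases hvis i hi.1 with rfl | rfl | rfl | rfl | rfl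
    · change w 0 ≤ w 0 * βL (θ 0) (θ 1) 0
      have : βL (θ 0) (θ 1) 0 = 1 := rfl
      rw [this, mul_one]
    · exact absurd hi.1 hV1
    · change w 7 ≤ w 0 * βL (θ 0) (θ 1) 2
      have e2 : βL (θ 0) (θ 1) 2 = -(θ 1) - 2 * -(θ 0) := rfl
      have e3 : βL (θ 0) (θ 1) 2 = k := by rw [e2, hb]; ring
      rw [e3, mul_comm]
      exact hSk
    · exact absurd rfl hi.2.1
    · exact absurd rfl hi.2.2
  · have h1 := P.half.rcd 1
    have h2 := O.rx.rcd 1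
    have z8 : xt kp 0 (0 : K8 → ℝ) = 0 := xt_zero8
    show lam2 0 (xt kp 0 (RL8.vec (fun i : Fin 8 => nat9 1 (-(θ 0)) (-(θ 1)) i.castSucc))) = _
    rw [natcut]
    rw [one_smul] at h1
    change lam2 0 (xt kp 0 (RL8.vec (nat8 1 (-(θ 0)) (-(θ 1))))) =
      lam 0 (xt kp 0 (RL8.vec (nat8 1 (-(θ 0)) (-(θ 1))))) - lam 0 (xt kp 0 0) at h1
    rw [z8, O.zero 0, sub_zero, RL8_nat] at h1
    rw [mul_one, mul_one] at h2
    rw [RL8_nat, h1]
    exact h2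
  · show lam2 0 (xt kp 0 (RL8.vec (fun i : Fin 8 => nat9 0 (-1) (-2) i.castSucc))) ≤ _
    rw [natcut]
    exact P.half.row
  · exact P.half.eq 0 (by simp [nat8])
  · exact P.half.eq 1 (by simp [nat8]; exact hθ.ne')
  · exact posA_kD ht.ne' hc0 hθ hk hb hR O.rx.prf (O.zero 0) O.rx.dmax hM

/-- **741's `FctK` on `kD`**, `B` visible or not -/
theorem fctK8V
    (C : CtxT G L r g s θ q Rg B I lev A f b vm w fr fl sc w0 sa sb δ R I0 I' ν own c₀)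
    {κ l α : ℝ} {Vis' : Fin 12 → Prop} {X : ℕ → Fin 12 → ℝ} {h' H : ℕ → ℝ}
    {lam2 : Fin 2 → (Fin 12 → ℝ) → ℝ} {ρ ρ2 : Fin 8 → ℝ}
    (P : Pd8 R s a b' Vis' (θ 0) (θ 1) w0 sa sb v0 t κ kD (-1) (fo ν own) lam ρ l α
      h' X H lam2 ρ2) (co : Co8 (θ 0) (θ 1) w0 sa sb kD X H) (ht : t ≠ 0) (hv0 : 0 < v0)
    (hv1 : v0 < 1) (hE : TieT θ B I lev fl sc 2) (hI : InvT PL B I 1 fl (sc 1)) :
    FctK (2 * θ 0 - θ 1) (Lam8 (lam2 0)) := by
  have pb := Th658.pbK8 P ht hv0 hv1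
  refine ⟨fun x Rw ho hx hL => ?_⟩
  have hL1 : LinS {0, 7}
      (fun w => lam2 0 (xt kp 0 (RL8.vec (fun i : Fin 8 => w i.castSucc)))) x Rw := hL
  have hL' : LinS {0, 7} (fun w => lam2 0 (E8 w)) x Rw := by
    simpa only [Tq794.E8_eq] using hL1
  refine Tw369.k3 C hE Tw369.em8 Tw369.rz8K pb (fun k hk0 hV => ?_) ho hx
    (Tw369.linS_mono (by decide) hL')
  have e6 : kD 6 = -1 := by ev8; norm_num
  have e0 : kD 0 = 0 := by ev8
  rcases Fk647.vis_flag C.out k hV with rfl | rfl | rfl | rfl | rfl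
  · exact absurd rfl hk0
  · exact absurd hI hV
  · exact Or.inl rfl
  · refine Or.inr (Or.inr (co 7 (by decide) ?_))
    change kD 6 < kD 0 * βL (θ 0) (θ 1) 7
    rw [e0, zero_mul, e6]; norm_num
  · refine Or.inr (Or.inr (co 8 (by decide) ?_))
    change kD 6 < kD 0 * βL (θ 0) (θ 1) 8
    rw [e0, zero_mul, e6]; norm_num

end ctx

end Crest.Agent.R116.Pk348
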