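import Crest.Agent.R116.Fd2_348
import Crest.Agent.R116.FlH_850

/-!
# R116 (K side, TIES), DOUBLE TIE: assembly of the table (helper348)

* `tabD_of`   : 460's data for `s < 1/2` or `1 ≤ k'`, from the cells `k' = 1`, `1 < k'`
* `falseD_of4` : `FalseD` from the four open cells
-/

set_option autoImplicit false

namespace Crest.Agent.R116.Fd348

open Crest.Agent.R116.KTop387
open Crest.Agent.R116.KTie794
open Crest.Agent.R116.Tie460

/-- **the table of the double tie** -/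
theorem tabD_of {η : ℝ} (hη : η < 1)
    (h2 : Fill η FlH850.VD fun g s θ q => 2 * θ 0 - θ 1 = 1 →
      DTie' (θ 0 - θ 1) (2 * θ 0 - θ 1) (θ 0) s (g + 2 * s) (q 0) (q 1))
    (h3 : Fill η FlH850.VD fun g s θ q => 1 < 2 * θ 0 - θ 1 →
      DTie' (θ 0 - θ 1) (2 * θ 0 - θ 1) (θ 0) s (g + 2 * s) (q 0) (q 1)) :
    Fill η FlH850.VD fun g s θ q => (s < 1 / 2 ∨ 1 ≤ 2 * θ 0 - θ 1) →
      DTie' (θ 0 - θ 1) (2 * θ 0 - θ 1) (θ 0) s (g + 2 * s) (q 0) (q 1) := by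
  refine (((fillD1s hη).and h2).and h3).mono fun g s θ q _ h hc => ?_
  rcases lt_trichotomy (2 * θ 0 - θ 1) 1 with h1 | h1 | h1
  · rcases hc with hs | hs
    · exact h.1.1 hs h1
    · exact absurd hs (by linarith)
  · exact h.1.2 h1
  · exact h.2 h1

/-- **`FalseD`** from the open cells -/
theorem falseD_of4 {η : ℝ} (hη : η < 1)
    (h2 : Fill η FlH850.VD fun g s θ q => 2 * θ 0 - θ 1 = 1 →
      DTie' (θ 0 - θ 1) (2 * θ 0 - θ 1) (θ 0) s (g + 2 * s) (q 0) (q 1))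
    (h3 : Fill η FlH850.VD fun g s θ q => 1 < 2 * θ 0 - θ 1 →
      DTie' (θ 0 - θ 1) (2 * θ 0 - θ 1) (θ 0) s (g + 2 * s) (q 0) (q 1))
    (hP : Fill η FlH850.VD fun _ s θ _ => 1 / 2 ≤ s → 2 * θ 0 - θ 1 < 1 →
      2 * θ 0 ≤ 1 + (θ 0 - θ 1) → False)
    (hM : Fill η FlH850.VD fun _ s θ _ => 1 / 2 ≤ s → 1 / 2 < 2 * θ 0 - θ 1 →
      2 * θ 0 - θ 1 < 1 → 1 + (2 * θ 0 - θ 1) ≤ 3 * θ 0 → False) : FalseD η :=
  FlH850.falseD_cells hη (tabD_of hη h2 h3) hP hM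

end Crest.Agent.R116.Fd348
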