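import Crest.Agent.R116.FlK2_30
import Crest.Agent.R116.K1p3_736
import Crest.Agent.R116.D2u_736
import Crest.Agent.R116.FlH_850

/-!
# R116 (K side, TIES), DOUBLE TIE, cell D2 : `k' = 2 θ 0 - θ 1 = 1` exactly, every `s` (helper460)

* **`d2_low`** : the half plane data below the record at `kD`, `B` visible (strictly coarser)
* **`cellD2`**  : `DTie'` over the context (above the record: helper736's `d2_up`)
* **`fillD2`**  : the `Fill`, no binder
-/

set_option autoImplicit false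
set_option linter.unusedSectionVars false
set_option linter.unusedVariables false

open Set Filter Topology MeasureTheory

namespace Crest.Agent.R116.D2460

open Crest.Agent.R138
open Crest.Agent.R138.Ex926 (Base U IsTan)
open Crest.Agent.R136
open Crest.Agent.R136.MkA627
open Crest.Agent.R136.TD627
open Crest.Agent.R136.Net191
open Crest.Agent.R136.Lq196
open Crest.Agent.R136.Qg926 Crest.Agent.R136.Gf356 Crest.Agent.R116.EvL504
open Crest.Agent.R116.ChL222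
open Crest.Agent.R116.PL504 (nb rL DN eL βL oL Shift eL_wall)
open Crest.Agent.R116.Sg337 (bx9 DL)
open Crest.Agent.R116.Gd222 (TSet sN PDL DT)
open Crest.Agent.R116.KI439 hiding kD
open Crest.Agent.R116.KF439 (PL)
open Crest.Agent.R116.CtxB468
open Crest.Agent.R116.Rcx363
open Crest.Agent.R116.RbM219
open Crest.Agent.R116.RbK219 (RS SOk Par dl)
open Crest.Agent.R116.Kz647
open Crest.Agent.R116.Rz460
open Crest.Agent.R116.Pd363
open Crest.Agent.R116.Tq741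
open Crest.Agent.R116.Tq126
open Crest.Agent.R116.Tp139 hiding cl8
open Crest.Agent.R116.Ku126 (tk8_D)
open Crest.Agent.R116.K1p736 (plane8zE)
open Crest.Agent.R116.Tk299 (K3K AK kf1)
open Crest.Agent.R116.K1d30 (kf1K' natcut)
open Crest.Agent.R116.KTop387
open Crest.Agent.R116.KTie794
open Tie460 (Pl KF' DTie' EUp')
open Dg219 (mw Walls)
open Sl741 (slice xt rs)

section ctx

variable {G : Geo TSet (Fin 2)} {L : ℕ → ℕ → LRay} {r : ℕ → ℝ} {g s : ℝ} {θ q : Fin 2 → ℝ}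
    {Rg : ℝ} {B : Base} {I : ℕ → Finset (ℕ × ℝ)} {lev : ℕ → ℚ → ℕ} {A : ℕ → ℝ}
    {f : ℕ → ℚ → ℕ → ℤ → ℕ} {b : ℕ → ℚ → ℕ → TSet} {vm : ℕ → ℚ → ℝ} {w : Fin 2 → ℕ → ℚ → ℝ}
    {fr : ℕ → ℚ → ℕ × ℝ → LInc} {fl : ℕ → ℕ × ℝ → LInc} {sc : Fin 12 → ℕ → ℝ}
    {w0 sa sb δ R : ℝ} {I0 I' : ℕ → Finset (ℕ × ℝ)} {ν own : (Fin 12 → ℝ) → ℝ} {c₀ : ℝ}

/-- **below the record at `k' = 1`**, `B` visible: the plane `kD` lowers `b`, so that `B` is strictly
coarser than its level there -/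
theorem d2_low {T : Type*} {Bs : T → Fin 8 → ℝ} {sgs : T → ℝ} {v0 : ℝ} {a b' : Fin 2}
    {x : ℕ → Fin 12 → ℝ} {hh : ℕ → ℝ} {lam : Fin 2 → (Fin 12 → ℝ) → ℝ}
    (C : CtxT G L r g s θ q Rg B I lev A f b vm w fr fl sc w0 sa sb δ R I0 I' ν own c₀)
    (hs0 : 0 ≤ s) (hs1 : s ≤ 1) (hθ : 0 < θ 0) (hβ : 2 * θ 0 - θ 1 - 1 = 0)
    (hv0 : 0 < v0) (hv1 : v0 < 1)
    (hVis : ∀ k, VisT B I fl sc k → k = 0 ∨ k = 2 ∨ k = 7 ∨ k = 8)
    (hE : ¬ InvT PL B I 2 fl (sc 2))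
    (O : Out8z R s a b' (VisT B I fl sc) (θ 0) (θ 1) g (q 0) (q 1) Bs sgs
      (rL (θ 0) (θ 1) w0 sa sb v0) (fo ν own) x hh lam)
    {c0 : ℝ} (hc0 : 0 < c0) {ρ : Fin 8 → ℝ}
    (hR : Rates8 (θ 0) (θ 1) 0 kD (-1) c0 (lam 0) ρ) :
    ∃ A : Pl, KF' s 1 A ∧ TVk 1 (θ 0) s g (q 0) (q 1) 0 (-1) A ∧ A.m = ρ 1 := by
  have hb : θ 1 = 2 * θ 0 - 1 := by linarith
  have kD_eq : kD = nat8 0 (-1) (2 * (-1)) := by unfold kD; norm_num
  have hS := sok_kD hθ one_pos hb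
  have hc := hc_kD hθ one_pos hb
  have hz := hz_kD hθ one_pos hb
  have hdl := tk8_D hb
  rw [kD_eq] at hS hc hz hdl hR
  have hV1 : ¬ VisT B I fl sc 1 := fun h => by
    rcases hVis 1 h with h | h | h | h <;> exact absurd h (by decide)
  have e2 : βL (θ 0) (θ 1) 2 = 1 := by
    change -(θ 1) - 2 * -(θ 0) = 1
    linarith
  obtain ⟨l, α, h', X, H, lam3, lam4, ρ3, ρ4, hl, -, -, P, hρ, hrec, V, E, hV0, hE0, hEp, hEH, hX⟩ :=
    plane8zE (Vis' := fun k => k = 0 ∨ k = 2) O hβ hS (leg80_nat (by ring)) hc0 hR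
      (v := 0) (c := -1) (p := 2 * (-1)) le_rfl (by linarith) hV1 (fun k hk => by
        rcases hVis k hk with rfl | rfl | rfl | rfl
        · left
          refine ⟨Or.inl rfl, ?_⟩
          change (0:ℝ) ≤ 0 * 1
          norm_num
        · left
          refine ⟨Or.inr rfl, ?_⟩
          rw [e2]
          change 2 * (-1) - 2 * (-1) ≤ (0:ℝ) * 1
          norm_num
        · right
          change (2 * (-1) - (-1) : ℝ) < 0 * _
          rw [zero_mul]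
          norm_num
        · right
          change (2 * (-1) - (-1) : ℝ) < 0 * _
          rw [zero_mul]
          norm_num) (N := univ) (by simp) one_pos
  obtain ⟨φ, Hc⟩ := P.cls one_pos hS (fun k hk => by rcases hk with rfl | rfl <;> simp) hc h8_cK hz
  have F : Fct9 (fun w => w 7 ≤ w 0) s
      (fun w : V9 => lam4 0 (xt kp 0 (RL8.vec (fun i : Fin 8 => w i.castSucc)))) := by
    refine Kt387.pd8_fct' P C hs0 hs1 one_ne_zero hθ hv0 hv1 ?_
    intro w' _ hSk k hk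
    rcases hk with rfl | rfl
    · change w' 0 ≤ w' 0 * 1
      rw [mul_one]
    · rw [e2, mul_one]
      exact hSk
  have hX0 : ∀ m, X m 0 - w0 = v0 + V m := fun m => by
    rw [hX m 0 (by decide)]
    change w0 + (v0 + V m) + E m * 0 - w0 = _
    ring
  have K3 : K3K s (fun w : V9 => lam4 0 (xt kp 0 (RL8.vec (fun i : Fin 8 => w i.castSucc)))) := by
    refine K3V460.k3K_pd8 P C one_ne_zero hβ (by ring) hE hv0 hv1 fun k hk => Or.inr fun K => ?_
    filter_upwards [hEH K] with m hm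
    rw [hX0 m]
    rcases hk with rfl | rfl
    · rw [hX m 7 (by decide)]
      change _ + E m * (2 * (-1) - (-1)) + K * H m ≤ _
      linarith
    · rw [hX m 8 (by decide)]
      change _ + E m * (2 * (-1) - (-1)) + K * H m ≤ _
      linarith
  have hKF := kf1K' hdl Hc hs0 hs1 F (fun w h7 h8 => h7.le) K3
  have T1 : (fun w : V9 => lam4 0 (xt kp 0 (RL8.vec (fun i : Fin 8 => w i.castSucc))))
      (nat9 1 (-(θ 0)) (-(2 * (θ 0) - 1))) =
        DL g s (q 0) (q 1) 1 (-(θ 0)) (-(2 * (θ 0) - 1)) := by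
    show lam4 0 (xt kp 0 (RL8.vec
      (fun i : Fin 8 => nat9 1 (-(θ 0)) (-(2 * (θ 0) - 1)) i.castSucc))) = _
    rw [natcut, ← hb]
    have h1 := hrec 1
    rw [one_smul, mul_one, mul_one] at h1
    exact h1
  have V1 : (fun w : V9 => lam4 0 (xt kp 0 (RL8.vec (fun i : Fin 8 => w i.castSucc))))
      (nat9 0 (-1) (2 * (-1) + 1 * 0)) ≤ DL g s (q 0) (q 1) 0 (-1) (2 * (-1) + 1 * 0) := by
    show lam4 0 (xt kp 0 (RL8.vec
      (fun i : Fin 8 => nat9 0 (-1) (2 * (-1) + 1 * 0) i.castSucc))) ≤ _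
    have e : 2 * (-1) + 1 * 0 = (2 * (-1) : ℝ) := by ring
    rw [natcut, e]
    exact P.half.row
  refine ⟨_, hKF, Tk299.PlK.tv hdl Hc (fun _ => rfl) T1 V1, ?_⟩
  show sn8 ρ4 0 1 = ρ 1
  exact hρ 1 (A1_ne hθ)

/-- **cell D2 over the context** -/
theorem cellD2 {η : ℝ} (hη : η < 1)
    (C : CtxT G L r (g + 2 * s) s θ q Rg B I lev A f b vm w fr fl sc w0 sa sb δ R I0 I' ν own c₀)
    (hN : NumL η g s θ q) (hβ : 2 * θ 0 - θ 1 - 1 = 0)
    (hR0 : w0 + (θ 1 + sb) < R) (hR1 : w0 + 1 + sb < R) (hRg : θ 0 + |θ 1| < Rg)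
    (h1 : InvT PL B I 1 fl (sc 1)) (hE : ¬ InvT PL B I 2 fl (sc 2))
    (hB : TieT θ B I lev fl sc 7 ∨ TieT θ B I lev fl sc 8) :
    DTie' (θ 0 - θ 1) (2 * θ 0 - θ 1) (θ 0) s (g + 2 * s) (q 0) (q 1) := by
  have hθ : 0 < θ 0 := hN.θa
  have hb : θ 1 = 2 * θ 0 - 1 := by linarith
  have hs0 : 0 ≤ s := hN.s0
  have hs1 : s ≤ 1 := hN.s1.le
  have hk1 : 2 * θ 0 - θ 1 = 1 := by linarith
  have hVis : ∀ k, VisT B I fl sc k → k = 0 ∨ k = 2 ∨ k = 7 ∨ k = 8 := fun k hk => by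
    rcases Fk647.vis_flag C.out k hk with h | h | h | h | h
    · exact Or.inl h
    · rw [h] at hk
      exact absurd h1 hk
    · exact Or.inr (Or.inl h)
    · exact Or.inr (Or.inr (Or.inl h))
    · exact Or.inr (Or.inr (Or.inr h))
  by_cases h2 : 2 * θ 0 < 1
  · -- both sides
    have hb0 : θ 1 < 0 := by linarith
    obtain ⟨v0, -, hv0, hv1, a, b', x, hh, lam, hX, O⟩ := exists_out8z (T := Fin 3) C hR0 hR1 hθ
      hRg hβ (Bs := ![kD, oS, oP]) (sg := ![-1, 1, 1]) (fun i => by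
        fin_cases i
        · exact sok_kD hθ one_pos hb
        · exact sok_oS (by linarith) (by linarith)
        · exact sok_oP (by linarith) (by linarith) hb0) (fun i => by
        fin_cases i
        · exact leg80_kD
        · exact leg80_oS
        · exact leg80_oP) (N := univ) (by simp)
    obtain ⟨cD, hcD, hLD, -, ρD, hRD⟩ := O.surf 0
    obtain ⟨cS, hcS, hLS, -, ρS, hRS⟩ := O.surf 1
    obtain ⟨cP, hcP, hLP, -, ρP, hRP⟩ := O.surf 2
    change (srf8 (θ 0) (θ 1) 0 kD (-1)).LW (Q8 0) cD ⊆ _ at hLD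
    change Rates8 (θ 0) (θ 1) 0 kD (-1) cD (lam 0) ρD at hRD
    change (srf8 (θ 0) (θ 1) 0 oS 1).LW (Q8 0) cS ⊆ _ at hLS
    change Rates8 (θ 0) (θ 1) 0 oS 1 cS (lam 0) ρS at hRS
    change (srf8 (θ 0) (θ 1) 0 oP 1).LW (Q8 0) cP ⊆ _ at hLP
    change Rates8 (θ 0) (θ 1) 0 oP 1 cP (lam 0) ρP at hRP
    have hp := O.posA_kD hβ hθ hcD hLD hRD
    obtain ⟨A1, hA, tvA, hAm⟩ := d2_low C hs0 hs1 hθ hβ hv0 hv1 hVis hE O hcD hRD
    refine ⟨A1, by rw [hk1]; exact hA, fun h => absurd h (by linarith), ?_, tvA.ver (by norm_num),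
      by rw [hAm]; exact hp, fun h => absurd h (by linarith), fun _ hk _ =>
      D2u736.d2_up C hθ hs0 hs1 hβ h1 hB hk hv0 hv1 O hcD hcS hcP hLD hLS hLP hRD hRS hRP hAm⟩
    have e : θ 0 - (θ 0 - θ 1) = 2 * θ 0 - 1 := by linarith
    rw [e]
    exact tvA.tan
  · obtain ⟨v0, -, hv0, hv1, a, b', x, hh, lam, hX, O⟩ := exists_out8z (T := Unit) C hR0 hR1 hθ
      hRg hβ (Bs := fun _ => kD) (sg := fun _ => -1) (fun _ => sok_kD hθ one_pos hb)
      (fun _ => leg80_kD) (N := univ) (by simp)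
    obtain ⟨cD, hcD, hLD, -, ρD, hRD⟩ := O.surf ()
    have hp := O.posA_kD hβ hθ hcD hLD hRD
    obtain ⟨A1, hA, tvA, hAm⟩ := d2_low C hs0 hs1 hθ hβ hv0 hv1 hVis hE O hcD hRD
    refine ⟨A1, by rw [hk1]; exact hA, fun h => absurd h (by linarith), ?_, tvA.ver (by norm_num),
      by rw [hAm]; exact hp, fun h => absurd h (by linarith), fun _ hk _ =>
      absurd hk (by linarith)⟩
    have e : θ 0 - (θ 0 - θ 1) = 2 * θ 0 - 1 := by linarith
    rw [e]
    exact tvA.tan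

end ctx

/-- **THE FILL of the cell D2** (`k' = 1`), no binder -/
theorem fillD2 {η : ℝ} (hη : η < 1) :
    Fill η FlH850.VD fun g s θ q => 2 * θ 0 - θ 1 = 1 →
      DTie' (θ 0 - θ 1) (2 * θ 0 - θ 1) (θ 0) s (g + 2 * s) (q 0) (q 1) := by
  intro g s θ q hN
  refine ⟨θ 0 + |θ 1| + 1, fun Rg hRg => ?_⟩
  intro G L r B I lev A f b vm w fr fl sc w0 sa sb δ R I0 I' ν own c₀ C hV hk
  obtain ⟨hB, hE⟩ := hV
  obtain ⟨w0', sa', sb', δ', R', J0, J', ν', own', c', C', hR0, hR1⟩ := strict_ctx C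
  have h1 : InvT PL B I 1 fl (sc 1) := not_not.1 (Fk647.vis_noD C'.out hk.le)
  have h2 : ¬ InvT PL B I 2 fl (sc 2) := by
    rcases hE with h | h
    · exact h.1
    · exact absurd h1 h.1
  exact cellD2 hη C' hN (by linarith) hR0 hR1 (by linarith) h1 h2 hB

/-- the same cell, closed -/
theorem fillD2_false {η : ℝ} (hη : η < 1) :
    Fill η FlH850.VD fun g s θ q => 2 * θ 0 - θ 1 = 1 → False := by
  intro g s θ q hN
  obtain ⟨R1, h⟩ := fillD2 hη g s θ q hN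
  refine ⟨R1, fun Rg hRg => ?_⟩
  intro G L r B I lev A f b vm w fr fl sc w0 sa sb δ R I0 I' ν own c₀ C hV hk
  have hk0 := TieT.kB hV.1
  exact (h Rg hRg G L r B I lev A f b vm w fr fl sc w0 sa sb δ R I0 I' ν own c₀ C hV hk).false
    (num_of hη hN) hk0 (by ring)

end Crest.Agent.R116.D2460
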