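import Crest.Agent.R116.K3W7_593

/-!
# R116, ties: [K3H] with `B` visible, strictly coarser than its own level (helper460)

Copy of 593's `k3h_ext0`, `k3h_ext`, `k3h_ctx`, `k3h_lin` with visible flags coarser than their
own level (double tie, `k' = 1`, plane below the record).

* **`k3h_ctxV`**, **`k3h_linV`**
-/

set_option autoImplicit false
set_option linter.unusedVariables false
set_option linter.unusedSectionVars false

open Filter Topology Finset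

namespace Crest.Agent.R116.K3V460

open Crest.Agent.R138.Ex926 (Base U IsTan)
open Crest.Agent.R138.TwA501 (dpow_pos dpow_anti dpow_add dpow_le_one)
open Crest.Agent.R136.Gf356 Crest.Agent.R136.Net191 Crest.Agent.R136.Qg926
open Crest.Agent.R136.Lq196
open Crest.Agent.R116.ChL222 Crest.Agent.R116.PL504 Crest.Agent.R116.EvL504
open Crest.Agent.R116.Kr710 Crest.Agent.R116.Kst593
open Crest.Agent.R116.WinU954 Crest.Agent.R116.WinG954
open Crest.Agent.R116.Sg337 (bx9)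
open Crest.Agent.R116.K3h593

section ext

variable {B : Base} {I0 I' : ℕ → Finset (ℕ × ℝ)} {co : ∀ n : ℕ, ℕ × ℝ → ℕ × ℝ → Fin 12 → ℝ}
  {C R w0 s c₀ : ℝ} {PD : Set (Fin 12 → ℝ)} {Dm : (Fin 12 → ℝ) → ℝ} {r o : ℝ → Fin 12 → ℝ}
  {Em : ℝ → ℝ} {T : Fin 12 → Prop} {ν own : (Fin 12 → ℝ) → ℝ}
  {κ : Type*} [DecidableEq κ] {cell : ∀ n : ℕ, ℚ → ℕ × ℝ → κ} {γ o0 β : Fin 12 → ℝ}
  {Sl : Fin 12 → Set ℝ}

theorem k3h_extV0 (hR : 0 ≤ R) (hC : 0 < cK0 monL C)
    (hext : ExtQ B I0 I' co monL C R 0 w0 s PD Dm r o Em T ν own c₀)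
    (hcoc : ∀ n, Coc (co n))
    (H : OStrips B I0 co (fun _ x => x.1) cell 0 {2} w0 s γ o0 β Sl) (hγ : 0 < γ 2)
    (hβ : 0 < β 2) (hSl : Sl 2 = Set.univ)
    (ho0 : ∀ v, o v 0 = w0 + v) (ho2 : ∀ v, o v 2 = o0 2 + β 2 * v)
    {X : ℕ → Fin 12 → ℝ} {hh : ℕ → ℝ} (hpos : ∀ l, 0 < hh l) (hh0 : Tendsto hh atTop (𝓝 0))
    {D : Set (Fin 12 → ℝ)} {lam : (Fin 12 → ℝ) → ℝ} (htan : IsTan (Leg monL R) D ν X hh lam)
    {t : ℝ} (ht : 0 < t) (hD : Leg monD t ⊆ D) {v : ℕ → ℝ} (hX0 : ∀ l, X l 0 = w0 + v l)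
    (hoR : ∀ k, k ≠ 0 → k ≠ 2 → (∀ v, o v k = R) ∨
      ∀ l u, 0 ≤ u → u ≤ t → X l k + hh l * t ≤ o (v l + hh l * u) k)
    (hX2 : ∀ l, X l 2 = o0 2 + β 2 * v l) (hv0 : ∀ l, 0 < v l)
    (hv1 : ∀ l, v l + hh l * (t / β 2) ≤ 1) (hv2 : ∀ l, v l + hh l * t ≤ 1)
    (hleg : ∀ l, X l ∈ Leg monL R)
    (hT1 : ∀ l, X l 11 = X l 0 + X l 10) (hT2 : ∀ l, X l 11 = X l 2 + X l 9)
    (hsl : ∀ K : ℝ, ∀ᶠ l in atTop, X l 2 + K * hh l ≤ X l 0 + X l 1)
    (dens : lam (topD t) ≤ lam (bx9 0 0 0 t t t t t t) + lam (bx9 t 0 t 0 0 0 0 0 0))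
    {x y : ℝ} (hx0 : 0 < x) (hx : 2 * x ≤ t) (hy0 : 0 ≤ y) (hyx : y ≤ x)
    (hQ : ∀ t' : ℝ, 0 ≤ t' → t' ≤ x →
      (1 - s) * t' ≤ lam (bx9 t 0 t x x y 0 0 x) - lam (bx9 t 0 t x x y t' t' x)) :
    (1 - s) * x ≤ lam (bx9 t 0 t x x y 0 0 0) - lam (bx9 t 0 t x x y 0 0 x) := by
  have hs0 := hext.s0
  have hs1 := hext.s1
  set σ : ℝ := 1 - s with hσ
  have hσ0 : 0 ≤ σ := by rw [hσ]; linarith
  have hσ1 : σ ≤ 1 := by rw [hσ]; linarith
  have hN := nprof_of_ext hR hext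
  have hzero : (0 : Fin 12 → ℝ) ∈ Leg monD t := (stG_fro ht.le).zero_mem ht.le
  have h0 : (0 : Fin 12 → ℝ) ∈ D := hD hzero
  have hst := stT_ok (K := cK0 monL C) hC ht.le hD
  -- own profile at the base points
  have hval : ∀ l, 0 ≤ v l ∧ v l ≤ 1 := fun l => by
    refine ⟨(hv0 l).le, ?_⟩
    have h1 := hv1 l
    have h2 : 0 ≤ hh l * (t / β 2) := mul_nonneg (hpos l).le (div_nonneg ht.le hβ.le)
    linarith
  have hle : ∀ l, ∀ p ∈ Leg monL R, p 0 = w0 + v l → p 2 = o0 2 + β 2 * v l →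
      (∀ k, p k ≤ X l k + hh l * t) → own p = (1 - s) * (1 - v l) := by
    intro l p hp h0 h2 hpk
    refine hext.own_rot p hp (v l) (hval l).1 (hval l).2 h0 fun k => ?_
    by_cases hk0 : k = 0
    · rw [hk0, ho0, h0]
    · by_cases hk2 : k = 2
      · rw [hk2, ho2, h2]
      · rcases hoR k hk0 hk2 with h3 | h3
        · rw [h3]; exact hp.2 k
        · have h4 := h3 l 0 le_rfl ht.le
          rw [mul_zero, add_zero] at h4
          exact (hpk k).trans h4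
  have hov : ∀ l, own (X l) = (1 - s) * (1 - v l) := fun l =>
    hle l _ (hleg l) (hX0 l) (hX2 l) fun k => by
      have := mul_nonneg (hpos l).le ht.le
      linarith
  -- the height
  have frost : ∀ y, 0 ≤ y → y ≤ t → lam (Pi.single 0 y) ≤ -(σ * y) := by
    intro y h1 h2
    have hcD : (Pi.single 0 y : Fin 12 → ℝ) ∈ D := hD ((stG_fro ht.le).single_leg h1 h2)
    refine le_of_forall_pos_le_add fun ε hε => ?_
    obtain ⟨l, hl⟩ := (htan ‖(Pi.single 0 y : Fin 12 → ℝ)‖ ε hε).exists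
    obtain ⟨a1, a2⟩ := hl _ hcD le_rfl
    have hy : 0 ≤ hh l * y := mul_nonneg (hpos l).le h1
    have hxk : ∀ k, k ≠ 0 → (X l + hh l • (Pi.single 0 y : Fin 12 → ℝ)) k = X l k := by
      intro k hk
      show X l k + hh l * (Pi.single 0 y : Fin 12 → ℝ) k = _
      rw [Pi.single_eq_of_ne hk, mul_zero, add_zero]
    have hx0' : (X l + hh l • (Pi.single 0 y : Fin 12 → ℝ)) 0 = w0 + (v l + hh l * y) := by
      show X l 0 + hh l * (Pi.single 0 y : Fin 12 → ℝ) 0 = _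
      rw [Pi.single_eq_same, hX0]; ring
    have hle2 : X l ≤ X l + hh l • (Pi.single 0 y : Fin 12 → ℝ) := by
      intro k
      by_cases hk : k = 0
      · rw [hk, hx0', hX0]; linarith
      · rw [hxk k hk]
    have h3 := hext.own_le _ (hleg l) _ a1 hle2
    have h4 : own (X l + hh l • (Pi.single 0 y : Fin 12 → ℝ)) =
        (1 - s) * (1 - (v l + hh l * y)) := by
      refine hext.own_rot _ a1 _ (by linarith [(hval l).1]) ?_ hx0' fun k => ?_
      · have := hv2 l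
        have := mul_le_mul_of_nonneg_left h2 (hpos l).le
        linarith
      · by_cases hk0 : k = 0
        · rw [hk0, ho0, hx0']
        · rw [hxk k hk0]
          by_cases hk2 : k = 2
          · rw [hk2, ho2, hX2]
            have := mul_nonneg hβ.le hy
            linarith
          · rcases hoR k hk0 hk2 with h3 | h3
            · rw [h3]; exact (hleg l).2 k
            · have h4 := h3 l y h1 h2
              have h5 := mul_nonneg (hpos l).le ht.le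
              linarith
    rw [hov l, h4] at h3
    have a3 := abs_le.1 a2
    have h5 : hh l * lam (Pi.single 0 y) ≤ hh l * (-(σ * y) + ε) := by
      have e : (1 - s) * (1 - v l) - (1 - s) * (1 - (v l + hh l * y)) = hh l * (σ * y) := by
        rw [hσ]; ring
      rw [e] at h3
      linarith [a3.1, a3.2]
    exact le_of_mul_le_mul_left h5 (hpos l)
  have hown : ∀ᶠ l in (atTop : Filter ℕ),
      own (X l + hh l • cut (stT (cK0 monL C) t).S (stT (cK0 monL C) t).top 0) = own (X l) := by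
    have e : cut (stT (cK0 monL C) t).S (stT (cK0 monL C) t).top 0 = bx9 0 0 0 t t t t t t :=
      cut02_lin t
    rw [e]
    filter_upwards [htan ‖bx9 0 0 0 t t t t t t‖ 1 one_pos] with l hl
    have h1 := (hl _ (hD (lin_mem02 ht.le)) le_rfl).1
    rw [hov l]
    refine hle l _ h1 ?_ ?_ fun k => ?_
    · show X l 0 + hh l * (0 : ℝ) = _
      rw [mul_zero, add_zero]; exact hX0 l
    · show X l 2 + hh l * (0 : ℝ) = _
      rw [mul_zero, add_zero]; exact hX2 l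
    · show X l k + hh l * bx9 0 0 0 t t t t t t k ≤ _
      have h6 : bx9 0 0 0 t t t t t t k ≤ t :=
        bx9_ub ht.le ht.le ht.le le_rfl le_rfl le_rfl le_rfl le_rfl le_rfl k
      have := mul_le_mul_of_nonneg_left h6 (hpos l).le
      linarith
  obtain ⟨uq, k, hk, hk2⟩ := exists_swin (st := stT (cK0 monL C) t) hN hpos h0 htan hst
    (rl := fun _ x => x.1) (own := own) hext.oprof hown (cell := cell) (Ts := {2}) H
    (fun j hj => by rw [mem_singleton.1 hj]; exact hγ.le)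
    (fun j hj => by rw [mem_singleton.1 hj]; exact hβ) hs0 hs1 (v := v) hX0 hv0
    (fun l => (hval l).2) ht (fun j hj l => by rw [mem_singleton.1 hj]; exact hv1 l)
    (fun j hj l => by rw [mem_singleton.1 hj]; exact hX2 l) hov (fun _ _ => 1)
    (fun _ => Base.Sub.const one_pos) (fun _ => (0, 0)) (Gd := I') (E := I')
    (Eventually.of_forall fun n => Subset.refl _) (Eventually.of_forall fun n => Subset.refl _)
    (Sd := fun _ => 1) (Base.Sub.const one_pos) (Eventually.of_forall fun n => by rw [one_mul])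
  obtain ⟨B', s₀, W, hW, b1, b2, b3, b4, ok, RL, WS⟩ :=
    hk2 k hk (Eventually.of_forall fun n => le_rfl)
  have hWS := WS 2 (mem_singleton_self 2)
  rw [hSl] at hWS
  have hden : (stT (cK0 monL C) t).Dens lam σ t :=
    { dens := by
        show lam (topD t) ≤ lam (cut {0, 2} (topD t) 0) + lam (cut {0, 2} 0 (topD t))
        rw [cut02_lin, cut02_lev]
        exact dens
      σ0 := hσ0
      σ1 := hσ1
      hR := by
        show t ≤ topD t 0
        rw [topD_ne t (by decide)]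
      frost := frost }
  have eB : W.B = B := by rw [hW]; rfl
  have eB' : W.B' = B' := by rw [hW]; rfl
  have eS : W.S = {0, 2} := by rw [hW]; rfl
  have etop : W.top = topD t := by rw [hW]; rfl
  have ekap : W.kap = fun s => cK0 monL C ^ wtL s := by rw [hW]; rfl
  have eX : W.X = fun n => X (k n) := by rw [hW]; rfl
  have enu : ∀ p, W.nu p = lam (cut {0, 2} p (topD t)) - lam (topD t) := fun p => by
    rw [hW]; rfl
  have eleg : ∀ p, p ∈ W.legW ↔ cut {0, 2} p (topD t) ∈ Leg monD t ∧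
      ∀ s, s ∉ ({0, 2} : Finset (Fin 12)) → p s ≤ topD t s := fun p => by rw [hW]; rfl
  have hmodel : ∃ (E' : ∀ n, Finset (ℕ × ℝ)) (g : ℕ → ℝ),
      Wnd.Pruned W W.Cl E' g (exO W (fun _ x => x.1) (fun _ _ _ => 0)) ∧
      RModel W.B' (W.cfg E') σ t W.legW W.nu W.Dc := by
    subst hW
    obtain ⟨E', g, p1, p2, p3⟩ := hden.model ok ok.eok_class
      (exO _ (fun _ x => x.1) (fun _ _ _ => 0)) (g₀ := fun n => (n : ℝ))
      (tendsto_natCast_atTop_atTop.mono_left Crest.Agent.R138.Ex926.U_le_atTop)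
    exact ⟨E', g, p1, p3⟩
  obtain ⟨E', g, hP, hmod⟩ := hmodel
  have wl : WL W (cK0 monL C) t :=
    { ok := ok
      hM := by rw [hW]; rfl
      coc := by rw [hW]; exact hcoc
      hK := by rw [hW]; exact le_rfl
      kap := fun s => by rw [ekap]
      hS := by rw [eS]; decide
      kz := by rw [hW]; rfl
      topS := fun s hs => by
        rw [eS] at hs
        rw [etop, topD_ne t (by rintro rfl; exact absurd hs (by decide))]
      topL := fun s hs => by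
        rw [etop, topD_ne t (by rintro rfl; exact hs (by decide))] }
  have hside : ∀ n s, side W n s = cK0 monL C ^ wtL s * B.d n ^ X (k n) s := fun n s => by
    unfold side; rw [ekap, eB, eX]
  have hxt : x ≤ t := by linarith
  -- the fact
  set Δ : ℝ := lam (bx9 t 0 t x x y 0 0 0) - lam (bx9 t 0 t x x y 0 0 x) with hΔ
  have m1 : bx9 t 0 t x x y 0 0 0 ∈ Leg monD t :=
    bx9_legD.2 ⟨⟨ht.le, le_rfl, ht.le, hx0.le, hx0.le, hy0, le_rfl, le_rfl, le_rfl⟩,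
      ⟨by linarith, by linarith, by linarith, by linarith, by linarith, by linarith, by linarith⟩,
      ⟨le_rfl, ht.le, le_rfl, hxt, hxt, hyx.trans hxt, ht.le, ht.le, ht.le⟩⟩
  have m2 : bx9 t 0 t x x y 0 0 x ∈ Leg monD t :=
    bx9_legD.2 ⟨⟨ht.le, le_rfl, ht.le, hx0.le, hx0.le, hy0, le_rfl, le_rfl, hx0.le⟩,
      ⟨by linarith, by linarith, by linarith, by linarith, by linarith, by linarith, by linarith⟩,
      ⟨le_rfl, ht.le, le_rfl, hxt, hxt, hyx.trans hxt, ht.le, ht.le, hxt⟩⟩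
  have m3 : ∀ t', 0 ≤ t' → t' ≤ x → bx9 t 0 t x x y t' t' x ∈ Leg monD t := fun t' h1 h2 =>
    bx9_legD.2 ⟨⟨ht.le, le_rfl, ht.le, hx0.le, hx0.le, hy0, h1, h1, hx0.le⟩,
      ⟨by linarith, by linarith, by linarith, by linarith, by linarith, by linarith, by linarith⟩,
      ⟨le_rfl, ht.le, le_rfl, hxt, hxt, hyx.trans hxt, h2.trans hxt, h2.trans hxt, hxt⟩⟩
  have hΔ0 : 0 ≤ Δ := by
    have := tan_anti hext hpos htan (hD m1) (hD m2)
      (bx9_le le_rfl le_rfl le_rfl le_rfl le_rfl le_rfl le_rfl le_rfl hx0.le)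
    rw [hΔ]; linarith
  have off : ∀ (p : Fin 12 → ℝ), p 1 ≤ 0 → (∀ s, p s ≤ t) →
      ∀ s, s ∉ ({0, 2} : Finset (Fin 12)) → p s ≤ topD t s := fun p h1 h2 s _ => by
    by_cases hs : s = 1
    · rw [hs, topD_one]; exact h1
    · rw [topD_ne t hs]; exact h2 s
  have ku : KU W t x (bx9 0 0 0 x x y 0 0 x) :=
    { x0 := hx0
      le := bx9_ub hx0.le hx0.le hx0.le le_rfl le_rfl hyx hx0.le hx0.le le_rfl
      f3 := rfl
      f4 := rfl
      f5 := rfl
      f6 := rfl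
      f11 := rfl
      z9 := rfl
      z10 := rfl
      m2 := by rw [eS]; decide
      c1 := Or.inr (Or.inl le_rfl)
      c7 := Or.inr (Or.inr (by rw [etop, topD_ne t (by decide)]))
      c8 := Or.inr (Or.inr (by rw [etop, topD_ne t (by decide)])) }
  have key := k3h_u (a := Δ / x) wl RL (hWS.mono hxt le_rfl (Set.Subset.refl _)) hP
    (div_pos hγ hβ) hmod hxt hx
    (Eventually.of_forall fun n => by
      rw [hside, hside, hside, hT1]
      have e1 : wtL 0 + wtL 10 = wtL 11 := rfl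
      rw [← e1, pow_add, Real.rpow_add (B.pos n)]; ring)
    (Eventually.of_forall fun n => by
      rw [hside, hside, hside, hT2]
      have e1 : wtL 2 + wtL 9 = wtL 11 := rfl
      rw [← e1, pow_add, Real.rpow_add (B.pos n)]; ring)
    (by
      filter_upwards [hk.eventually (hsl x)] with n hn
      rw [eB', b1]
      unfold cpl
      rw [hside, hside, hside, div_le_iff₀ (mul_pos (pow_pos hC _) (dpow_pos B n _))]
      have e1 : wtL 0 + wtL 1 = wtL 2 := rfl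
      rw [← Real.rpow_mul (B.pos n).le]
      have e2 : B.d n ^ (hh (k n) * x) * (cK0 monL C ^ wtL 2 * B.d n ^ X (k n) 2) =
          cK0 monL C ^ wtL 2 * B.d n ^ (hh (k n) * x + X (k n) 2) := by
        rw [Real.rpow_add (B.pos n)]; ring
      have e3 : cK0 monL C ^ wtL 0 * B.d n ^ X (k n) 0 * (cK0 monL C ^ wtL 1 * B.d n ^ X (k n) 1) =
          cK0 monL C ^ wtL 2 * B.d n ^ (X (k n) 0 + X (k n) 1) := by
        rw [← e1, pow_add, Real.rpow_add (B.pos n)]; ring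
      rw [e2, e3]
      exact mul_le_mul_of_nonneg_left (dpow_anti B n (by linarith)) (pow_pos hC _).le) ku
    ((eleg _).2 ⟨by rw [cut02]; exact m2, off _ le_rfl (fun s => (ku.le s).trans hxt)⟩)
    (by
      rw [upd11]
      exact (eleg _).2 ⟨by rw [cut02]; exact m1, off _ le_rfl
        (bx9_ub ht.le ht.le ht.le hxt hxt (hyx.trans hxt) ht.le ht.le ht.le)⟩)
    (fun t' h1 h2 => by
      rw [upd910]
      exact (eleg _).2 ⟨by rw [cut02]; exact m3 t' h1 h2, off _ le_rfl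
        (bx9_ub ht.le ht.le ht.le hxt hxt (hyx.trans hxt) (h2.trans hxt) (h2.trans hxt) hxt)⟩)
    (div_nonneg hΔ0 hx0.le)
    (fun t' h1 h2 => by
      rw [upd910, enu, enu, cut02, cut02]
      have := hQ t' h1 h2
      linarith)
    (by
      rw [upd11, enu, enu, cut02, cut02, div_mul_cancel₀ _ hx0.ne', hΔ]
      linarith)
  rwa [le_div_iff₀ hx0] at key

/-- **[K3H] for a tangent of the profile, visible flags coarser** -/
theorem k3h_extV (hR : 0 ≤ R) (hC : 0 < cK0 monL C)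
    (hext : ExtQ B I0 I' co monL C R 0 w0 s PD Dm r o Em T ν own c₀)
    (hcoc : ∀ n, Coc (co n))
    (H : OStrips B I0 co (fun _ x => x.1) cell 0 {2} w0 s γ o0 β Sl) (hγ : 0 < γ 2)
    (hβ : 0 < β 2) (hSl : Sl 2 = Set.univ)
    (ho0 : ∀ v, o v 0 = w0 + v) (ho2 : ∀ v, o v 2 = o0 2 + β 2 * v)
    {X : ℕ → Fin 12 → ℝ} {hh : ℕ → ℝ} (hpos : ∀ l, 0 < hh l) (hh0 : Tendsto hh atTop (𝓝 0))
    {D : Set (Fin 12 → ℝ)} {lam : (Fin 12 → ℝ) → ℝ} (htan : IsTan (Leg monL R) D ν X hh lam)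
    {t : ℝ} (ht : 0 < t) (hD : Leg monD t ⊆ D) {v : ℕ → ℝ} (hX0 : ∀ l, X l 0 = w0 + v l)
    (hoR : ∀ k, k ≠ 0 → k ≠ 2 → (∀ v, o v k = R) ∨
      ∀ᶠ l in atTop, ∀ u, 0 ≤ u → u ≤ t → X l k + hh l * t ≤ o (v l + hh l * u) k)
    (hX2 : ∀ l, X l 2 = o0 2 + β 2 * v l) (hv0 : ∀ l, 0 < v l)
    {v1 : ℝ} (hv1 : v1 < 1) (hvv : ∀ᶠ l in atTop, v l ≤ v1)
    (hT1 : ∀ l, X l 11 = X l 0 + X l 10) (hT2 : ∀ l, X l 11 = X l 2 + X l 9)
    (hsl : ∀ K : ℝ, ∀ᶠ l in atTop, X l 2 + K * hh l ≤ X l 0 + X l 1)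
    (dens : lam (topD t) ≤ lam (bx9 0 0 0 t t t t t t) + lam (bx9 t 0 t 0 0 0 0 0 0))
    {x y : ℝ} (hx0 : 0 < x) (hx : 2 * x ≤ t) (hy0 : 0 ≤ y) (hyx : y ≤ x)
    (hQ : ∀ t' : ℝ, 0 ≤ t' → t' ≤ x →
      (1 - s) * t' ≤ lam (bx9 t 0 t x x y 0 0 x) - lam (bx9 t 0 t x x y t' t' x)) :
    (1 - s) * x ≤ lam (bx9 t 0 t x x y 0 0 0) - lam (bx9 t 0 t x x y 0 0 x) := by
  have hzero : (0 : Fin 12 → ℝ) ∈ D := hD ((stG_fro ht.le).zero_mem ht.le)
  have e1 : ∀ᶠ l in atTop, hh l * (t / β 2) < 1 - v1 := by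
    have h1 : Tendsto (fun l => hh l * (t / β 2)) atTop (𝓝 (0 * (t / β 2))) :=
      hh0.mul_const _
    rw [zero_mul] at h1
    exact h1.eventually_lt_const (by linarith)
  have e2 : ∀ᶠ l in atTop, hh l * t < 1 - v1 := by
    have h1 : Tendsto (fun l => hh l * t) atTop (𝓝 (0 * t)) := hh0.mul_const _
    rw [zero_mul] at h1
    exact h1.eventually_lt_const (by linarith)
  have e3 : ∀ᶠ l in atTop, ∀ k, k ≠ 0 → k ≠ 2 → (∀ v, o v k = R) ∨
      ∀ u, 0 ≤ u → u ≤ t → X l k + hh l * t ≤ o (v l + hh l * u) k := by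
    refine eventually_all.2 fun k => ?_
    by_cases hk0 : k = 0
    · exact Eventually.of_forall fun l h => absurd hk0 h
    by_cases hk2 : k = 2
    · exact Eventually.of_forall fun l _ h => absurd hk2 h
    rcases hoR k hk0 hk2 with h1 | h1
    · exact Eventually.of_forall fun l _ _ => Or.inl h1
    · filter_upwards [h1] with l hl _ _
      exact Or.inr hl
  obtain ⟨l₀, hl₀'⟩ := eventually_atTop.1 ((((e1.and e2).and hvv).and (htan 0 1 one_pos)).and e3)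
  have hl₀ := fun l hl => (hl₀' l hl).1
  have hsh := tendsto_add_atTop_nat l₀
  refine k3h_extV0 hR hC hext hcoc H hγ hβ hSl ho0 ho2 (X := fun l => X (l + l₀))
    (hh := fun l => hh (l + l₀)) (fun l => hpos _) (hh0.comp hsh) (tan_tail htan l₀) ht hD
    (v := fun l => v (l + l₀)) (fun l => hX0 _) (fun k hk0 hk2 => ?_) (fun l => hX2 _) (fun l => hv0 _) (fun l => ?_)
    (fun l => ?_) (fun l => ?_) (fun l => hT1 _) (fun l => hT2 _)
    (fun K => hsh.eventually (hsl K)) dens hx0 hx hy0 hyx hQ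
  · by_cases hR' : ∀ v, o v k = R
    · exact Or.inl hR'
    · refine Or.inr fun l u hu0 hu1 => ?_
      rcases (hl₀' (l + l₀) (Nat.le_add_left _ _)).2 k hk0 hk2 with h1 | h1
      · exact absurd h1 hR'
      · exact h1 u hu0 hu1
  · obtain ⟨⟨⟨h1, h3⟩, h2⟩, -⟩ := hl₀ (l + l₀) (Nat.le_add_left _ _)
    show v (l + l₀) + hh (l + l₀) * (t / β 2) ≤ 1
    linarith
  · obtain ⟨⟨⟨h1, h3⟩, h2⟩, -⟩ := hl₀ (l + l₀) (Nat.le_add_left _ _)
    show v (l + l₀) + hh (l + l₀) * t ≤ 1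
    linarith
  · obtain ⟨-, h3⟩ := hl₀ (l + l₀) (Nat.le_add_left _ _)
    have := (h3 0 hzero (by rw [norm_zero])).1
    rwa [smul_zero, add_zero] at this

end ext

section ctx

open Crest.Agent.R136.MkA627 Crest.Agent.R136.TD627
open Crest.Agent.R116.LZg725
open Crest.Agent.R116.Gd222 (TSet sN PDL DT vb)
open Crest.Agent.R116.KI439
open Crest.Agent.R116.KF439 (PL Thin frF flF scN)
open Crest.Agent.R116.Tw468 Crest.Agent.R116.CtxB468
open Crest.Agent.R116.SgF665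

variable {G : Geo TSet (Fin 2)} {L : ℕ → ℕ → LRay} {r : ℕ → ℝ} {g s : ℝ} {θ q : Fin 2 → ℝ}
    {Rg : ℝ} {B : Base}
    {I : ℕ → Finset (ℕ × ℝ)} {lev : ℕ → ℚ → ℕ} {A : ℕ → ℝ}
    {f : ℕ → ℚ → ℕ → ℤ → ℕ} {b : ℕ → ℚ → ℕ → TSet} {vm : ℕ → ℚ → ℝ} {w : Fin 2 → ℕ → ℚ → ℝ}
    {fr : ℕ → ℚ → ℕ × ℝ → LInc} {fl : ℕ → ℕ × ℝ → LInc} {sc : Fin 12 → ℕ → ℝ}
    {w0 sa sb δ R : ℝ} {I0 I' : ℕ → Finset (ℕ × ℝ)} {ν own : (Fin 12 → ℝ) → ℝ} {c₀ : ℝ}

/-- **[K3H] from the context, visible flags coarser** -/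
theorem k3h_ctxV (h : CtxT G L r g s θ q Rg B I lev A f b vm w fr fl sc w0 sa sb δ R I0 I' ν own c₀)
    (hk : βL (θ 0) (θ 1) 1 = 0) (hE : ¬ InvT PL B I 2 fl (sc 2))
    {X : ℕ → Fin 12 → ℝ} {hh : ℕ → ℝ} (hpos : ∀ l, 0 < hh l) (hh0 : Tendsto hh atTop (𝓝 0))
    {D : Set (Fin 12 → ℝ)} {lam : (Fin 12 → ℝ) → ℝ} (htan : IsTan (Leg monL R) D ν X hh lam)
    {t : ℝ} (ht : 0 < t) (hD : Leg monD t ⊆ D) {v : ℕ → ℝ} (hX0 : ∀ l, X l 0 = w0 + v l)
    (hB : ∀ k, k = 7 ∨ k = 8 → InvT PL B I k fl (sc k) ∨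
      ∀ K : ℝ, ∀ᶠ l in atTop, X l k + K * hh l ≤ rL (θ 0) (θ 1) w0 sa sb (v l) k)
    (hX2 : ∀ l, X l 2 = rL (θ 0) (θ 1) w0 sa sb (v l) 2) (hv0 : ∀ l, 0 < v l)
    {v1 : ℝ} (hv1 : v1 < 1) (hvv : ∀ᶠ l in atTop, v l ≤ v1)
    (hT1 : ∀ l, X l 11 = X l 0 + X l 10) (hT2 : ∀ l, X l 11 = X l 2 + X l 9)
    (hsl : ∀ K : ℝ, ∀ᶠ l in atTop, X l 2 + K * hh l ≤ X l 0 + X l 1)
    (dens : lam (topD t) ≤ lam (bx9 0 0 0 t t t t t t) + lam (bx9 t 0 t 0 0 0 0 0 0))
    {x y : ℝ} (hx0 : 0 < x) (hx : 2 * x ≤ t) (hy0 : 0 ≤ y) (hyx : y ≤ x)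
    (hQ : ∀ t' : ℝ, 0 ≤ t' → t' ≤ x →
      (1 - s) * t' ≤ lam (bx9 t 0 t x x y 0 0 x) - lam (bx9 t 0 t x x y t' t' x)) :
    (1 - s) * x ≤ lam (bx9 t 0 t x x y 0 0 0) - lam (bx9 t 0 t x x y 0 0 x) := by
  have hR : 0 ≤ R := by
    obtain ⟨l, hl⟩ := (htan 0 1 one_pos).exists
    have h0 : (0 : Fin 12 → ℝ) ∈ D := hD ((stG_fro ht.le).zero_mem ht.le)
    have := (hl 0 h0 (by rw [norm_zero])).1
    rw [smul_zero, add_zero] at this
    exact (this.1.nonneg 0).trans (this.2 0)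
  have hC : 0 < cK0 monL (2 : ℝ) := by
    have := cK0_one (M := monL) ((h.ext.chart 0).C0)
    linarith
  have hβ : βL (θ 0) (θ 1) 2 = 1 := by
    have e1 : βL (θ 0) (θ 1) 1 = -(θ 1) - 2 * -(θ 0) - 1 := rfl
    have e2 : βL (θ 0) (θ 1) 2 = -(θ 1) - 2 * -(θ 0) := rfl
    rw [e1] at hk
    rw [e2]; linarith
  have h1 : InvT PL B I 1 fl (sc 1) := by
    rcases h.out.clsD with h1 | h1
    · exact h1
    · exact absurd h1.2.1 (by rw [hk]; exact lt_irrefl _)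
  have hST : Rm899.STwL2 B I lev fl (sc 2) := by
    rcases h.out.kone hk with h2 | h2
    · exact absurd h2 hE
    · exact h2
  obtain ⟨γ, hγ, H⟩ := ostrips_of h.out.win.sys (fun k n v => rfl) h.out.win.hz w0 sa sb {2}
    (fun j hj => by rw [mem_singleton.1 hj, hβ]; exact one_pos) (fun _ => Set.univ)
    (fun j hj => Or.inr rfl) (fun j hj => by
      rw [mem_singleton.1 hj, hβ]
      exact stC_of_STwL2 hST)
  have H' := H.sub (Eventually.of_forall h.sub0)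
  have hV : ∀ k, k ≠ 0 → k ≠ 2 → k ≠ 7 → k ≠ 8 → ¬ VisT B I fl sc k := by
    intro k k0 k2 k7 k8 hv
    refine hv ?_
    fin_cases k
    · exact absurd rfl k0
    · exact h1
    · exact absurd rfl k2
    · exact h.out.inv_ray (by decide)
    · exact h.out.inv_ray (by decide)
    · exact h.out.inv_ray (by decide)
    · exact h.out.inv_ray (by decide)
    · exact absurd rfl k7
    · exact absurd rfl k8
    · exact h.out.inv_ray (by decide)
    · exact h.out.inv_ray (by decide)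
    · exact h.out.inv_ray (by decide)
  have hoR : ∀ k, k ≠ 0 → k ≠ 2 →
      (∀ v, oL (θ 0) (θ 1) w0 sa sb R (VisT B I fl sc) v k = R) ∨
      ∀ᶠ l in atTop, ∀ u, 0 ≤ u → u ≤ t → X l k + hh l * t ≤
        oL (θ 0) (θ 1) w0 sa sb R (VisT B I fl sc) (v l + hh l * u) k := by
    intro k k0 k2
    by_cases hv : VisT B I fl sc k
    · have k78 : k = 7 ∨ k = 8 := by
        by_contra hc
        push Not at hc
        exact hV k k0 k2 hc.1 hc.2 hv
      rcases hB k k78 with h2 | h2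
      · exact absurd h2 hv
      · refine Or.inr ?_
        filter_upwards [h2 (t + t * |βL (θ 0) (θ 1) k|)] with l hl u hu0 hu1
        rw [oV hv]
        have e : rL (θ 0) (θ 1) w0 sa sb (v l + hh l * u) k =
            rL (θ 0) (θ 1) w0 sa sb (v l) k + hh l * u * βL (θ 0) (θ 1) k := by
          rw [PL504.rL_lin (θ 0) (θ 1) w0 sa sb (v l + hh l * u) k,
            PL504.rL_lin (θ 0) (θ 1) w0 sa sb (v l) k]
          ring
        rw [e]
        have h3 : -(t * |βL (θ 0) (θ 1) k|) ≤ u * βL (θ 0) (θ 1) k := by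
          have h4 := neg_abs_le (βL (θ 0) (θ 1) k)
          have h5 := abs_nonneg (βL (θ 0) (θ 1) k)
          nlinarith
        have h6 := mul_le_mul_of_nonneg_left h3 (hpos l).le
        linarith
    · exact Or.inl fun v => oR k0 hv v
  exact k3h_extV hR hC h.ext (Sd369.coc_N B lev w w0 sa sb fl) H' (hγ 2) (by rw [hβ]; exact one_pos)
    rfl (fun v => oz _ v) (fun v => by rw [oV hE, PL504.rL_lin])
    hpos hh0 htan ht hD hX0 hoR (fun l => by rw [hX2, PL504.rL_lin]) hv0 hv1 hvv hT1 hT2 hsl dens hx0 hx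
    hy0 hyx hQ

/-- **[K3H] for linear tangents, visible flags coarser** -/
theorem k3h_linV (h : CtxT G L r g s θ q Rg B I lev A f b vm w fr fl sc w0 sa sb δ R I0 I' ν own c₀)
    (hk : βL (θ 0) (θ 1) 1 = 0) (hE : ¬ InvT PL B I 2 fl (sc 2)) {J : Type*} {fJ : J → (Fin 12 → ℝ) → ℝ} {j0 : J}
    (hf : fJ j0 = ν) {X : ℕ → Fin 12 → ℝ} {hh : ℕ → ℝ} {rz rX rH rF gC gP gE gB : ℝ}
    (hL : LinTan (Leg monL R) fJ j0 X hh rz rX rH rF gC gP gE gB)
    {v : ℕ → ℝ} (hX0 : ∀ l, X l 0 = w0 + v l)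
    (hB : ∀ k, k = 7 ∨ k = 8 → InvT PL B I k fl (sc k) ∨
      ∀ K : ℝ, ∀ᶠ l in atTop, X l k + K * hh l ≤ rL (θ 0) (θ 1) w0 sa sb (v l) k)
    (hX2 : ∀ l, X l 2 = rL (θ 0) (θ 1) w0 sa sb (v l) 2) (hv0 : ∀ l, 0 < v l)
    {v1 : ℝ} (hv1 : v1 < 1) (hvv : ∀ᶠ l in atTop, v l ≤ v1)
    (hT1 : ∀ l, X l 11 = X l 0 + X l 10) (hT2 : ∀ l, X l 11 = X l 2 + X l 9)
    (h1 : 1 - s ≤ rH + gP) : 1 - s ≤ rF := by
  obtain ⟨D, lam, hD, htan, hlin⟩ := hL.ex
  have hD' : Leg monD 1 ⊆ D := fun p hp => hD fun k e he h1 => leg_LMd 1 hp k e he h1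
  have htan' : IsTan (Leg monL R) D ν X hh (lam j0) := by rw [← hf]; exact htan j0
  have hsl : ∀ K : ℝ, ∀ᶠ l in atTop, X l 2 + K * hh l ≤ X l 0 + X l 1 := by
    intro K
    have he : (![1, 1, 0, 0, 0, 0, 0, 0, 0, 0, 0, 0] : Fin 12 → ℕ) ∈ monL.mon 2 := by
      change _ ∈ mfL 2
      decide
    filter_upwards [hL.slD 2 _ he (by decide) K] with n hn
    refine hn.trans (le_of_eq ?_)
    simp [wl, Fin.sum_univ_succ]
  have mem : ∀ p : Fin 12 → ℝ, p ∈ Leg monD 1 → p ∈ LM0 := fun p hp k e he h1 =>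
    leg_LMd 1 hp k e he h1
  have m1 : bx9 1 0 1 (1 / 2) (1 / 2) 0 0 0 0 ∈ Leg monD 1 := bx9_legD.2 (by norm_num)
  have m2 : bx9 1 0 1 (1 / 2) (1 / 2) 0 0 0 (1 / 2) ∈ Leg monD 1 := bx9_legD.2 (by norm_num)
  have m3 : ∀ t' : ℝ, 0 ≤ t' → t' ≤ 1 / 2 →
      bx9 1 0 1 (1 / 2) (1 / 2) 0 t' t' (1 / 2) ∈ Leg monD 1 := fun t' h1 h2 =>
    bx9_legD.2 ⟨⟨by norm_num, le_rfl, by norm_num, by norm_num, by norm_num, le_rfl, h1, h1,
      by norm_num⟩, ⟨by linarith, by linarith, by linarith, by linarith, by linarith, by linarith,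
      by linarith⟩, ⟨le_rfl, by norm_num, le_rfl, by norm_num, by norm_num, by norm_num,
      by linarith, by linarith, by norm_num⟩⟩
  have l1 := hlin _ _ _ _ _ _ _ _ (mem _ m1)
  have l2 := hlin _ _ _ _ _ _ _ _ (mem _ m2)
  have htop : topD 1 ∈ Leg monD 1 := (stG_fro zero_le_one).top_leg zero_le_one
  have dens : lam j0 (topD 1) ≤
      lam j0 (bx9 0 0 0 1 1 1 1 1 1) + lam j0 (bx9 1 0 1 0 0 0 0 0 0) := by
    rw [topD_eq] at htop ⊢
    rw [hlin _ _ _ _ _ _ _ _ (mem _ htop), hlin _ _ _ _ _ _ _ _ (mem _ (lin_mem02 zero_le_one)),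
      hlin _ _ _ _ _ _ _ _ (mem _ (lev_mem02 zero_le_one))]
    linarith
  have key := k3h_ctxV h hk hE hL.hpos hL.h0 htan' (t := 1) one_pos hD' hX0 hB hX2 hv0 hv1 hvv
    hT1 hT2 hsl dens (x := 1 / 2) (y := 0) (by norm_num) (by norm_num) le_rfl (by norm_num)
    (fun t' h2 h3 => by
      rw [hlin _ _ _ _ _ _ _ _ (mem _ (m3 t' h2 h3)), l2]
      nlinarith)
  rw [l1, l2] at key
  linarith

end ctx

end Crest.Agent.R116.K3V460
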