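import Crest.Agent.R116.Pe0_794
import Crest.Agent.R116.K3V_460
import Crest.Agent.R116.Tk7_647

/-!
# R116 (K side, TIES), `k' = 1` exactly: [K3] on plane data (helper460)

* **`k3K_ctx`** : `CtxT` + plane data of a natural offset, `D` raised ⊢ `K3K s Λ`
* **`k3K_pd8`** : the same from 363's `Pd8` (`t ≠ 0`; 736's raised planes: `t = 1`).  `B` (slots
  `7, 8`) invisible, or visible and strictly coarser than its own level
-/

set_option autoImplicit false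
set_option linter.unusedSectionVars false
set_option linter.unusedVariables false

open Set Filter Topology

namespace Crest.Agent.R116.K3V460

open Crest.Agent.R138
open Crest.Agent.R138.Ex926 (Base U IsTan)
open Crest.Agent.R136
open Crest.Agent.R136.MkA627
open Crest.Agent.R136.TD627
open Crest.Agent.R136.Net191
open Crest.Agent.R136.Lq196
open Crest.Agent.R136.Qg926 Crest.Agent.R136.Gf356 Crest.Agent.R116.EvL504
open Crest.Agent.R116.ChL222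
open Crest.Agent.R116.PL504 (nb rL DN eL βL oL Shift eL_wall)
open Crest.Agent.R116.Sg337 (bx9)
open Crest.Agent.R116.Gd222 (TSet sN PDL DT)
open Crest.Agent.R116.KI439
open Crest.Agent.R116.KF439 (PL)
open Crest.Agent.R116.CtxB468
open Crest.Agent.R116.Tw468
open Crest.Agent.R116.Rcx363 (fo fo_lip Prf)
open Crest.Agent.R116.RbM219
open Crest.Agent.R116.RbK219 (RS)
open Crest.Agent.R116.Kz647
open Crest.Agent.R116.Pd363
open Crest.Agent.R116.SgF665 (wl wl_add wl_smul LM0 mem_LM0 bx9_mem)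
open Crest.Agent.R116.WinG954 (LM monD topD topD_eq bx9_legD leg_LMd stG_fro)
open Crest.Agent.R116.Tq741
open Crest.Agent.R116.Tq794
open Crest.Agent.R116.Tk299 (K3K)

open Dg219 (mw Walls)
open Sl741 (slice xt rs)

section core

variable {J : Type*} [Finite J] {P M : Set (Fin 12 → ℝ)} {f lam2 : J → (Fin 12 → ℝ) → ℝ}
  {j0 : J} {X : ℕ → Fin 12 → ℝ} {H : ℕ → ℝ} {E : V9 → Fin 12 → ℝ} {w : V9}

/-- 794's `tan_core` for an arbitrary limit -/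
theorem tan_coreQ (hMc : IsClosed M) (hM0 : (0 : Fin 12 → ℝ) ∈ M)
    (hMa : ∀ p ∈ M, ∀ q ∈ M, p + q ∈ M) (hMs : ∀ t : ℝ, 0 ≤ t → ∀ p ∈ M, t • p ∈ M)
    (hpos : ∀ l, 0 < H l) (ht : ∀ j, IsTan P M (f j) X H (lam2 j))
    (hlip : ∃ K : ℝ, 0 ≤ K ∧ ∀ j, ∀ p ∈ M, ∀ q ∈ M, |lam2 j p - lam2 j q| ≤ K * ‖p - q‖)
    (hE : ∀ (w d : V9) (t : ℝ), E (w + t • d) = E w + t • E d) (hE0 : E 0 = 0) (hw : E w ∈ M)
    {h : ℕ → ℝ} (hp : ∀ m, 0 < h m) (h0 : Tendsto h atTop (𝓝 0)) {g : V9 → ℝ}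
    (hd : ∀ d, LegM 0 d → Tendsto (fun m => (lam2 j0 (E (w + h m • d)) - lam2 j0 (E w)) / h m)
      atTop (𝓝 (g d)))
    {Pr : ℕ → ℕ → Prop} (hPr : ∀ m, ∀ᶠ l in atTop, Pr m l) :
    ∃ (ψ : ℕ → ℕ) (h' : ℕ → ℝ) (lam3 : J → (Fin 12 → ℝ) → ℝ), StrictMono ψ ∧
      (∀ m, Pr m (ψ m)) ∧ (∀ m, 0 < h' m) ∧ Tendsto h' atTop (𝓝 0) ∧
      (∀ j, IsTan P M (f j) (fun m => X (ψ m) + H (ψ m) • E w) (fun m => H (ψ m) * h' m)
        (lam3 j)) ∧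
      ∀ d, LegM 0 d → E d ∈ M → lam3 j0 (E d) = g d := by
  obtain ⟨K, hK, hlip⟩ := hlip
  obtain ⟨φ, hφ, lam3, hT⟩ := Rc683.exists_tan (J := J) (P := fun _ => M) (D := fun _ => M)
    (fun _ => hMc) (ν := lam2) hK hlip (x := fun _ => E w) (h := h) hp
    (fun _ C => Eventually.of_forall fun l c hc _ => hMa _ hw _ (hMs _ (hp l).le _ hc))
    (fun _ => hM0)
  have hp' : ∀ m, 0 < h (φ m) := fun m => hp _
  obtain ⟨ψ, hψ, hPψ, hTT⟩ := Kz647.diag_at hpos ht hw hp' hT hPr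
  refine ⟨ψ, fun m => h (φ m), lam3, hψ, hPψ, hp', h0.comp hφ.tendsto_atTop, hTT,
    fun d hdl hdM => ?_⟩
  have h1 := SgO219.tan_lim hp' (hT j0) hdM hM0
  rw [tan_zero hp' (hT j0) hM0, sub_zero] at h1
  refine tendsto_nhds_unique h1 (((hd d hdl).comp hφ.tendsto_atTop).congr fun m => ?_)
  simp only [Function.comp]
  rw [hE, smul_zero, add_zero]

end core

section ctx

variable {G : Geo TSet (Fin 2)} {L : ℕ → ℕ → LRay} {r : ℕ → ℝ} {g s : ℝ} {θ q : Fin 2 → ℝ}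
    {Rg : ℝ} {B : Base} {I : ℕ → Finset (ℕ × ℝ)} {lev : ℕ → ℚ → ℕ} {A : ℕ → ℝ}
    {f : ℕ → ℚ → ℕ → ℤ → ℕ} {b : ℕ → ℚ → ℕ → TSet} {vm : ℕ → ℚ → ℝ} {w : Fin 2 → ℕ → ℚ → ℝ}
    {fr : ℕ → ℚ → ℕ × ℝ → LInc} {fl : ℕ → ℕ × ℝ → LInc} {sc : Fin 12 → ℕ → ℝ}
    {w0 sa sb δ R : ℝ} {I0 I' : ℕ → Finset (ℕ × ℝ)} {ν own : (Fin 12 → ℝ) → ℝ} {c₀ : ℝ}
    {v0 t κ sg l α v c p : ℝ} {a b' : Fin 2} {Vis' : Fin 12 → Prop} {X : ℕ → Fin 12 → ℝ}
    {h' H : ℕ → ℝ} {lam lam2 : Fin 2 → (Fin 12 → ℝ) → ℝ} {zz cc pp dd : ℕ → ℝ}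

/-- **[K3] on plane data, `D` raised** -/
theorem k3K_ctx
    (C : CtxT G L r g s θ q Rg B I lev A f b vm w fr fl sc w0 sa sb δ R I0 I' ν own c₀)
    (hβ : 2 * θ 0 - θ 1 - 1 = 0) (hE : ¬ InvT PL B I 2 fl (sc 2)) (hv0 : 0 < v0) (hv1 : v0 < 1)
    (hpos : ∀ l, 0 < H l) (h0 : Tendsto H atTop (𝓝 0))
    (hX : Tendsto X atTop (𝓝 (rL (θ 0) (θ 1) w0 sa sb v0)))
    (ht : ∀ j, IsTan (Leg monL R) LM0 (fo ν own j) X H (lam2 j))
    (hXn : ∀ l, X l = eL (zz l) (cc l) (pp l) + dd l • (Pi.single 1 1 : Fin 12 → ℝ))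
    (hdd : ∀ K : ℝ, ∀ᶠ l in atTop, K * H l ≤ dd l)
    (hX2 : ∀ l, X l 2 = rL (θ 0) (θ 1) w0 sa sb (X l 0 - w0) 2)
    (hB : ∀ k, k = 7 ∨ k = 8 → InvT PL B I k fl (sc k) ∨
      ∀ K : ℝ, ∀ᶠ l in atTop, X l k + K * H l ≤ rL (θ 0) (θ 1) w0 sa sb (X l 0 - w0) k) :
    K3K s (fun w => lam2 0 (E8 w)) := by
  intro w R' Ψ Q qq h hg7 hg9 hgi hw70 hp hh0 hΨ hQ hlim hq
  have eg7 : gap w 7 = w 0 + w 2 - w 4 := rfl
  have eg9 : gap w 9 = w 7 + w 5 - w 4 := rfl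
  rw [eg7] at hg7
  rw [eg9] at hg9
  have hwl : LegM 0 w := by
    have g0 : 0 < w 0 + w 8 - w 7 := hgi 0 (by decide) (by decide)
    have g1 : 0 < w 0 + w 1 - w 3 := hgi 1 (by decide) (by decide)
    have g2 : 0 < w 7 + w 1 - w 6 := hgi 2 (by decide) (by decide)
    have g3 : 0 < w 8 + w 3 - w 6 := hgi 3 (by decide) (by decide)
    have g4 : 0 < w 1 + w 3 - w 5 := hgi 4 (by decide) (by decide)
    have g5 : 0 < w 1 + w 6 - w 2 := hgi 5 (by decide) (by decide)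
    have g6 : 0 < w 8 + w 5 - w 2 := hgi 6 (by decide) (by decide)
    have g8 : 0 < w 3 + w 6 - w 4 := hgi 8 (by decide) (by decide)
    constructor <;> linarith
  have hk : βL (θ 0) (θ 1) 1 = 0 := by
    show -(θ 1) - 2 * -(θ 0) - 1 = 0
    linarith
  have hβ2 : βL (θ 0) (θ 1) 2 = 1 := by
    show -(θ 1) - 2 * -(θ 0) = 1
    linarith
  have hM0 : (0 : Fin 12 → ℝ) ∈ LM0 := by rw [← E8_zero]; exact E8_mem leg_zero
  have hlip : ∃ K : ℝ, 0 ≤ K ∧ ∀ j, ∀ p ∈ LM0, ∀ q ∈ LM0,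
      |lam2 j p - lam2 j q| ≤ K * ‖p - q‖ := by
    refine ⟨12, by norm_num, fun j p hp' q hq' => ?_⟩
    have := SgO219.tan_lip hpos (ht j) (K := 12) (fo_lip C j) p hp' q hq'
    rwa [dist_eq_norm] at this
  -- the heights of the bases
  set v2 : ℕ → ℝ := fun l => (X l + H l • E8 w) 0 - w0 with hv2
  have hv2t : Tendsto v2 atTop (𝓝 v0) := by
    have h1 : Tendsto (fun l => X l + H l • E8 w) atTop
        (𝓝 (rL (θ 0) (θ 1) w0 sa sb v0 + (0:ℝ) • E8 w)) := hX.add (h0.smul_const _)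
    rw [zero_smul, add_zero] at h1
    have h2 := ((tendsto_pi_nhds.1 h1) 0).sub_const w0
    have e : rL (θ 0) (θ 1) w0 sa sb v0 0 - w0 = v0 := by
      show w0 + v0 - w0 = v0
      ring
    rw [e] at h2
    exact h2
  obtain ⟨ψ, h1, lam3, hψ, hPψ, hp1, h01, hT, hv⟩ := tan_coreQ (E := E8) (j0 := (0 : Fin 2))
    LM0_closed hM0 (fun p hp q hq => LM0_add hp hq) (fun t ht p hp => LM0_smul ht hp) hpos ht hlip
    E8_add E8_zero (E8_mem hwl) hp hh0 hlim (Pr := fun _ l => 0 < v2 l ∧ v2 l < (1 + v0) / 2)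
    (fun _ => (hv2t.eventually_const_lt hv0).and (hv2t.eventually_lt_const (by linarith)))
  -- values
  have val : ∀ d : V9, LegM 0 d → d 2 = d 5 → lam3 0 (E8 d) =
      -(Ψ d + qq * d 2 + (R' 1 * d 1 + R' 3 * d 3 + R' 4 * d 4 + R' 6 * d 6)) := fun d hd h25 => by
    rw [hv d hd (E8_mem hd), hQ d hd h25]
  have hz8 : LegM 0 ![0, 0, 0, 0, 0, 0, 0, 0, 100] := by
    constructor <;> simp only [Matrix.cons_val] <;> norm_num
  have hΨz : ∀ d : V9, LegM 0 d → d 0 = 0 → d 7 = 0 → d 8 = 100 → Ψ d = 0 := by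
    intro d hd a0 a7 a8
    rw [hΨ d ![0, 0, 0, 0, 0, 0, 0, 0, 100] (by rw [a0]; rfl) (by rw [a7]; rfl) (by rw [a8]; rfl)
      hd hz8]
    have h3 := val ![0, 0, 0, 0, 0, 0, 0, 0, 100] hz8 rfl
    have e : E8 ![0, 0, 0, 0, 0, 0, 0, 0, 100] = 0 := by
      funext i; fin_cases i <;> rfl
    rw [e, tan_zero (fun m => mul_pos (hpos _) (hp1 m)) (hT 0) hM0] at h3
    simp only [Matrix.cons_val] at h3
    linarith
  have hD : Leg monD 1 ⊆ LM0 := fun p hp k e he h1 => leg_LMd 1 hp k e he h1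
  have htan : IsTan (Leg monL R) LM0 ν (fun m => X (ψ m) + H (ψ m) • E8 w)
      (fun m => H (ψ m) * h1 m) (lam3 0) := hT 0
  have hhp : ∀ m, 0 < H (ψ m) * h1 m := fun m => mul_pos (hpos _) (hp1 m)
  have hh1 : Tendsto (fun m => H (ψ m) * h1 m) atTop (𝓝 0) := tend_mul h0 hψ h01
  have s2 : (Pi.single 1 1 : Fin 12 → ℝ) 2 = 0 := Pi.single_eq_of_ne (by decide) _
  have s1 : (Pi.single 1 1 : Fin 12 → ℝ) 1 = 1 := Pi.single_eq_same _ _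
  have s0 : (Pi.single 1 1 : Fin 12 → ℝ) 0 = 0 := Pi.single_eq_of_ne (by decide) _
  have s9 : (Pi.single 1 1 : Fin 12 → ℝ) 9 = 0 := Pi.single_eq_of_ne (by decide) _
  have s10 : (Pi.single 1 1 : Fin 12 → ℝ) 10 = 0 := Pi.single_eq_of_ne (by decide) _
  have s11 : (Pi.single 1 1 : Fin 12 → ℝ) 11 = 0 := Pi.single_eq_of_ne (by decide) _
  have xv : ∀ (l : ℕ) (k : Fin 12), (X l + H l • E8 w) k =
      eL (zz l) (cc l) (pp l) k + dd l * (Pi.single 1 1 : Fin 12 → ℝ) k + H l * E8 w k := by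
    intro l k
    rw [hXn l]; rfl
  have lev : ∀ (l : ℕ) (k : Fin 12), rL (θ 0) (θ 1) w0 sa sb (v2 l) k =
      rL (θ 0) (θ 1) w0 sa sb (X l 0 - w0) k + H l * w 0 * βL (θ 0) (θ 1) k := by
    intro l k
    have e : v2 l = (X l 0 - w0) + H l * w 0 := by
      show X l 0 + H l * w 0 - w0 = _
      ring
    rw [e, PL504.rL_lin (θ 0) (θ 1) w0 sa sb (X l 0 - w0 + H l * w 0) k,
      PL504.rL_lin (θ 0) (θ 1) w0 sa sb (X l 0 - w0) k]
    ring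
  have hsl : ∀ K : ℝ, ∀ᶠ m in atTop, (X (ψ m) + H (ψ m) • E8 w) 2 + K * (H (ψ m) * h1 m) ≤
      (X (ψ m) + H (ψ m) • E8 w) 0 + (X (ψ m) + H (ψ m) • E8 w) 1 := by
    intro K
    have h3 := hψ.tendsto_atTop.eventually (hdd 1)
    have h4 : ∀ᶠ m in atTop, K * h1 m < 1 := by
      have : Tendsto (fun m => K * h1 m) atTop (𝓝 0) := by simpa using h01.const_mul K
      exact this.eventually_lt_const (by norm_num)
    filter_upwards [h3, h4] with m m3 m4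
    rw [xv, xv, xv, s0, s1, s2]
    have e2 : eL (zz (ψ m)) (cc (ψ m)) (pp (ψ m)) 2 = pp (ψ m) - 2 * cc (ψ m) := rfl
    have e1 : eL (zz (ψ m)) (cc (ψ m)) (pp (ψ m)) 1 = pp (ψ m) - 2 * cc (ψ m) - zz (ψ m) := rfl
    have e0 : eL (zz (ψ m)) (cc (ψ m)) (pp (ψ m)) 0 = zz (ψ m) := rfl
    have f2 : E8 w 2 = w 7 := rfl
    have f1 : E8 w 1 = 0 := rfl
    have f0 : E8 w 0 = w 0 := rfl
    rw [e2, e1, e0, f2, f1, f0, hw70]
    have h5 := mul_le_mul_of_nonneg_left m4.le (hpos (ψ m)).le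
    nlinarith
  have hT1 : ∀ m, (X (ψ m) + H (ψ m) • E8 w) 11 =
      (X (ψ m) + H (ψ m) • E8 w) 0 + (X (ψ m) + H (ψ m) • E8 w) 10 := by
    intro m
    rw [xv, xv, xv, s0, s10, s11]
    have e11 : eL (zz (ψ m)) (cc (ψ m)) (pp (ψ m)) 11 = zz (ψ m) + pp (ψ m) := rfl
    have e10 : eL (zz (ψ m)) (cc (ψ m)) (pp (ψ m)) 10 = pp (ψ m) := rfl
    have e0 : eL (zz (ψ m)) (cc (ψ m)) (pp (ψ m)) 0 = zz (ψ m) := rfl
    have f11 : E8 w 11 = w 4 := rfl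
    have f10 : E8 w 10 = w 2 := rfl
    have f0 : E8 w 0 = w 0 := rfl
    rw [e11, e10, e0, f11, f10, f0]
    have h5 : w 4 = w 0 + w 2 := by linarith
    rw [h5]; ring
  have hT2 : ∀ m, (X (ψ m) + H (ψ m) • E8 w) 11 =
      (X (ψ m) + H (ψ m) • E8 w) 2 + (X (ψ m) + H (ψ m) • E8 w) 9 := by
    intro m
    rw [xv, xv, xv, s2, s9, s11]
    have e11 : eL (zz (ψ m)) (cc (ψ m)) (pp (ψ m)) 11 = zz (ψ m) + pp (ψ m) := rfl
    have e2 : eL (zz (ψ m)) (cc (ψ m)) (pp (ψ m)) 2 = pp (ψ m) - 2 * cc (ψ m) := rfl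
    have e9 : eL (zz (ψ m)) (cc (ψ m)) (pp (ψ m)) 9 = zz (ψ m) + 2 * cc (ψ m) := rfl
    have f11 : E8 w 11 = w 4 := rfl
    have f2 : E8 w 2 = w 7 := rfl
    have f9 : E8 w 9 = w 5 := rfl
    rw [e11, e2, e9, f11, f2, f9]
    have h5 : w 4 = w 7 + w 5 := by linarith
    rw [h5]; ring
  have hB' : ∀ k, k = 7 ∨ k = 8 → InvT PL B I k fl (sc k) ∨
      ∀ K : ℝ, ∀ᶠ m in atTop, (X (ψ m) + H (ψ m) • E8 w) k + K * (H (ψ m) * h1 m) ≤
        rL (θ 0) (θ 1) w0 sa sb (v2 (ψ m)) k := by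
    intro k hk78
    rcases hB k hk78 with h3 | h3
    · exact Or.inl h3
    · refine Or.inr fun K => ?_
      have h4 := hψ.tendsto_atTop.eventually (h3 (|E8 w k| + |w 0 * βL (θ 0) (θ 1) k| + 1))
      have h5 : ∀ᶠ m in atTop, K * h1 m < 1 := by
        have : Tendsto (fun m => K * h1 m) atTop (𝓝 0) := by simpa using h01.const_mul K
        exact this.eventually_lt_const (by norm_num)
      filter_upwards [h4, h5] with m m4 m5
      rw [lev]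
      show X (ψ m) k + H (ψ m) * E8 w k + K * (H (ψ m) * h1 m) ≤ _
      have j1 := mul_le_mul_of_nonneg_left m5.le (hpos (ψ m)).le
      have j2 := mul_le_mul_of_nonneg_left (le_abs_self (E8 w k)) (hpos (ψ m)).le
      have j3 := mul_le_mul_of_nonneg_left (neg_abs_le (w 0 * βL (θ 0) (θ 1) k)) (hpos (ψ m)).le
      nlinarith
  -- the class vectors
  have m1 : LegM 0 ![1, 1, 1, 1, 1, 1, 1, 1, 100] := by
    constructor <;> simp only [Matrix.cons_val] <;> norm_num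
  have m2 : LegM 0 ![0, 1, 1, 1, 1, 1, 1, 0, 100] := by
    constructor <;> simp only [Matrix.cons_val] <;> norm_num
  have m3 : LegM 0 ![1, 0, 0, 0, 0, 0, 0, 1, 100] := by
    constructor <;> simp only [Matrix.cons_val] <;> norm_num
  have m4 : ∀ (t' : ℝ) (F : ℝ), 0 ≤ t' → t' ≤ 1 / 2 → F ≤ 1 / 2 →
      LegM 0 ![1, 1 / 2, t', 1 / 2, F, t', 0, 1, 100] := by
    intro t' F a1 a2 a3
    constructor <;> simp only [Matrix.cons_val] <;> linarith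
  have q1 : lam3 0 (topD 1) = -(Ψ ![1, 1, 1, 1, 1, 1, 1, 1, 100] + qq * 1 +
      (R' 1 * 1 + R' 3 * 1 + R' 4 * 1 + R' 6 * 1)) := by
    have e : topD 1 = E8 ![1, 1, 1, 1, 1, 1, 1, 1, 100] := by
      rw [topD_eq]; rfl
    rw [e, val _ m1 rfl]
    simp only [Matrix.cons_val]
  have q2 : lam3 0 (bx9 0 0 0 1 1 1 1 1 1) = -(0 + qq * 1 +
      (R' 1 * 1 + R' 3 * 1 + R' 4 * 1 + R' 6 * 1)) := by
    have e : bx9 0 0 0 1 1 1 1 1 1 = E8 ![0, 1, 1, 1, 1, 1, 1, 0, 100] := rfl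
    rw [e, val _ m2 rfl, hΨz _ m2 rfl rfl rfl]
    simp only [Matrix.cons_val]
  have q3 : lam3 0 (bx9 1 0 1 0 0 0 0 0 0) = -(Ψ ![1, 1, 1, 1, 1, 1, 1, 1, 100] + qq * 0 +
      (R' 1 * 0 + R' 3 * 0 + R' 4 * 0 + R' 6 * 0)) := by
    have e : bx9 1 0 1 0 0 0 0 0 0 = E8 ![1, 0, 0, 0, 0, 0, 0, 1, 100] := rfl
    rw [e, val _ m3 rfl, hΨ ![1, 0, 0, 0, 0, 0, 0, 1, 100] ![1, 1, 1, 1, 1, 1, 1, 1, 100]
      rfl rfl rfl m3 m1]
    simp only [Matrix.cons_val]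
  have q4 : ∀ (t' F : ℝ), 0 ≤ t' → t' ≤ 1 / 2 → F ≤ 1 / 2 →
      lam3 0 (bx9 1 0 1 (1 / 2) (1 / 2) 0 t' t' F) =
        -(Ψ ![1, 1, 1, 1, 1, 1, 1, 1, 100] + qq * t' +
          (R' 1 * (1 / 2) + R' 3 * (1 / 2) + R' 4 * F + R' 6 * 0)) := by
    intro t' F a1 a2 a3
    have e : bx9 1 0 1 (1 / 2) (1 / 2) 0 t' t' F =
        E8 ![1, 1 / 2, t', 1 / 2, F, t', 0, 1, 100] := rfl
    rw [e, val _ (m4 t' F a1 a2 a3) rfl, hΨ ![1, 1 / 2, t', 1 / 2, F, t', 0, 1, 100]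
      ![1, 1, 1, 1, 1, 1, 1, 1, 100] rfl rfl rfl (m4 t' F a1 a2 a3) m1]
    simp only [Matrix.cons_val]
  have l1 := q4 0 0 le_rfl (by norm_num) (by norm_num)
  have l2 := q4 0 (1 / 2) le_rfl (by norm_num) le_rfl
  have key := k3h_ctxV C hk hE hhp hh1 htan (t := 1) one_pos hD
    (v := fun m => v2 (ψ m)) (fun m => by
      show _ = w0 + ((X (ψ m) + H (ψ m) • E8 w) 0 - w0)
      ring) hB'
    (fun m => by
      rw [lev, ← hX2, hβ2]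
      show X (ψ m) 2 + H (ψ m) * E8 w 2 = _
      have f2 : E8 w 2 = w 7 := rfl
      rw [f2, hw70]; ring)
    (fun m => (hPψ m).1) (v1 := (1 + v0) / 2) (by linarith)
    (Eventually.of_forall fun m => (hPψ m).2.le) hT1 hT2 hsl
    (by rw [q1, q2, q3]; linarith) (x := 1 / 2) (y := 0) (by norm_num) (by norm_num) le_rfl
    (by norm_num)
    (fun t' h2 h3 => by
      rw [q4 t' (1 / 2) h2 h3 le_rfl, l2]
      nlinarith)
  rw [l1, l2] at key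
  linarith

/-- **[K3] on 363's plane data of a natural offset in the tie plane** -/
theorem k3K_pd8 {ρ ρ2 : Fin 8 → ℝ}
    (P : Pd8 R s a b' Vis' (θ 0) (θ 1) w0 sa sb v0 t κ (nat8 v c p) sg (fo ν own) lam ρ l α h' X H
      lam2 ρ2)
    (C : CtxT G L r g s θ q Rg B I lev A f b vm w fr fl sc w0 sa sb δ R I0 I' ν own c₀)
    (ht : t ≠ 0) (hβ : 2 * θ 0 - θ 1 - 1 = 0) (hD : p = 2 * c + v)
    (hE : ¬ InvT PL B I 2 fl (sc 2)) (hv0 : 0 < v0) (hv1 : v0 < 1)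
    (hB : ∀ k, k = 7 ∨ k = 8 → InvT PL B I k fl (sc k) ∨
      ∀ K : ℝ, ∀ᶠ l in atTop, X l k + K * H l ≤ rL (θ 0) (θ 1) w0 sa sb (X l 0 - w0) k) :
    K3K s (fun w => lam2 0 (xt kp 0 (RL8.vec (fun i : Fin 8 => w i.castSucc)))) := by
  obtain ⟨zz, cc, pp, dd, hXn⟩ := pd8_natural P
  have ht' : ∀ j, IsTan (Leg monL R) LM0 (fo ν own j) X H (lam2 j) := fun j =>
    Rc683.tan_mono (P.tan j) Subset.rfl (LM0_L8B ht)
  have hX2 : ∀ m, X m 2 = rL (θ 0) (θ 1) w0 sa sb (X m 0 - w0) 2 := by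
    obtain ⟨V, E, -, -, -, hb⟩ := P.base
    intro m
    rw [hb m 2 (by decide), hb m 0 (by decide)]
    have e0 : nat8 v c p (cl8 0) = v := rfl
    have e2 : nat8 v c p (cl8 2) = p - 2 * c := rfl
    rw [e0, e2]
    have e3 : rL (θ 0) (θ 1) w0 sa sb (v0 + V m) 0 = w0 + (v0 + V m) := rfl
    have e4 : βL (θ 0) (θ 1) 2 = 1 := by
      show -(θ 1) - 2 * -(θ 0) = 1
      linarith
    rw [e3, PL504.rL_lin (θ 0) (θ 1) w0 sa sb (v0 + V m) 2,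
      PL504.rL_lin (θ 0) (θ 1) w0 sa sb (w0 + (v0 + V m) + E m * v - w0) 2, e4, hD]
    ring
  have h1 := k3K_ctx C hβ hE hv0 hv1 P.pos P.lim P.xlim ht' hXn (slack_of_tan P.pos (ht' 0) hXn)
    hX2 hB
  simpa only [E8_eq] using h1

end ctx

end Crest.Agent.R116.K3V460
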