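import Crest.Agent.R116.Kt1_710

/-!
# R116 (helper387): the dead direction, exactly normalised flags

With 468's `nr1` (the gradients of the flags have length exactly `1`) the margin `ζ` is arbitrary:
* **`flagZ_all`** : `FlagZ` for every `ζ`;
* `thinW'`, **`thinB'`**, **`thinM'`** : 710's `Kt1` without `hz`, `hy`.
-/

set_option autoImplicit false
set_option linter.unusedVariables false
set_option linter.unusedSectionVars false

open Finset Filter Topology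

namespace Crest.Agent.R116.Kt387

open Crest.Agent.R138.Ex926 (Base U IsTan)
open Crest.Agent.R138.Dp76 (dpow_pos)
open Crest.Agent.R136.MkA627
open Crest.Agent.R136.Net191 Crest.Agent.R136.Qg926 Crest.Agent.R136.Gf356
open Crest.Agent.R136.TD627
open Crest.Agent.R116.LZg725
open Crest.Agent.R116.ChL222
open Crest.Agent.R116.EvL504
open Crest.Agent.R116.Gd222 (TSet sN)
open Crest.Agent.R116.KI439
open Crest.Agent.R116.Tw468
open Crest.Agent.R116.CtxB468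
open Crest.Agent.R116.WinG954
open Crest.Agent.R116.ThinD954
open Crest.Agent.R116.Kz710
open Crest.Agent.R116.Kr710 (ThinU)
open Crest.Agent.R116.Kg330 (ThinB ThinM)

section ctx

variable {G : Geo TSet (Fin 2)} {L : ℕ → ℕ → LRay} {r : ℕ → ℝ} {g s : ℝ} {θ q : Fin 2 → ℝ}
    {Rg : ℝ} {B : Base}
    {I : ℕ → Finset (ℕ × ℝ)} {lev : ℕ → ℚ → ℕ} {A : ℕ → ℝ}
    {f : ℕ → ℚ → ℕ → ℤ → ℕ} {b : ℕ → ℚ → ℕ → TSet} {vm : ℕ → ℚ → ℝ} {w : Fin 2 → ℕ → ℚ → ℝ}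
    {fr : ℕ → ℚ → ℕ × ℝ → LInc} {fl : ℕ → ℕ × ℝ → LInc} {sc : Fin 12 → ℕ → ℝ}
    {w0 sa sb δ R : ℝ} {I0 I' : ℕ → Finset (ℕ × ℝ)} {ν own : (Fin 12 → ℝ) → ℝ} {c₀ : ℝ}

/-- **`FlagZ` for every margin** -/
theorem flagZ_all
    (h : CtxT G L r g s θ q Rg B I lev A f b vm w fr fl sc w0 sa sb δ R I0 I' ν own c₀) (ζ : ℝ) :
    FlagZ B I fl (sN lev w) ζ := by
  intro ε hε
  filter_upwards [h.n1 (fun _ => Finset.Subset.refl _)] with n hn x hx
  rw [hn x hx, sub_self, abs_zero, zero_mul]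
  exact mul_nonneg (Gd222.sN_pos lev w 1 n).le (dpow_pos B n _).le

/-- 954's flag data for every margin -/
theorem flagDz_all
    (h : CtxT G L r g s θ q Rg B I lev A f b vm w fr fl sc w0 sa sb δ R I0 I' ν own c₀)
    {J : ℕ → Finset (ℕ × ℝ)} (hJ : ∀ n, J n ⊆ I n) (ζ κ0 : ℝ) :
    FlagDz B J lev fl (sN lev w) κ0 0 ζ :=
  Kt710.flagDz h hJ (flagZ_all h ζ) κ0

variable {D : Set (Fin 12 → ℝ)} {lam : (Fin 12 → ℝ) → ℝ} {X : ℕ → Fin 12 → ℝ} {hh : ℕ → ℝ}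
    {C : ℝ} {k' : ℕ → ℕ} {T : ℝ} {Mw : Mons 12} {top : Fin 12 → ℝ}
    {W : Wnd 12 (fun _ => ℕ × ℝ)} {E : ∀ n, Finset (ℕ × ℝ)} {v t y : ℝ}

/-- the dead direction in every window of the context, no condition on `y` -/
theorem thinW'
    (h : CtxT G L r g s θ q Rg B I lev A f b vm w fr fl sc w0 sa sb δ R I0 I' ν own c₀)
    (ht : 0 < t) (hv : 0 < v + t)
    (hX : ∀ s, 3 ≤ s → Tendsto (fun l => X l s) atTop (𝓝 (PL504.nb w0 sa sb v t y s)))
    (e4 : ∀ᶠ l in atTop, X l 4 = X l 3) (e6 : ∀ᶠ l in atTop, X l 6 = X l 5)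
    (e8 : ∀ᶠ l in atTop, X l 8 = X l 7) (hk : Tendsto k' U atTop) (hh0 : Tendsto hh atTop (𝓝 0))
    (win : WinG W B I0 I' (PL504.coN B lev w w0 sa sb fl) C D ν lam X hh k' T Mw top)
    (hr : ∀ᶠ n in (U : Filter ℕ), Reg W E n) (hJ : ∀ᶠ n in (U : Filter ℕ), W.Cl n ⊆ I' n) (x : ℝ) :
    ThinU W.B' (W.cfg E) (dir W fl) x :=
  Kt710.thinW h (flagZ_all h (y - t + 1)) ht hv (by linarith) hX e4 e6 e8 hk hh0 win hr hJ x

/-- **330's `ThinB`** (slot `D` frozen), no condition on `y` -/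
theorem thinB'
    (h : CtxT G L r g s θ q Rg B I lev A f b vm w fr fl sc w0 sa sb δ R I0 I' ν own c₀)
    (ht : 0 < t) (hv : 0 < v + t)
    (hX : ∀ s, 3 ≤ s → Tendsto (fun l => X l s) atTop (𝓝 (PL504.nb w0 sa sb v t y s)))
    (e4 : ∀ᶠ l in atTop, X l 4 = X l 3) (e6 : ∀ᶠ l in atTop, X l 6 = X l 5)
    (e8 : ∀ᶠ l in atTop, X l 8 = X l 7) :
    ThinB B I0 I' (PL504.coN B lev w w0 sa sb fl) C ν X hh :=
  Kt710.thinB h (flagZ_all h (y - t + 1)) ht hv (by linarith) hX e4 e6 e8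

/-- **330's `ThinM`** (slot `D` live), no condition on `y` -/
theorem thinM'
    (h : CtxT G L r g s θ q Rg B I lev A f b vm w fr fl sc w0 sa sb δ R I0 I' ν own c₀)
    (ht : 0 < t) (hv : 0 < v + t)
    (hX : ∀ s, 3 ≤ s → Tendsto (fun l => X l s) atTop (𝓝 (PL504.nb w0 sa sb v t y s)))
    (e4 : ∀ᶠ l in atTop, X l 4 = X l 3) (e6 : ∀ᶠ l in atTop, X l 6 = X l 5)
    (e8 : ∀ᶠ l in atTop, X l 8 = X l 7) :
    ThinM B I0 I' (PL504.coN B lev w w0 sa sb fl) C ν X hh :=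
  Kt710.thinM h (flagZ_all h (y - t + 1)) ht hv (by linarith) hX e4 e6 e8

end ctx

end Crest.Agent.R116.Kt387
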