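import Crest.Agent.R116.Pe0_794
import Crest.Agent.R116.Kt2_387

/-!
# R116 (helper387): 794's `Pe0` without the margin `ζ`

* `hthB'`, `hthM'` : dead directions near a record point, every `θ`;
* **`pd8_fct'`**, **`pd9_fct'`** : the facts of 363's natural planes, every `θ`.
-/

set_option autoImplicit false
set_option linter.unusedSectionVars false
set_option linter.unusedVariables false

open Set Filter Topology

namespace Crest.Agent.R116.Kt387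

open Crest.Agent.R138
open Crest.Agent.R138.Ex926 (Base U IsTan)
open Crest.Agent.R136
open Crest.Agent.R136.MkA627
open Crest.Agent.R136.TD627
open Crest.Agent.R136.Net191
open Crest.Agent.R136.Lq196
open Crest.Agent.R136.Qg926 Crest.Agent.R136.Gf356 Crest.Agent.R116.EvL504
open Crest.Agent.R116.ChL222
open Crest.Agent.R116.PL504 (nb rL DN eL βL oL Shift eL_wall)
open Crest.Agent.R116.Sg337 (bx9)
open Crest.Agent.R116.Gd222 (TSet sN PDL DT)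
open Crest.Agent.R116.KI439
open Crest.Agent.R116.KF439 (PL)
open Crest.Agent.R116.CtxB468
open Crest.Agent.R116.Rcx363 (fo fo_lip Prf)
open Crest.Agent.R116.RbM219
open Crest.Agent.R116.RbK219 (RS)
open Crest.Agent.R116.Kz647
open Crest.Agent.R116.Pd363
open Crest.Agent.R116.Kg330 (ThinB ThinM)
open Crest.Agent.R116.Tq741
open Crest.Agent.R116.Tq794 (E8 E9 pd8_fct pd9_fct hthB hthM)
open Sl741 (slice xt rs)

section ctx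

variable {G : Geo TSet (Fin 2)} {L : ℕ → ℕ → LRay} {r : ℕ → ℝ} {g s : ℝ} {θ q : Fin 2 → ℝ}
    {Rg : ℝ} {B : Base} {I : ℕ → Finset (ℕ × ℝ)} {lev : ℕ → ℚ → ℕ} {A : ℕ → ℝ}
    {f : ℕ → ℚ → ℕ → ℤ → ℕ} {b : ℕ → ℚ → ℕ → TSet} {vm : ℕ → ℚ → ℝ} {w : Fin 2 → ℕ → ℚ → ℝ}
    {fr : ℕ → ℚ → ℕ × ℝ → LInc} {fl : ℕ → ℕ × ℝ → LInc} {sc : Fin 12 → ℕ → ℝ}
    {w0 sa sb δ R : ℝ} {I0 I' : ℕ → Finset (ℕ × ℝ)} {ν own : (Fin 12 → ℝ) → ℝ} {c₀ : ℝ}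
    {v0 C' t κ sg l α v c p : ℝ} {a b' : Fin 2} {Vis' : Fin 12 → Prop} {X : ℕ → Fin 12 → ℝ}
    {h' H : ℕ → ℝ} {lam lam2 : Fin 2 → (Fin 12 → ℝ) → ℝ} {Sk : V9 → Prop}

theorem hthB'
    (C : CtxT G L r g s θ q Rg B I lev A f b vm w fr fl sc w0 sa sb δ R I0 I' ν own c₀)
    (hθ : 0 < θ 0) (hv0 : 0 < v0) (hv1 : v0 < 1) (Y : ℕ → Fin 12 → ℝ) (k : ℕ → ℝ)
    (hY : Tendsto Y atTop (𝓝 (rL (θ 0) (θ 1) w0 sa sb v0)))
    (e4 : ∀ l, Y l 4 = Y l 3) (e6 : ∀ l, Y l 6 = Y l 5) (e8 : ∀ l, Y l 8 = Y l 7) :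
    ThinB B I0 I' (PL504.coN B lev w w0 sa sb fl) C' ν Y k :=
  hthB C (flagZ_all C (θ 1 * (1 - v0) - θ 0 * (1 - v0) + 1)) hθ hv0 hv1 (by linarith) Y k hY e4 e6 e8

theorem hthM'
    (C : CtxT G L r g s θ q Rg B I lev A f b vm w fr fl sc w0 sa sb δ R I0 I' ν own c₀)
    (hθ : 0 < θ 0) (hv0 : 0 < v0) (hv1 : v0 < 1) (Y : ℕ → Fin 12 → ℝ) (k : ℕ → ℝ)
    (hY : Tendsto Y atTop (𝓝 (rL (θ 0) (θ 1) w0 sa sb v0)))
    (e4 : ∀ l, Y l 4 = Y l 3) (e6 : ∀ l, Y l 6 = Y l 5) (e8 : ∀ l, Y l 8 = Y l 7) :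
    ThinM B I0 I' (PL504.coN B lev w w0 sa sb fl) C' ν Y k :=
  hthM C (flagZ_all C (θ 1 * (1 - v0) - θ 0 * (1 - v0) + 1)) hθ hv0 hv1 (by linarith) Y k hY e4 e6 e8

/-- **the facts of a natural plane, `D` frozen** -/
theorem pd8_fct' {ρ ρ2 : Fin 8 → ℝ}
    (P : Pd8 R s a b' Vis' (θ 0) (θ 1) w0 sa sb v0 t κ (nat8 v c p) sg (fo ν own) lam ρ l α h' X H
      lam2 ρ2)
    (C : CtxT G L r g s θ q Rg B I lev A f b vm w fr fl sc w0 sa sb δ R I0 I' ν own c₀)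
    (hs0 : 0 ≤ s) (hs1 : s ≤ 1) (ht : t ≠ 0) (hθ : 0 < θ 0) (hv0 : 0 < v0) (hv1 : v0 < 1)
    (hSk : ∀ w, LegM 0 w → Sk w → ∀ k, Vis' k → E8 w k ≤ w 0 * βL (θ 0) (θ 1) k) :
    Fct9 Sk s (fun w => lam2 0 (xt kp 0 (RL8.vec (fun i : Fin 8 => w i.castSucc)))) :=
  pd8_fct P C hs0 hs1 ht (flagZ_all C (θ 1 * (1 - v0) - θ 0 * (1 - v0) + 1)) hθ hv0 hv1
    (by linarith) hSk

/-- **the facts of a natural plane, `D` live** -/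
theorem pd9_fct' {ρ ρ2 : Fin 9 → ℝ}
    (P : Pd9 R s a b' Vis' (θ 0) (θ 1) w0 sa sb v0 κ (nat9 v c p) sg (fo ν own) lam ρ l α h' X H
      lam2 ρ2)
    (C : CtxT G L r g s θ q Rg B I lev A f b vm w fr fl sc w0 sa sb δ R I0 I' ν own c₀)
    (hs0 : 0 ≤ s) (hs1 : s ≤ 1) (hθ : 0 < θ 0) (hv0 : 0 < v0) (hv1 : v0 < 1)
    (hSk : ∀ w, LegM 0 w → Sk w → ∀ k, Vis' k → E9 w k ≤ w 0 * βL (θ 0) (θ 1) k) :
    Fct9 Sk s (fun w => lam2 0 (RL9.vec w)) :=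
  pd9_fct P C hs0 hs1 (flagZ_all C (θ 1 * (1 - v0) - θ 0 * (1 - v0) + 1)) hθ hv0 hv1
    (by linarith) hSk

end ctx

end Crest.Agent.R116.Kt387
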