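import Crest.Agent.R116.Rz3_460
import Crest.Agent.R116.Kt3_387
import Crest.Agent.R116.Tk5_299
import Crest.Agent.R116.Tk7_647
import Crest.Agent.R116.Tk8_126
import Crest.Agent.R116.K1p2_736
import Crest.Agent.R116.K3K_460
import Crest.Agent.R116.Fk1_647

/-!
# R116 (K side, TIES), the cell K2: `κ`-tie, `k' = 2 θ 0 - θ 1 = 1` exactly, every `s` (helper30)

* `k1_down`, `k1_up` : the planes `kD`, `kU` at the record with `D` raised in the second level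
* **`k1_false`** : context `⊢ False`;  **`fillK2`**
-/

set_option autoImplicit false
set_option linter.unusedSectionVars false
set_option linter.unusedVariables false

open Set Filter Topology MeasureTheory

namespace Crest.Agent.R116.K1d30

open Crest.Agent.R138
open Crest.Agent.R138.Ex926 (Base U IsTan)
open Crest.Agent.R136
open Crest.Agent.R136.MkA627
open Crest.Agent.R136.TD627
open Crest.Agent.R136.Net191
open Crest.Agent.R136.Lq196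
open Crest.Agent.R136.Qg926 Crest.Agent.R136.Gf356 Crest.Agent.R116.EvL504
open Crest.Agent.R116.ChL222
open Crest.Agent.R116.PL504 (nb rL DN eL βL oL Shift eL_wall)
open Crest.Agent.R116.Sg337 (bx9 DL)
open Crest.Agent.R116.Gd222 (TSet sN PDL DT)
open Crest.Agent.R116.KI439 hiding kD
open Crest.Agent.R116.KF439 (PL)
open Crest.Agent.R116.CtxB468
open Crest.Agent.R116.Rcx363
open Crest.Agent.R116.RbM219
open Crest.Agent.R116.RbK219 (RS SOk Par dl)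
open Crest.Agent.R116.Kz647
open Crest.Agent.R116.Rz460
open Crest.Agent.R116.Pd363
open Crest.Agent.R116.Tq741
open Crest.Agent.R116.Tq126
open Crest.Agent.R116.Tp139 hiding cl8
open Crest.Agent.R116.Ku126 (tk8_D tk8_U kUp_of)
open Crest.Agent.R116.K1p736 (plane8z)
open Crest.Agent.R116.Tk299 (K3K AK kf1)
open Crest.Agent.R116.KTop387
open Crest.Agent.R116.KTie794
open Tie460 (Pl KF' KUp' kTie_false')
open Dg219 (mw Walls)
open Sl741 (slice xt rs)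

/-- `KF'` at `k = 1` from (K3) -/
theorem kf1K' {c : Fin 9 → Fin 9} {dl : V9} {s : ℝ} {Λ : V9 → ℝ} {φ : Fin 9 → V9 → ℝ} {ρ : V9}
    {L : Prop} (P : Tk299.PlK L 1 c dl) (H : Cl9 c dl s Λ φ ρ) (hs0 : 0 ≤ s) (hs : s ≤ 1)
    {Sk : V9 → Prop} (F : Fct9 Sk s Λ) (hSk : ∀ w, w 7 < w 0 → w 8 < 0 → Sk w) (K : K3K s Λ) :
    KF' s 1 (AK c s φ ρ) :=
  kf1 P H hs0 hs F hSk fun hm => Tk299.PlK.n1 P H K (by
    have h1 : Tk299.hK c φ ≤ s := (Tk299.PlK.fanA P H one_pos hs0 hs F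
      (fun w h7 h8 => hSk w (by linarith) (by linarith))).kh hm
    have h2 := Tk299.sum1 H P
    have h3 : 0 ≤ Tk299.rK c φ := (Tk299.PlK.pos P H).r0
    linarith)

theorem natcut (v c p : ℝ) : (fun i : Fin 8 => nat9 v c p i.castSucc) = nat8 v c p := by
  funext i; fin_cases i <;> rfl

section ctx

variable {G : Geo TSet (Fin 2)} {L : ℕ → ℕ → LRay} {r : ℕ → ℝ} {g s : ℝ} {θ q : Fin 2 → ℝ}
    {Rg : ℝ} {B : Base} {I : ℕ → Finset (ℕ × ℝ)} {lev : ℕ → ℚ → ℕ} {A : ℕ → ℝ}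
    {f : ℕ → ℚ → ℕ → ℤ → ℕ} {b : ℕ → ℚ → ℕ → TSet} {vm : ℕ → ℚ → ℝ} {w : Fin 2 → ℕ → ℚ → ℝ}
    {fr : ℕ → ℚ → ℕ × ℝ → LInc} {fl : ℕ → ℕ × ℝ → LInc} {sc : Fin 12 → ℕ → ℝ}
    {w0 sa sb δ R : ℝ} {I0 I' : ℕ → Finset (ℕ × ℝ)} {ν own : (Fin 12 → ℝ) → ℝ} {c₀ : ℝ}

/-- **(K3) at the raised plane**, the binder (460's `K3K_460`) -/
def K3P (R s : ℝ) (θ : Fin 2 → ℝ) (w0 sa sb : ℝ) (f : Fin 2 → (Fin 12 → ℝ) → ℝ) : Prop :=
  ∀ {v0 κ sg l α cc : ℝ} {a b' : Fin 2} {X : ℕ → Fin 12 → ℝ} {h' H : ℕ → ℝ}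
    {lam lam2 : Fin 2 → (Fin 12 → ℝ) → ℝ} {ρ ρ2 : Fin 8 → ℝ}, 0 < v0 → v0 < 1 →
    Pd8 R s a b' (fun k => k = 0 ∨ k = 2) (θ 0) (θ 1) w0 sa sb v0 1 κ (nat8 0 cc (2 * cc)) sg f lam
      ρ l α h' X H lam2 ρ2 →
    K3K s (fun w : V9 => lam2 0 (xt kp 0 (RL8.vec (fun i : Fin 8 => w i.castSucc))))

/-- the half plane data of a natural offset `(0; c, 2 c)` at `k' = 1` -/
theorem k1_plane {T : Type*} {Bs : T → Fin 8 → ℝ} {sgs : T → ℝ} {v0 : ℝ} {a b' : Fin 2}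
    {x : ℕ → Fin 12 → ℝ} {hh : ℕ → ℝ} {lam : Fin 2 → (Fin 12 → ℝ) → ℝ}
    (C : CtxT G L r g s θ q Rg B I lev A f b vm w fr fl sc w0 sa sb δ R I0 I' ν own c₀)
    (hs0 : 0 ≤ s) (hs1 : s ≤ 1) (hθ : 0 < θ 0) (hβ : 2 * θ 0 - θ 1 - 1 = 0)
    (hv0 : 0 < v0) (hv1 : v0 < 1) (hVis : ∀ k, VisT B I fl sc k → k = 0 ∨ k = 2)
    (hK3 : K3P R s θ w0 sa sb (fo ν own))
    (O : Out8z R s a b' (VisT B I fl sc) (θ 0) (θ 1) g (q 0) (q 1) Bs sgs
      (rL (θ 0) (θ 1) w0 sa sb v0) (fo ν own) x hh lam)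
    {cc sg : ℝ} (hS : SOk (nat8 1 (-(θ 0)) (-(θ 1))) (nat8 0 cc (2 * cc)) sg)
    {dl' : Fin 8 → ℝ} (hdl : dl (nat8 1 (-(θ 0)) (-(θ 1))) (nat8 0 cc (2 * cc)) sg = dl')
    (hT : Tk299.PlK False 1 (cK 1) (sn8 dl' 1))
    (hc : ∀ i j : Fin 8, cK 1 i.castSucc = cK 1 j.castSucc ↔
      Par (nat8 1 (-(θ 0)) (-(θ 1))) (nat8 0 cc (2 * cc)) i j)
    (hz : ∀ i : Fin 8, Par (nat8 1 (-(θ 0)) (-(θ 1))) (nat8 0 cc (2 * cc)) 0 i →
      i = 0 ∨ i = 6 ∨ i = 7)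
    {c0 : ℝ} (hc0 : 0 < c0) {ρ : Fin 8 → ℝ}
    (hR : Rates8 (θ 0) (θ 1) 0 (nat8 0 cc (2 * cc)) sg c0 (lam 0) ρ) :
    ∃ A : Pl, KF' s 1 A ∧ TVk 1 (θ 0) s g (q 0) (q 1) 0 cc A ∧ A.m = ρ 1 := by
  have hb : θ 1 = 2 * θ 0 - 1 := by linarith
  have hV1 : ¬ VisT B I fl sc 1 := fun h => by
    rcases hVis 1 h with h | h <;> exact absurd h (by decide)
  have e2 : βL (θ 0) (θ 1) 2 = 1 := by
    change -(θ 1) - 2 * -(θ 0) = 1
    linarith
  obtain ⟨l, α, h', X, H, lam3, lam4, ρ3, ρ4, hl, -, -, P, hρ, hrec⟩ :=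
    plane8z (Vis' := fun k => k = 0 ∨ k = 2) O hβ hS (leg80_nat (by ring)) hc0 hR
      (v := 0) (c := cc) (p := 2 * cc) le_rfl (by linarith) hV1 (fun k hk => by
        left
        refine ⟨hVis k hk, ?_⟩
        rcases hVis k hk with rfl | rfl
        · change (0:ℝ) ≤ 0 * 1
          norm_num
        · rw [e2]
          change 2 * cc - 2 * cc ≤ 0 * 1
          linarith) (N := univ) (by simp) one_pos
  obtain ⟨φ, Hc⟩ := P.cls one_pos hS (fun k hk => by rcases hk with rfl | rfl <;> simp) hc h8_cK hz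
  rw [hdl] at Hc
  have F : Fct9 (fun w => w 7 ≤ w 0) s
      (fun w : V9 => lam4 0 (xt kp 0 (RL8.vec (fun i : Fin 8 => w i.castSucc)))) := by
    refine Kt387.pd8_fct' P C hs0 hs1 one_ne_zero hθ hv0 hv1 ?_
    intro w' _ hSk k hk
    rcases hk with rfl | rfl
    · change w' 0 ≤ w' 0 * 1
      rw [mul_one]
    · rw [e2, mul_one]
      exact hSk
  have hKF := kf1K' hT Hc hs0 hs1 F (fun w h7 h8 => h7.le) (hK3 hv0 hv1 P)
  have T1 : (fun w : V9 => lam4 0 (xt kp 0 (RL8.vec (fun i : Fin 8 => w i.castSucc))))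
      (nat9 1 (-(θ 0)) (-(2 * (θ 0) - 1))) =
        DL g s (q 0) (q 1) 1 (-(θ 0)) (-(2 * (θ 0) - 1)) := by
    show lam4 0 (xt kp 0 (RL8.vec
      (fun i : Fin 8 => nat9 1 (-(θ 0)) (-(2 * (θ 0) - 1)) i.castSucc))) = _
    rw [natcut, ← hb]
    have h1 := hrec 1
    rw [one_smul, mul_one, mul_one] at h1
    exact h1
  have V1 : (fun w : V9 => lam4 0 (xt kp 0 (RL8.vec (fun i : Fin 8 => w i.castSucc))))
      (nat9 0 cc (2 * cc + 1 * 0)) ≤ DL g s (q 0) (q 1) 0 cc (2 * cc + 1 * 0) := by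
    show lam4 0 (xt kp 0 (RL8.vec (fun i : Fin 8 => nat9 0 cc (2 * cc + 1 * 0) i.castSucc))) ≤ _
    have e : 2 * cc + 1 * 0 = 2 * cc := by ring
    rw [natcut, e]
    exact P.half.row
  refine ⟨_, hKF, Tk299.PlK.tv hT Hc (fun _ => rfl) T1 V1, ?_⟩
  show sn8 ρ4 0 1 = ρ 1
  exact hρ 1 (A1_ne hθ)

/-- **the cell K2**: context `⊢ False` -/
theorem k1_false {η : ℝ} (hη : η < 1)
    (C : CtxT G L r (g + 2 * s) s θ q Rg B I lev A f b vm w fr fl sc w0 sa sb δ R I0 I' ν own c₀)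
    (hN : NumL η g s θ q) (hβ : 2 * θ 0 - θ 1 - 1 = 0)
    (hR0 : w0 + (θ 1 + sb) < R) (hR1 : w0 + 1 + sb < R) (hRg : θ 0 + |θ 1| < Rg)
    (hVis : ∀ k, VisT B I fl sc k → k = 0 ∨ k = 2)
    (hK3 : K3P R s θ w0 sa sb (fo ν own)) : False := by
  have hθ : 0 < θ 0 := hN.θa
  have hb : θ 1 = 2 * θ 0 - 1 := by linarith
  have hs0 : 0 ≤ s := hN.s0
  have hs1 : s ≤ 1 := hN.s1.le
  have Nm := num_of hη hN
  have hTan : ∀ {cc : ℝ} {A : Pl}, TVk 1 (θ 0) s (g + 2 * s) (q 0) (q 1) 0 cc A →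
      A.Tan (g + 2 * s) (θ 0) (2 * θ 0 - 1) (q 0) (q 1) := fun h => h.tan
  have kD_eq : kD = nat8 0 (-1) (2 * (-1)) := by unfold kD; norm_num
  have kU_eq : kU = nat8 0 1 (2 * 1) := by unfold kU; norm_num
  by_cases h2 : 2 * θ 0 < 1
  · -- both sides
    have hb0 : θ 1 < 0 := by linarith
    set Bs : Fin 3 → Fin 8 → ℝ := ![kD, kU, oP] with hBs
    set sgs : Fin 3 → ℝ := ![-1, 1, 1] with hsgs
    obtain ⟨v0, -, hv0, hv1, a, b', x, hh, lam, hX, O⟩ := exists_out8z (T := Fin 3) C hR0 hR1 hθ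
      hRg hβ (Bs := Bs) (sg := sgs) (fun i => by
        fin_cases i
        · exact sok_kD hθ one_pos hb
        · exact sok_kU hθ one_pos hb
        · exact sok_oP (by linarith) (by linarith) hb0) (fun i => by
        fin_cases i
        · exact leg80_kD
        · exact leg80_kU
        · exact leg80_oP) (N := univ) (by simp)
    obtain ⟨cD, hcD, hLD, -, ρD, hRD⟩ := O.surf 0
    obtain ⟨cU, hcU, hLU, -, ρU, hRU⟩ := O.surf 1
    obtain ⟨cP, hcP, hLP, -, ρP, hRP⟩ := O.surf 2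
    change (srf8 (θ 0) (θ 1) 0 kD (-1)).LW (Q8 0) cD ⊆ _ at hLD
    change Rates8 (θ 0) (θ 1) 0 kD (-1) cD (lam 0) ρD at hRD
    change (srf8 (θ 0) (θ 1) 0 kU 1).LW (Q8 0) cU ⊆ _ at hLU
    change Rates8 (θ 0) (θ 1) 0 kU 1 cU (lam 0) ρU at hRU
    change (srf8 (θ 0) (θ 1) 0 oP 1).LW (Q8 0) cP ⊆ _ at hLP
    change Rates8 (θ 0) (θ 1) 0 oP 1 cP (lam 0) ρP at hRP
    have hp := O.posA_kD hβ hθ hcD hLD hRD
    have hpU := O.posB_kU hβ hθ hb0 hcU hcP hLU hLP hRU hRP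
    have hant := O.ant_kU hβ hθ hcD hcU hLD hLU hRD hRU
    obtain ⟨A1, hA, tvA, hAm⟩ := k1_plane C hs0 hs1 hθ hβ hv0 hv1 hVis hK3 O (cc := -1) (sg := -1)
      (by rw [← kD_eq]; exact sok_kD hθ one_pos hb) rfl
      (by rw [← kD_eq]; exact tk8_D hb)
      (by rw [← kD_eq]; exact hc_kD hθ one_pos hb) (by rw [← kD_eq]; exact hz_kD hθ one_pos hb)
      hcD (by rw [← kD_eq]; exact hRD)
    obtain ⟨B1, hB, tvB, hBm⟩ := k1_plane C hs0 hs1 hθ hβ hv0 hv1 hVis hK3 O (cc := 1) (sg := 1)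
      (by rw [← kU_eq]; exact sok_kU hθ one_pos hb) rfl
      (by rw [← kU_eq]; exact tk8_U hb)
      (by rw [← kU_eq]; exact hc_kU hθ one_pos hb) (by rw [← kU_eq]; exact hz_kU hθ one_pos hb)
      hcU (by rw [← kU_eq]; exact hRU)
    exact kTie_false' Nm one_pos hA (fun h => absurd h (lt_irrefl _)) (hTan tvA)
      (tvA.ver (by norm_num)) (by rw [hAm]; exact hp) (fun _ h => absurd h (lt_irrefl _))
      (fun _ h => absurd h (lt_irrefl _)) fun _ _ =>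
        ⟨B1, kUp_of hB tvB (by norm_num) (fun _ => by rw [hAm, hBm]; exact hant)
          (by rw [hBm]; exact hpU)⟩
  · obtain ⟨v0, -, hv0, hv1, a, b', x, hh, lam, hX, O⟩ := exists_out8z (T := Unit) C hR0 hR1 hθ
      hRg hβ (Bs := fun _ => kD) (sg := fun _ => -1) (fun _ => sok_kD hθ one_pos hb)
      (fun _ => leg80_kD) (N := univ) (by simp)
    obtain ⟨cD, hcD, hLD, -, ρD, hRD⟩ := O.surf ()
    have hp := O.posA_kD hβ hθ hcD hLD hRD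
    obtain ⟨A1, hA, tvA, hAm⟩ := k1_plane C hs0 hs1 hθ hβ hv0 hv1 hVis hK3 O (cc := -1) (sg := -1)
      (by rw [← kD_eq]; exact sok_kD hθ one_pos hb) rfl
      (by rw [← kD_eq]; exact tk8_D hb)
      (by rw [← kD_eq]; exact hc_kD hθ one_pos hb) (by rw [← kD_eq]; exact hz_kD hθ one_pos hb)
      hcD (by rw [← kD_eq]; exact hRD)
    exact kTie_false' Nm one_pos hA (fun h => absurd h (lt_irrefl _)) (hTan tvA)
      (tvA.ver (by norm_num)) (by rw [hAm]; exact hp) (fun _ h => absurd h (lt_irrefl _))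
      (fun _ h => absurd h (lt_irrefl _)) fun h _ => absurd h h2

end ctx

/-- **FalseK at `k' = 1`** -/
theorem fillK2 {η : ℝ} (hη : η < 1) :
    Fill η (fun θ B I lev fl sc => InvB B I fl sc ∧ VisE θ B I lev fl sc)
      fun g s θ q => 2 * θ 0 - θ 1 = 1 → False := by
  intro g s θ q hN
  refine ⟨θ 0 + |θ 1| + 1, fun Rg hRg => ?_⟩
  intro G L r B I lev A f b vm w fr fl sc w0 sa sb δ R I0 I' ν own c₀ C hV hk
  obtain ⟨⟨h7, h8⟩, hE⟩ := hV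
  obtain ⟨w0', sa', sb', δ', R', J0, J', ν', own', c', C', hR0, hR1⟩ := strict_ctx C
  have hβ : 2 * θ 0 - θ 1 - 1 = 0 := by linarith
  have h1 : InvT PL B I 1 fl (sc 1) := not_not.1 (Fk647.vis_noD C'.out hk.le)
  have h2 : ¬ InvT PL B I 2 fl (sc 2) := by
    rcases hE with h | h
    · exact h.1
    · exact absurd h1 h.1
  refine k1_false hη C' hN hβ hR0 hR1 (by linarith) (Fk647.vis_kap C'.out ⟨h7, h8⟩ hk.le)
    fun hv0 hv1 P => ?_
  refine K3V460.k3K_pd8 P C' one_ne_zero hβ (by ring) h2 hv0 hv1 fun k hk => Or.inl ?_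
  rcases hk with rfl | rfl
  · exact h7
  · exact h8

end Crest.Agent.R116.K1d30
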