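import Crest.Agent.R116.D2u_736
import Crest.Agent.R116.FlK2_30

/-!
# R116 (K side, TIES), cell D2 : DOUBLE TIE at `k' = 2 θ0 - θ1 = 1` (helper736)

* `d2_down`  : `KF'` and the relations on the raised plane `kD`, `B` strictly coarser
* `cellD2`   : 460's data `DTie'` over the context
* **`fillD2`**
-/

set_option autoImplicit false
set_option linter.unusedSectionVars false
set_option linter.unusedVariables false

open Set Filter Topology MeasureTheory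

namespace Crest.Agent.R116.D2u736

open Crest.Agent.R138
open Crest.Agent.R138.Ex926 (Base U IsTan)
open Crest.Agent.R136
open Crest.Agent.R136.MkA627
open Crest.Agent.R136.TD627
open Crest.Agent.R136.Net191
open Crest.Agent.R136.Lq196
open Crest.Agent.R116.ChL222
open Crest.Agent.R116.PL504 (nb rL DN eL βL oL Shift)
open Crest.Agent.R116.Sg337 (bx9 coneL DL natB)
open Crest.Agent.R116.Gd222 (TSet sN PDL DT)
open Crest.Agent.R116.KI439 hiding kD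
open Crest.Agent.R116.KF439 (PL)
open Crest.Agent.R116.KTop387
open Crest.Agent.R116.CtxB468
open Crest.Agent.R116.KTie794
open Crest.Agent.R116.Rcx363
open Crest.Agent.R116.RbM219
open Crest.Agent.R116.RbK219 (RS SOk Par dl Aln)
open Crest.Agent.R116.SgO219 (PP)
open Crest.Agent.R116.Kz647
open Crest.Agent.R116.Pd363
open Crest.Agent.R116.Tq741
open Crest.Agent.R116.Tq794
open Crest.Agent.R116.Tq126
open Crest.Agent.R116.Tp139 hiding cl8
open Crest.Agent.R116.Ku126 (tk8_D tk8_U)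
open Crest.Agent.R116.Tie460
open Crest.Agent.R116.Rz460
open Crest.Agent.R116.K1p736
open Crest.Agent.R116.NZ90 (Lam8)
open Dg219 (mw Walls)
open Sl741 (slice xt rs)

section ctx

variable {G : Geo TSet (Fin 2)} {L : ℕ → ℕ → LRay} {r : ℕ → ℝ} {g s : ℝ} {θ q : Fin 2 → ℝ}
    {Rg : ℝ} {B : Base} {I : ℕ → Finset (ℕ × ℝ)} {lev : ℕ → ℚ → ℕ} {A : ℕ → ℝ}
    {f : ℕ → ℚ → ℕ → ℤ → ℕ} {b : ℕ → ℚ → ℕ → TSet} {vm : ℕ → ℚ → ℝ} {w : Fin 2 → ℕ → ℚ → ℝ}
    {fr : ℕ → ℚ → ℕ × ℝ → LInc} {fl : ℕ → ℕ × ℝ → LInc} {sc : Fin 12 → ℕ → ℝ}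
    {w0 sa sb δ R : ℝ} {I0 I' : ℕ → Finset (ℕ × ℝ)} {ν own : (Fin 12 → ℝ) → ℝ} {c₀ : ℝ}

/-- **double tie at `k' = 1`, below the record** -/
theorem d2_down {T : Type*} {Bs : T → Fin 8 → ℝ} {sgs : T → ℝ} {v0 : ℝ} {a b' : Fin 2}
    {x : ℕ → Fin 12 → ℝ} {hh : ℕ → ℝ} {lam : Fin 2 → (Fin 12 → ℝ) → ℝ}
    (C : CtxT G L r g s θ q Rg B I lev A f b vm w fr fl sc w0 sa sb δ R I0 I' ν own c₀)
    (hs0 : 0 ≤ s) (hs1 : s ≤ 1) (hθ : 0 < θ 0) (hβ : 2 * θ 0 - θ 1 - 1 = 0)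
    (hv0 : 0 < v0) (hv1 : v0 < 1) (hV1 : InvT PL B I 1 fl (sc 1))
    (hE : ¬ InvT PL B I 2 fl (sc 2))
    (O : Out8z R s a b' (VisT B I fl sc) (θ 0) (θ 1) g (q 0) (q 1) Bs sgs
      (rL (θ 0) (θ 1) w0 sa sb v0) (fo ν own) x hh lam)
    {c0 : ℝ} (hc0 : 0 < c0) {ρ : Fin 8 → ℝ}
    (hR : Rates8 (θ 0) (θ 1) 0 kD (-1) c0 (lam 0) ρ) :
    ∃ A : Pl, KF' s 1 A ∧ TVk 1 (θ 0) s g (q 0) (q 1) 0 (-1) A ∧ A.m = ρ 1 := by
  have hb : θ 1 = 2 * θ 0 - 1 := by linarith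
  have hvis : ∀ i, VisT B I fl sc i → i = 0 ∨ i = 1 ∨ i = 2 ∨ i = 7 ∨ i = 8 :=
    fun i hi => Th171.vis_flag C hi
  have e2 : βL (θ 0) (θ 1) 2 = 1 := by
    change -(θ 1) - 2 * -(θ 0) = 1
    linarith
  have hS := sok_kD hθ one_pos hb
  have k0 : kD 0 = 0 := rfl
  have k6 : kD 6 = -1 := by show (-2:ℝ) - (-1) = -1; norm_num
  have k7 : kD 7 = 0 := by show (-2:ℝ) - 2 * (-1) = 0; norm_num
  obtain ⟨l, α, h', X, H, lam3, lam4, ρ3, ρ4, hl, -, -, P, hρ, hrec, V, E, -, -, -, hKE, hbase⟩ :=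
    plane8zE (Vis' := fun k => k = 0 ∨ k = 2) O hβ hS leg80_kD hc0 hR
      (v := 0) (c := -1) (p := -2) (le_of_eq rfl) (by norm_num) (not_not.2 hV1) (fun k hk => by
        rcases hvis k hk with rfl | rfl | rfl | rfl | rfl
        · left
          refine ⟨Or.inl rfl, ?_⟩
          change kD 0 ≤ kD 0 * 1
          rw [mul_one]
        · exact absurd hV1 hk
        · left
          refine ⟨Or.inr rfl, ?_⟩
          rw [e2, mul_one]
          change kD 7 ≤ kD 0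
          rw [k7, k0]
        · right
          change kD 6 < kD 0 * _
          rw [k0, k6, zero_mul]; norm_num
        · right
          change kD 6 < kD 0 * _
          rw [k0, k6, zero_mul]; norm_num) (N := univ) (by simp) one_pos
  obtain ⟨φ, Hc⟩ := P.cls one_pos hS (fun k hk => by rcases hk with rfl | rfl <;> simp)
    (hc_kD hθ one_pos hb) h8_cK (hz_kD hθ one_pos hb)
  have F : Fct9 (fun w => w 7 ≤ w 0) s
      (fun w : V9 => lam4 0 (xt kp 0 (RL8.vec (fun i : Fin 8 => w i.castSucc)))) := by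
    refine Kt387.pd8_fct' P C hs0 hs1 one_ne_zero hθ hv0 hv1 ?_
    intro w' _ hSk k hk
    rcases hk with rfl | rfl
    · change w' 0 ≤ w' 0 * 1
      rw [mul_one]
    · rw [e2, mul_one]
      exact hSk
  have K3 := K3V460.k3K_pd8 P C one_ne_zero hβ (by norm_num) hE hv0 hv1 fun k hk => Or.inr
    fun K => by
      filter_upwards [hKE K] with m hm
      have h0 : X m 0 - w0 = v0 + V m := by
        rw [hbase m 0 (by decide)]
        change w0 + (v0 + V m) + E m * kD 0 - w0 = _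
        rw [k0]; ring
      rcases hk with rfl | rfl
      · rw [h0, hbase m 7 (by decide)]
        change _ + E m * kD 6 + _ ≤ _
        rw [k6]; linarith
      · rw [h0, hbase m 8 (by decide)]
        change _ + E m * kD 6 + _ ≤ _
        rw [k6]; linarith
  have hKF := K1d30.kf1K' (tk8_D hb) Hc hs0 hs1 F (fun w h7 h8 => h7.le) K3
  have T1 : (fun w : V9 => lam4 0 (xt kp 0 (RL8.vec (fun i : Fin 8 => w i.castSucc))))
      (nat9 1 (-(θ 0)) (-(2 * (θ 0) - 1))) =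
        DL g s (q 0) (q 1) 1 (-(θ 0)) (-(2 * (θ 0) - 1)) := by
    show lam4 0 (xt kp 0 (RL8.vec
      (fun i : Fin 8 => nat9 1 (-(θ 0)) (-(2 * (θ 0) - 1)) i.castSucc))) = _
    rw [K1d30.natcut, ← hb]
    have h1 := hrec 1
    rw [one_smul, mul_one, mul_one] at h1
    exact h1
  have V1 : (fun w : V9 => lam4 0 (xt kp 0 (RL8.vec (fun i : Fin 8 => w i.castSucc))))
      (nat9 0 (-1) (2 * (-1) + 1 * 0)) ≤ DL g s (q 0) (q 1) 0 (-1) (2 * (-1) + 1 * 0) := by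
    show lam4 0 (xt kp 0 (RL8.vec (fun i : Fin 8 => nat9 0 (-1) (2 * (-1) + 1 * 0) i.castSucc)))
      ≤ _
    have e : (2:ℝ) * (-1) + 1 * 0 = -2 := by norm_num
    rw [K1d30.natcut, e]
    exact P.half.row
  refine ⟨_, hKF, Tk299.PlK.tv (tk8_D hb) Hc (fun _ => rfl) T1 V1, ?_⟩
  show sn8 ρ4 0 1 = ρ 1
  exact hρ 1 (A1_ne hθ)

/-- **cell D2 over the context** -/
theorem cellD2
    (C : CtxT G L r g s θ q Rg B I lev A f b vm w fr fl sc w0 sa sb δ R I0 I' ν own c₀)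
    (hs0 : 0 ≤ s) (hs1 : s ≤ 1) (hθ : 0 < θ 0) (hβ : 2 * θ 0 - θ 1 - 1 = 0)
    (hR0 : w0 + (θ 1 + sb) < R) (hR1 : w0 + 1 + sb < R) (hRg : θ 0 + |θ 1| < Rg)
    (hV1 : InvT PL B I 1 fl (sc 1)) (hE : ¬ InvT PL B I 2 fl (sc 2))
    (hB : TieT θ B I lev fl sc 7 ∨ TieT θ B I lev fl sc 8) :
    DTie' (θ 0 - θ 1) (2 * θ 0 - θ 1) (θ 0) s g (q 0) (q 1) := by
  have hb : θ 1 = 2 * θ 0 - 1 := by linarith
  have hk' : 2 * θ 0 - θ 1 = 1 := by linarith
  have hTan : ∀ {cc : ℝ} {A : Pl}, TVk 1 (θ 0) s g (q 0) (q 1) 0 cc A →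
      A.Tan g (θ 0) (θ 0 - (θ 0 - θ 1)) (q 0) (q 1) := fun {cc A} h => by
    have h1 : A.Tan g (θ 0) (2 * θ 0 - 1) (q 0) (q 1) := h.tan
    have e : θ 0 - (θ 0 - θ 1) = 2 * θ 0 - 1 := by linarith
    rw [e]; exact h1
  by_cases h2 : θ 0 < θ 0 - θ 1
  · have hb0 : θ 1 < 0 := by linarith
    set Bs : Fin 3 → Fin 8 → ℝ := ![kD, oS, oP] with hBs
    set sgs : Fin 3 → ℝ := ![-1, 1, 1] with hsgs
    obtain ⟨v0, -, hv0, hv1, a, b', x, hh, lam, hX, O⟩ := exists_out8z (T := Fin 3) C hR0 hR1 hθ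
      hRg hβ (Bs := Bs) (sg := sgs) (fun i => by
        fin_cases i
        · exact sok_kD hθ one_pos hb
        · exact sok_oS (by linarith) (by linarith)
        · exact sok_oP (by linarith) (by linarith) hb0) (fun i => by
        fin_cases i
        · exact leg80_kD
        · exact leg80_oS
        · exact leg80_oP) (N := univ) (by simp)
    obtain ⟨cD, hcD, hLD, -, ρD, hRD⟩ := O.surf 0
    obtain ⟨cp, hcp, hLp, -, ρp, hRp⟩ := O.surf 1
    obtain ⟨cP, hcP, hLP, -, ρP, hRP⟩ := O.surf 2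
    change (srf8 (θ 0) (θ 1) 0 kD (-1)).LW (Q8 0) cD ⊆ _ at hLD
    change Rates8 (θ 0) (θ 1) 0 kD (-1) cD (lam 0) ρD at hRD
    change (srf8 (θ 0) (θ 1) 0 oS 1).LW (Q8 0) cp ⊆ _ at hLp
    change Rates8 (θ 0) (θ 1) 0 oS 1 cp (lam 0) ρp at hRp
    change (srf8 (θ 0) (θ 1) 0 oP 1).LW (Q8 0) cP ⊆ _ at hLP
    change Rates8 (θ 0) (θ 1) 0 oP 1 cP (lam 0) ρP at hRP
    have hp := O.posA_kD hβ hθ hcD hLD hRD
    obtain ⟨A1, hA, tvA, hAm⟩ := d2_down C hs0 hs1 hθ hβ hv0 hv1 hV1 hE O hcD hRD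
    refine ⟨A1, by rw [hk']; exact hA, fun h => absurd h (by linarith), hTan tvA,
      tvA.ver (by norm_num), by rw [hAm]; exact hp, fun h => absurd h (by linarith),
      fun _ _ _ => ?_⟩
    exact d2_up C hθ hs0 hs1 hβ hV1 hB h2 hv0 hv1 O hcD hcp hcP hLD hLp hLP hRD hRp hRP hAm
  · obtain ⟨v0, -, hv0, hv1, a, b', x, hh, lam, hX, O⟩ := exists_out8z (T := Unit) C hR0 hR1 hθ
      hRg hβ (Bs := fun _ => kD) (sg := fun _ => -1) (fun _ => sok_kD hθ one_pos hb)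
      (fun _ => leg80_kD) (N := univ) (by simp)
    obtain ⟨cD, hcD, hLD, -, ρD, hRD⟩ := O.surf ()
    have hp := O.posA_kD hβ hθ hcD hLD hRD
    obtain ⟨A1, hA, tvA, hAm⟩ := d2_down C hs0 hs1 hθ hβ hv0 hv1 hV1 hE O hcD hRD
    exact ⟨A1, by rw [hk']; exact hA, fun h => absurd h (by linarith), hTan tvA,
      tvA.ver (by norm_num), by rw [hAm]; exact hp, fun h => absurd h (by linarith),
      fun _ h _ => absurd h h2⟩

end ctx

/-- **the cell D2** -/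
theorem fillD2 {η : ℝ} (hη : η < 1) :
    Fill η (fun θ B I lev fl sc => VisB θ B I lev fl sc ∧ VisE θ B I lev fl sc)
      fun g s θ q => 2 * θ 0 - θ 1 = 1 →
        DTie' (θ 0 - θ 1) (2 * θ 0 - θ 1) (θ 0) s (g + 2 * s) (q 0) (q 1) := by
  intro g s θ q hN
  refine ⟨θ 0 + |θ 1| + 1, fun Rg hRg => ?_⟩
  intro G L r B I lev A f b vm w fr fl sc w0 sa sb δ R I0 I' ν own c₀ C hV hk
  obtain ⟨w0', sa', sb', δ', R', J0, J', ν', own', c', C', hR0, hR1⟩ := Rcx363.strict_ctx C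
  have hβ : 2 * θ 0 - θ 1 - 1 = 0 := by linarith
  have h1 : InvT PL B I 1 fl (sc 1) := C'.out.invD (by linarith)
  have h2 : ¬ InvT PL B I 2 fl (sc 2) := by
    rcases hV.2 with h | h
    · exact h.1
    · exact absurd h1 h.1
  exact cellD2 C' hN.s0 hN.s1.le hN.θa hβ hR0 hR1 (by linarith) h1 h2 hV.1

end Crest.Agent.R116.D2u736
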