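import Crest.Agent.R116.K3e5_160

/-!
# R116, e-tie `k = 1` : **K3core**, part 6 (helper160): class layer, `D` frozen

* `K3B` : the bases (natural off `D`, `E`; tied in `B`; `D` slack);
* **`k3c_8`** : `⊢ K3C c s φ ρ` over `CtxT`.
-/

set_option autoImplicit false
set_option linter.unusedVariables false
set_option linter.unusedSectionVars false

open Filter Topology Finset

namespace Crest.Agent.R116.K3e160

open Crest.Agent.R138.Ex926
open Crest.Agent.R138.Mk163 (zc zl rho alive)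
open Crest.Agent.R136.Net191 Crest.Agent.R136.Gf356 Crest.Agent.R136.Qg926
open Crest.Agent.R136.MkA627 Crest.Agent.R136.TD627 Crest.Agent.R136.Lq196
open Crest.Agent.R116.LZg725 Crest.Agent.R116.ChL222
open Crest.Agent.R116.EvL504 (WL Reg side natD LnS ownL Sides bd2D)
open Crest.Agent.R116.PL504 (βL eL rL oL Shift nb DN prN wtL)
open Crest.Agent.R116.Gd222 (TSet sN PDL DT vb)
open Crest.Agent.R116.KI439
open Crest.Agent.R116.KF439 (PL Thin)
open Crest.Agent.R116.Tw468 Crest.Agent.R116.CtxB468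
open Crest.Agent.R116.EvD369 Crest.Agent.R116.Kst593
open Crest.Agent.R116.Tw369
open Crest.Agent.R116.Tq741
open Crest.Agent.R116.Sg337 (bx9)
open Crest.Agent.R116.SgF665 (wl LM0 bx9_mem)
open Crest.Agent.R116.Tq794 (E8 E9 E8_add E8_mem LM0_closed LM0_add LM0_smul)

/-- the bases of (K3) -/
structure K3B (θ0 θ1 w0 sa sb v0 : ℝ) (X : ℕ → Fin 12 → ℝ) (H v : ℕ → ℝ) : Prop where
  tb : TBase θ0 θ1 w0 sa sb v0 {0, 7, 8} X v
  lim : ∀ j : Fin 12, 3 ≤ j → Tendsto (fun l => X l j) atTop (𝓝 (rL θ0 θ1 w0 sa sb v0 j))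
  x4 : ∀ l, X l 4 = X l 3
  x5 : ∀ l, X l 5 = X l 0 + X l 3
  x6 : ∀ l, X l 6 = X l 0 + X l 3
  x8 : ∀ l, X l 8 = X l 7
  x9 : ∀ l, X l 9 = X l 3 + X l 5
  x10 : ∀ l, X l 10 = X l 7 + X l 3
  x11 : ∀ l, X l 11 = X l 0 + X l 10
  x2 : ∀ l, X l 7 ≤ X l 2 + X l 3
  x1 : ∀ K : ℝ, ∀ᶠ l in (atTop : Filter ℕ), X l 10 + K * H l ≤ X l 1 + X l 9

/-- class vector of the boxes `q5` -/
def uq (n p x c : ℝ) : V9 := fun i =>
  if i = 4 then n else if i = 2 then p else if i = 3 then x else if i = 1 then c else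
    if i = 0 ∨ i = 6 then 1 else 0

/-- `y` in the slot `z` -/
def uz (y : ℝ) : V9 := fun i => if i = 0 then y else 0

/-- top, line part, level part -/
def uT : V9 := fun i => if i = 7 ∨ i = 8 then 0 else 1
def uL : V9 := fun i => if i = 0 ∨ i = 6 ∨ i = 7 ∨ i = 8 then 0 else 1
def uV : V9 := fun i => if i = 0 ∨ i = 6 then 1 else 0

theorem uz_zero : uz 0 = 0 := by
  funext i; simp [uz]

theorem e8_q5 (n p x c : ℝ) : cT {0, 7, 8} {1, 2} 1 (q5 n p x c) = E8 (uq n p x c) := by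
  funext i
  fin_cases i <;> simp [cT, q5, E8, bx9, uq]

theorem e8_top : (cT {0, 7, 8} {1, 2} 1 fun _ => 1) = E8 uT := by
  funext i
  fin_cases i <;> simp [cT, E8, bx9, uT]

theorem e8_lin : (cL {0, 7, 8} {1, 2} fun _ => 1) = E8 uL := by
  funext i
  fin_cases i <;> simp [cL, E8, bx9, uL]

theorem e8_lev : cT {0, 7, 8} {1, 2} 1 0 = E8 uV := by
  funext i
  fin_cases i <;> simp [cT, E8, bx9, uV]

theorem e8_z (y : ℝ) : Pi.single 0 y = E8 (uz y) := by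
  funext i
  fin_cases i <;> simp [E8, bx9, uz]

theorem e8_G : E8 (e9 7) = Pi.single 2 1 := by
  funext i
  fin_cases i <;> simp [E8, bx9, e9]

/-- base of use -/
def wK : V9 := ![0, 0, 0, 0, 0, 0, 0, 1, 100]

theorem e8_wK : E8 wK = Pi.single 2 1 := by
  funext i
  fin_cases i <;> simp [E8, bx9, wK]

/-- directions of use -/
def AK (u : V9) : Prop := LegM 0 (u + e9 7 + (100 : ℝ) • e9 8)

theorem ak_iff {u : V9} : AK u ↔ LegM 0 ![u 0, u 1, u 2, u 3, u 4, u 5, u 6, u 7 + 1, u 8 + 100] := by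
  have e : u + e9 7 + (100 : ℝ) • e9 8 =
      ![u 0, u 1, u 2, u 3, u 4, u 5, u 6, u 7 + 1, u 8 + 100] := by
    funext i
    fin_cases i <;> simp [e9]
  unfold AK
  rw [e]

theorem ak_leg {u : V9} (hu : AK u) {k : ℝ} (k0 : 0 ≤ k) (k1 : k ≤ 1 / 2) :
    LegM 0 (wK + k • (u + e9 7)) := by
  have h1 : LegM 0 (wK + (-(100 * k)) • e9 8) := by
    have e : wK + (-(100 * k)) • e9 8 = ![0, 0, 0, 0, 0, 0, 0, 1, 100 - 100 * k] := by
      funext i
      fin_cases i <;> simp [wK, e9]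
      ring
    rw [e]
    constructor <;> simp <;> linarith
  have h2 := h1.add_smul hu k0
  have e : wK + (-(100 * k)) • e9 8 + k • (u + e9 7 + (100 : ℝ) • e9 8) = wK + k • (u + e9 7) := by
    rw [smul_add k (u + e9 7), smul_smul, neg_smul]
    have : (100 * k : ℝ) = k * 100 := by ring
    rw [this]
    abel
  rwa [e] at h2

theorem ak_mem {u : V9} (hu : AK u) : E8 u + (1 : ℝ) • E8 (e9 7) ∈ LM0 := by
  have h1 := E8_mem hu
  have e : E8 (u + e9 7 + (100 : ℝ) • e9 8) = E8 u + (1 : ℝ) • E8 (e9 7) := by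
    rw [E8_add]
    have e1 : E8 (e9 8) = 0 := by
      funext i
      fin_cases i <;> simp [E8, bx9, e9]
    have e2 := E8_add u (e9 7) 1
    rw [one_smul] at e2
    rw [e1, e2, smul_zero, add_zero]
  rwa [e] at h1


theorem ak_q {n p x c' : ℝ} (a1 : 0 ≤ n) (a2 : n ≤ 1) (a3 : 0 ≤ p) (a4 : p ≤ 1) (a5 : 0 ≤ x)
    (a6 : x ≤ 1) (a7 : 0 ≤ c') (a8 : c' ≤ 1) : AK (uq n p x c') := by
  rw [ak_iff]
  constructor <;> simp [uq] <;> linarith

theorem ak_T : AK uT := by rw [ak_iff]; constructor <;> simp [uT]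

theorem ak_L : AK uL := by rw [ak_iff]; constructor <;> simp [uL]; linarith

theorem ak_V : AK uV := by rw [ak_iff]; constructor <;> simp [uV]

theorem ak_0 : AK 0 := by rw [ak_iff]; constructor <;> simp

theorem ak_z {y : ℝ} (a1 : 0 ≤ y) (a2 : y ≤ 1) : AK (uz y) := by
  rw [ak_iff]
  constructor <;> simp [uz] <;> linarith

theorem uz_eq (y : ℝ) : uz y = y • e9 0 := by
  funext i
  show uz y i = y * e9 0 i
  unfold uz
  by_cases hi : i = 0
  · rw [hi, if_pos rfl, e9_same, mul_one]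
  · rw [if_neg hi, e9_ne hi, mul_zero]

theorem wK_z (k y : ℝ) : wK + k • (0 + e9 7) + (k * y) • e9 0 = wK + k • (uz y + e9 7) := by
  rw [uz_eq, zero_add, smul_add, smul_smul]
  abel

theorem wK_z0 (k : ℝ) : (wK + k • (0 + e9 7)) 0 = 0 := by
  show wK 0 + k * (0 + e9 7 0) = 0
  rw [e9_ne (by decide)]
  show (0 : ℝ) + k * (0 + 0) = 0
  ring

theorem wK_z6 (k : ℝ) : (wK + k • (0 + e9 7)) 6 = 0 := by
  show wK 6 + k * (0 + e9 7 6) = 0
  rw [e9_ne (by decide)]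
  show (0 : ℝ) + k * (0 + 0) = 0
  ring

theorem uq_off4 (n p x c' : ℝ) : ∀ i, i ≠ 4 → uq n p x c' i = uq 0 p x c' i := fun i hi => by
  unfold uq
  rw [if_neg hi, if_neg hi]

theorem uq_off1 (n p x c' : ℝ) : ∀ i, i ≠ 1 → uq n p x c' i = uq n p x 0 i := fun i hi => by
  unfold uq
  rw [if_neg hi, if_neg hi]

theorem uq_off3 (n p x c' : ℝ) : ∀ i, i ≠ 3 → uq n p x c' i = uq n p 0 c' i := fun i hi => by
  unfold uq
  rw [if_neg hi, if_neg hi]

theorem u_in : ∀ t : Fin 9, (t = 0 ∨ t = 6 ∨ t = 7 ∨ t = 8) → uT t = uV t ∧ uL t = 0 := by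
  intro t ht
  unfold uT uV uL
  rw [if_pos ht]
  refine ⟨?_, rfl⟩
  rcases ht with rfl | rfl | rfl | rfl <;> simp

theorem u_out : ∀ t : Fin 9, t ≠ 0 → t ≠ 6 → uT t = uL t ∧ uV t = 0 := by
  intro t h0 h6
  unfold uT uV uL
  simp [h0, h6]

theorem no_wall2 : ∀ e ∈ monL.mon 2, e 1 ≠ 0 := by decide +kernel

/-- the directions of the model are in the shifted cone -/
theorem dir_mem : Leg (monX {1, 2}) 1 ⊆ {d : Fin 12 → ℝ | d + (1 : ℝ) • E8 (e9 7) ∈ LM0} := by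
  intro d hd
  show d + (1 : ℝ) • E8 (e9 7) ∈ LM0
  rw [e8_G, one_smul]
  intro k e he h1
  have hk : k ≠ 2 := by
    rintro rfl
    exact no_wall2 e he h1
  have hd0 := hd.1.nonneg
  have e1 : (d + (Pi.single 2 1 : Fin 12 → ℝ)) k = d k := by
    rw [Pi.add_apply, Pi.single_eq_of_ne hk, add_zero]
  rw [e1]
  have e2 : wl e (d + (Pi.single 2 1 : Fin 12 → ℝ)) = wl e d + e 2 := by
    rw [SgF665.wl_add]
    congr 1
    unfold wl
    rw [Finset.sum_eq_single 2 (fun i _ hi => by rw [Pi.single_eq_of_ne hi, mul_zero])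
      (fun h => absurd (Finset.mem_univ _) h), Pi.single_eq_same, mul_one]
  rw [e2]
  have h0 : 0 ≤ wl e d := Finset.sum_nonneg fun s _ => mul_nonneg (Nat.cast_nonneg _) (hd0 s)
  by_cases h2 : e 2 = 0
  · rw [h2, Nat.cast_zero, add_zero]
    exact hd.1.wall k e (mem_monX.2 ⟨he, fun s hs => by
      rcases Finset.mem_insert.1 hs with rfl | hs
      · exact h1
      · rw [Finset.mem_singleton.1 hs]; exact h2⟩)
  · have h3 : (1 : ℝ) ≤ e 2 := by exact_mod_cast Nat.one_le_iff_ne_zero.2 h2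
    have := hd.2 k
    linarith

variable {G : Geo TSet (Fin 2)} {L : ℕ → ℕ → LRay} {r : ℕ → ℝ} {g s : ℝ} {θ q : Fin 2 → ℝ}
    {Rg : ℝ} {B : Base} {I : ℕ → Finset (ℕ × ℝ)} {lev : ℕ → ℚ → ℕ} {A : ℕ → ℝ}
    {f : ℕ → ℚ → ℕ → ℤ → ℕ} {b : ℕ → ℚ → ℕ → TSet} {vm : ℕ → ℚ → ℝ} {w : Fin 2 → ℕ → ℚ → ℝ}
    {fr : ℕ → ℚ → ℕ × ℝ → LInc} {fl : ℕ → ℕ × ℝ → LInc} {sc : Fin 12 → ℕ → ℝ}
    {w0 sa sb δ R : ℝ} {I0 I' : ℕ → Finset (ℕ × ℝ)} {ν own : (Fin 12 → ℝ) → ℝ} {c₀ : ℝ}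

/-- natural bases -/
theorem K3B.nat (sh : Shift (θ 0) (θ 1) w0 sa sb δ R) {v0 : ℝ} {X : ℕ → Fin 12 → ℝ}
    {H v : ℕ → ℝ} (hB : K3B (θ 0) (θ 1) w0 sa sb v0 X H v) (hpos : ∀ l, 0 < H l) {ψ : ℕ → ℕ}
    (hψ : StrictMono ψ) {k : ℕ → ℝ} (kpos : ∀ m, 0 < k m) (k0 : Tendsto k atTop (𝓝 0)) :
    NatB {1, 2} 1 (fun m => X (ψ m) + H (ψ m) • (E8 wK + (1 * k m) • E8 (e9 7)))
      (fun m => H (ψ m) * k m) := by
  have l0 : Tendsto (fun l => X l 0) atTop (𝓝 (w0 + v0)) :=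
    (hB.tb.hv.const_add w0).congr fun l => (hB.tb.z l).symm
  have l3 := hB.lim 3 (by decide)
  have l10 := hB.lim 10 (by decide)
  have hd := sh.d0
  have v0' := hB.tb.v00
  have v1' := hB.tb.v01
  have z1 : ∀ᶠ l in atTop, 0 < X l 0 :=
    l0.eventually_const_lt (by have := sh.bz v0'.le; linarith)
  have z2 : ∀ᶠ l in atTop, 0 < X l 3 :=
    l3.eventually_const_lt (by have := sh.rL_pos v0'.le v1'.le 3; linarith)
  have z3 : ∀ᶠ l in atTop, 0 < X l 10 - 2 * X l 3 - X l 0 := by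
    have h1 := (l10.sub (l3.const_mul 2)).sub l0
    refine h1.eventually_const_lt ?_
    have := sh.rL_pos v0'.le v1'.le 1
    have e : rL (θ 0) (θ 1) w0 sa sb v0 10 - 2 * rL (θ 0) (θ 1) w0 sa sb v0 3 - (w0 + v0) =
        rL (θ 0) (θ 1) w0 sa sb v0 1 := rfl
    rw [e]
    linarith
  have k1 : ∀ᶠ m in atTop, k m < 1 := k0.eventually_lt_const one_pos
  have hψ' := hψ.tendsto_atTop
  filter_upwards [hψ'.eventually z1, hψ'.eventually z2, hψ'.eventually z3,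
    hψ'.eventually (hB.x1 1), k1] with m m1 m2 m3 m4 m5
  set l := ψ m with hl
  have hH := hpos l
  have hk := kpos m
  have hHk : H l * k m ≤ H l := by nlinarith
  have val : ∀ i : Fin 12, i ≠ 2 →
      (X l + H l • (E8 wK + (1 * k m) • E8 (e9 7))) i = X l i := fun i hi => by
    rw [e8_wK, e8_G]
    simp only [Pi.add_apply, Pi.smul_apply, smul_eq_mul, Pi.single_eq_of_ne hi]
    ring
  have val2 : (X l + H l • (E8 wK + (1 * k m) • E8 (e9 7))) 2 = X l 2 + H l * (1 + k m) := by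
    rw [e8_wK, e8_G]
    simp only [Pi.add_apply, Pi.smul_apply, smul_eq_mul, Pi.single_eq_same]
    ring
  have x4 := hB.x4 l
  have x5 := hB.x5 l
  have x6 := hB.x6 l
  have x8 := hB.x8 l
  have x9 := hB.x9 l
  have x10 := hB.x10 l
  have x11 := hB.x11 l
  have x2 := hB.x2 l
  refine ⟨X l 0, X l 3, X l 10, PL504.eL_legal m1.le m2.le m3.le, fun i hi => ?_, fun i hi => ?_⟩
  · have hi2 : i ≠ 2 := fun h => hi (by rw [h]; decide)
    have hi1 : i ≠ 1 := fun h => hi (by rw [h]; decide)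
    rw [val i hi2]
    fin_cases i
    · rfl
    · exact absurd rfl hi1
    · exact absurd rfl hi2
    · rfl
    · exact x4
    · exact x5
    · exact x6
    · show X l 7 = X l 10 - X l 3
      linarith
    · show X l 8 = X l 10 - X l 3
      linarith
    · show X l 9 = X l 0 + 2 * X l 3
      linarith
    · rfl
    · exact x11
  · rcases Finset.mem_insert.1 hi with rfl | hi
    · rw [val 1 (by decide)]
      show X l 10 - 2 * X l 3 - X l 0 + 1 * (H l * k m) ≤ X l 1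
      linarith
    · rw [Finset.mem_singleton.1 hi, val2]
      show X l 10 - 2 * X l 3 + 1 * (H l * k m) ≤ X l 2 + H l * (1 + k m)
      nlinarith


/-- **(K3) in the class layer, `D` frozen** -/
theorem k3c_8 (ctx : CtxT G L r g s θ q Rg B I lev A f b vm w fr fl sc w0 sa sb δ R I0 I' ν
      own c₀) {X : ℕ → Fin 12 → ℝ} {H v : ℕ → ℝ} {v0 : ℝ} {lam2 : (Fin 12 → ℝ) → ℝ}
    (hpos : ∀ l, 0 < H l) (h0 : Tendsto H atTop (𝓝 0)) (ht : IsTan (Leg monL R) LM0 ν X H lam2)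
    (hlip : ∃ K : ℝ, 0 ≤ K ∧ ∀ p ∈ LM0, ∀ q ∈ LM0, |lam2 p - lam2 q| ≤ K * ‖p - q‖)
    (hB : K3B (θ 0) (θ 1) w0 sa sb v0 X H v) {Ts : Finset (Fin 12)}
    (hTs : ∀ j ∈ Ts, j = 7 ∨ j = 8) (hne : Ts.Nonempty) (hβ : ∀ j ∈ Ts, 0 < βL (θ 0) (θ 1) j)
    {Sl : Fin 12 → Set ℝ} (hSl : ∀ j ∈ Ts, Sl j = {0} ∨ Sl j = Set.univ)
    (hSt : ∀ j ∈ Ts, StC B I lev fl (sc j) j (βL (θ 0) (θ 1) j) (Sl j))
    (hvis : ∀ k, k ≠ 0 → VisT B I fl sc k → k ∈ ({0, 7, 8} : Finset (Fin 12)))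
    (hθ0 : 0 < θ 0) (hθ : θ 1 < θ 0) {c : Fin 9 → Fin 9} {dl : V9} {φ : Fin 9 → V9 → ℝ} {ρ : V9}
    (C : Cl9 c dl s (fun w => lam2 (E8 w)) φ ρ)
    (hfr : ∀ w : V9, LegM 0 w → w 0 = 0 → w 6 = 0 → ∀ y : ℝ, 0 < y →
      (1 - s) * y ≤ lam2 (E8 w) - lam2 (E8 (w + y • e9 0)))
    (h1 : ∀ t, c t = c 1 → t = 1) (h4 : ∀ t, c t = c 4 → t = 4)
    (h3 : ∀ t, c t = c 3 → t = 2 ∨ t = 3 ∨ t = 5)
    (hz : ∀ t t', c t = c t' → (t = 0 ∨ t = 6) → t' = 0 ∨ t' = 6 ∨ t' = 7 ∨ t' = 8) :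
    K3C c s φ ρ := by
  intro hC hX
  have hb8 : E8 wK ∈ LM0 := E8_mem (w := wK) (by constructor <;> simp [wK])
  have he8 : E8 (e9 7) ∈ LM0 := by rw [e8_G, ← e8_wK]; exact hb8
  obtain ⟨ψ, k, lam3, hψ, kpos, k0, hT, hlim⟩ := exists_shift LM0_closed
    (fun p hp q hq => LM0_add hp hq) (fun t ht p hp => LM0_smul ht hp) hpos ht hlip hb8 he8
    (K := 1) zero_le_one
  have k1 : ∀ᶠ m in atTop, k m < 1 / 2 := k0.eventually_lt_const (by norm_num)
  have eE : ∀ (m : ℕ) (u : V9), E8 wK + k m • (E8 u + (1 : ℝ) • E8 (e9 7)) =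
      E8 (wK + k m • (u + e9 7)) := fun m u => by
    have e2 := E8_add u (e9 7) 1
    rw [one_smul] at e2
    rw [E8_add, e2]
  have eE0 : ∀ m : ℕ, E8 wK + k m • ((1 : ℝ) • E8 (e9 7)) = E8 (wK + k m • e9 7) := fun m => by
    rw [E8_add, one_smul]
  have LV : LimV (fun w => lam2 (E8 w)) wK (e9 7) k AK (fun u => lam3 (E8 u)) :=
    { kpos := kpos
      leg := fun u hu => by
        filter_upwards [k1] with m hm
        exact ak_leg hu (kpos m).le hm.le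
      zero := ak_0
      lim := fun u hu => by
        refine (hlim (E8 u) (ak_mem hu)).congr fun m => ?_
        rw [eE, eE0] }
  have s0 := ctx.ext.s0
  have s1 := ctx.ext.s1
  have hden : DensT {0, 7, 8} {1, 2} 1 (1 - s) lam3 :=
    { dens := by
        rw [e8_top, e8_lin, e8_lev]
        refine (LV.dens C ak_T ak_L ak_V fun j => ?_).le
        by_cases hj : ∃ t, c t = j ∧ (t = 0 ∨ t = 6)
        · right
          obtain ⟨t0, ht0, ht1⟩ := hj
          intro t ht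
          exact u_in t (hz t0 t (by rw [ht0, ht]) ht1)
        · left
          intro t ht
          have h0 : t ≠ 0 := fun h => hj ⟨t, ht, Or.inl h⟩
          have h6 : t ≠ 6 := fun h => hj ⟨t, ht, Or.inr h⟩
          exact u_out t h0 h6
      σ0 := by linarith
      σ1 := by linarith
      frost := fun y hy hy1 => by
        rw [e8_z]
        rcases hy.eq_or_lt with rfl | hy
        · rw [uz_zero, LV.F0]
          simp
        have h5 := LV.ge LV.zero (ak_z hy.le hy1) (r := (1 - s) * y) (by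
          filter_upwards [k1] with m hm
          have h6 := hfr (wK + k m • (0 + e9 7)) (ak_leg LV.zero (kpos m).le hm.le)
            (wK_z0 _) (wK_z6 _) (k m * y) (mul_pos (kpos m) hy)
          rw [wK_z] at h6
          linarith)
        rw [LV.F0] at h5
        linarith }
  set J : ℝ → ℝ → ℝ := fun p x => lam3 (E8 (uq 0 0 0 0)) - lam3 (E8 (uq 0 p x 0)) with hJ
  have hY0 : Tendsto (fun m => H (ψ m) * k m) atTop (𝓝 0) := Tq794.tend_mul h0 hψ k0
  have val : ∀ (m : ℕ) (i : Fin 12), i ≠ 2 →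
      (X (ψ m) + H (ψ m) • (E8 wK + (1 * k m) • E8 (e9 7))) i = X (ψ m) i := fun m i hi => by
    rw [e8_wK, e8_G]
    simp only [Pi.add_apply, Pi.smul_apply, smul_eq_mul, Pi.single_eq_of_ne hi]
    ring
  refine k3_ctx ctx (X := fun m => X (ψ m) + H (ψ m) • (E8 wK + (1 * k m) • E8 (e9 7)))
    (hh := fun m => H (ψ m) * k m) (v := fun m => v (ψ m)) (v0 := v0) (t := 1) one_pos
    (fun m => mul_pos (hpos _) (kpos m)) hY0 hT dir_mem
    { v00 := hB.tb.v00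
      v01 := hB.tb.v01
      hv := hB.tb.hv.comp hψ.tendsto_atTop
      z := fun m => by rw [val m 0 (by decide)]; exact hB.tb.z _
      tie := fun m i hi => by
        rw [val m i (by rintro rfl; exact absurd hi (by decide))]
        exact hB.tb.tie _ i hi }
    (fun j hj => ((hB.lim j hj).comp hψ.tendsto_atTop).congr fun m => (val m j (by
      rintro rfl; exact absurd hj (by decide))).symm)
    (hB.nat ctx.sh hpos hψ kpos k0) hTs hne hβ hSl hSt hvis hden hθ0 hθ (gN := ρ 4) (gC := ρ 1)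
    (J := J) ?_ hC ?_
  · intro n p x c' a1 a2 a3 a4 a5 a6 a7 a8
    rw [e8_q5, e8_q5]
    have b1 := ak_q a1 a2 a3 a4 a5 a6 a7 a8
    have b2 := ak_q le_rfl zero_le_one a3 a4 a5 a6 a7 a8
    have b3 := ak_q le_rfl zero_le_one a3 a4 a5 a6 le_rfl zero_le_one
    have r4 := LV.rate1 C h4 b2 b1 (uq_off4 n p x c')
    have r1 := LV.rate1 C h1 b3 b2 (uq_off1 0 p x c')
    have c4 : uq n p x c' 4 = n := rfl
    have c4' : uq 0 p x c' 4 = 0 := rfl
    have c1 : uq 0 p x c' 1 = c' := rfl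
    have c1' : uq 0 p x 0 1 = 0 := rfl
    rw [c4, c4'] at r4
    rw [c1, c1'] at r1
    simp only [hJ]
    linarith
  · intro y hy hy1
    have := LV.incr3 C h3 rfl rfl rfl (e9_ne (by decide)) (e9_ne (by decide)) (e9_ne (by decide))
      hX (ak_q le_rfl zero_le_one le_rfl zero_le_one le_rfl zero_le_one le_rfl zero_le_one)
      (ak_q le_rfl zero_le_one le_rfl zero_le_one hy hy1 le_rfl zero_le_one) rfl rfl rfl
      (uq_off3 0 0 y 0) hy
    exact this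

end Crest.Agent.R116.K3e160
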