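import Crest.Agent.R116.K3e7_160
import Crest.Agent.R116.Th4_171
import Crest.Agent.R116.Pe3_794
import Crest.Agent.R116.Tp7_139

/-!
# R116, ties: (K3) at `k = 1` on the planes above the record (helper337)

* `k3_of9` : `K3C` of a plane `Pd9` on the tie plane, `E`, `D` visible or not, on their own level
* **`k3u8`** : `K3U` of the plane `oS`;  **`k3u9`** : `K3U` of the plane `oS9`
-/

set_option autoImplicit false
set_option linter.unusedVariables false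
set_option linter.unusedSectionVars false

open Set Filter Topology

namespace Crest.Agent.R116.K3u337

open Crest.Agent.R138
open Crest.Agent.R138.Ex926 (Base U IsTan)
open Crest.Agent.R136
open Crest.Agent.R136.MkA627
open Crest.Agent.R136.TD627
open Crest.Agent.R136.Net191
open Crest.Agent.R136.Lq196
open Crest.Agent.R116.EvL504
open Crest.Agent.R116.ChL222
open Crest.Agent.R116.PL504 (nb rL DN eL βL oL Shift eL_wall)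
open Crest.Agent.R116.Sg337 (bx9)
open Crest.Agent.R116.Gd222 (TSet sN PDL DT)
open Crest.Agent.R116.KI439
open Crest.Agent.R116.KF439 (PL)
open Crest.Agent.R116.CtxB468
open Crest.Agent.R116.Kst593
open Crest.Agent.R116.Rcx363 (fo fo_lip Prf)
open Crest.Agent.R116.RbM219
open Crest.Agent.R116.RbK219
open Crest.Agent.R116.SgF665 (wl wl_add wl_smul LM0)
open Crest.Agent.R116.WinG954 (LM)
open Crest.Agent.R116.Tq741
open Crest.Agent.R116.Pd363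
open Crest.Agent.R116.Tw369
open Crest.Agent.R116.Tq794
open Crest.Agent.R116.Tp139 (PlU K3U oS oS9 leg_oS9)
open Crest.Agent.R116.K3e160
open Sl741 (slice xt rs)

variable {G : Geo TSet (Fin 2)} {L : ℕ → ℕ → LRay} {r : ℕ → ℝ} {g s : ℝ} {θ q : Fin 2 → ℝ}
    {Rg : ℝ} {B : Base} {I : ℕ → Finset (ℕ × ℝ)} {lev : ℕ → ℚ → ℕ} {A : ℕ → ℝ}
    {f : ℕ → ℚ → ℕ → ℤ → ℕ} {b : ℕ → ℚ → ℕ → TSet} {vm : ℕ → ℚ → ℝ} {wt : Fin 2 → ℕ → ℚ → ℝ}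
    {fr : ℕ → ℚ → ℕ × ℝ → LInc} {fl : ℕ → ℕ × ℝ → LInc} {sc : Fin 12 → ℕ → ℝ}
    {w0 sa sb δ R : ℝ} {I0 I' : ℕ → Finset (ℕ × ℝ)} {ν own : (Fin 12 → ℝ) → ℝ} {c₀ : ℝ}
    {a b' : Fin 2} {Vis' : Fin 12 → Prop} {v0 t κ sg l α v c p : ℝ}
    {lam lam2 : Fin 2 → (Fin 12 → ℝ) → ℝ} {h' H : ℕ → ℝ} {X : ℕ → Fin 12 → ℝ}

/-- **(K3) on a plane on the tie plane, `D` live**; `E`, `D` on their own level -/
theorem k3_of9 {Bo ρ ρ2 : Fin 9 → ℝ}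
    (P : Pd9 R s a b' Vis' (θ 0) (θ 1) w0 sa sb v0 κ Bo sg (fo ν own) lam ρ l α h' X H
      lam2 ρ2)
    (C : CtxT G L r g s θ q Rg B I lev A f b vm wt fr fl sc w0 sa sb δ R I0 I' ν own c₀)
    (hθ : 0 < θ 0) (hθ1 : θ 0 < 1) (hk : θ 0 - θ 1 = 1) (hv0 : 0 < v0) (hv1 : v0 < 1)
    (hL : Leg9 Bo) (b1 : Bo 3 = Bo 0 + Bo 1) (b2 : Bo 5 = Bo 1 + Bo 3) (b3 : Bo 4 = Bo 0 + Bo 2)
    (b4 : Bo 4 = Bo 3 + Bo 6) (b5 : Bo 2 = Bo 1 + Bo 6) (b6 : Bo 6 = (θ 0 - θ 1) * Bo 0)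
    (b7 : Bo 7 ≤ (2 * θ 0 - θ 1) * Bo 0) (b8 : Bo 8 ≤ (2 * θ 0 - θ 1 - 1) * Bo 0)
    (hB : TieT θ B I lev fl sc 7 ∨ TieT θ B I lev fl sc 8)
    (hvis : ∀ i, VisT B I fl sc i → i = 0 ∨ i = 1 ∨ i = 2 ∨ i = 7 ∨ i = 8)
    (hvis' : ∀ i, Vis' i → i = 0 ∨ i = 1 ∨ i = 2 ∨ i = 7 ∨ i = 8)
    {c : Fin 9 → Fin 9} {dl : V9} {φ : Fin 9 → V9 → ℝ} {ρ' : V9}
    (Hc : Cl9 c dl s (fun w => lam2 0 (RL9.vec w)) φ ρ')
    (h1 : ∀ t, c t = c 1 → t = 1) (h4 : ∀ t, c t = c 4 → t = 4)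
    (h3 : ∀ t, c t = c 3 → t = 2 ∨ t = 3)
    (hz : ∀ t t', c t = c t' → (t = 0 ∨ t = 6) → t' = 0 ∨ t' = 6 ∨ t' = 7 ∨ t' = 8) :
    K3C c s φ ρ' := by
  simp only [E9_eq] at Hc
  obtain ⟨vv, pb, hE, hD⟩ := Th171.pbU9 (ν := fo ν own 0) P rfl hv0 hv1 hL b1 b2 b3 b4 b5 b6
  have Hp := P.prf.mono (LM_L9B (θa := θ 0) (θb := θ 1) (B := Bo) (sg := sg))
  have hP : K3P (θ 0) (θ 1) w0 sa sb v0 X vv :=
    { tb := pb.base
      lim := pb.lim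
      x4 := fun m => (pb.nb.p3 m).symm
      x5 := pb.nb.x5
      x6 := fun m => by rw [pb.nb.x6 m, ← pb.nb.p3 m]
      x8 := fun m => (pb.nb.p7 m).symm
      x9 := fun m => by
        have := Th171.rL_nat (θ 0) (θ 1) w0 sa sb 0
        obtain ⟨V, E, -, -, -, hb⟩ := P.base
        have q3 : cl9 3 = 1 := rfl
        have q5 : cl9 5 = 3 := rfl
        have q9 : cl9 9 = 5 := rfl
        rw [hb m 9, hb m 3, hb m 5, q3, q5, q9, b2]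
        have r : ∀ v, rL (θ 0) (θ 1) w0 sa sb v =
            eL (w0 + v) (θ 0 * (1 - v) + sa) (θ 1 * (1 - v) + sb) := fun _ => rfl
        rw [r]
        simp [eL]; ring
      x10 := fun m => by rw [pb.nb.x10 m]; ring
      x11 := pb.nb.x11 }
  -- position `z = -1`, `G = -(3+θ)/2`, `D = -(1+θ)/2`
  have g0 : (-(3 + θ 0) / 2 : ℝ) ≤ -1 + -(1 + θ 0) / 2 := by linarith
  have g2 : 2 * (-1 : ℝ) < -(3 + θ 0) / 2 := by linarith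
  have g3 : (-1 : ℝ) < -(1 + θ 0) / 2 := by linarith
  have hκ2 : βL (θ 0) (θ 1) 2 = 1 + θ 0 := by
    rw [βL2]; linarith
  have hκ1 : βL (θ 0) (θ 1) 1 = θ 0 := by
    show -θ 1 - 2 * -θ 0 - 1 = _
    linarith
  have e1 : E9 (wG (-1) (-(3 + θ 0) / 2) (-(1 + θ 0) / 2)) 1 = -(1 + θ 0) / 2 := by
    simp [E9, bx9, wG]
  have e2 : E9 (wG (-1) (-(3 + θ 0) / 2) (-(1 + θ 0) / 2)) 2 = -(3 + θ 0) / 2 :=
    (wG_E _ _ _).2.1
  have hvX : ∀ k, k ≠ 0 → VisT B I fl sc k → k = 7 ∨ k = 8 ∨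
      Vw (θ 0) (θ 1) w0 sa sb X H vv (E9 (wG (-1) (-(3 + θ 0) / 2) (-(1 + θ 0) / 2))) (-1) k := by
    intro k hk hV
    rcases hvis k hV with rfl | rfl | rfl | rfl | rfl
    · exact absurd rfl hk
    · refine Or.inr (Or.inr (Or.inl ⟨Eventually.of_forall (hD b8), ?_⟩))
      rw [e1, hκ1]
      linarith
    · refine Or.inr (Or.inr (Or.inl ⟨Eventually.of_forall (hE b7), ?_⟩))
      rw [e2, hκ2]
      linarith
    · exact Or.inl rfl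
    · exact Or.inr (Or.inl rfl)
  have hfr : ∀ᶠ x in 𝓝[>] (0 : ℝ), ∀ y : ℝ, 0 < y → (1 - s) * y ≤
      lam2 0 (E9 (wG (-1) (-(3 + θ 0) / 2) (-(1 + θ 0) / 2) + x • dE)) -
        lam2 0 (E9 (wG (-1) (-(3 + θ 0) / 2) (-(1 + θ 0) / 2) + x • dE + y • e9 0)) := by
    have hx1 : ∀ᶠ x : ℝ in 𝓝[>] 0, x < (1 - θ 0) / 8 :=
      mem_nhdsWithin_of_mem_nhds (gt_mem_nhds (by linarith))
    filter_upwards [hx1, self_mem_nhdsWithin] with x hx hx0 y hy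
    have hx0' : (0 : ℝ) < x := hx0
    have hw : LegM 0 (wG (-1) (-(3 + θ 0) / 2) (-(1 + θ 0) / 2) + x • dE) :=
      (wG_leg g0 g2.le g3.le).add_smul leg_dE hx0'.le
    refine own_prf Hp (fun d hd => E9_mem hd) E9_add (fun _ => rfl) e9_nonneg9 hw
      (fun k hkV => ?_) hy
    have v0' : (wG (-1) (-(3 + θ 0) / 2) (-(1 + θ 0) / 2) + x • dE) 0 = -1 := by
      simp [wG, dE]
    have v6' : (wG (-1) (-(3 + θ 0) / 2) (-(1 + θ 0) / 2) + x • dE) 6 = -1 := by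
      simp [wG, dE]
    have v7' : (wG (-1) (-(3 + θ 0) / 2) (-(1 + θ 0) / 2) + x • dE) 7 =
        -(3 + θ 0) / 2 + x := by
      simp [wG, dE]
    have v8' : (wG (-1) (-(3 + θ 0) / 2) (-(1 + θ 0) / 2) + x • dE) 8 =
        -(1 + θ 0) / 2 + 2 * x := by
      simp [wG, dE]
      ring
    revert v0' v6' v7' v8'
    generalize wG (-1) (-(3 + θ 0) / 2) (-(1 + θ 0) / 2) + x • dE = w
    intro v0' v6' v7' v8'
    rcases hvis' k hkV with rfl | rfl | rfl | rfl | rfl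
    · show w 0 ≤ w 0 * βL (θ 0) (θ 1) 0
      rw [βL0, mul_one]
    · show w 8 ≤ w 0 * βL (θ 0) (θ 1) 1
      rw [v8', v0', hκ1]
      linarith
    · show w 7 ≤ w 0 * βL (θ 0) (θ 1) 2
      rw [v7', v0', hκ2]
      linarith
    · show w 6 ≤ w 0 * βL (θ 0) (θ 1) 7
      rw [v6', v0', βL7, hk]
      linarith
    · show w 6 ≤ w 0 * βL (θ 0) (θ 1) 8
      rw [v6', v0', βL8, hk]
      linarith
  have main : ∀ j : Fin 12, (j = 7 ∨ j = 8) → TieT θ B I lev fl sc j → K3C c s φ ρ' :=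
    fun j hj hT => k3c_gen C (Or.inr ⟨rfl, rfl⟩) P.pos P.lim pb.tan hP hθ hk hj hT g0 g2 g3 hvX
      Hc hfr h1 h4 h3 hz
  rcases hB with h | h
  · exact main 7 (Or.inl rfl) h
  · exact main 8 (Or.inr rfl) h

/-- **(K3) on the plane `oS`, `k = 1`** -/
theorem k3u8 {ρ ρ2 : Fin 8 → ℝ}
    (P : Pd8 R s a b' Vis' (θ 0) (θ 1) w0 sa sb v0 t κ oS sg (fo ν own) lam ρ l α h' X H
      lam2 ρ2)
    (C : CtxT G L r g s θ q Rg B I lev A f b vm wt fr fl sc w0 sa sb δ R I0 I' ν own c₀)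
    (hθ : 0 < θ 0) (ht : t ≠ 0) (hv0 : 0 < v0) (hv1 : v0 < 1)
    (hB : TieT θ B I lev fl sc 7 ∨ TieT θ B I lev fl sc 8)
    (hvis : ∀ i, VisT B I fl sc i → i = 0 ∨ i = 7 ∨ i = 8)
    (hvis' : ∀ i, Vis' i → i = 0 ∨ i = 7 ∨ i = 8) {c : Fin 9 → Fin 9} {dl : V9}
    {φ : Fin 9 → V9 → ℝ} {ρ' : V9}
    (Hc : Cl9 c dl s (fun w => lam2 0 (xt kp 0 (RL8.vec (fun i : Fin 8 => w i.castSucc)))) φ ρ')
    (h1 : ∀ t, c t = c 1 → t = 1) (h4 : ∀ t, c t = c 4 → t = 4)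
    (h3 : ∀ t, c t = c 3 → t = 2 ∨ t = 3 ∨ t = 5)
    (hz : ∀ t t', c t = c t' → (t = 0 ∨ t = 6) → t' = 0 ∨ t' = 6 ∨ t' = 7 ∨ t' = 8) :
    K3U c s φ ρ' :=
  k3_of8 P C hθ ht hv0 hv1 (by simp [oS]) (by simp [oS]; norm_num) (by simp [oS])
    (by simp [oS]) (by simp [oS]) (by simp [oS]) hB hvis hvis' Hc h1 h4 h3 hz

/-- **(K3) on the plane `oS9`, `k = 1`** -/
theorem k3u9 {ρ ρ2 : Fin 9 → ℝ}
    (P : Pd9 R s a b' Vis' (θ 0) (θ 1) w0 sa sb v0 κ oS9 sg (fo ν own) lam ρ l α h' X H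
      lam2 ρ2)
    (C : CtxT G L r g s θ q Rg B I lev A f b vm wt fr fl sc w0 sa sb δ R I0 I' ν own c₀)
    (hθ : 0 < θ 0) (hθ1 : θ 0 < 1) (hk : θ 0 - θ 1 = 1) (hv0 : 0 < v0) (hv1 : v0 < 1)
    (hB : TieT θ B I lev fl sc 7 ∨ TieT θ B I lev fl sc 8)
    (hvis : ∀ i, VisT B I fl sc i → i = 0 ∨ i = 1 ∨ i = 2 ∨ i = 7 ∨ i = 8)
    (hvis' : ∀ i, Vis' i → i = 0 ∨ i = 1 ∨ i = 2 ∨ i = 7 ∨ i = 8) {c : Fin 9 → Fin 9}
    {dl : V9} {φ : Fin 9 → V9 → ℝ} {ρ' : V9}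
    (Hc : Cl9 c dl s (fun w => lam2 0 (RL9.vec w)) φ ρ')
    (h1 : ∀ t, c t = c 1 → t = 1) (h4 : ∀ t, c t = c 4 → t = 4)
    (h3 : ∀ t, c t = c 3 → t = 2 ∨ t = 3)
    (hz : ∀ t t', c t = c t' → (t = 0 ∨ t = 6) → t' = 0 ∨ t' = 6 ∨ t' = 7 ∨ t' = 8) :
    K3U c s φ ρ' :=
  k3_of9 P C hθ hθ1 hk hv0 hv1 leg_oS9 (by simp [oS9]) (by simp [oS9]; norm_num) (by simp [oS9])
    (by simp [oS9]) (by simp [oS9]) (by simp [oS9]) (by simp [oS9]) (by simp [oS9]) hB hvis hvis'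
    Hc h1 h4 h3 hz

end Crest.Agent.R116.K3u337
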