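import Crest.Agent.R116.FlD3b_538
import Crest.Agent.R116.K3u_337

/-!
# R116, DOUBLE TIE, cell D3 : `k' = 2 θa - θb > 1` (helper538)

* `upD3`       : the side above the record, no binder (337's [K3] at `k = 1`)
* **`fillD3`** : the cell
-/

set_option autoImplicit false
set_option linter.unusedVariables false

open Set Filter Topology MeasureTheory

namespace Crest.Agent.R116.D3538

open Crest.Agent.R116.KTie794
open Crest.Agent.R116.CtxB468
open Crest.Agent.R116.Tq126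
open Crest.Agent.R116.Tie460 (DTie')
open Crest.Agent.R116.FlH850 (VD)

/-- **the side above the record** -/
theorem upD3 {η : ℝ} : UpD3 η := by
  intro G L r g s θ q Rg B I lev A f b vm w fr fl sc w0 sa sb δ R I0 I' ν own c₀ v0 a b' x hh lam
    cm cp cP ρm ρp ρP C hN hV h1 hk h3 hv0 hv1 O hcm hMm hRm hcp hMp hRp hcP hMP hRP A' hA
  have hvis : ∀ i, VisT B I fl sc i → i = 0 ∨ i = 1 ∨ i = 2 ∨ i = 7 ∨ i = 8 :=
    fun i hi => Fk647.vis_flag C.out i hi
  refine eUp9_of C hN.s0 hN.s1 hN.θa h1 hk hv0 hv1 hV.1 O hcm hMm hRm hcp hMp hRp hcP hMP hRP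
    (fun h l α h' X H lam2 ρ2 φ P hcl => ?_) hA
  refine K3u337.k3u9 P C hN.θa (by linarith) h hv0 hv1 hV.1 hvis hvis hcl ?_ ?_ ?_ ?_ <;>
    rw [h, cS9_one] <;> decide

/-- **cell D3** : double tie, `k' > 1`, every `s` -/
theorem fillD3 {η : ℝ} (hη : η < 1) :
    Fill η VD fun g s θ q => 1 < 2 * θ 0 - θ 1 →
      DTie' (θ 0 - θ 1) (2 * θ 0 - θ 1) (θ 0) s (g + 2 * s) (q 0) (q 1) :=
  fillD3_of hη upD3

end Crest.Agent.R116.D3538
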