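import Crest.Agent.R116.PkM_388
import Crest.Agent.R116.FlH_850
import Crest.Agent.R116.Rcx6_363

/-!
# R116, DOUBLE TIE, cell D3 : `k' = 2 θa - θb > 1` (helper538), assembly

* `Bs3, sg3` : the three planes `kD9`, `oS9`, `oP9`
* `UpD3 η`   : the side above the record (`EUp'`), as a binder
* `dTie9`    : `DTie'` over the context
* **`fillD3_of`** : the cell from the binder
-/

set_option autoImplicit false
set_option linter.unusedVariables false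
set_option linter.unusedSectionVars false

open Set Filter Topology MeasureTheory

namespace Crest.Agent.R116.D3538

open Crest.Agent.R138
open Crest.Agent.R138.Ex926 (Base U IsTan)
open Crest.Agent.R136
open Crest.Agent.R136.MkA627
open Crest.Agent.R136.TD627
open Crest.Agent.R136.Net191
open Crest.Agent.R136.Lq196
open Crest.Agent.R116.ChL222
open Crest.Agent.R116.PL504 (nb rL DN eL βL oL Shift)
open Crest.Agent.R116.Sg337 (bx9 coneL DL natB)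
open Crest.Agent.R116.Gd222 (TSet sN PDL DT)
open Crest.Agent.R116.KI439 hiding kD
open Crest.Agent.R116.KF439 (PL)
open Crest.Agent.R116.CtxB468
open Crest.Agent.R116.Rcx363
open Crest.Agent.R116.RbM219
open Crest.Agent.R116.RbK219 (RS SOk Par dl Aln)
open Crest.Agent.R116.SgO219 (PP)
open Crest.Agent.R116.Kz647
open Crest.Agent.R116.Pd363
open Crest.Agent.R116.Tq741
open Crest.Agent.R116.Tq126
open Crest.Agent.R116.Tp139 hiding cl8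
open Crest.Agent.R116.Pk388 (AK9 kM9)
open Crest.Agent.R116.KTop387 (NumL)
open Crest.Agent.R116.KTie794
open Crest.Agent.R116.Tie460 (Pl KF' EUp' DTie')
open Crest.Agent.R116.FlH850 (VD SFill fill_of)
open Dg219 (mw Walls)
open Sl741 (slice xt rs)

/-- the three planes of the cell -/
noncomputable def Bs3 : Fin 3 → Fin 9 → ℝ := ![kD9, oS9, oP9]
/-- their sides -/
noncomputable def sg3 : Fin 3 → ℝ := ![-1, 1, 1]

/-- **the side above the record** (binder), `θb < 0`, `1 < k'` -/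
def UpD3 (η : ℝ) : Prop :=
  ∀ {G : Geo TSet (Fin 2)} {L : ℕ → ℕ → LRay} {r : ℕ → ℝ} {g s : ℝ} {θ q : Fin 2 → ℝ}
    {Rg : ℝ} {B : Base} {I : ℕ → Finset (ℕ × ℝ)} {lev : ℕ → ℚ → ℕ} {A : ℕ → ℝ}
    {f : ℕ → ℚ → ℕ → ℤ → ℕ} {b : ℕ → ℚ → ℕ → TSet} {vm : ℕ → ℚ → ℝ} {w : Fin 2 → ℕ → ℚ → ℝ}
    {fr : ℕ → ℚ → ℕ × ℝ → LInc} {fl : ℕ → ℕ × ℝ → LInc} {sc : Fin 12 → ℕ → ℝ}
    {w0 sa sb δ R : ℝ} {I0 I' : ℕ → Finset (ℕ × ℝ)} {ν own : (Fin 12 → ℝ) → ℝ} {c₀ : ℝ}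
    {v0 : ℝ} {a b' : Fin 2} {x : ℕ → Fin 12 → ℝ} {hh : ℕ → ℝ}
    {lam : Fin 2 → (Fin 12 → ℝ) → ℝ} {cm cp cP : ℝ} {ρm ρp ρP : Fin 9 → ℝ},
    CtxT G L r (g + 2 * s) s θ q Rg B I lev A f b vm w fr fl sc w0 sa sb δ R I0 I' ν own c₀ →
    NumL η g s θ q → VD θ B I lev fl sc → θ 1 < 0 → 1 < 2 * θ 0 - θ 1 →
    (θ 0 - θ 1 ≤ 1 ∨ θ 0 ≤ (θ 0 - θ 1) / 2) → 0 < v0 → v0 < 1 →
    Out9 R s a b' (VisT B I fl sc) (θ 0) (θ 1) (g + 2 * s) (q 0) (q 1) Bs3 sg3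
      (rL (θ 0) (θ 1) w0 sa sb v0) (fo ν own) x hh lam →
    0 < cm → (srf9 (θ 0) (θ 1) kD9 (-1)).LW (mw monL) cm ⊆ PP (mw monL) →
    Rates9 (θ 0) (θ 1) kD9 (-1) cm (lam 0) ρm →
    0 < cp → (srf9 (θ 0) (θ 1) oS9 1).LW (mw monL) cp ⊆ PP (mw monL) →
    Rates9 (θ 0) (θ 1) oS9 1 cp (lam 0) ρp →
    0 < cP → (srf9 (θ 0) (θ 1) oP9 1).LW (mw monL) cP ⊆ PP (mw monL) →
    Rates9 (θ 0) (θ 1) oP9 1 cP (lam 0) ρP →
    ∀ A' : Pl, A'.m = ρm 1 →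
      ∃ B', EUp' (θ 0 - θ 1) (θ 0) s (g + 2 * s) (q 0) (q 1) A' B'

section ctx

variable {G : Geo TSet (Fin 2)} {L : ℕ → ℕ → LRay} {r : ℕ → ℝ} {g s : ℝ} {θ q : Fin 2 → ℝ}
    {Rg : ℝ} {B : Base} {I : ℕ → Finset (ℕ × ℝ)} {lev : ℕ → ℚ → ℕ} {A : ℕ → ℝ}
    {f : ℕ → ℚ → ℕ → ℤ → ℕ} {b : ℕ → ℚ → ℕ → TSet} {vm : ℕ → ℚ → ℝ} {w : Fin 2 → ℕ → ℚ → ℝ}
    {fr : ℕ → ℚ → ℕ × ℝ → LInc} {fl : ℕ → ℕ × ℝ → LInc} {sc : Fin 12 → ℕ → ℝ}
    {w0 sa sb δ R : ℝ} {I0 I' : ℕ → Finset (ℕ × ℝ)} {ν own : (Fin 12 → ℝ) → ℝ} {c₀ : ℝ} {η : ℝ}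

/-- **`DTie'` over the context, `1 < k'`** -/
theorem dTie9 (hUp : UpD3 η)
    (C : CtxT G L r (g + 2 * s) s θ q Rg B I lev A f b vm w fr fl sc w0 sa sb δ R I0 I' ν own c₀)
    (hN : NumL η g s θ q) (hR0 : w0 + (θ 1 + sb) < R) (hR1 : w0 + 1 + sb < R)
    (hRg : θ 0 + |θ 1| + 1 ≤ Rg) (hV : VD θ B I lev fl sc) (hk : 1 < 2 * θ 0 - θ 1) :
    DTie' (θ 0 - θ 1) (2 * θ 0 - θ 1) (θ 0) s (g + 2 * s) (q 0) (q 1) := by
  have hθ := hN.θa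
  have hs0 := hN.s0
  have hs1 := hN.s1
  have hkB := TieT.kB hV.1
  have hb : θ 1 = 2 * θ 0 - (2 * θ 0 - θ 1) := by ring
  have hbe : θ 0 - (θ 0 - θ 1) = θ 1 := by ring
  have hT : InvT PL B I 1 fl (sc 1) ∧ TieT θ B I lev fl sc 2 ∨ TieT θ B I lev fl sc 1 := by
    rcases hV.2 with h | h
    · rcases C.out.clsD with h1 | h1
      · exact Or.inl ⟨h1, h⟩
      · exact Or.inr h1
    · exact Or.inr h
  by_cases h1 : θ 1 < 0
  · obtain ⟨v0, -, hv0, hv1, a, b', x, hh, lam, -, O⟩ := exists_out9 (T := Fin 3) C hR0 hR1 hθ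
      (by linarith) (Bs := Bs3) (sg := sg3)
      (fun i => by
        fin_cases i
        · exact sok_kD9 hk hb
        · exact sok_oS9 (by linarith) (by linarith) hθ
        · exact sok_oP9 (by linarith) (by linarith) h1 hθ)
      (fun i => by
        fin_cases i
        · exact leg_kD9
        · exact leg_oS9
        · exact leg_oP9) (N := univ) (Eventually.of_forall fun _ => mem_univ _)
    obtain ⟨cm, hcm, hMm, -, ρm, hRm⟩ := O.surf 0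
    obtain ⟨cp, hcp, hMp, -, ρp, hRp⟩ := O.surf 1
    obtain ⟨cP, hcP, hMP, -, ρP, hRP⟩ := O.surf 2
    change (srf9 (θ 0) (θ 1) kD9 (-1)).LW (mw monL) cm ⊆ _ at hMm
    change (srf9 (θ 0) (θ 1) oS9 1).LW (mw monL) cp ⊆ _ at hMp
    change (srf9 (θ 0) (θ 1) oP9 1).LW (mw monL) cP ⊆ _ at hMP
    change Rates9 (θ 0) (θ 1) kD9 (-1) cm (lam 0) ρm at hRm
    change Rates9 (θ 0) (θ 1) oS9 1 cp (lam 0) ρp at hRp
    change Rates9 (θ 0) (θ 1) oP9 1 cP (lam 0) ρP at hRP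
    obtain ⟨A', K⟩ := kM9 C hs0 hs1 hθ hk hb hv0 hv1 hT O hcm hMm hRm
    refine ⟨A', K.F, fun h => absurd h (by linarith), ?_, K.ver, K.pos,
      fun h => absurd h (by linarith), fun _ _ h3 => ?_⟩
    · rw [hbe]; exact K.tan
    · exact hUp C hN hV h1 hk h3 hv0 hv1 O hcm hMm hRm hcp hMp hRp hcP hMP hRP A' K.m
  · obtain ⟨v0, -, hv0, hv1, a, b', x, hh, lam, -, O⟩ := exists_out9 (T := Unit) C hR0 hR1 hθ
      (by linarith) (Bs := fun _ => kD9) (sg := fun _ => -1) (fun i => sok_kD9 hk hb)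
      (fun i => leg_kD9) (N := univ) (Eventually.of_forall fun _ => mem_univ _)
    obtain ⟨cm, hcm, hMm, -, ρm, hRm⟩ := O.surf ()
    change (srf9 (θ 0) (θ 1) kD9 (-1)).LW (mw monL) cm ⊆ _ at hMm
    change Rates9 (θ 0) (θ 1) kD9 (-1) cm (lam 0) ρm at hRm
    obtain ⟨A', K⟩ := kM9 C hs0 hs1 hθ hk hb hv0 hv1 hT O hcm hMm hRm
    refine ⟨A', K.F, fun h => absurd h (by linarith), ?_, K.ver, K.pos,
      fun h => absurd h (by linarith), fun _ h2 _ => absurd h2 (by linarith)⟩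
    rw [hbe]; exact K.tan

end ctx

/-- **cell D3 from the binder** -/
theorem fillD3_of {η : ℝ} (hη : η < 1) (hUp : UpD3 η) :
    Fill η VD fun g s θ q => 1 < 2 * θ 0 - θ 1 →
      DTie' (θ 0 - θ 1) (2 * θ 0 - θ 1) (θ 0) s (g + 2 * s) (q 0) (q 1) :=
  fill_of (η := η) (V := VD) fun C hN hR0 hR1 hRg hV hk =>
    dTie9 hUp C hN hR0 hR1 hRg hV hk

end Crest.Agent.R116.D3538
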