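import Crest.Agent.R116.FlD3a_538
import Crest.Agent.R116.Tp7_139
import Crest.Agent.R116.Th4_171
import Crest.Agent.R116.Pd3_363
import Crest.Agent.R116.Pos3_126
import Crest.Agent.R116.Tk7_126

/-!
# R116, DOUBLE TIE, cell D3 : `k' = 2 θa - θb > 1` (helper538), the side above the record

* `plU_oS9`  : 139's table `PlU` of `oS9`
* `sum_X`    : the two letters of the class `{C_b, X}` at `k = 1`
* `tvS9`     : 139's `TV` of the plane `oS9`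
* **`eUp9_of`** : `EUp'` over the context, [K3] at `k = 1` as a binder
-/

set_option autoImplicit false
set_option linter.unusedVariables false
set_option linter.unusedSectionVars false

open Set Filter Topology MeasureTheory

namespace Crest.Agent.R116.D3538

open Crest.Agent.R138
open Crest.Agent.R138.Ex926 (Base U IsTan)
open Crest.Agent.R136
open Crest.Agent.R136.MkA627
open Crest.Agent.R136.TD627
open Crest.Agent.R136.Net191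
open Crest.Agent.R136.Lq196
open Crest.Agent.R116.ChL222
open Crest.Agent.R116.PL504 (nb rL DN eL βL oL Shift)
open Crest.Agent.R116.Sg337 (bx9 coneL DL natB)
open Crest.Agent.R116.Gd222 (TSet sN PDL DT)
open Crest.Agent.R116.KI439 hiding kD
open Crest.Agent.R116.KF439 (PL)
open Crest.Agent.R116.CtxB468
open Crest.Agent.R116.Rcx363
open Crest.Agent.R116.RbM219
open Crest.Agent.R116.RbK219 (RS SOk Par dl Aln)
open Crest.Agent.R116.SgO219 (PP)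
open Crest.Agent.R116.Kz647
open Crest.Agent.R116.Pd363
open Crest.Agent.R116.Tq741
open Crest.Agent.R116.Tq794
open Crest.Agent.R116.Tq126
open Crest.Agent.R116.Tp139 hiding cl8
open Crest.Agent.R116.Pos126 (posB9)
open Crest.Agent.R116.KTop387 (NumL)
open Crest.Agent.R116.KTie794
open Crest.Agent.R116.Tie460 (Pl EF' EUp')
open Dg219 (mw Walls)
open Dg262 (SupOn)
open Sl741 (slice xt rs)

/-! ### tables -/

theorem cS9_one : cS9 1 = ![0, 1, 2, 2, 4, 5, 0, 0, 0] := by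
  funext i
  fin_cases i <;> evc <;> norm_num [cS9]

theorem cS9_half : cS9 (1 / 2) = ![0, 1, 2, 3, 4, 2, 0, 0, 0] := by
  funext i
  fin_cases i <;> evc <;> norm_num [cS9]

theorem cS9_gen {k : ℝ} (h1 : k ≠ 1) (h : k ≠ 1 / 2) :
    cS9 k = ![0, 1, 2, 3, 4, 5, 0, 0, 0] := by
  unfold cS9
  rw [if_neg h1, if_neg h]

theorem plU_oS9 {θ θb k : ℝ} : PlU k (cS9 k) (dl (nat9 1 (-θ) (-θb)) oS9 1) := by
  have d2 : dl (nat9 1 (-θ) (-θb)) oS9 1 2 = 1 := by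
    unfold dl; rw [t2, if_neg one_ne_zero, mul_one]
  have d3 : dl (nat9 1 (-θ) (-θb)) oS9 1 3 = 1 := by
    unfold dl; rw [t3, if_neg one_ne_zero, mul_one]
  have d5 : dl (nat9 1 (-θ) (-θb)) oS9 1 5 = 2 := by
    unfold dl; rw [t5, if_neg two_ne_zero, one_mul]
  by_cases h1 : k = 1
  · subst h1
    rw [cS9_one]
    refine ⟨by decide, by unfold Tp139.Al; decide, by unfold Tp139.Al; decide, fun h => absurd rfl h,
      fun _ => by unfold Tp139.Al; decide, fun h => absurd rfl h, fun _ => ⟨by decide, by decide, ?_⟩,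
      fun h => absurd h (by norm_num), by decide⟩
    rw [d3, d2]
  by_cases h2 : k = 1 / 2
  · subst h2
    rw [cS9_half]
    refine ⟨by decide, by unfold Tp139.Al; decide, by unfold Tp139.Al; decide, fun _ => by unfold Tp139.Al; decide,
      fun h => absurd rfl h, fun _ h => absurd rfl h, fun h => absurd h h1,
      fun _ => ⟨by decide, by decide, ?_⟩, by decide⟩
    rw [d5, d2]; norm_num
  · rw [cS9_gen h1 h2]
    exact ⟨by decide, by unfold Tp139.Al; decide, by unfold Tp139.Al; decide, fun _ => by unfold Tp139.Al; decide,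
      fun _ => by unfold Tp139.Al; decide, fun _ _ => by unfold Tp139.Al; decide, fun h => absurd h h1,
      fun h => absurd h h2, by decide⟩

/-- `k = 1` : the two letters of the class `{C_b, X}` -/
theorem sum_X {c : Fin 9 → Fin 9} {dl : V9} {s k : ℝ} {Λ : V9 → ℝ} {φ : Fin 9 → V9 → ℝ}
    {ρ : V9} (H : Cl9 c dl s Λ φ ρ) (P : PlU k c dl) (hk : k = 1) :
    rE c φ + (1 - xE c φ) = ρ 3 := by
  obtain ⟨hc3, hc, hd⟩ := P.c3 hk
  have e1 : φ (c 3) 0 = 0 := H.zero_of 3 fun t ht => rfl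
  have e3 : φ (c 3) (e9 3 + (1:ℝ) • e9 2) = -(ρ 3 * 1) := by
    rw [H.rate 3 _ fun t' ht' => by
      rcases hc t' (ht'.trans hc3) with rfl | rfl
      · simp [e9]; rw [hd]
      · simp [e9]]
    simp [e9]
  have e4 : φ (c 3) (0 + (1:ℝ) • e9 3) = φ (c 3) (e9 3) := by rw [zero_add, one_smul]
  unfold rE xE
  rw [e1, e4, ← hc3, e3]
  ring

/-- 139's `TV` of the plane `oS9` in the letters `rE`, `xE`, `hE` -/
theorem tvS9 {θ θb s g qa qb : ℝ} {lam lam2 : Fin 2 → (Fin 12 → ℝ) → ℝ} {ρ ρ2 : Fin 9 → ℝ}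
    {l α : ℝ} {h : ℕ → ℝ} (H : Half9 θ θb oS9 1 lam 0 ρ (DL g s qa qb 0 1 1) l α h lam2 ρ2)
    (h0 : lam 0 0 = 0)
    (hrec : lam 0 (RL9.vec (nat9 1 (-θ) (-θb))) = DL g s qa qb 1 (-θ) (-θb))
    (hθ : 0 < θ) (hb : θb < θ) (hb2 : θb < 2 * θ - 1) (h2 : θ - θb ≠ 1 / 2)
    {φ : Fin 9 → V9 → ℝ}
    (C : Cl9 (cS9 (θ - θb)) (dl (nat9 1 (-θ) (-θb)) oS9 1) s (fun w => lam2 0 (RL9.vec w)) φ ρ2) :
    TV θ θb s g qa qb (ρ2 0) (ρ2 1) (rE (cS9 (θ - θb)) φ) (1 - xE (cS9 (θ - θb)) φ) (ρ2 4)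
      (1 - hE (cS9 (θ - θb)) φ) := by
  have eκ : DL g s qa qb 0 1 1 = -(4 + qa + qb) := by unfold DL; ring
  rw [eκ] at H
  have PU := plU_oS9 (θ := θ) (θb := θb) (k := θ - θb)
  have hH : (1 - hE (cS9 (θ - θb)) φ) = ρ2 5 := by
    rw [hE_al C (PU.a5 h2)]
    ring
  rw [hH]
  by_cases h1 : θ - θb = 1
  · exact tv9_1 H h0 hrec hθ hb2 h1 (sum_X C PU h1)
  · have hx : (1 - xE (cS9 (θ - θb)) φ) = ρ2 3 := by
      rw [xE_al C (PU.a3 h1)]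
      ring
    have hr : rE (cS9 (θ - θb)) φ = ρ2 2 := rE_al C (PU.a2 h1 h2)
    rw [hx, hr]
    exact Tp139.tv9 H h0 hrec hθ hb hb2 h1 h2

section ctx

variable {G : Geo TSet (Fin 2)} {L : ℕ → ℕ → LRay} {r : ℕ → ℝ} {g s : ℝ} {θ q : Fin 2 → ℝ}
    {Rg : ℝ} {B : Base} {I : ℕ → Finset (ℕ × ℝ)} {lev : ℕ → ℚ → ℕ} {A : ℕ → ℝ}
    {f : ℕ → ℚ → ℕ → ℤ → ℕ} {b : ℕ → ℚ → ℕ → TSet} {vm : ℕ → ℚ → ℝ} {w : Fin 2 → ℕ → ℚ → ℝ}
    {fr : ℕ → ℚ → ℕ × ℝ → LInc} {fl : ℕ → ℕ × ℝ → LInc} {sc : Fin 12 → ℕ → ℝ}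
    {w0 sa sb δ R : ℝ} {I0 I' : ℕ → Finset (ℕ × ℝ)} {ν own : (Fin 12 → ℝ) → ℝ} {c₀ : ℝ}
    {v0 : ℝ} {a b' : Fin 2} {x : ℕ → Fin 12 → ℝ} {hh : ℕ → ℝ}
    {lam : Fin 2 → (Fin 12 → ℝ) → ℝ} {T : Type*} {cm cp cP : ℝ} {ρm ρp ρP : Fin 9 → ℝ}

/-- **the side above the record of the double tie, `1 < k'`, `θb < 0`** -/
theorem eUp9_of
    (C : CtxT G L r g s θ q Rg B I lev A f b vm w fr fl sc w0 sa sb δ R I0 I' ν own c₀)
    (hs0 : 0 ≤ s) (hs1 : s < 1) (hθ : 0 < θ 0) (h1 : θ 1 < 0) (hk : 1 < 2 * θ 0 - θ 1)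
    (hv0 : 0 < v0) (hv1 : v0 < 1) (hB : TieT θ B I lev fl sc 7 ∨ TieT θ B I lev fl sc 8)
    {Bs : T → Fin 9 → ℝ} {sgs : T → ℝ}
    (O : Out9 R s a b' (VisT B I fl sc) (θ 0) (θ 1) g (q 0) (q 1) Bs sgs
      (rL (θ 0) (θ 1) w0 sa sb v0) (fo ν own) x hh lam)
    (hcm : 0 < cm) (hMm : (srf9 (θ 0) (θ 1) kD9 (-1)).LW (mw monL) cm ⊆ PP (mw monL))
    (hRm : Rates9 (θ 0) (θ 1) kD9 (-1) cm (lam 0) ρm)
    (hcp : 0 < cp) (hMp : (srf9 (θ 0) (θ 1) oS9 1).LW (mw monL) cp ⊆ PP (mw monL))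
    (hRp : Rates9 (θ 0) (θ 1) oS9 1 cp (lam 0) ρp)
    (hcP : 0 < cP) (hMP : (srf9 (θ 0) (θ 1) oP9 1).LW (mw monL) cP ⊆ PP (mw monL))
    (hRP : Rates9 (θ 0) (θ 1) oP9 1 cP (lam 0) ρP)
    (hK3 : θ 0 - θ 1 = 1 → ∀ {l α : ℝ} {h' : ℕ → ℝ} {X : ℕ → Fin 12 → ℝ} {H : ℕ → ℝ}
      {lam2 : Fin 2 → (Fin 12 → ℝ) → ℝ} {ρ2 : Fin 9 → ℝ} {φ : Fin 9 → V9 → ℝ},
      Pd9 R s a b' (VisT B I fl sc) (θ 0) (θ 1) w0 sa sb v0 (DL g s (q 0) (q 1) 0 1 1) oS9 1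
        (fo ν own) lam ρp l α h' X H lam2 ρ2 →
      Cl9 (cS9 (θ 0 - θ 1)) (dl (nat9 1 (-(θ 0)) (-(θ 1))) oS9 1) s
        (fun w => lam2 0 (RL9.vec w)) φ ρ2 → K3U (cS9 (θ 0 - θ 1)) s φ ρ2)
    {A' : Pl} (hA : A'.m = ρm 1) :
    ∃ B', EUp' (θ 0 - θ 1) (θ 0) s g (q 0) (q 1) A' B' := by
  have hkk : 0 < θ 0 - θ 1 := by linarith
  have hbe : θ 1 = θ 0 - (θ 0 - θ 1) := by ring
  have hbk : θ 1 = 2 * θ 0 - (2 * θ 0 - θ 1) := by ring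
  have hk1 : 1 < θ 0 + (θ 0 - θ 1) := by linarith
  have hvis : ∀ i, VisT B I fl sc i → i = 0 ∨ i = 1 ∨ i = 2 ∨ i = 7 ∨ i = 8 :=
    fun i hi => Fk647.vis_flag C.out i hi
  have hSo := sok_oS9 (θ := θ 0) (θb := θ 1) (by linarith) (by linarith) hθ
  have e0 : oS9 0 = 0 := rfl
  have e6 : oS9 6 = 0 := rfl
  have e7 : oS9 7 = 0 := rfl
  have e8 : oS9 8 = 0 := rfl
  obtain ⟨l, α, h', X, H, lam2, ρ2, -, -, -, P⟩ :=
    plane9 (Vis' := VisT B I fl sc) (v := 0) (c := 1) (p := 1) O hSo leg_oS9 hcp hRp (by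
        refine all9 ?_ ?_ ?_ ?_ ?_ ?_ ?_ ?_ ?_ <;> ev9 <;> norm_num) (fun i hi => by
      left
      refine ⟨hi, ?_⟩
      rcases hvis i hi with rfl | rfl | rfl | rfl | rfl
      · change oS9 0 ≤ oS9 0 * _
        rw [e0, zero_mul]
      · change oS9 8 ≤ oS9 0 * _
        rw [e0, zero_mul, e8]
      · change oS9 7 ≤ oS9 0 * _
        rw [e0, zero_mul, e7]
      · change oS9 6 ≤ oS9 0 * _
        rw [e0, zero_mul, e6]
      · change oS9 6 ≤ oS9 0 * _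
        rw [e0, zero_mul, e6]) (N := univ)
      (Eventually.of_forall fun _ => mem_univ _) (y := 1) one_pos
  obtain ⟨φ, hcl⟩ := P.cls hSo (fun i hi => hvis i hi) (hc_oS9 hθ hkk hk1 hbe)
    (hz_oS9 hθ hkk hk1 hbe) (hG_oS9 hθ hkk hk1 hbe)
  have F : Fct9 (fun w => w 6 ≤ (θ 0 - θ 1) * w 0 ∧ w 7 ≤ (2 * θ 0 - θ 1) * w 0 ∧
      w 8 ≤ (2 * θ 0 - θ 1 - 1) * w 0) s (fun w => lam2 0 (RL9.vec w)) := by
    refine Pd3x363.pd9_fctS P C hs0 hs1.le hθ hv0 hv1 fun w hw hS i hi => ?_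
    rcases hvis i hi with rfl | rfl | rfl | rfl | rfl
    · change w 0 ≤ w 0 * βL (θ 0) (θ 1) 0
      have : βL (θ 0) (θ 1) 0 = 1 := rfl
      rw [this, mul_one]
    · change w 8 ≤ w 0 * βL (θ 0) (θ 1) 1
      have e2 : βL (θ 0) (θ 1) 1 = -(θ 1) - 2 * -(θ 0) - 1 := rfl
      rw [e2]; linarith [hS.2.2]
    · change w 7 ≤ w 0 * βL (θ 0) (θ 1) 2
      have e2 : βL (θ 0) (θ 1) 2 = -(θ 1) - 2 * -(θ 0) := rfl
      rw [e2]; linarith [hS.2.1]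
    · change w 6 ≤ w 0 * βL (θ 0) (θ 1) 7
      have e2 : βL (θ 0) (θ 1) 7 = -(θ 1) - -(θ 0) := rfl
      rw [e2]; linarith [hS.1]
    · change w 6 ≤ w 0 * βL (θ 0) (θ 1) 8
      have e2 : βL (θ 0) (θ 1) 8 = -(θ 1) - -(θ 0) := rfl
      rw [e2]; linarith [hS.1]
  have PU := plU_oS9 (θ := θ 0) (θb := θ 1) (k := θ 0 - θ 1)
  have GU : RgU (θ 0 - θ 1) (2 * θ 0 - θ 1) (2 * θ 0 - θ 1 - 1)
      (fun w => w 6 ≤ (θ 0 - θ 1) * w 0 ∧ w 7 ≤ (2 * θ 0 - θ 1) * w 0 ∧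
        w 8 ≤ (2 * θ 0 - θ 1 - 1) * w 0)
      (fun w => w 7 < (2 * θ 0 - θ 1) * w 0 ∧ w 8 < (2 * θ 0 - θ 1 - 1) * w 0) :=
    { k0 := hkk
      k1 := by linarith
      k2 := by linarith
      sk := fun w h1 h2 h3 => ⟨h1.le, h2.le, h3.le⟩
      sg := fun w h2 h3 => ⟨h2, h3⟩
      h12 := fun h => absurd h (by linarith)
      h11 := fun h => ⟨by linarith, by linarith⟩ }
  have FU : θ 0 - θ 1 ≠ 1 → FctU (θ 0 - θ 1)
      (fun w => w 7 < (2 * θ 0 - θ 1) * w 0 ∧ w 8 < (2 * θ 0 - θ 1 - 1) * w 0)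
      (fun w => lam2 0 (RL9.vec w)) := fun _ =>
    Th171.fctU9 P C hθ hv0 hv1 leg_oS9 (by ev9; norm_num) (by ev9; norm_num) (by ev9; norm_num)
      (by ev9; norm_num) (by ev9; norm_num) (by rw [e0, e6, mul_zero]) hB
      (fun _ => by rw [e0, e7, mul_zero]) (fun _ => by rw [e0, e8, mul_zero])
      (fun w _ hS => ⟨fun _ => hS.1, fun _ => hS.2⟩)
  have hF := efU hcl PU GU F hs0 (Or.inl rfl) (Or.inl rfl) (Or.inl rfl) FU
    (fun h => hK3 h P hcl)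
  have hrec : lam 0 (RL9.vec (nat9 1 (-(θ 0)) (-(θ 1)))) = DL g s (q 0) (q 1) 1 (-(θ 0)) (-(θ 1)) := by
    have h2 := O.rx.rcd 1
    rw [mul_one, mul_one] at h2
    rw [← h2]
    exact congrArg (lam 0) (RL9_nat 1 (-(θ 0)) (-(θ 1)))
  have hTV := tvS9 P.half (O.zero 0) hrec hθ (by linarith) (by linarith)
    (fun h => by linarith) hcl
  have hs : SupOn (lam 0) (PP (mw monL)) := by rw [← coneL_PP]; exact O.rx.prf.sm
  have e1 : ρ2 1 = ρp 1 := P.half.eq 1 (A1_ne9 hθ)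
  refine ⟨_, hF, ?_, hTV.ver, ?_, ?_⟩
  · rw [← hbe]; exact hTV.tan
  · show ρ2 1 ≤ A'.m
    rw [hA, e1]
    exact ant_d9 (k := 2 * θ 0 - θ 1) hs hθ hcm hcp hk hbk (by linarith) hMm hMp hRm hRp
  · show q 0 ≤ ρ2 1
    rw [e1]
    have h3 := pos_e9 (k := θ 0 - θ 1) hs hθ hcp hcP hkk hk1 hbe h1 hMp hMP hRp hRP
    have h4 := posB9 (s := s) (g := g) (qa := q 0) (qb := q 1) (lam := lam 0) O.rx.prf.ab
      O.rx.prf.anti O.rx.prf.cost (O.zero 0) O.rx.dmax hcP hθ h1 (by linarith) hRP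
    exact h4.trans h3

end ctx

end Crest.Agent.R116.D3538
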