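import Crest.Agent.R116.Pe2_794
import Crest.Agent.R116.Kt3_387
import Crest.Agent.R116.Tm3_741
import Crest.Agent.R116.Tk8_126
import Crest.Agent.R116.PosA_348
import Crest.Agent.R116.IIr4_460

/-!
# R116, ROW TIE, `e`-tie with `k > 1` (helper330)

* `eU9 k` : the natural offset above the record, tables
* `planeE9` : `Out9` + `CtxT` ⊢ facts, tangency and vertical inequality of a natural plane
* **`eTie9`** : the data `ETie'` for `1 < θ 0 - θ 1`, every `s`; `fillE9` : as a `Fill`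
-/

set_option autoImplicit false
set_option linter.unusedSectionVars false
set_option linter.unusedVariables false

open Set Filter Topology MeasureTheory

namespace Crest.Agent.R116.FlE330

open Crest.Agent.R138
open Crest.Agent.R138.Ex926 (Base U IsTan)
open Crest.Agent.R136
open Crest.Agent.R136.MkA627
open Crest.Agent.R136.TD627
open Crest.Agent.R136.Net191
open Crest.Agent.R136.Lq196
open Crest.Agent.R136.Qg926 Crest.Agent.R136.Gf356 Crest.Agent.R116.EvL504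
open Crest.Agent.R116.ChL222
open Crest.Agent.R116.PL504 (nb rL DN eL βL oL Shift eL_wall)
open Crest.Agent.R116.Sg337 (bx9 DL coneL)
open Crest.Agent.R116.Gd222 (TSet sN PDL DT)
open Crest.Agent.R116.KI439 hiding kD
open Crest.Agent.R116.KF439 (PL)
open Crest.Agent.R116.CtxB468
open Crest.Agent.R116.Rcx363
open Crest.Agent.R116.RbM219
open Crest.Agent.R116.RbK219 (RS SOk Par dl Aln)
open Crest.Agent.R116.SgO219 (PP)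
open Crest.Agent.R116.Kz647
open Crest.Agent.R116.Pd363
open Crest.Agent.R116.Tq794
open Crest.Agent.R116.Tq741
open Crest.Agent.R116.Tq126
open Crest.Agent.R116.Tp139
open Crest.Agent.R116.KTop387
open Crest.Agent.R116.KTie794
open Crest.Agent.R116.Pos126 (posB9)
open Crest.Agent.R116.PosA348 (posA_eD9)
open Crest.Agent.R116.Kt387 (pd9_fct')
open Tie460 (Pl EF' EUp' ETie')
open Dg219 (mw Walls)
open Dg262 (SupOn)
open Sl741 (slice xt rs)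

/-! ### the offset above the record -/

section tabs

variable {θ θb k : ℝ}

/-- `T⁺` of the `e`-plane, natural, `k > 1` -/
def eU9 (k : ℝ) : Fin 9 → ℝ := nat9 1 (k - 1) (2 * k - 1)

theorem sok_eU9 (hθ : 0 < θ) (hk : 1 < k) (hb : θb = θ - k) :
    SOk (nat9 1 (-θ) (-θb)) (eU9 k) 1 where
  sg1 := Or.inl rfl
  nn := by refine all9 ?_ ?_ ?_ ?_ ?_ ?_ ?_ ?_ ?_ <;> simp only [eU9] <;> ev9 <;> linarith
  zero := by
    refine all9 ?_ ?_ ?_ ?_ ?_ ?_ ?_ ?_ ?_ <;> intro h <;> simp only [eU9] at h <;> ev9 <;> linarith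

theorem leg_eU9 : Leg9 (eU9 k) := leg9_nat _ _ _

theorem aln_eU9 (hθ : 0 < θ) (hk : 1 < k) (hb : θb = θ - k) :
    Aln (nat9 1 (-θ) (-θb)) (eU9 k) 1 := by
  have h1 := mul_pos hθ (by linarith : 0 < k)
  have h2 := mul_pos (by linarith : 0 < k) (by linarith : 0 < k - 1)
  subst hb
  refine all9 ?_ ?_ ?_ ?_ ?_ ?_ ?_ ?_ ?_ <;> intro ht h <;>
    first | exact ht rfl | (simp only [eU9] at h; ev9; nlinarith)

theorem vEU9 (t : Fin 9) (hb : θb = θ - k) :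
    eU9 k t = 1 * nat9 1 (-θ) (-θb) t + (θ + k - 1) * nat9 0 1 1 t := by
  subst hb; revert t
  refine all9 ?_ ?_ ?_ ?_ ?_ ?_ ?_ ?_ ?_ <;> simp only [eU9] <;> ev9 <;> ring

theorem hc_eU9 (hθ : 0 < θ) (hk : 1 < k) (hb : θb = θ - k) (i j : Fin 9) :
    cE k i = cE k j ↔ Par (nat9 1 (-θ) (-θb)) (eU9 k) i j :=
  (tabE9 hθ hk hb i j).trans (par_of (x := 1) (y := θ + k - 1) (fun t => vEU9 t hb)
    (by linarith : 0 < θ + k - 1).ne' i j).symm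

theorem hz_eU9 (hθ : 0 < θ) (hk : 1 < k) (hb : θb = θ - k) (i : Fin 9)
    (h : Par (nat9 1 (-θ) (-θb)) (eU9 k) 0 i) : i = 0 ∨ i = 6 ∨ i = 7 ∨ i = 8 := by
  rcases z_cE (k := k) _ ((hc_eU9 hθ hk hb 0 i).2 h) with h1 | h1
  · exact Or.inl h1
  · exact Or.inr (Or.inl h1)

theorem hG_eU9 (hθ : 0 < θ) (hk : 1 < k) (hb : θb = θ - k)
    (h : Par (nat9 1 (-θ) (-θb)) (eU9 k) 0 7) : Par (nat9 1 (-θ) (-θb)) (eU9 k) 0 8 ∧
      dl (nat9 1 (-θ) (-θb)) (eU9 k) 1 7 ≤ dl (nat9 1 (-θ) (-θb)) (eU9 k) 1 0 +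
        dl (nat9 1 (-θ) (-θb)) (eU9 k) 1 8 := by
  exact absurd (z_cE (k := k) _ ((hc_eU9 hθ hk hb 0 7).2 h)) (by decide)

theorem par_gen9 (hk : 1 < k) : ∀ t t', cE k t = cE k t' ↔ PE k t t' := by
  have h1 : ¬ k = 1 := hk.ne'
  have h2 : ¬ k = 1 / 2 := by intro h; rw [h] at hk; norm_num at hk
  have h3 : ¬ k = 2⁻¹ := by rwa [one_div] at h2
  intro t t'
  unfold PE
  revert t t'
  refine all9 ?_ ?_ ?_ ?_ ?_ ?_ ?_ ?_ ?_ <;> refine all9 ?_ ?_ ?_ ?_ ?_ ?_ ?_ ?_ ?_ <;> evc <;>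
    simp [h1, h3]

theorem ple_D (hθ : 0 < θ) (hk : 1 < k) :
    PlE k (cE k) (dl (nat9 1 (-θ) (-θb)) (eD9 k) (-1)) where
  par := par_gen9 hk
  d6 := by
    have e6 : eD9 k 6 = -k := by ev9; ring
    have e0 : eD9 k 0 = -1 := rfl
    unfold dl
    rw [e6, e0, if_neg (by linarith), if_neg (by norm_num)]; ring
  d3 := fun h => absurd h hk.ne'
  d5 := fun h => by rw [h] at hk; norm_num at hk

theorem ple_U (hθ : 0 < θ) (hk : 1 < k) :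
    PlE k (cE k) (dl (nat9 1 (-θ) (-θb)) (eU9 k) 1) where
  par := par_gen9 hk
  d6 := by
    have e6 : eU9 k 6 = k := by simp only [eU9]; ev9; ring
    have e0 : eU9 k 0 = 1 := rfl
    unfold dl
    rw [e6, e0, if_neg (by linarith), if_neg (by norm_num)]; ring
  d3 := fun h => absurd h hk.ne'
  d5 := fun h => by rw [h] at hk; norm_num at hk

section cmp

variable {lam : (Fin 12 → ℝ) → ℝ} {M : Set (Fin 12 → ℝ)} {c₁ c₂ : ℝ} {ρ₁ ρ₂ : Fin 9 → ℝ}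

/-- rate of `C_a` on `T⁺` ≤ rate on `T⁻` -/
theorem ant_eU9 (hs : SupOn lam M) (hθ : 0 < θ) (hc₁ : 0 < c₁) (hc₂ : 0 < c₂)
    (hk : 1 < k) (hb : θb = θ - k)
    (hM₁ : (srf9 θ θb (eD9 k) (-1)).LW (mw monL) c₁ ⊆ M)
    (hM₂ : (srf9 θ θb (eU9 k) 1).LW (mw monL) c₂ ⊆ M)
    (r₁ : Rates9 θ θb (eD9 k) (-1) c₁ lam ρ₁) (r₂ : Rates9 θ θb (eU9 k) 1 c₂ lam ρ₂) :
    ρ₂ 1 ≤ ρ₁ 1 := by
  have hk1 : 0 < k - 1 := by linarith
  have h1 := mul_pos hθ hk1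
  have h2 := mul_pos hk1 hk1
  refine cl9' hs hθ (sok_eD9 hθ hk hb) (sok_eU9 hθ hk hb)
    (aln_eD9 hθ hk hb) (aln_eU9 hθ hk hb) hc₁ hc₂ hM₁ hM₂ r₁ r₂
    0 (2 * (k - 1)) θ θ hθ hθ ?_ ?_
  · subst hb
    refine all9 ?_ ?_ ?_ ?_ ?_ ?_ ?_ ?_ ?_ <;> simp only [eU9] <;> ev9 <;> nlinarith
  · simp only [eU9]; ev9; ring

/-- rate of `C_a` on `(1, 0)` ≤ rate on `T⁺`, `θb < 0` -/
theorem pos_eU9 (hs : SupOn lam M) (hθ : 0 < θ) (hc₁ : 0 < c₁) (hc₂ : 0 < c₂)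
    (hk : 1 < k) (hb : θb = θ - k) (hb0 : θb < 0)
    (hM₁ : (srf9 θ θb (eU9 k) 1).LW (mw monL) c₁ ⊆ M)
    (hM₂ : (srf9 θ θb oP9 1).LW (mw monL) c₂ ⊆ M)
    (r₁ : Rates9 θ θb (eU9 k) 1 c₁ lam ρ₁) (r₂ : Rates9 θ θb oP9 1 c₂ lam ρ₂) :
    ρ₂ 1 ≤ ρ₁ 1 := by
  have hk0 : 0 < k - θ := by linarith
  have hk1 : 0 < k - 1 := by linarith
  have hkk : 0 < k := by linarith
  have h1 := mul_pos hk0 hk1
  have h2 := mul_pos hkk hθ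
  have h3 := mul_pos hkk hk0
  have h4 := mul_pos hkk hkk
  have h5 := mul_pos hkk hk1
  refine cl9' hs hθ (sok_eU9 hθ hk hb)
    (sok_oP9 (by linarith) (by linarith) hb0 hθ) (aln_eU9 hθ hk hb)
    (aln_oP9 (by linarith) (by linarith) hb0 hθ) hc₁ hc₂ hM₁ hM₂ r₁ r₂ (-(2 * k)) 0
    (k - θ) ((k - θ) * (k - 1) + 2 * k * θ) hk0 (by nlinarith) ?_ ?_
  · subst hb
    refine all9 ?_ ?_ ?_ ?_ ?_ ?_ ?_ ?_ ?_ <;> simp only [eU9] <;> ev9 <;> nlinarith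
  · simp only [eU9]; ev9; ring

end cmp

end tabs

/-! ### a natural plane -/

section ctx

variable {G : Geo TSet (Fin 2)} {L : ℕ → ℕ → LRay} {r : ℕ → ℝ} {g g' s : ℝ} {θ q : Fin 2 → ℝ}
    {Rg : ℝ} {B : Base} {I : ℕ → Finset (ℕ × ℝ)} {lev : ℕ → ℚ → ℕ} {A : ℕ → ℝ}
    {f : ℕ → ℚ → ℕ → ℤ → ℕ} {b : ℕ → ℚ → ℕ → TSet} {vm : ℕ → ℚ → ℝ} {w : Fin 2 → ℕ → ℚ → ℝ}
    {fr : ℕ → ℚ → ℕ × ℝ → LInc} {fl : ℕ → ℕ × ℝ → LInc} {sc : Fin 12 → ℕ → ℝ}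
    {w0 sa sb δ R : ℝ} {I0 I' : ℕ → Finset (ℕ × ℝ)} {ν own : (Fin 12 → ℝ) → ℝ} {c₀ : ℝ}
    {v0 : ℝ} {a b' : Fin 2} {T : Type*} {Bs : T → Fin 9 → ℝ} {sgs : T → ℝ}
    {x : ℕ → Fin 12 → ℝ} {hh : ℕ → ℝ} {lam : Fin 2 → (Fin 12 → ℝ) → ℝ}

/-- **facts, tangency and vertical inequality of a natural plane of the `e`-tie**, `k > 1` -/
theorem planeE9
    (C : CtxT G L r g' s θ q Rg B I lev A f b vm w fr fl sc w0 sa sb δ R I0 I' ν own c₀)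
    (O : Out9 R s a b' (VisT B I fl sc) (θ 0) (θ 1) g' (q 0) (q 1) Bs sgs
      (rL (θ 0) (θ 1) w0 sa sb v0) (fo ν own) x hh lam)
    (hs0 : 0 ≤ s) (hs1 : s ≤ 1) (hθ : 0 < θ 0) (hk : 1 < θ 0 - θ 1) (hv0 : 0 < v0) (hv1 : v0 < 1)
    (hB : TieT θ B I lev fl sc 7 ∨ TieT θ B I lev fl sc 8)
    (hvis : ∀ i, VisT B I fl sc i → i = 0 ∨ i = 7 ∨ i = 8)
    {v c p sg : ℝ} (hp : p = c + (θ 0 - θ 1) * v)
    (hS : SOk (nat9 1 (-(θ 0)) (-(θ 1))) (nat9 v c p) sg)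
    (hc : ∀ i j : Fin 9, cE (θ 0 - θ 1) i = cE (θ 0 - θ 1) j ↔
      Par (nat9 1 (-(θ 0)) (-(θ 1))) (nat9 v c p) i j)
    (hz : ∀ i : Fin 9, Par (nat9 1 (-(θ 0)) (-(θ 1))) (nat9 v c p) 0 i →
      i = 0 ∨ i = 6 ∨ i = 7 ∨ i = 8)
    (hG : Par (nat9 1 (-(θ 0)) (-(θ 1))) (nat9 v c p) 0 7 →
      Par (nat9 1 (-(θ 0)) (-(θ 1))) (nat9 v c p) 0 8 ∧
      dl (nat9 1 (-(θ 0)) (-(θ 1))) (nat9 v c p) sg 7 ≤
        dl (nat9 1 (-(θ 0)) (-(θ 1))) (nat9 v c p) sg 0 +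
        dl (nat9 1 (-(θ 0)) (-(θ 1))) (nat9 v c p) sg 8)
    (PE : PlE (θ 0 - θ 1) (cE (θ 0 - θ 1)) (dl (nat9 1 (-(θ 0)) (-(θ 1))) (nat9 v c p) sg))
    {c0 : ℝ} (hc0 : 0 < c0) {ρ : Fin 9 → ℝ}
    (hR : Rates9 (θ 0) (θ 1) (nat9 v c p) sg c0 (lam 0) ρ) :
    ∃ P : Pl, EF' s (θ 0 - θ 1) P ∧ P.FanA s ∧ P.Tan g' (θ 0) (θ 0 - (θ 0 - θ 1)) (q 0) (q 1) ∧
      0 ≤ -(c + θ 0 * v) * (P.Fa (q 0) + P.Fb (q 1)) ∧ P.m = ρ 1 := by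
  have hk0 : 0 < θ 0 - θ 1 := by linarith
  have hV : ∀ j, VisT B I fl sc j → ((j = 0 ∨ j = 7 ∨ j = 8) ∧
      nat9 v c p (cl9 j) ≤ nat9 v c p 0 * βL (θ 0) (θ 1) j) ∨
      nat9 v c p (cl9 j) < nat9 v c p 0 * βL (θ 0) (θ 1) j := by
    intro j hj
    left
    refine ⟨hvis j hj, ?_⟩
    rcases hvis j hj with rfl | rfl | rfl
    · change v ≤ v * 1
      rw [mul_one]
    · change p - c ≤ v * (-(θ 1) - -(θ 0))
      rw [hp]; exact le_of_eq (by ring)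
    · change p - c ≤ v * (-(θ 1) - -(θ 0))
      rw [hp]; exact le_of_eq (by ring)
  obtain ⟨l, α, h', X, H, lam2, ρ2, hl, -, -, P⟩ := plane9
    (Vis' := fun j => j = 0 ∨ j = 7 ∨ j = 8) (v := v) (c := c) (p := p) (N := univ) (y := 1) O
    hS (leg9_nat _ _ _) hc0 hR le_rfl hV (by simp) one_pos
  obtain ⟨φ, Hc⟩ := P.cls hS (fun j hj => by rcases hj with h | h | h <;> simp [h]) hc hz hG
  have F : Fct9 (fun w => w 6 < (θ 0 - θ 1) * w 0) s (fun w => lam2 0 (RL9.vec w)) := by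
    refine pd9_fct' P C hs0 hs1 hθ hv0 hv1 ?_
    intro w' hl' hw' j hj
    have h1 : w' 6 < (θ 0 - θ 1) * w' 0 := hw'
    rcases hj with rfl | rfl | rfl
    · change w' 0 ≤ w' 0 * 1
      rw [mul_one]
    · change w' 6 ≤ w' 0 * (-(θ 1) - -(θ 0))
      nlinarith
    · change w' 6 ≤ w' 0 * (-(θ 1) - -(θ 0))
      nlinarith
  have FE := fctE9 P C hθ hv0 hv1 hB hvis hp
  have e1 : -(θ 1) = -(θ 0 - (θ 0 - θ 1)) := by ring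
  have hT : (fun w => lam2 0 (RL9.vec w)) (nat9 1 (-(θ 0)) (-(θ 0 - (θ 0 - θ 1)))) =
      DL g' s (q 0) (q 1) 1 (-(θ 0)) (-(θ 0 - (θ 0 - θ 1))) := by
    rw [← e1]; exact Ku126.T9 O P.half
  have hVv : (fun w => lam2 0 (RL9.vec w)) (nat9 v c (c + (θ 0 - θ 1) * v)) ≤
      DL g' s (q 0) (q 1) v c (c + (θ 0 - θ 1) * v) := by
    rw [← hp]; exact P.half.row
  have hK3 : (θ 0 - θ 1 = 1 → 0 < ρ2 1 →
      (∀ y : ℝ, 0 ≤ y → (1 - s) * y ≤ φ (cE (θ 0 - θ 1) 3) 0 -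
        φ (cE (θ 0 - θ 1) 3) (y • e9 3)) → 1 - s ≤ ρ2 4) := fun h => absurd h hk.ne'
  exact ⟨plE s (cE (θ 0 - θ 1)) φ ρ2, PE.ef Hc hk0 F hs0 FE hK3, PE.fanA Hc hk0 F hs0,
    PE.tan Hc hT, PE.ver Hc hT hVv, P.half.eq 1 (A1_ne9 hθ)⟩

/-! ### the data -/

/-- the side below the record -/
theorem lowE9
    (C : CtxT G L r g' s θ q Rg B I lev A f b vm w fr fl sc w0 sa sb δ R I0 I' ν own c₀)
    (O : Out9 R s a b' (VisT B I fl sc) (θ 0) (θ 1) g' (q 0) (q 1) Bs sgs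
      (rL (θ 0) (θ 1) w0 sa sb v0) (fo ν own) x hh lam)
    (hs0 : 0 ≤ s) (hs1 : s ≤ 1) (hθ : 0 < θ 0) (hk : 1 < θ 0 - θ 1) (hv0 : 0 < v0) (hv1 : v0 < 1)
    (hB : TieT θ B I lev fl sc 7 ∨ TieT θ B I lev fl sc 8)
    (hvis : ∀ i, VisT B I fl sc i → i = 0 ∨ i = 7 ∨ i = 8)
    {i : T} (hi : Bs i = eD9 (θ 0 - θ 1)) (hi1 : sgs i = -1) :
    ∃ (c1 : ℝ) (ρ : Fin 9 → ℝ), 0 < c1 ∧
      (srf9 (θ 0) (θ 1) (eD9 (θ 0 - θ 1)) (-1)).LW (mw monL) c1 ⊆ PP (mw monL) ∧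
      Rates9 (θ 0) (θ 1) (eD9 (θ 0 - θ 1)) (-1) c1 (lam 0) ρ ∧
      ∃ P : Pl, EF' s (θ 0 - θ 1) P ∧ P.FanA s ∧
        P.Tan g' (θ 0) (θ 0 - (θ 0 - θ 1)) (q 0) (q 1) ∧ 0 ≤ P.Fa (q 0) + P.Fb (q 1) ∧
        P.m = ρ 1 ∧ q 0 ≤ ρ 1 := by
  obtain ⟨c1, hc1, hL1, -, ρ, hR⟩ := O.surf i
  rw [hi, hi1] at hL1 hR
  have hb : θ 1 = θ 0 - (θ 0 - θ 1) := by ring
  obtain ⟨P, h1, h2, h3, h4, h5⟩ := planeE9 C O hs0 hs1 hθ hk hv0 hv1 hB hvis (v := -1)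
    (c := -((θ 0 - θ 1) - 1)) (p := -(2 * (θ 0 - θ 1) - 1)) (sg := -1) (by ring)
    (sok_eD9 hθ hk hb) (hc_eD9 hθ hk hb) (hz_eD9 hθ hk hb) (hG_eD9 hθ hk hb) (ple_D hθ hk)
    hc1 hR
  refine ⟨c1, ρ, hc1, hL1, hR, P, h1, h2, h3, ?_, h5, ?_⟩
  · have e : 0 < -(-((θ 0 - θ 1) - 1) + θ 0 * -1) := by linarith
    by_contra hcon
    push Not at hcon
    nlinarith
  · exact posA_eD9 hc1 hθ hk hb hR O.rx.prf (O.zero 0) O.rx.dmax hL1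

/-- the side above the record -/
theorem upE9
    (C : CtxT G L r g' s θ q Rg B I lev A f b vm w fr fl sc w0 sa sb δ R I0 I' ν own c₀)
    (O : Out9 R s a b' (VisT B I fl sc) (θ 0) (θ 1) g' (q 0) (q 1) Bs sgs
      (rL (θ 0) (θ 1) w0 sa sb v0) (fo ν own) x hh lam)
    (hs0 : 0 ≤ s) (hs1 : s ≤ 1) (hθ : 0 < θ 0) (hk : 1 < θ 0 - θ 1) (h1 : θ 1 < 0)
    (hv0 : 0 < v0) (hv1 : v0 < 1)
    (hB : TieT θ B I lev fl sc 7 ∨ TieT θ B I lev fl sc 8)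
    (hvis : ∀ i, VisT B I fl sc i → i = 0 ∨ i = 7 ∨ i = 8)
    {i j : T} (hi : Bs i = eU9 (θ 0 - θ 1)) (hi1 : sgs i = 1) (hj : Bs j = oP9) (hj1 : sgs j = 1)
    {c1 : ℝ} {ρ : Fin 9 → ℝ} (hc1 : 0 < c1)
    (hL1 : (srf9 (θ 0) (θ 1) (eD9 (θ 0 - θ 1)) (-1)).LW (mw monL) c1 ⊆ PP (mw monL))
    (hR1 : Rates9 (θ 0) (θ 1) (eD9 (θ 0 - θ 1)) (-1) c1 (lam 0) ρ) {A : Pl} (hA : A.m = ρ 1) :
    ∃ P : Pl, EUp' (θ 0 - θ 1) (θ 0) s g' (q 0) (q 1) A P := by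
  obtain ⟨c2, hc2, hL2, -, ρ2, hR2⟩ := O.surf i
  obtain ⟨c3, hc3, hL3, -, ρ3, hR3⟩ := O.surf j
  rw [hi, hi1] at hL2 hR2
  rw [hj, hj1] at hL3 hR3
  have hb : θ 1 = θ 0 - (θ 0 - θ 1) := by ring
  have hs : SupOn (lam 0) (PP (mw monL)) := by rw [← coneL_PP]; exact O.rx.prf.sm
  obtain ⟨P, a1, a2, a3, a4, a5⟩ := planeE9 C O hs0 hs1 hθ hk hv0 hv1 hB hvis (v := 1)
    (c := (θ 0 - θ 1) - 1) (p := 2 * (θ 0 - θ 1) - 1) (sg := 1) (by ring)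
    (sok_eU9 hθ hk hb) (hc_eU9 hθ hk hb) (hz_eU9 hθ hk hb) (hG_eU9 hθ hk hb) (ple_U hθ hk)
    hc2 hR2
  refine ⟨P, a1, a3, ?_, ?_, ?_⟩
  · have e : -(((θ 0 - θ 1) - 1) + θ 0 * 1) < 0 := by linarith
    by_contra hcon
    push Not at hcon
    nlinarith
  · rw [a5, hA]
    exact ant_eU9 hs hθ hc1 hc2 hk hb hL1 hL2 hR1 hR2
  · rw [a5]
    have h2 := pos_eU9 hs hθ hc2 hc3 hk hb h1 hL2 hL3 hR2 hR3
    have h3 := posB9 (s := s) (g := g') (qa := q 0) (qb := q 1) (lam := lam 0) O.rx.prf.ab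
      O.rx.prf.anti O.rx.prf.cost (O.zero 0) O.rx.dmax hc3 hθ h1 (by linarith) hR3
    exact h3.trans h2

/-- **the data of the `e`-tie, `1 < θ 0 - θ 1`** -/
theorem eTie9 {η : ℝ} (hη : η < 1)
    (C : CtxT G L r (g + 2 * s) s θ q Rg B I lev A f b vm w fr fl sc w0 sa sb δ R I0 I' ν own c₀)
    (hN : NumL η g s θ q) (hR0 : w0 + (θ 1 + sb) < R) (hR1 : w0 + 1 + sb < R)
    (hRg : θ 0 + |θ 1| + 1 ≤ Rg) (hB : VisB θ B I lev fl sc) (hE : InvE B I fl sc)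
    (hk : 1 < θ 0 - θ 1) : ETie' (θ 0 - θ 1) (θ 0) s (g + 2 * s) (q 0) (q 1) := by
  have hθ : 0 < θ 0 := hN.θa
  have hb : θ 1 = θ 0 - (θ 0 - θ 1) := by ring
  have hvis : ∀ i, VisT B I fl sc i → i = 0 ∨ i = 7 ∨ i = 8 := by
    intro k hk
    by_contra h0
    apply hk
    by_cases h1 : k = 1
    · rw [h1]; exact hE.2
    by_cases h2 : k = 2
    · rw [h2]; exact hE.1
    refine C.out.inv_ray ?_
    clear hk
    revert h0 h1 h2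
    revert k
    decide
  by_cases h1 : θ 1 < 0
  · obtain ⟨v0, -, hv0, hv1, a, b', x, hh, lam, -, O⟩ := exists_out9 (T := Fin 3) C hR0 hR1 hθ
      (by linarith) (Bs := ![eD9 (θ 0 - θ 1), eU9 (θ 0 - θ 1), oP9]) (sg := ![-1, 1, 1])
      (by
        intro i
        fin_cases i
        · exact sok_eD9 hθ hk hb
        · exact sok_eU9 hθ hk hb
        · exact sok_oP9 (by linarith) (by linarith) h1 hθ)
      (by
        intro i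
        fin_cases i
        · exact leg_eD9
        · exact leg_eU9
        · exact leg_oP9) (N := univ) (by simp)
    obtain ⟨c1, ρ, hc1, hL1, hR, P, a1, a2, a3, a4, a5, a6⟩ := lowE9 C O hN.s0 hN.s1.le hθ hk hv0
      hv1 hB hvis (i := 0) rfl rfl
    refine ⟨P, a1, fun _ => a2, fun h => absurd h (not_lt.2 hk.le), a3, a4, by rw [a5]; exact a6,
      fun h2 => ?_, fun _ _ => ?_⟩
    · exact absurd h2 (not_le.2 (by linarith))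
    · obtain ⟨P', h'⟩ := upE9 C O hN.s0 hN.s1.le hθ hk h1 hv0 hv1 hB hvis (i := 1) (j := 2) rfl rfl
        rfl rfl hc1 hL1 hR a5
      exact ⟨P', h', fun h => absurd h (not_lt.2 hk.le)⟩
  · obtain ⟨v0, -, hv0, hv1, a, b', x, hh, lam, -, O⟩ := exists_out9 (T := Unit) C hR0 hR1 hθ
      (by linarith) (Bs := fun _ => eD9 (θ 0 - θ 1)) (sg := fun _ => -1)
      (fun _ => sok_eD9 hθ hk hb) (fun _ => leg_eD9) (N := univ) (by simp)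
    obtain ⟨c1, ρ, hc1, hL1, hR, P, a1, a2, a3, a4, a5, a6⟩ := lowE9 C O hN.s0 hN.s1.le hθ hk hv0
      hv1 hB hvis (i := ()) rfl rfl
    refine ⟨P, a1, fun _ => a2, fun h => absurd h (not_lt.2 hk.le), a3, a4, by rw [a5]; exact a6,
      fun h2 h3 => ?_, fun h2 _ => ?_⟩
    · exfalso; linarith
    · exfalso; linarith

end ctx

end Crest.Agent.R116.FlE330
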