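import Crest.Agent.R116.FlE_794
import Crest.Agent.R116.FlE9_330
import Crest.Agent.R116.D0p_878
import Crest.Agent.R116.D0y5_219
import Crest.Agent.R116.D0z2_899
import Crest.Agent.R116.FlH_850

/-!
# R116, ROW TIE: the table of the `e`-tie (helper794)

* `d0E` : (D0) for `s < 1/2`
* **`tabE : Fill η VE fun g s θ q => (s < 1/2 ∨ 1 < θ 0 - θ 1) → ETie' ..`**, no binder
-/

set_option autoImplicit false
set_option linter.unusedVariables false
set_option linter.unusedSectionVars false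

open Set Filter Topology MeasureTheory

namespace Crest.Agent.R116.FlE794

open Crest.Agent.R138.Ex926 (Base U IsTan)
open Crest.Agent.R116.KTie794
open Crest.Agent.R116.KTop387
open Crest.Agent.R116.CtxB468
open Crest.Agent.R116.Tie460
open Crest.Agent.R116.FlH850

/-- **(D0) of the `e`-tie, `s < 1/2`** -/
theorem d0E {η : ℝ} (hη : η < 1) : D0E η fun s _ => s < 1 / 2 :=
  D0E.of3 (D0E.of (D0p878.D0pos hη)) (D0E.of (D0y219.D0neg hη.le)) (D0z899.d0zero hη.le)

/-- **the table of the `e`-tie** -/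
theorem tabE {η : ℝ} (hη : η < 1) : Fill η VE fun g s θ q =>
    (s < 1 / 2 ∨ 1 < θ 0 - θ 1) → ETie' (θ 0 - θ 1) (θ 0) s (g + 2 * s) (q 0) (q 1) := by
  refine fill_of ?_
  intro G L r g s θ q Rg B I lev A f b vm w fr fl sc w0 sa sb δ R I0 I' ν own c₀ C hN hR0 hR1 hRg
    hV hor
  rcases lt_or_ge 1 (θ 0 - θ 1) with hk | hk
  · exact FlE330.eTie9 hη C hN hR0 hR1 hRg hV.1 hV.2 hk
  · have hs : s < 1 / 2 := hor.resolve_right (not_lt.2 hk)
    exact eTie8 C hN hη hR0 hR1 hRg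
      (d0E hη C hN hs hR0 hR1 hRg hV.2.2 hV.2.1 (fun _ => hk)) hV.1 hV.2 hk

end Crest.Agent.R116.FlE794
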