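import Crest.Agent.R116.Pe4_794
import Crest.Agent.R116.PosA_348
import Crest.Agent.R116.NZ11_90
import Crest.Agent.R116.Tq4_126
import Crest.Agent.R116.Tm3_741
import Crest.Agent.R116.IIr4_460
import Crest.Agent.R116.D0E_188
import Crest.Agent.R116.Fk1_647
import Crest.Agent.R116.Kt2_387
import Crest.Agent.R116.Hm1_621
import Crest.Agent.R116.FlK1_363
import Crest.Agent.R116.FlH_850
import Crest.Agent.R116.Tp7_139

/-!
# R116, ROW TIE: the `e`-tie (helper794)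

* `planeA8`, `planeB8` : the two planes of the `e`-tie over one `Out8`
* `eTie8` : `CtxT`, (D0) ⊢ `ETie'`, `k ≤ 1`
-/

set_option autoImplicit false
set_option linter.unusedVariables false
set_option linter.unusedSectionVars false

open Set Filter Topology MeasureTheory

namespace Crest.Agent.R116.FlE794

open Crest.Agent.R138.Ex926 (Base U IsTan)
open Crest.Agent.R136
open Crest.Agent.R136.MkA627
open Crest.Agent.R136.TD627
open Crest.Agent.R136.Net191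
open Crest.Agent.R136.Lq196
open Crest.Agent.R116.ChL222
open Crest.Agent.R116.PL504 (nb rL DN eL βL oL Shift)
open Crest.Agent.R116.Xd954 (cs xs FlagX Mrg)
open Crest.Agent.R116.Sg337 (coneL DL natB eL_bx9)
open Crest.Agent.R116.Gd222 (TSet sN PDL DT)
open Crest.Agent.R116.KI439
open Crest.Agent.R116.KF439 (PL)
open Crest.Agent.R116.Tw468 (OutT)
open Crest.Agent.R116.CtxB468
open Crest.Agent.R116.RbM219
open Crest.Agent.R116.RbK219
open Crest.Agent.R116.SgO219 (PP tan_lim tan_ev)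
open Crest.Agent.R116.KTie794
open Crest.Agent.R116.KTop387
open Crest.Agent.R116.Tie460
open Crest.Agent.R116.Tp139
open Crest.Agent.R116.Rcx363
open Crest.Agent.R116.Tq741
open Crest.Agent.R116.Tq126
open Crest.Agent.R116.Tq794
open Crest.Agent.R116.Pd363
open Crest.Agent.R116.Kz647
open Crest.Agent.R116.NZ90 (Lam8)
open Crest.Agent.R116.FlK363
open Dg262 (SupOn)
open Dg219 (mw)
open Sl741 (slice xt rs)

/-- the offsets of the `e`-tie, `k ≤ 1` -/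
def BsE (k : ℝ) (i : Fin 4) : Fin 8 → ℝ :=
  if i = 0 then eD k else if i = 1 then oS else if i = 2 then eU k else oP

/-- the sides -/
def sgE (i : Fin 4) : ℝ := if i = 0 then -1 else 1

section plane

variable {θa θb k : ℝ}

theorem dl_eU (hk : 0 < k) {i : Fin 8} (hi : i ≠ 7) :
    dl (nat8 1 (-θa) (-θb)) (eU k) 1 i = eU k i := by
  have h : ∀ i : Fin 8, i ≠ 7 → eU k i ≠ 0 := by
    refine all8 ?_ ?_ ?_ ?_ ?_ ?_ ?_ ?_ <;> intro hi h <;> first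
      | exact hi rfl
      | (ev8; linarith)
  replace h := h i hi
  unfold dl
  rw [if_neg h]; ring

/-- the classes of the `e`-plane, side above -/
theorem eU_plE (hθ : 0 < θa) (hk : 0 < k) (hb : θb = θa - k) {x : ℝ} :
    PlE k (cE k) (sn8 (dl (nat8 1 (-θa) (-θb)) (eU k) 1) x) where
  par := (Hm621.eD_plE hθ hk hb (x := x)).par
  d6 := by
    show dl (nat8 1 (-θa) (-θb)) (eU k) 1 6 = k * dl (nat8 1 (-θa) (-θb)) (eU k) 1 0
    rw [dl_eU hk (by decide), dl_eU hk (by decide)]; ev8; ring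
  d3 := fun h => by
    show dl (nat8 1 (-θa) (-θb)) (eU k) 1 3 = dl (nat8 1 (-θa) (-θb)) (eU k) 1 2
    rw [dl_eU hk (by decide), dl_eU hk (by decide)]; ev8; linarith
  d5 := fun h => by
    show dl (nat8 1 (-θa) (-θb)) (eU k) 1 5 = 2 * dl (nat8 1 (-θa) (-θb)) (eU k) 1 2
    rw [dl_eU hk (by decide), dl_eU hk (by decide)]; ev8; linarith

end plane

section

variable {G : Geo TSet (Fin 2)} {L : ℕ → ℕ → LRay} {r : ℕ → ℝ} {g s : ℝ} {θ q : Fin 2 → ℝ}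
    {Rg : ℝ} {B : Base} {I : ℕ → Finset (ℕ × ℝ)} {lev : ℕ → ℚ → ℕ} {A : ℕ → ℝ}
    {f : ℕ → ℚ → ℕ → ℤ → ℕ} {b : ℕ → ℚ → ℕ → TSet} {vm : ℕ → ℚ → ℝ} {w : Fin 2 → ℕ → ℚ → ℝ}
    {fr : ℕ → ℚ → ℕ × ℝ → LInc} {fl : ℕ → ℕ × ℝ → LInc} {sc : Fin 12 → ℕ → ℝ}
    {w0 sa sb δ R : ℝ} {I0 I' : ℕ → Finset (ℕ × ℝ)} {ν own : (Fin 12 → ℝ) → ℝ} {c₀ : ℝ}
    {η : ℝ}

/-- **the machine at a natural offset of the `e`-plane, `D` frozen** -/
theorem planeE8 {a b' : Fin 2} {v0 t sg l α v c p k : ℝ}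
    {lam lam2 : Fin 2 → (Fin 12 → ℝ) → ℝ} {h' H : ℕ → ℝ} {X : ℕ → Fin 12 → ℝ}
    {ρ ρ2 : Fin 8 → ℝ}
    (P : Pd8 R s a b' (VisT B I fl sc) (θ 0) (θ 1) w0 sa sb v0 t
      (DL (g + 2 * s) s (q 0) (q 1) v c p) (nat8 v c p) sg (fo ν own) lam ρ l α h' X H lam2 ρ2)
    (C : CtxT G L r (g + 2 * s) s θ q Rg B I lev A f b vm w fr fl sc w0 sa sb δ R I0 I' ν own c₀)
    (hN : NumL η g s θ q) (ht : 0 < t) (hv0 : 0 < v0) (hv1 : v0 < 1) (hk : 0 < k)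
    (hkd : k = θ 0 - θ 1) (hB : VisB θ B I lev fl sc)
    (hvis : ∀ i, VisT B I fl sc i → i = 0 ∨ i = 7 ∨ i = 8)
    (hrx : Rx (L8 (θ 0) (θ 1) t) (ntD 0) s a b' (VisT B I fl sc) (θ 0) (θ 1) (g + 2 * s) (q 0)
      (q 1) (lam 0)) (h0 : lam 0 0 = 0)
    (hS : SOk (nat8 1 (-(θ 0)) (-(θ 1))) (nat8 v c p) sg)
    (hc : ∀ i j : Fin 8, cE k i.castSucc = cE k j.castSucc ↔
      Par (nat8 1 (-(θ 0)) (-(θ 1))) (nat8 v c p) i j)
    (hz : ∀ i : Fin 8, Par (nat8 1 (-(θ 0)) (-(θ 1))) (nat8 v c p) 0 i → i = 0 ∨ i = 6 ∨ i = 7)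
    (PE : PlE k (cE k) (sn8 (dl (nat8 1 (-(θ 0)) (-(θ 1))) (nat8 v c p) sg) 1))
    (hp : p = c + k * v) :
    ∃ A : Pl, EF' s k A ∧ A.FanA s ∧ A.d = 0 ∧
      A.Tan (g + 2 * s) (θ 0) (θ 0 - k) (q 0) (q 1) ∧
      0 ≤ -(c + θ 0 * v) * (A.Fa (q 0) + A.Fb (q 1)) ∧ A.m = ρ2 1 ∧ A.n = 1 - ρ2 4 ∧
      A.e = ρ2 0 - (1 - s) ∧ A.w = 0 ∧ A.u = ρ2 7 := by
  have hθ := hN.θa
  have hb : θ 1 = θ 0 - k := by linarith
  obtain ⟨φ, Hc⟩ := P.cls ht hS (fun i hi => by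
    rcases hvis i hi with rfl | rfl | rfl <;> simp) hc h8_cE hz
  have F : Fct9 (fun w => w 6 < k * w 0) s
      (fun w => lam2 0 (xt kp 0 (RL8.vec (fun i : Fin 8 => w i.castSucc)))) := by
    refine pd8_fct P C hN.s0 hN.s1.le ht.ne' (Kt387.flagZ_all C 0) hθ hv0 hv1 ?_ ?_
    · have h1 : 0 < 1 - v0 := by linarith
      nlinarith
    · intro w' hl' hw' i hi
      have h1 : w' 6 < k * w' 0 := hw'
      rcases hvis i hi with rfl | rfl | rfl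
      · change w' 0 ≤ w' 0 * 1
        rw [mul_one]
      · change w' 6 ≤ w' 0 * (-(θ 1) - -(θ 0))
        rw [hkd] at h1; linarith
      · change w' 6 ≤ w' 0 * (-(θ 1) - -(θ 0))
        rw [hkd] at h1; linarith
  have FE : FctE k (fun w => lam2 0 (xt kp 0 (RL8.vec (fun i : Fin 8 => w i.castSucc)))) := by
    rw [hkd]
    exact fctE8 P C hθ ht.ne' hv0 hv1 hB hvis (by rw [hp, hkd])
  have K3 : k = 1 → K3e160.K3C (cE k) s φ (sn8 ρ2 0) := fun h1 => by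
    refine k3_of8 P C hθ ht.ne' hv0 hv1 rfl ?_ rfl ?_ ?_ ?_ hB hvis hvis Hc PE.al1 PE.al4 ?_ ?_
    · show v + 2 * c = c + (v + c)
      ring
    · show p = c + (p - c)
      ring
    · show p - c = v * (θ 0 - θ 1)
      rw [hp, ← hkd]; ring
    · show p - c ≤ p - 2 * c + c
      linarith
    · intro t' h
      exact PE.k2 (h.trans (PE.c3 h1))
    · intro t1 t2 h h6
      have h3 : cE k t2 = cE k 0 := by
        rw [← h]
        rcases h6 with rfl | rfl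
        · rfl
        · exact PE.c6
      rcases PE.z.1 h3 with h | h
      · exact Or.inl h
      · exact Or.inr (Or.inl h)
  have T := T8 P.half h0 hrx
  have V := V8 P.half
  rw [hb] at T
  have hp' : p = c + k * v := hp
  rw [hp'] at V
  refine ⟨plE s (cE k) φ (sn8 ρ2 0), PE.ef Hc hk F hN.s0 FE K3, PE.fanA Hc hk F hN.s0,
    rfl, PE.tan Hc T, PE.ver Hc T V, rfl, rfl, rfl, rfl, rfl⟩

/-- **the machine at `oS`, `D` frozen**, `k < 1` -/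
theorem planeU8 {a b' : Fin 2} {v0 t l α k : ℝ}
    {lam lam2 : Fin 2 → (Fin 12 → ℝ) → ℝ} {h' H : ℕ → ℝ} {X : ℕ → Fin 12 → ℝ}
    {ρ ρ2 : Fin 8 → ℝ}
    (P : Pd8 R s a b' (VisT B I fl sc) (θ 0) (θ 1) w0 sa sb v0 t
      (DL (g + 2 * s) s (q 0) (q 1) 0 1 1) oS 1 (fo ν own) lam ρ l α h' X H lam2 ρ2)
    (C : CtxT G L r (g + 2 * s) s θ q Rg B I lev A f b vm w fr fl sc w0 sa sb δ R I0 I' ν own c₀)
    (hN : NumL η g s θ q) (ht : 0 < t) (hv0 : 0 < v0) (hv1 : v0 < 1) (hk : 0 < k) (hk1 : k < 1)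
    (hkd : k = θ 0 - θ 1) (hB : VisB θ B I lev fl sc)
    (hvis : ∀ i, VisT B I fl sc i → i = 0 ∨ i = 7 ∨ i = 8)
    (hrx : Rx (L8 (θ 0) (θ 1) t) (ntD 0) s a b' (VisT B I fl sc) (θ 0) (θ 1) (g + 2 * s) (q 0)
      (q 1) (lam 0)) (h0 : lam 0 0 = 0) :
    ∃ A : Pl, EF s k A ∧ A.Tan (g + 2 * s) (θ 0) (θ 0 - k) (q 0) (q 1) ∧
      A.Fa (q 0) + A.Fb (q 1) ≤ 0 ∧ A.m = ρ2 1 ∧ A.n = 1 - ρ2 4 := by
  have hθ := hN.θa
  have hb : θ 1 = θ 0 - k := by linarith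
  have hS : SOk (nat8 1 (-(θ 0)) (-(θ 1))) oS 1 := sok_oS (by linarith) (by linarith)
  obtain ⟨φ, Hc⟩ := P.cls ht hS (fun i hi => by
    rcases hvis i hi with rfl | rfl | rfl <;> simp) (hc_oS hθ hk hb) h8_cS (hz_oS hθ hk hb)
  have PU : PlU k (cS k) (sn8 (dl (nat8 1 (-(θ 0)) (-(θ 1))) oS 1) 1) := plU_oS
  have e3 : oS 3 = oS 0 + oS 1 := by ev8; norm_num
  have e5 : oS 5 = oS 1 + oS 3 := by ev8; norm_num
  have e4 : oS 4 = oS 0 + oS 2 := by ev8; norm_num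
  have e4' : oS 4 = oS 3 + oS 6 := by ev8; norm_num
  have e2 : oS 2 = oS 1 + oS 6 := by ev8; norm_num
  have F : Fct9 (fun w => w 6 < k * w 0) s
      (fun w => lam2 0 (xt kp 0 (RL8.vec (fun i : Fin 8 => w i.castSucc)))) := by
    refine pd8_fctG P C hN.s0 hN.s1.le ht.ne' one_ne_zero leg_oS e3 e5 e4 e4' e2
      (Kt387.flagZ_all C 0) hθ hv0 hv1 ?_ ?_
    · have h1 : 0 < 1 - v0 := by linarith
      nlinarith
    · intro w' hl' hw' i hi
      have h1 : w' 6 < k * w' 0 := hw'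
      rcases hvis i hi with rfl | rfl | rfl
      · change w' 0 ≤ w' 0 * 1
        rw [mul_one]
      · change w' 6 ≤ w' 0 * (-(θ 1) - -(θ 0))
        rw [hkd] at h1; linarith
      · change w' 6 ≤ w' 0 * (-(θ 1) - -(θ 0))
        rw [hkd] at h1; linarith
  have FU : FctU k (fun _ => True)
      (fun w => lam2 0 (xt kp 0 (RL8.vec (fun i : Fin 8 => w i.castSucc)))) := by
    rw [hkd]
    refine fctU8 P C hθ ht.ne' leg_oS hv0 hv1 e3 e5 e4 e4' e2 ?_ hB hvis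
    ev8; ring
  have RG : RgU k (1 / 2) 1 (fun w : V9 => w 6 < k * w 0) (fun _ => True) :=
    ⟨hk, by norm_num, one_pos, fun w h1 _ _ => h1, fun _ _ _ => trivial,
      fun h => ⟨by norm_num, fun w h1 _ => by rw [h]; exact h1, fun _ _ => trivial⟩,
      fun _ => ⟨by norm_num, by norm_num⟩⟩
  have a8 : Tp139.Al (cS k) 8 := by
    refine all9 ?_ ?_ ?_ ?_ ?_ ?_ ?_ ?_ ?_ <;> intro h <;> revert h <;>
      simp only [cS, Matrix.cons_val] <;> (try split_ifs) <;> decide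
  have hE := efU Hc PU RG F hN.s0 (Or.inr a8) (Or.inl rfl) (Or.inl rfl) (fun _ => FU)
    (fun h => absurd h hk1.ne)
  have TVs := tvS P.half h0 hrx (by linarith) (by linarith) (by rw [← hkd]; exact hk1.ne)
    (φ := φ) (dl' := sn8 (dl (nat8 1 (-(θ 0)) (-(θ 1))) oS 1) 1) (by rw [← hkd]; exact Hc)
    (by rw [← hkd]; exact fun h => sumUh Hc PU h)
  rw [← hkd, hb] at TVs
  exact ⟨_, hE.toEF hk1.ne, TVs.tan, TVs.ver, rfl, rfl⟩

/-- **the data of the `e`-tie, `k ≤ 1`** -/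
theorem eTie8
    (C : CtxT G L r (g + 2 * s) s θ q Rg B I lev A f b vm w fr fl sc w0 sa sb δ R I0 I' ν own c₀)
    (hN : NumL η g s θ q) (hη : η < 1) (hR0 : w0 + (θ 1 + sb) < R) (hR1 : w0 + 1 + sb < R)
    (hRg : θ 0 + |θ 1| + 1 ≤ Rg) (hmic : Mic ν (θ 0) (θ 1) w0 sa sb)
    (hVB : VisB θ B I lev fl sc) (hE : InvE B I fl sc) (hk1 : θ 0 - θ 1 ≤ 1) :
    ETie' (θ 0 - θ 1) (θ 0) s (g + 2 * s) (q 0) (q 1) := by
  have hk : 0 < θ 0 - θ 1 := TieT.kB hVB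
  obtain ⟨k, hkd⟩ : ∃ k, k = θ 0 - θ 1 := ⟨_, rfl⟩
  rw [← hkd] at hk hk1 ⊢
  have hb : θ 1 = θ 0 - k := by linarith
  have hθ := hN.θa
  have hS : ∀ i : {i : Fin 4 // i = 3 → θ 1 < 0},
      SOk (nat8 1 (-(θ 0)) (-(θ 1))) (BsE k i) (sgE i) := by
    rintro ⟨i, hi⟩
    fin_cases i
    · exact sok_eD hθ hk hb
    · exact sok_oS (by linarith) (by linarith)
    · exact sok_eU hθ hk hb
    · exact sok_oP (by linarith) (by linarith) (hi rfl)
  have hL : ∀ i : {i : Fin 4 // i = 3 → θ 1 < 0}, Leg8 (BsE k i) := by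
    rintro ⟨i, hi⟩
    fin_cases i
    · exact leg_eD
    · exact leg_oS
    · exact leg_eU
    · exact leg_oP
  obtain ⟨v0, -, hv0, hv1, a, b', x, hh, lam, hX, hD, O⟩ := exists_out8 C hR0 hR1 hθ
    (by linarith) hmic hE.2 one_pos hS hL (N := univ) (by simp)
  have i0 : (0 : Fin 4) = 3 → θ 1 < 0 := fun h => absurd h (by decide)
  have i1 : (1 : Fin 4) = 3 → θ 1 < 0 := fun h => absurd h (by decide)
  have i2 : (2 : Fin 4) = 3 → θ 1 < 0 := fun h => absurd h (by decide)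
  obtain ⟨cm, hcm, hMm, hRecm, ρm, rm⟩ := O.surf ⟨0, i0⟩
  obtain ⟨cp, hcp, hMp, hRecp, ρp, rp⟩ := O.surf ⟨1, i1⟩
  obtain ⟨cu, hcu, hMu, hRecu, ρu, ru⟩ := O.surf ⟨2, i2⟩
  have hvis : ∀ i, VisT B I fl sc i → i = 0 ∨ i = 7 ∨ i = 8 :=
    fun i hi => Fk647.vis_e C.out hE i hi
  have hv1' : ¬ VisT B I fl sc 1 := fun h => by simpa using hvis 1 h
  obtain ⟨l, α, h', X, H, lam2, ρ2, hl, -, -, Pm⟩ := plane8 (Vis' := VisT B I fl sc) O
    one_pos (sok_eD hθ hk hb) leg_eD hcm rm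
    (v := -1) (c := -k) (p := -2 * k) le_rfl hv1'
    (fun i hi => Or.inl ⟨hi, by
      rcases hvis i hi with rfl | rfl | rfl
      · change (-1 : ℝ) ≤ -1 * 1
        norm_num
      · change -2 * k - -k ≤ -1 * (-(θ 1) - -(θ 0))
        linarith
      · change -2 * k - -k ≤ -1 * (-(θ 1) - -(θ 0))
        linarith⟩) (N := univ) (by simp) one_pos
  obtain ⟨l', α', h'', X', H', lam2', ρ2', hl', -, -, Pp⟩ := plane8 (Vis' := VisT B I fl sc) O
    one_pos (sok_oS (by linarith) (by linarith)) leg_oS hcp rp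
    (v := 0) (c := 1) (p := 1) (by
      refine all8 ?_ ?_ ?_ ?_ ?_ ?_ ?_ ?_ <;> ev8 <;> norm_num) hv1'
    (fun i hi => Or.inl ⟨hi, by
      rcases hvis i hi with rfl | rfl | rfl
      · change (0 : ℝ) ≤ 0 * 1
        norm_num
      · change (0 : ℝ) ≤ 0 * (-(θ 1) - -(θ 0))
        linarith
      · change (0 : ℝ) ≤ 0 * (-(θ 1) - -(θ 0))
        linarith⟩) (N := univ) (by simp) one_pos
  obtain ⟨l3, α3, h3, X3, H3, lam3, ρ3, hl3, -, -, Pu⟩ := plane8 (Vis' := VisT B I fl sc) O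
    one_pos (sok_eU hθ hk hb) leg_eU hcu ru
    (v := 1) (c := k) (p := 2 * k) le_rfl hv1'
    (fun i hi => Or.inl ⟨hi, by
      rcases hvis i hi with rfl | rfl | rfl
      · change (1 : ℝ) ≤ 1 * 1
        norm_num
      · change 2 * k - k ≤ 1 * (-(θ 1) - -(θ 0))
        linarith
      · change 2 * k - k ≤ 1 * (-(θ 1) - -(θ 0))
        linarith⟩) (N := univ) (by simp) one_pos
  obtain ⟨A, f1, f2, f3, f4, f5, fm, fn, fe, fw, fu⟩ := planeE8 Pm C hN one_pos hv0 hv1 hk hkd hVB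
    hvis O.rx (O.zero 0) (sok_eD hθ hk hb) (hc_eD hθ hk hb) (hz_eD hθ hk hb)
    (Hm621.eD_plE hθ hk hb) (by ring)
  have m1 : ρ2 1 = ρm 1 := Pm.half.eq 1 (A1_ne hθ)
  have m2 : ρ2' 1 = ρp 1 := Pp.half.eq 1 (A1_ne hθ)
  have m3 : ρ3 1 = ρu 1 := Pu.half.eq 1 (A1_ne hθ)
  have hsup := PosA348.supOn8 (O.rx.prf.sm)
  refine ⟨A, f1, fun _ => f2, fun _ => f3, f4, ?_, ?_, fun h1 h2 => ?_, fun h1 h2 => ?_⟩
  · have e1 : -(-k + θ 0 * -1) = k + θ 0 := by ring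
    rw [e1] at f5
    by_contra hcon
    push Not at hcon
    nlinarith
  · rw [fm, m1]
    exact PosA348.posA_eD one_ne_zero hcm hθ hk hb rm O.rx.prf (O.zero 0) O.rx.dmax hMm
  · have hk1' : k < 1 := by linarith
    obtain ⟨A', g1, g2, g3, gm, gn⟩ := planeU8 Pp C hN one_pos hv0 hv1 hk hk1' hkd hVB hvis O.rx
      (O.zero 0)
    refine ⟨A', g1, g2, g3, ?_, ?_⟩
    · rw [gm, fm, m1, m2]
      exact ant_eS hsup hθ hk hcm hcp hb hMm hMp rm rp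
    · exact NZ90.nzE_pl one_ne_zero hθ hk (by linarith) hb hcp hcm
        (NZ90.Out8.lamOk O (fun i hi => by rcases hvis i hi with rfl | rfl | rfl <;> simp)) rp rm
        Pm.half Pp.half fn fe fw.ge fu gn
  · have hb0 : θ 1 < 0 := by linarith
    obtain ⟨c3, hc3, hM3, hRec3, ρ4, r3⟩ := O.surf ⟨3, fun _ => hb0⟩
    obtain ⟨A', g1, g2, g3, g4, g5, gm, gn, ge, gw, gu⟩ := planeE8 Pu C hN one_pos hv0 hv1 hk hkd
      hVB hvis O.rx (O.zero 0) (sok_eU hθ hk hb) (hc_eU hθ hk hb) (hz_eU hθ hk hb)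
      (eU_plE hθ hk hb) (by ring)
    refine ⟨A', ⟨g1, g4, ?_, ?_, ?_⟩, fun _ => g3⟩
    · have e1 : -(k + θ 0 * 1) = -(k + θ 0) := by ring
      rw [e1] at g5
      by_contra hcon
      push Not at hcon
      nlinarith
    · rw [gm, fm, m1, m3]
      exact ant_e hsup hθ hk hcm hcu hb hMm hMu rm ru
    · rw [gm, m3]
      refine le_trans ?_ (pos_e hsup hθ hk hcu hc3 hb hb0 hMu hM3 ru r3)
      exact Pos126.posB8 O.rx.prf.ab O.rx.prf.anti O.rx.prf.cost (O.zero 0) O.rx.dmax one_pos hc3 hθ hb0 r3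

end

end Crest.Agent.R116.FlE794
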