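import Crest.Agent.R116.Ts3_905
import Crest.Agent.R116.Tq2_126
import Crest.Agent.R116.Tq3_794
import Crest.Agent.R116.SgO3_219

/-!
# R116, cell (H4) : `OutS` at a generic point of the tie plane `p = c + z`, `D` frozen (helper905)

* `aF`, `bF` : the two directions (slot `D` = `0` in both)
* `cH`       : the table of the classes (`{z, B}`, `{X, C_b}`, all others alone); `plE_cH`
* **`cl_pt`** : `OutS` + `PZ` (own law, cost) ⊢ `PlE 1 cH 1`, `Cl9 cH 1 s (lam ∘ E8) φ ρ`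
* **`val_n0`, `val_n1`** : values at `n0 = (-1; 0, -1)`, `n1 = (-1; 1, 0)` from the derivatives
* `m_eq` : the rate of `C` = `lam 0 - lam uC`
* **`D_rowA`, `D_rowB`** : the two rows at a generic point
-/

set_option autoImplicit false
set_option linter.unusedSectionVars false
set_option linter.unusedVariables false

open Set Filter Topology
open scoped NNReal

namespace Crest.Agent.R116.Ts905

open Crest.Agent.R136.Dg219 (gC dhC nC gset mem_gset OutS gC_eq gC_zero nC_of dirC lf)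
open Crest.Agent.R116.Sg337 (bx9 natB uC DL)
open Crest.Agent.R116.K3e160 (K3C)
open Crest.Agent.R116.SgF665 (LM0 bx9_mem)
open Crest.Agent.R116.Xd954 (cs xs)
open Crest.Agent.R116.Tq794 (E8 E8_mem)
open Crest.Agent.R116.Tq126 (PZ)
open Tq741
open RbM219 (nat9)

/-- first direction : `(1; 1/10, 11/10)`, `D` frozen -/
noncomputable def aF : Fin 12 → ℝ := natB 1 (1/10) (11/10) + (1/10:ℝ) • (Pi.single 1 1 : Fin 12 → ℝ)

/-- second direction : `n1`, `D` frozen -/
noncomputable def bF : Fin 12 → ℝ := natB (-1) 1 0 + (Pi.single 1 1 : Fin 12 → ℝ)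

def aZ : Fin 12 → ℤ := ![10, 0, 9, 1, 1, 11, 11, 10, 10, 12, 11, 21]
def bZ : Fin 12 → ℤ := ![-1, 0, -2, 1, 1, 0, 0, -1, -1, 1, 0, -1]

theorem aF_eq (i : Fin 12) : aF i = (aZ i : ℝ) / 10 := by
  fin_cases i <;> simp [aF, natB, bx9, aZ] <;> norm_num

theorem bF_eq (i : Fin 12) : bF i = (bZ i : ℝ) := by
  fin_cases i <;> simp [bF, natB, bx9, bZ] <;> norm_num

/-- classes of the slots -/
def k12 : Fin 12 → Fin 9 := ![0, 8, 7, 1, 1, 3, 3, 6, 6, 5, 2, 4]
/-- slots of the classes -/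
def s9 : Fin 9 → Fin 12 := ![0, 3, 10, 5, 11, 9, 7, 2, 1]
/-- labels -/
def cH : Fin 9 → Fin 9 := ![0, 1, 2, 2, 4, 5, 0, 7, 8]

theorem k12_s9 : ∀ t, k12 (s9 t) = t := by decide

theorem plE_cH : PlE 1 cH (fun _ => 1) where
  par := by
    have h : ∀ t t' : Fin 9, cH t = cH t' ↔ (t = t' ∨ (t = 0 ∧ t' = 6) ∨ (t = 6 ∧ t' = 0) ∨
      ((t = 2 ∧ t' = 3) ∨ (t = 3 ∧ t' = 2))) := by decide
    intro t t'
    rw [h t t']
    unfold PE
    norm_num
  d6 := by norm_num
  d3 := fun _ => rfl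
  d5 := fun h => by norm_num at h

theorem grp_iff (i j : Fin 12) : gC aF bF i = gC aF bF j ↔ cH (k12 i) = cH (k12 j) := by
  have hz : ∀ i : Fin 12, aZ i = 0 ↔ i = 1 := by decide
  have hp : ∀ i j : Fin 12, i ≠ 1 → j ≠ 1 →
      (bZ i * aZ j = bZ j * aZ i ↔ cH (k12 i) = cH (k12 j)) := by decide
  have h1 : ∀ j : Fin 12, j ≠ 1 → cH (k12 1) ≠ cH (k12 j) := by decide
  have ha : ∀ i : Fin 12, aF i = 0 ↔ i = 1 := by
    intro i
    rw [aF_eq, div_eq_zero_iff, ← hz i]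
    norm_num
  by_cases hi : i = 1
  · by_cases hj : j = 1
    · rw [hi, hj]; simp
    · subst hi
      rw [gC_zero.2 ((ha 1).2 rfl)]
      constructor
      · intro h
        exact absurd (gC_zero.1 h.symm) fun h' => hj ((ha j).1 h')
      · intro h
        exact absurd h (h1 j hj)
  · by_cases hj : j = 1
    · subst hj
      rw [gC_zero.2 ((ha 1).2 rfl)]
      constructor
      · intro h
        exact absurd (gC_zero.1 h) fun h' => hi ((ha i).1 h')
      · intro h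
        exact absurd h.symm (h1 i hi)
    · have hai : aF i ≠ 0 := fun h => hi ((ha i).1 h)
      have haj : aF j ≠ 0 := fun h => hj ((ha j).1 h)
      rw [gC_eq hai haj, ← hp i j hi hj, div_eq_div_iff hai haj, bF_eq, bF_eq, aF_eq, aF_eq]
      constructor
      · intro h
        have h2 : ((bZ i * aZ j : ℤ) : ℝ) = ((bZ j * aZ i : ℤ) : ℝ) := by
          push_cast
          linarith
        exact_mod_cast h2
      · intro h
        have h2 : ((bZ i * aZ j : ℤ) : ℝ) = ((bZ j * aZ i : ℤ) : ℝ) := by rw [h]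
        push_cast at h2
        linarith

/-- equal slopes inside the groups -/
theorem aF_grp {i j : Fin 12} (h : cH (k12 i) = cH (k12 j)) : aF i = aF j := by
  have h1 : ∀ i j : Fin 12, cH (k12 i) = cH (k12 j) → aZ i = aZ j := by decide
  rw [aF_eq, aF_eq, h1 i j h]

theorem aF_pos {i : Fin 12} (hi : i ≠ 1) : 0 < aF i := by
  have h1 : ∀ i : Fin 12, i ≠ 1 → 0 < aZ i := by decide
  rw [aF_eq]
  have : (0:ℝ) < (aZ i : ℝ) := by exact_mod_cast h1 i hi
  positivity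

theorem E8_k (w : V9) (i : Fin 12) : E8 w i = if i = 1 then 0 else w (k12 i) := by
  fin_cases i <;> simp [E8, bx9, k12]

theorem E8_le {w w' : V9} (h : w ≤ w') : E8 w ≤ E8 w' := fun i => by
  rw [E8_k, E8_k]
  split_ifs
  · exact le_rfl
  · exact h _

/-- multiples of the two directions are legal -/
theorem mem_dir (x y : ℝ) : x • aF + y • bF ∈ LM0 := by
  have e : x • aF + y • bF = bx9 (x - y) 0 (x * (9/10) - 2 * y) (x / 10 + y) (x * (11/10))
      (x - y) (x * (12/10) + y) (x * (11/10)) (x * (21/10) - y) := by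
    funext i
    rw [Pi.add_apply, Pi.smul_apply, Pi.smul_apply, smul_eq_mul, smul_eq_mul, aF_eq, bF_eq]
    fin_cases i <;> simp [bx9, aZ, bZ] <;> ring
  rw [e]
  exact bx9_mem.2 ⟨by linarith, by linarith, by linarith, by linarith, by linarith, by linarith,
    by linarith⟩

section out

variable {lam : (Fin 12 → ℝ) → ℝ} {A : ℝ × ℝ} {φ : ℕ → (Fin 12 → ℝ) → ℝ} {r : ℕ → ℝ}

/-- the derivative along the plane -/
theorem val_dir (H : OutS (gC aF bF) LM0 (dhC aF bF) (nC aF bF) lam A φ r) (x y : ℝ) :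
    lam (x • aF + y • bF) = A.1 * x + A.2 * y := by
  have h1 := H.total (x, y)
  rw [H.sum _ (mem_dir x y)]
  have h2 : lf A (x, y) = A.1 * x + A.2 * y := rfl
  rw [← h2, h1, ← Finset.sum_neg_distrib]
  refine Finset.sum_congr rfl fun k hk => ?_
  obtain ⟨i, -, rfl⟩ := Finset.mem_image.1 hk
  refine H.rate _ _ (mem_dir x y) _ fun j hj => ?_
  have h3 := (dirC (a := aF) (b := bF)).fst j
  have h4 := (dirC (a := aF) (b := bF)).snd j
  rw [Pi.add_apply, Pi.smul_apply, Pi.smul_apply, smul_eq_mul, smul_eq_mul, h3, h4, hj]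
  unfold lf
  ring

/-- **value at `n0`** -/
theorem val_n0 (H : OutS (gC aF bF) LM0 (dhC aF bF) (nC aF bF) lam A φ r) :
    lam (E8 (nat9 (-1) 0 (-1))) = -(A.1 - (1/10) * A.2) / (11/10) := by
  have h := val_dir H (-(10/11)) (1/11)
  have e : (-(10/11) : ℝ) • aF + (1/11 : ℝ) • bF = E8 (nat9 (-1) 0 (-1)) := by
    funext i
    rw [Pi.add_apply, Pi.smul_apply, Pi.smul_apply, smul_eq_mul, smul_eq_mul, aF_eq, bF_eq]
    fin_cases i <;> simp [E8, bx9, nat9, aZ, bZ] <;> norm_num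
  rw [e] at h
  rw [h]
  ring

/-- **value at `n1`** -/
theorem val_n1 (H : OutS (gC aF bF) LM0 (dhC aF bF) (nC aF bF) lam A φ r) :
    lam (E8 (nat9 (-1) 1 0)) = A.2 := by
  have h := val_dir H 0 1
  have e : (0 : ℝ) • aF + (1 : ℝ) • bF = E8 (nat9 (-1) 1 0) := by
    funext i
    rw [Pi.add_apply, Pi.smul_apply, Pi.smul_apply, smul_eq_mul, smul_eq_mul, aF_eq, bF_eq]
    fin_cases i <;> simp [E8, bx9, nat9, aZ, bZ] <;> norm_num
  rw [e] at h
  rw [h]
  ring

/-! ### the class functions -/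

open Classical in
/-- class functions -/
noncomputable def Ph (φ : ℕ → (Fin 12 → ℝ) → ℝ) (k : Fin 9) (w : V9) : ℝ :=
  if h : ∃ t, cH t = k then φ (gC aF bF (s9 h.choose)) (E8 w) else 0

theorem Ph_eq (φ : ℕ → (Fin 12 → ℝ) → ℝ) (t : Fin 9) (w : V9) :
    Ph φ (cH t) w = φ (gC aF bF (s9 t)) (E8 w) := by
  have hk : ∃ t', cH t' = cH t := ⟨t, rfl⟩
  unfold Ph
  rw [dif_pos hk]
  have h1 : gC aF bF (s9 hk.choose) = gC aF bF (s9 t) := by
    rw [grp_iff, k12_s9, k12_s9]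
    exact hk.choose_spec
  rw [h1]

theorem Ph_zero (φ : ℕ → (Fin 12 → ℝ) → ℝ) {k : Fin 9} (hk : ∀ t, cH t ≠ k) (w : V9) :
    Ph φ k w = 0 := by
  unfold Ph
  rw [dif_neg]
  rintro ⟨t, ht⟩
  exact hk t ht

/-- representatives -/
def SH : Finset (Fin 9) := {0, 1, 2, 4, 5, 7, 8}

theorem gset_eq : gset (gC aF bF) = SH.image fun t => gC aF bF (s9 t) := by
  have h1 : ∀ i : Fin 12, cH (k12 i) ∈ SH := by decide
  have h2 : ∀ i : Fin 12, cH (k12 (s9 (cH (k12 i)))) = cH (k12 i) := by decide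
  ext κ
  constructor
  · intro h
    obtain ⟨i, -, rfl⟩ := Finset.mem_image.1 h
    exact Finset.mem_image.2 ⟨cH (k12 i), h1 i, (grp_iff _ _).2 (h2 i)⟩
  · intro h
    obtain ⟨t, -, rfl⟩ := Finset.mem_image.1 h
    exact mem_gset _

theorem Ph_sum (H : OutS (gC aF bF) LM0 (dhC aF bF) (nC aF bF) lam A φ r) {w : V9}
    (hw : LegM 0 w) : lam (E8 w) = ∑ k, Ph φ k w := by
  have hinj : ∀ t ∈ SH, ∀ t' ∈ SH, gC aF bF (s9 t) = gC aF bF (s9 t') → t = t' := by
    have h3 : ∀ t ∈ SH, ∀ t' ∈ SH, cH t = cH t' → t = t' := by decide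
    intro t ht t' ht' h
    rw [grp_iff, k12_s9, k12_s9] at h
    exact h3 t ht t' ht' h
  rw [H.sum _ (E8_mem hw), gset_eq, Finset.sum_image hinj]
  have h4 : ∀ t ∈ SH, cH t = t := by decide
  have h5 : ∀ k : Fin 9, k ∉ SH → ∀ t, cH t ≠ k := by decide
  rw [← Finset.sum_subset (Finset.subset_univ SH) fun k _ hk => Ph_zero φ (h5 k hk) w]
  refine Finset.sum_congr rfl fun t ht => ?_
  conv_rhs => rw [← h4 t ht]
  rw [Ph_eq]

theorem Ph_loc (H : OutS (gC aF bF) LM0 (dhC aF bF) (nC aF bF) lam A φ r) (k : Fin 9) (w w' : V9)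
    (h : ∀ t, cH t = k → w t = w' t) : Ph φ k w = Ph φ k w' := by
  by_cases hk : ∃ t, cH t = k
  · obtain ⟨t, rfl⟩ := hk
    rw [Ph_eq, Ph_eq]
    refine H.loc _ _ _ fun i hi => ?_
    rw [grp_iff, k12_s9] at hi
    rw [E8_k, E8_k]
    split_ifs
    · rfl
    · exact h _ hi
  · push Not at hk
    rw [Ph_zero φ hk, Ph_zero φ hk]

/-- rates -/
noncomputable def rh (r : ℕ → ℝ) (t : Fin 9) : ℝ :=
  if t = 8 then 0 else r (gC aF bF (s9 t)) / aF (s9 t)

theorem Ph_rate (H : OutS (gC aF bF) LM0 (dhC aF bF) (nC aF bF) lam A φ r) (t : Fin 9) (w : V9)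
    (h : ∀ t', cH t' = cH t → w t' = w t) : Ph φ (cH t) w = -(rh r t * w t) := by
  have h8 : ∀ t : Fin 9, t ≠ 8 → s9 t ≠ 1 := by decide
  have h8' : ∀ i : Fin 12, cH (k12 i) = cH 8 → i = 1 := by decide
  have hgr : ∀ t : Fin 9, t ≠ 8 → ∀ i : Fin 12, cH (k12 i) = cH t → i ≠ 1 := by decide
  rw [Ph_eq]
  by_cases ht : t = 8
  · subst ht
    rw [rh, if_pos rfl, zero_mul, neg_zero]
    refine H.zero _ _ fun i hi => ?_
    rw [grp_iff, k12_s9] at hi
    rw [E8_k, if_pos (h8' i hi)]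
  · have hp := aF_pos (h8 t ht)
    have hm : (w t / aF (s9 t)) • aF + (0:ℝ) • bF ∈ LM0 := mem_dir _ _
    rw [H.loc _ (E8 w) ((w t / aF (s9 t)) • aF + (0:ℝ) • bF) fun i hi => ?_]
    · rw [H.rate _ _ hm (w t / aF (s9 t)) fun i hi => ?_, rh, if_neg ht]
      · ring
      · rw [grp_iff, k12_s9] at hi
        have hi1 : i ≠ 1 := hgr t ht i hi
        rw [dhC, if_neg (aF_pos hi1).ne']
        simp
    · rw [grp_iff, k12_s9] at hi
      have hi1 : i ≠ 1 := hgr t ht i hi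
      have he : aF i = aF (s9 t) := aF_grp (by rw [k12_s9]; exact hi)
      rw [E8_k, if_neg hi1, h _ hi]
      rw [Pi.add_apply, Pi.smul_apply, Pi.smul_apply, smul_eq_mul, smul_eq_mul, he]
      field_simp
      ring

theorem Ph_mono (H : OutS (gC aF bF) LM0 (dhC aF bF) (nC aF bF) lam A φ r) (k : Fin 9)
    {w w' : V9} (hw : LegM 0 w) (hw' : LegM 0 w') (hle : w ≤ w') :
    0 ≤ Ph φ k w - Ph φ k w' ∧ Ph φ k w - Ph φ k w' ≤ 12 * ‖w' - w‖ := by
  by_cases hk : ∃ t, cH t = k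
  · obtain ⟨t, rfl⟩ := hk
    rw [Ph_eq, Ph_eq]
    have h1 := H.mono (gC aF bF (s9 t)) _ (E8_mem hw) _ (E8_mem hw') fun i _ => E8_le hle i
    refine ⟨h1.1, h1.2.trans ?_⟩
    have h2 : ∀ i : Fin 12, E8 w' i - E8 w i ≤ ‖w' - w‖ := by
      intro i
      rw [E8_k, E8_k]
      split_ifs
      · rw [sub_self]; exact norm_nonneg _
      · have := norm_le_pi_norm (w' - w) (k12 i)
        rw [Real.norm_eq_abs, Pi.sub_apply] at this
        exact (le_abs_self _).trans this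
    calc _ ≤ ∑ i ∈ Finset.univ.filter (fun i => gC aF bF i = gC aF bF (s9 t)), ‖w' - w‖ :=
          Finset.sum_le_sum fun i _ => h2 i
      _ ≤ ∑ i : Fin 12, ‖w' - w‖ := Finset.sum_le_sum_of_subset_of_nonneg
          (Finset.filter_subset _ _) fun _ _ _ => norm_nonneg _
      _ = 12 * ‖w' - w‖ := by simp
  · push Not at hk
    rw [Ph_zero φ hk, Ph_zero φ hk]
    simp

theorem norm_sup_sub {w w' : V9} : ‖w ⊔ w' - w‖ ≤ ‖w - w'‖ ∧ ‖w ⊔ w' - w'‖ ≤ ‖w - w'‖ := by
  constructor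
  · refine (pi_norm_le_iff_of_nonneg (norm_nonneg _)).2 fun i => ?_
    refine le_trans ?_ (norm_le_pi_norm (w - w') i)
    rw [Real.norm_eq_abs, Real.norm_eq_abs, Pi.sub_apply, Pi.sub_apply, Pi.sup_apply]
    rcases le_total (w i) (w' i) with h | h
    · rw [sup_eq_right.2 h, abs_sub_comm]
    · rw [sup_eq_left.2 h, sub_self, abs_zero]; exact abs_nonneg _
  · refine (pi_norm_le_iff_of_nonneg (norm_nonneg _)).2 fun i => ?_
    refine le_trans ?_ (norm_le_pi_norm (w - w') i)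
    rw [Real.norm_eq_abs, Real.norm_eq_abs, Pi.sub_apply, Pi.sub_apply, Pi.sup_apply]
    rcases le_total (w i) (w' i) with h | h
    · rw [sup_eq_right.2 h, sub_self, abs_zero]; exact abs_nonneg _
    · rw [sup_eq_left.2 h]

def wO : V9 := ![0, 1, 1, 1, 1, 1, 0, 0, 0]
def wO' : V9 := ![1, 1, 1, 1, 1, 1, 1, 0, 0]

theorem leg_wO : LegM 0 wO := by constructor <;> simp [wO]
theorem leg_wO' : LegM 0 wO' := by constructor <;> simp [wO']

theorem wO_le : wO ≤ wO' := by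
  intro i
  fin_cases i <;> simp [wO, wO']

theorem cost_E8 {a b : Fin 2} (w w' : V9) :
    ∑ k ∈ ({cs b, xs b} : Finset (Fin 12))ᶜ, (E8 w' k - E8 w k) =
      ∑ t, (if t = 8 then 0 else cst t) * (w' t - w t) := by
  have e9 : ∀ f : Fin 9 → ℝ, ∑ t, f t = f 0 + f 1 + f 2 + f 3 + f 4 + f 5 + f 6 + f 7 + f 8 := by
    intro f
    rw [Fin.sum_univ_castSucc, Fin.sum_univ_eight]
    rfl
  have hb : b = 0 ∨ b = 1 := by fin_cases b <;> simp
  rcases hb with rfl | rfl
  · have e : (({cs 0, xs 0} : Finset (Fin 12))ᶜ) = {0, 1, 2, 4, 6, 7, 8, 9, 10, 11} := by decide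
    rw [e, e9]
    simp only [E8_k]
    rw [Finset.sum_insert (by decide), Finset.sum_insert (by decide), Finset.sum_insert (by decide),
      Finset.sum_insert (by decide), Finset.sum_insert (by decide), Finset.sum_insert (by decide),
      Finset.sum_insert (by decide), Finset.sum_insert (by decide), Finset.sum_insert (by decide),
      Finset.sum_singleton]
    simp [k12, cst]
    ring
  · have e : (({cs 1, xs 1} : Finset (Fin 12))ᶜ) = {0, 1, 2, 3, 5, 7, 8, 9, 10, 11} := by decide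
    rw [e, e9]
    simp only [E8_k]
    rw [Finset.sum_insert (by decide), Finset.sum_insert (by decide), Finset.sum_insert (by decide),
      Finset.sum_insert (by decide), Finset.sum_insert (by decide), Finset.sum_insert (by decide),
      Finset.sum_insert (by decide), Finset.sum_insert (by decide), Finset.sum_insert (by decide),
      Finset.sum_singleton]
    simp [k12, cst]
    ring

/-- **the class functions at a generic point of the tie plane** -/
theorem cl_pt (H : OutS (gC aF bF) LM0 (dhC aF bF) (nC aF bF) lam A φ r) {s : ℝ} {a b : Fin 2}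
    (P : PZ LM0 s a b lam) : Cl9 cH (fun _ => 1) s (fun w => lam (E8 w)) (Ph φ) (rh r) where
  sum := fun w hw => Ph_sum H hw
  loc := Ph_loc H
  emp := fun k hk w => Ph_zero φ hk w
  rate := fun t w h => Ph_rate H t w fun t' ht' => by simpa using h t' ht'
  lip := by
    refine ⟨24, fun k => LipschitzOnWith.of_dist_le_mul fun w hw w' hw' => ?_⟩
    have hs := Tq126.legM_sup hw hw'
    have h1 := Ph_mono H k hw hs le_sup_left
    have h2 := Ph_mono H k hw' hs le_sup_right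
    have h3 := norm_sup_sub (w := w) (w' := w')
    rw [Real.dist_eq, dist_eq_norm, abs_le]
    have e : ((24 : ℝ≥0) : ℝ) = 24 := rfl
    rw [e]
    have := norm_nonneg (w - w')
    constructor <;> linarith [h1.1, h1.2, h2.1, h2.2, h3.1, h3.2]
  anti := fun w w' hw hw' hle => by
    show lam (E8 w') ≤ lam (E8 w)
    rw [Ph_sum H hw, Ph_sum H hw']
    exact Finset.sum_le_sum fun k _ => by linarith [(Ph_mono H k hw hw' hle).1]
  own := by
    have h1 := P.own _ (E8_mem leg_wO) _ (E8_mem leg_wO') (E8_le wO_le) (by rw [E8_k]; simp [k12, wO])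
      (by rw [E8_k]; simp) (by rw [E8_k]; simp [k12, wO]) (by rw [E8_k]; simp [k12, wO])
      (by rw [E8_k]; simp [k12, wO])
    have h0 : E8 wO' 0 = 1 := by rw [E8_k]; simp [k12, wO']
    rw [h0, mul_one, Ph_sum H leg_wO, Ph_sum H leg_wO', ← Finset.sum_sub_distrib,
      Finset.sum_eq_single (0 : Fin 9) (fun k _ hk => ?_) (fun h => absurd (Finset.mem_univ _) h)]
      at h1
    · have c0 : cH 0 = 0 := rfl
      have hc : ∀ t' : Fin 9, cH t' = cH 0 → t' = 0 ∨ t' = 6 := by decide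
      have k1 := Ph_rate H 0 wO fun t' ht' => by
        rcases hc t' ht' with rfl | rfl <;> simp [wO]
      have k2 := Ph_rate H 0 wO' fun t' ht' => by
        rcases hc t' ht' with rfl | rfl <;> simp [wO']
      rw [c0] at k1 k2
      rw [k1, k2] at h1
      simpa [wO, wO'] using h1
    · have hc : ∀ k : Fin 9, k ≠ 0 → ∀ t, cH t = k → t ≠ 0 ∧ t ≠ 6 := by decide
      rw [Ph_loc H k wO wO' fun t ht => ?_, sub_self]
      have h2 := hc k hk t ht
      fin_cases t <;> simp [wO, wO'] at h2 ⊢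
  cost := fun w w' hw hw' hle => by
    have h1 := P.cost _ (E8_mem hw) _ (E8_mem hw') (E8_le hle)
      (Or.inr (by fin_cases a <;> fin_cases b <;> exact le_rfl))
      (Or.inr (by fin_cases a <;> fin_cases b <;> exact le_rfl))
    rw [cost_E8 (a := a)] at h1
    refine h1.trans (Finset.sum_le_sum fun t _ => mul_le_mul_of_nonneg_right ?_
      (sub_nonneg.2 (hle t)))
    split_ifs with h
    · subst h
      exact zero_le_one
    · exact le_rfl

/-- the rate of `C` -/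
theorem m_eq (H : OutS (gC aF bF) LM0 (dhC aF bF) (nC aF bF) lam A φ r) :
    lam 0 - lam uC = rh r 1 := by
  have l0 : LegM 0 (0 : V9) := leg_zero
  have l1 : LegM 0 (e9 1) := by constructor <;> simp [e9]
  have e0 : E8 (0 : V9) = 0 := by funext i; rw [E8_k]; simp
  have e1 : E8 (e9 1) = uC := by
    funext i
    fin_cases i <;> simp [E8, bx9, uC, e9]
  have h1 := Ph_sum H l0
  have h2 := Ph_sum H l1
  rw [e0] at h1
  rw [e1] at h2
  rw [h1, h2, ← Finset.sum_sub_distrib,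
    Finset.sum_eq_single (1 : Fin 9) (fun k _ hk => ?_) (fun h => absurd (Finset.mem_univ _) h)]
  · have c1 : cH 1 = 1 := rfl
    have hc : ∀ t' : Fin 9, cH t' = cH 1 → t' = 1 := by decide
    have k1 := Ph_rate H 1 0 fun t' ht' => rfl
    have k2 := Ph_rate H 1 (e9 1) fun t' ht' => by rw [hc t' ht']
    rw [c1] at k1 k2
    rw [k1, k2, e9_same]
    simp
  · have hc : ∀ k : Fin 9, k ≠ 1 → ∀ t, cH t = k → t ≠ 1 := by decide
    rw [Ph_loc H k 0 (e9 1) fun t ht => ?_, sub_self]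
    rw [e9_ne (hc k hk t ht)]
    rfl

/-- **(A)** at a generic point -/
theorem out_rowA (H : OutS (gC aF bF) LM0 (dhC aF bF) (nC aF bF) lam A φ r) {s : ℝ} {a b : Fin 2}
    (P : PZ LM0 s a b lam) (hs0 : 0 ≤ s) (hs1 : s ≤ 1)
    (F : Fct9 (fun w => w 6 < 1 * w 0) s fun w => lam (E8 w))
    (K3 : ∀ c dl φ ρ, Cl9 c dl s (fun w => lam (E8 w)) φ ρ → PlE 1 c dl → K3C c s φ ρ)
    (hm : s < lam 0 - lam uC) {g qa qb : ℝ} :
    g - qb - 2 * s ≤ -(A.1 - (1/10) * A.2) / (11/10) - DL g s qa qb (-1) 0 (-1) := by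
  have C := cl_pt H P
  rw [← val_n0 H]
  exact rowA plE_cH C hs0 hs1 F (K3 _ _ _ _ C plE_cH) (by rw [← m_eq H]; exact hm)

/-- **(B)** at a generic point -/
theorem out_rowB (H : OutS (gC aF bF) LM0 (dhC aF bF) (nC aF bF) lam A φ r) {s : ℝ} {a b : Fin 2}
    (P : PZ LM0 s a b lam) (hs : 1 / 2 ≤ s) (hs1 : s ≤ 1)
    (F : Fct9 (fun w => w 6 < 1 * w 0) s fun w => lam (E8 w))
    (K3 : ∀ c dl φ ρ, Cl9 c dl s (fun w => lam (E8 w)) φ ρ → PlE 1 c dl → K3C c s φ ρ) {ε : ℝ}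
    (hε : 0 ≤ ε) (hm : lam 0 - lam uC ≤ s + ε) {g qa qb : ℝ} :
    g + qa - 2 * s - ε ≤ A.2 - DL g s qa qb (-1) 1 0 := by
  have C := cl_pt H P
  rw [← val_n1 H]
  exact rowB plE_cH C hs hs1 F (K3 _ _ _ _ C plE_cH) hε (by rw [← m_eq H]; exact hm)

end out

/-- **(A)**, in the derivatives along `(a, b) ↦ a n0 + b n1` -/
theorem D_rowA {lam : (Fin 12 → ℝ) → ℝ} {φ : ℕ → (Fin 12 → ℝ) → ℝ} {r : ℕ → ℝ} {D1 D2 : ℝ}
    (H : OutS (gC aF bF) LM0 (dhC aF bF) (nC aF bF) lam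
      (-(11/10) * D1 + (1/10) * D2, D2) φ r) {s : ℝ} {a b : Fin 2}
    (P : PZ LM0 s a b lam) (hs0 : 0 ≤ s) (hs1 : s ≤ 1)
    (F : Fct9 (fun w => w 6 < 1 * w 0) s fun w => lam (E8 w))
    (K3 : ∀ c dl φ ρ, Cl9 c dl s (fun w => lam (E8 w)) φ ρ → PlE 1 c dl → K3C c s φ ρ)
    (hm : s < lam 0 - lam uC) {g qa qb : ℝ} :
    g - qb - 2 * s ≤ D1 - DL g s qa qb (-1) 0 (-1) := by
  have h := out_rowA H P hs0 hs1 F K3 hm (g := g) (qa := qa) (qb := qb)
  have e : -((-(11/10) * D1 + (1/10) * D2) - (1/10) * D2) / (11/10) = D1 := by ring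
  simp only at h
  rw [e] at h
  exact h

/-- **(B)**, in the derivatives along `(a, b) ↦ a n0 + b n1` -/
theorem D_rowB {lam : (Fin 12 → ℝ) → ℝ} {φ : ℕ → (Fin 12 → ℝ) → ℝ} {r : ℕ → ℝ} {D1 D2 : ℝ}
    (H : OutS (gC aF bF) LM0 (dhC aF bF) (nC aF bF) lam
      (-(11/10) * D1 + (1/10) * D2, D2) φ r) {s : ℝ} {a b : Fin 2}
    (P : PZ LM0 s a b lam) (hs : 1 / 2 ≤ s) (hs1 : s ≤ 1)
    (F : Fct9 (fun w => w 6 < 1 * w 0) s fun w => lam (E8 w))
    (K3 : ∀ c dl φ ρ, Cl9 c dl s (fun w => lam (E8 w)) φ ρ → PlE 1 c dl → K3C c s φ ρ) {ε : ℝ}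
    (hε : 0 ≤ ε) (hm : lam 0 - lam uC ≤ s + ε) {g qa qb : ℝ} :
    g + qa - 2 * s - ε ≤ D2 - DL g s qa qb (-1) 1 0 :=
  out_rowB H P hs hs1 F K3 hε hm

end Crest.Agent.R116.Ts905
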