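import Crest.Agent.R116.Ts4_72
import Crest.Agent.R116.Ts5_905
import Crest.Agent.R116.Ts6_894
import Crest.Agent.R116.Ts2p_604
import Crest.Agent.R116.Pd1_363

/-!
# R116, cell (H4) : the two a.e. rows of `two_step` over `CtxT` (helper905, second of Ts7_894)
-/

set_option autoImplicit false
set_option linter.unusedVariables false
set_option linter.unusedSectionVars false

open Filter Topology Set MeasureTheory

namespace Crest.Agent.R116.TsR905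

open Crest.Agent.R138
open Crest.Agent.R138.Ex926 (Base U IsTan)
open Crest.Agent.R136
open Crest.Agent.R136.MkA627
open Crest.Agent.R136.TD627
open Crest.Agent.R136.Net191
open Crest.Agent.R136.Lq196
open Crest.Agent.R136.Qg926 Crest.Agent.R136.Gf356 Crest.Agent.R116.EvL504
open Crest.Agent.R116.ChL222
open Crest.Agent.R116.PL504 (nb rL DN eL βL oL Shift eL_wall)
open Crest.Agent.R116.Sg337 (bx9 coneL DL natB uC)
open Crest.Agent.R116.Gd222 (TSet sN PDL DT)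
open Crest.Agent.R116.KI439
open Crest.Agent.R116.KF439 (PL)
open Crest.Agent.R116.CtxB468
open Crest.Agent.R116.Rcx363
open Crest.Agent.R116.Tq794
open Crest.Agent.R116.Tq741
open Crest.Agent.R116.KTie794
open Crest.Agent.R116.SgF665 (LM0 bx9_mem)
open Crest.Agent.R116.Ts72 (P4 h4_pt)
open Crest.Agent.R116.Ts2p604 (MC)
open Dg262 (SupOn)

variable {G : Geo TSet (Fin 2)} {L : ℕ → ℕ → LRay} {r : ℕ → ℝ} {g s : ℝ} {θ q : Fin 2 → ℝ}
    {Rg : ℝ} {B : Base} {I : ℕ → Finset (ℕ × ℝ)} {lev : ℕ → ℚ → ℕ} {A : ℕ → ℝ}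
    {f : ℕ → ℚ → ℕ → ℤ → ℕ} {b : ℕ → ℚ → ℕ → TSet} {vm : ℕ → ℚ → ℝ} {w : Fin 2 → ℕ → ℚ → ℝ}
    {fr : ℕ → ℚ → ℕ × ℝ → LInc} {fl : ℕ → ℕ × ℝ → LInc} {sc : Fin 12 → ℕ → ℝ}
    {w0 sa sb δ R : ℝ} {I0 I' : ℕ → Finset (ℕ × ℝ)} {ν own : (Fin 12 → ℝ) → ℝ} {c₀ : ℝ}

theorem zero_LM0 : (0 : Fin 12 → ℝ) ∈ LM0 := by
  have : (0 : Fin 12 → ℝ) = bx9 0 0 0 0 0 0 0 0 0 := by funext k; fin_cases k <;> rfl
  rw [this]
  exact bx9_mem.2 ⟨by norm_num, by norm_num, by norm_num, by norm_num, by norm_num, by norm_num,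
    by norm_num⟩

theorem uC_LM0 : uC ∈ LM0 :=
  bx9_mem.2 ⟨by norm_num, by norm_num, by norm_num, by norm_num, by norm_num, by norm_num,
    by norm_num⟩

/-- **the rows** -/
theorem rows
    (C : CtxT G L r g s θ q Rg B I lev A f b vm w fr fl sc w0 sa sb δ R I0 I' ν own c₀)
    (hs : 1 / 2 ≤ s) (hs1 : s ≤ 1) (hθ : 0 < θ 0) (h1 : θ 0 - θ 1 = 1)
    (hVB : VisB θ B I lev fl sc) (hIE : InvE B I fl sc) {v0 : ℝ} (hv0 : 0 < v0) (hv1 : v0 < 1)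
    {hh : ℕ → ℝ} (hpos : ∀ l, 0 < hh l) (hh0 : Tendsto hh atTop (𝓝 0))
    {g1 : Fin 2 → (Fin 12 → ℝ) → ℝ} (ht1 : ∀ j, IsTan (Leg monL R) coneL (fo ν own j)
      (fun _ => rL (θ 0) (θ 1) w0 sa sb v0) hh (g1 j)) {a' b' : Fin 2}
    (hP1 : Prf coneL s a' b' (VisT B I fl sc) (βL (θ 0) (θ 1)) (g1 0))
    {K : ℝ} (hK : 0 ≤ K) (hlip : ∀ j, ∀ p ∈ coneL, ∀ q ∈ coneL, |g1 j p - g1 j q| ≤ K * dist p q)
    {h : ℕ → ℝ} (kpos : ∀ l, 0 < h l) (k0 : Tendsto h atTop (𝓝 0)) {ε γ : ℝ} (hε : 0 < ε)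
    {c qa qb : ℝ} (gA : γ ≤ c - qb - 2 * s) (gB : γ ≤ c + qa - 2 * s - ε) :
    (∀ᵐ z : ℝ × ℝ, 0 < z.2 → MC (g1 0) (s + ε) h (P4 z.1 z.2) →
      ∀ d, HasDerivAt (fun a => g1 0 (P4 a z.2) - DL c s qa qb (-(a + z.2)) z.2 (-a)) d z.1 →
        γ ≤ d) ∧
    (∀ᵐ z : ℝ × ℝ, 0 < z.2 → ¬ MC (g1 0) (s + ε) h (P4 z.1 z.2) →
      ∀ d, HasDerivAt (fun y => g1 0 (P4 z.1 y) - DL c s qa qb (-(z.1 + y)) y (-z.1)) d z.2 →
        γ ≤ d) := by
  have hae := Ts894.h4_ae hK hlip hP1.anti hP1.sm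
  have hvis : ∀ k, VisT B I fl sc k → k = 0 ∨ k = 1 ∨ k = 2 ∨ k = 7 ∨ k = 8 := fun k hk => by
    rcases Hm621.vis78 C hIE.2 hIE.1 k hk with h | h | h
    · exact Or.inl h
    · exact Or.inr (Or.inr (Or.inr (Or.inl h)))
    · exact Or.inr (Or.inr (Or.inr (Or.inr h)))
  constructor
  · filter_upwards [hae] with z hz hz2 hM d hd
    obtain ⟨D, hD, H⟩ := hz hz2
    obtain ⟨ψ, hψ, hrate⟩ := hM.tan kpos
    obtain ⟨χ, lam, hχ, hlam, φ, r', HO⟩ := H (fun l => h (ψ l)) (fun l => kpos _)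
      (k0.comp hψ.tendsto_atTop)
    obtain ⟨hP, hF, hK3⟩ := h4_pt C (by linarith) hs1 hθ h1 hVB hIE hv0 hv1 hpos hh0 ht1 hP1
      (x := z.1) hz2 (k := fun l => h (ψ (χ l))) (fun l => kpos _)
      ((k0.comp hψ.tendsto_atTop).comp hχ.tendsto_atTop) hlam
    have hm := hrate χ _ _ _ (hlam 0) zero_LM0 uC_LM0
    have hrow := Ts905.D_rowA HO (Pd363.pz_of hP hvis) (by linarith) hs1 hF hK3
      (show s < lam 0 0 - lam 0 uC by linarith) (g := c) (qa := qa) (qb := qb)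
    -- the derivative
    have e1 : HasDerivAt (fun a : ℝ => g1 0 (P4 a z.2)) (D (1, 0)) z.1 := by
      have h2 : HasDerivAt (fun a : ℝ => ((a, z.2) : ℝ × ℝ)) (1, 0) z.1 :=
        (hasDerivAt_id z.1).prodMk (hasDerivAt_const z.1 z.2)
      exact hD.comp_hasDerivAt z.1 h2
    have e2 : HasDerivAt (fun a : ℝ => DL c s qa qb (-(a + z.2)) z.2 (-a))
        (DL c s qa qb (-1) 0 (-1)) z.1 := by
      have e : (fun a : ℝ => DL c s qa qb (-(a + z.2)) z.2 (-a)) =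
          fun a => DL c s qa qb (-1) 0 (-1) * a + DL c s qa qb (-z.2) z.2 0 := by
        funext a; unfold DL; ring
      rw [e]
      simpa using ((hasDerivAt_id z.1).const_mul (DL c s qa qb (-1) 0 (-1))).add_const
        (DL c s qa qb (-z.2) z.2 0)
    have e3 := hd.unique (e1.sub e2)
    linarith
  · filter_upwards [hae] with z hz hz2 hM d hd
    obtain ⟨D, hD, H⟩ := hz hz2
    obtain ⟨χ, lam, hχ, hlam, φ, r', HO⟩ := H h kpos k0
    obtain ⟨hP, hF, hK3⟩ := h4_pt C (by linarith) hs1 hθ h1 hVB hIE hv0 hv1 hpos hh0 ht1 hP1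
      (x := z.1) hz2 (k := fun l => h (χ l)) (fun l => kpos _) (k0.comp hχ.tendsto_atTop) hlam
    have hm := Ts2p604.not_MC_tan hM kpos hχ (hlam 0) zero_LM0 uC_LM0
    have hrow := Ts905.D_rowB HO (Pd363.pz_of hP hvis) hs hs1 hF hK3 hε.le hm
      (g := c) (qa := qa) (qb := qb)
    have e1 : HasDerivAt (fun y : ℝ => g1 0 (P4 z.1 y)) (D (0, 1)) z.2 := by
      have h2 : HasDerivAt (fun y : ℝ => ((z.1, y) : ℝ × ℝ)) (0, 1) z.2 :=
        (hasDerivAt_const z.2 z.1).prodMk (hasDerivAt_id z.2)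
      exact hD.comp_hasDerivAt z.2 h2
    have e2 : HasDerivAt (fun y : ℝ => DL c s qa qb (-(z.1 + y)) y (-z.1))
        (DL c s qa qb (-1) 1 0) z.2 := by
      have e : (fun y : ℝ => DL c s qa qb (-(z.1 + y)) y (-z.1)) =
          fun y => DL c s qa qb (-1) 1 0 * y + DL c s qa qb (-z.1) 0 (-z.1) := by
        funext y; unfold DL; ring
      rw [e]
      simpa using ((hasDerivAt_id z.2).const_mul (DL c s qa qb (-1) 1 0)).add_const
        (DL c s qa qb (-z.1) 0 (-z.1))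
    have e3 := hd.unique (e1.sub e2)
    linarith

end Crest.Agent.R116.TsR905
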