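import Crest.Agent.R116.Ts8_72
import Crest.Agent.R116.FlH_850
import Crest.Agent.R116.TsR_905

/-!
# R116, cell (H4) (`e`-tie, `k = 1`, `1/2 ≤ s`, every `θ 0`): the fill (helper72)

* **`fillH4`** : `Fill η VE (1/2 ≤ s → θ 0 - θ 1 = 1 → False)` (no binder)
-/

set_option autoImplicit false
set_option linter.unusedVariables false
set_option linter.unusedSectionVars false

open Filter Topology Set MeasureTheory

namespace Crest.Agent.R116.Ts72

open Crest.Agent.R138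
open Crest.Agent.R138.Ex926 (Base U IsTan)
open Crest.Agent.R136
open Crest.Agent.R136.MkA627
open Crest.Agent.R136.TD627
open Crest.Agent.R136.Net191
open Crest.Agent.R136.Lq196
open Crest.Agent.R116.ChL222
open Crest.Agent.R116.PL504 (nb rL DN eL βL oL Shift eL_wall)
open Crest.Agent.R116.Xd954 (cs xs FlagX)
open Crest.Agent.R116.Sg337 (bx9 coneL DL natB uC)
open Crest.Agent.R116.Gd222 (TSet sN PDL DT)
open Crest.Agent.R116.KI439
open Crest.Agent.R116.KF439 (PL)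
open Crest.Agent.R116.KTop387
open Crest.Agent.R116.CtxB468
open Crest.Agent.R116.KTie794
open Crest.Agent.R116.FlH850
open Crest.Agent.R116.Rcx363
open Crest.Agent.R116.Ts2p604 (incC MC)
open Dg262 (SupOn)

/-- the steps of the predicate `MC` -/
noncomputable def hS (l : ℕ) : ℝ := 1 / ((l : ℝ) + 1)

theorem hS_pos (l : ℕ) : 0 < hS l := by unfold hS; positivity

theorem hS_lim : Tendsto hS atTop (𝓝 0) := tendsto_one_div_add_atTop_nhds_zero_nat

/-- **`e`-tie, `k = 1`, `1/2 ≤ s`, every `θ 0`** -/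
theorem fillH4 {η : ℝ} (hη : η < 1) :
    Fill η VE fun g s θ q => 1 / 2 ≤ s → θ 0 - θ 1 = 1 → False := by
  refine fill_of ?_
  intro G L r g s θ q Rg B I lev A f b vm w fr fl sc w0 sa sb δ R I0 I' ν own c₀ C N hR0 hR1 hRg hV
    hs h1
  have hRg' : θ 0 + |θ 1| < Rg := by linarith
  obtain ⟨a', b', hX⟩ := C.fX
  have hX' : ∀ κ0 : ℝ, FlagX B I' lev fl (sN lev w) κ0 0 a' b' := hX I' C.sub'
  have hv0 : (0:ℝ) < 1 / 2 := by norm_num
  have hv1 : (1 / 2 : ℝ) < 1 := by norm_num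
  obtain ⟨φ, hφ, g1, hg1⟩ := first_tan C hR0 hR1 hv0.le hv1.le hS_pos hS_lim
  have hpos' : ∀ l, 0 < hS (φ l) := fun l => hS_pos _
  have hh0' : Tendsto (fun l => hS (φ l)) atTop (𝓝 0) := hS_lim.comp hφ.tendsto_atTop
  obtain ⟨hP, hDm, -⟩ := first_prf C hR0 hR1 N.θa hRg' hX' hv0 hv1 hpos' hh0' (g1 := g1 0) (hg1 0)
  have hlip : ∀ j, ∀ p ∈ coneL, ∀ q ∈ coneL, |g1 j p - g1 j q| ≤ (12:ℝ) * dist p q :=
    fun j => SgO219.tan_lip hpos' (hg1 j) (fo_lip C j)
  have hqg : q 1 < g := by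
    have := N.qbg
    have := N.gpos
    nlinarith
  have hγ : 0 < min (g - q 1) (g / 2) := lt_min (by linarith) (by linarith [N.gpos])
  have m1 := min_le_left (g - q 1) (g / 2)
  have m2 := min_le_right (g - q 1) (g / 2)
  obtain ⟨hA, hB⟩ := TsR905.rows C hs N.s1.le N.θa h1 hV.1 hV.2 hv0 hv1 hpos' hh0' hg1 hP
    (K := 12) (by norm_num) hlip hS_pos hS_lim (ε := g / 2) (by linarith [N.gpos])
    (c := g + 2 * s) (qa := q 0) (qb := q 1) (γ := min (g - q 1) (g / 2))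
    (by linarith) (by linarith [N.qa])
  exact h4_core (κ := s + g / 2) hγ hP (Sg337.tan_zero hpos' (hg1 0) zero_coneL) (hlip 0) hDm hS_pos
    (hA.mono fun z hz _ m2 hM => hz m2 hM) (hB.mono fun z hz _ m2 hM => hz m2 hM)

end Crest.Agent.R116.Ts72
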