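import Crest.Agent.R116.TwF4_369

/-!
# R116, ties (helper369): (W3), (W2) at an `e`-tie

* `u3`, `u2` : `G`, `D` invisible or strictly coarser than their own level
* `fctE_of`  : 741's `FctE`
-/

set_option autoImplicit false
set_option linter.unusedVariables false
set_option linter.unusedSectionVars false

open Set Filter Topology

namespace Crest.Agent.R116.Tw369

open Crest.Agent.R138
open Crest.Agent.R138.Ex926 (Base U IsTan)
open Crest.Agent.R136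
open Crest.Agent.R136.MkA627
open Crest.Agent.R136.TD627
open Crest.Agent.R136.Net191
open Crest.Agent.R136.Lq196
open Crest.Agent.R136.Qg926 Crest.Agent.R136.Gf356 Crest.Agent.R116.EvL504
open Crest.Agent.R116.ChL222
open Crest.Agent.R116.PL504 (nb rL DN eL βL oL Shift eL_wall)
open Crest.Agent.R116.Sg337 (bx9)
open Crest.Agent.R116.Gd222 (TSet sN PDL DT)
open Crest.Agent.R116.KI439
open Crest.Agent.R116.KF439 (PL)
open Crest.Agent.R116.CtxB468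
open Crest.Agent.R116.Kst593 Crest.Agent.R116.KW420
open Crest.Agent.R116.Rcx363 (fo fo_lip Prf)
open Crest.Agent.R116.RbM219
open Crest.Agent.R116.SgF665 (wl wl_add wl_smul LM0)
open Crest.Agent.R116.WinG954 (LM)
open Crest.Agent.R116.Tq741 Crest.Agent.R116.Tq794

variable {G : Geo TSet (Fin 2)} {L : ℕ → ℕ → LRay} {r : ℕ → ℝ} {g s : ℝ} {θ q : Fin 2 → ℝ}
    {Rg : ℝ} {B : Base} {I : ℕ → Finset (ℕ × ℝ)} {lev : ℕ → ℚ → ℕ} {A : ℕ → ℝ}
    {f : ℕ → ℚ → ℕ → ℤ → ℕ} {b : ℕ → ℚ → ℕ → TSet} {vm : ℕ → ℚ → ℝ} {wt : Fin 2 → ℕ → ℚ → ℝ}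
    {fr : ℕ → ℚ → ℕ × ℝ → LInc} {fl : ℕ → ℕ × ℝ → LInc} {sc : Fin 12 → ℕ → ℝ}
    {w0 sa sb δ R : ℝ} {I0 I' : ℕ → Finset (ℕ × ℝ)} {ν own : (Fin 12 → ℝ) → ℝ} {c₀ : ℝ}


section etie

variable {E : V9 → Fin 12 → ℝ} {M : Set (Fin 12 → ℝ)} {X : ℕ → Fin 12 → ℝ} {H v : ℕ → ℝ} {v0 : ℝ}
  {lam2 : (Fin 12 → ℝ) → ℝ} {w Rw : V9}

/-- gaps by name -/
theorem One.g0 {j : Fin 10} {w : V9} (h : One j w) (hj : (0 : Fin 10) ≠ j) : w 7 < w 0 + w 8 := by
  have := h.2 0 hj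
  have e : gap w 0 = w 0 + w 8 - w 7 := rfl
  linarith

theorem One.g1 {j : Fin 10} {w : V9} (h : One j w) (hj : (1 : Fin 10) ≠ j) : w 3 < w 0 + w 1 := by
  have := h.2 1 hj
  have e : gap w 1 = w 0 + w 1 - w 3 := rfl
  linarith

theorem One.g2 {j : Fin 10} {w : V9} (h : One j w) (hj : (2 : Fin 10) ≠ j) : w 6 < w 7 + w 1 := by
  have := h.2 2 hj
  have e : gap w 2 = w 7 + w 1 - w 6 := rfl
  linarith

theorem One.g3 {j : Fin 10} {w : V9} (h : One j w) (hj : (3 : Fin 10) ≠ j) : w 6 < w 8 + w 3 := by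
  have := h.2 3 hj
  have e : gap w 3 = w 8 + w 3 - w 6 := rfl
  linarith

theorem One.g5 {j : Fin 10} {w : V9} (h : One j w) (hj : (5 : Fin 10) ≠ j) : w 2 < w 1 + w 6 := by
  have := h.2 5 hj
  have e : gap w 5 = w 1 + w 6 - w 2 := rfl
  linarith

theorem One.g6 {j : Fin 10} {w : V9} (h : One j w) (hj : (6 : Fin 10) ≠ j) : w 2 < w 8 + w 5 := by
  have := h.2 6 hj
  have e : gap w 6 = w 8 + w 5 - w 2 := rfl
  linarith

theorem One.g7 {j : Fin 10} {w : V9} (h : One j w) (hj : (7 : Fin 10) ≠ j) : w 4 < w 0 + w 2 := by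
  have := h.2 7 hj
  have e : gap w 7 = w 0 + w 2 - w 4 := rfl
  linarith

theorem One.g9 {j : Fin 10} {w : V9} (h : One j w) (hj : (9 : Fin 10) ≠ j) : w 4 < w 7 + w 5 := by
  have := h.2 9 hj
  have e : gap w 9 = w 7 + w 5 - w 4 := rfl
  linarith

theorem One.leg {j : Fin 10} {w : V9} (h : One j w) : LegM 0 w := by
  have g : ∀ i, 0 ≤ gap w i := fun i => by
    by_cases hi : i = j
    · rw [hi, h.1]
    · exact (h.2 i hi).le
  have e0 := g 0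
  have e1 := g 1
  have e2 := g 2
  have e3 := g 3
  have e4 := g 4
  have e5 := g 5
  have e6 := g 6
  have e7 := g 7
  have e8 := g 8
  have e9 := g 9
  change 0 ≤ w 0 + w 8 - w 7 at e0
  change 0 ≤ w 0 + w 1 - w 3 at e1
  change 0 ≤ w 7 + w 1 - w 6 at e2
  change 0 ≤ w 8 + w 3 - w 6 at e3
  change 0 ≤ w 1 + w 3 - w 5 at e4
  change 0 ≤ w 1 + w 6 - w 2 at e5
  change 0 ≤ w 8 + w 5 - w 2 at e6
  change 0 ≤ w 0 + w 2 - w 4 at e7
  change 0 ≤ w 3 + w 6 - w 4 at e8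
  change 0 ≤ w 7 + w 5 - w 4 at e9
  constructor <;> linarith

/-- **(W3) at an `e`-tie** -/
theorem u3 (ctx : CtxT G L r g s θ q Rg B I lev A f b vm wt fr fl sc w0 sa sb δ R I0 I' ν own c₀)
    (hθ0 : 0 < θ 0) {j : Fin 12} (hj : j = 7 ∨ j = 8) (hB : TieT θ B I lev fl sc j)
    (em : EMd E M) (rz : Rz M {1, 2} (E dE))
    (pb : PBase (θ 0) (θ 1) w0 sa sb v0 R {0, 7, 8} E M ν X H v lam2)
    (hvX : ∀ k, k ≠ 0 → VisT B I fl sc k → k = 7 ∨ k = 8 ∨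
      Vw (θ 0) (θ 1) w0 sa sb X H v (E w) (w 0) k)
    (ho : One 5 w) (h6 : w 6 = (θ 0 - θ 1) * w 0)
    (hL : LinS {0, 6, 7, 8} (fun w => lam2 (E w)) w Rw) : Rw 1 ≤ Rw 2 := by
  obtain ⟨ψ, h', Q, Φ, hψ, hp', h0', hΦ, hQ, k, W, N, cw, E', g', T, u, u', hd⟩ :=
    winE ctx hθ0 hj hB em rz pb hvX (One.leg ho) h6 hL
  obtain ⟨l0, l2, l3, l4, l5, l6, l7, l8, l9, l10, l11⟩ := em.lt w
  obtain ⟨X5, X6, X7, X8, X11, X11', X11'', X10, X10', X9⟩ := pb.nb.walls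
  have g0 : gap w 5 = 0 := ho.1
  change w 1 + w 6 - w 2 = 0 at g0
  have z : ∀ {k : Fin 12}, k ≠ 1 → k ≠ 2 → ((1:ℝ) • E dE) k = 0 := fun h1 h2 => by
    rw [Pi.smul_apply, E_dE_off em h1 h2, smul_zero]
  have t1 := Xs_tight (H := H) (ψ := ψ) (h' := h') (ew := E w) (c0 := (1:ℝ) • E dE) X10
    (by rw [l10, l3, l7]; linarith)
    (by rw [z (by decide) (by decide), z (by decide) (by decide), z (by decide) (by decide)]; ring)
  have t2 := Xs_tight (H := H) (ψ := ψ) (h' := h') (ew := E w) (c0 := (1:ℝ) • E dE) X10'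
    (by rw [l10, l4, l8]; linarith)
    (by rw [z (by decide) (by decide), z (by decide) (by decide), z (by decide) (by decide)]; ring)
  have sl : Sl3 (Xs X H (E w) ((1:ℝ) • E dE) ψ h') (fun m => H (ψ m) * h' m) 1 := by
    constructor
    · exact Xs_slack pb.pos hψ hp' h0' (Or.inl ⟨Eventually.of_forall fun l => (X7 l).le,
        by rw [l7, l2, l3]; exact One.g2 ho (by decide)⟩) 1
    · exact Xs_slack pb.pos hψ hp' h0' (Or.inl ⟨Eventually.of_forall fun l => (X8 l).le,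
        by rw [l8, l2, l4]; exact One.g2 ho (by decide)⟩) 1
    · exact Xs_slack pb.pos hψ hp' h0' (pb.nb.slD.1 (One.g3 ho (by decide))) 1
    · exact Xs_slack pb.pos hψ hp' h0' (pb.nb.slD.2.1 (One.g3 ho (by decide))) 1
    · exact Xs_slack pb.pos hψ hp' h0' (pb.nb.slD.2.2.1 (One.g6 ho (by decide))) 1
  have key := T.w3 one_pos (by rcases hj with rfl | rfl <;> decide) (fun _ _ => rfl) hj
    (Finset.mem_singleton_self j) hd (Eventually.of_forall t1) (Eventually.of_forall t2) sl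
    zero_le_one le_rfl
  have b1 : cT {0, 7, 8} {1, 2} 1 (bA 1 {10}) = E ![1, 0, 1, 0, 0, 0, 1, 0, 0] := by
    rw [em.eq9 rfl]
    funext k
    fin_cases k <;> simp [cT, E9, bx9, bA]
  have b2 : cT {0, 7, 8} {1, 2} 1 (bA 1 {3, 4, 10}) = E ![1, 1, 1, 0, 0, 0, 1, 0, 0] := by
    rw [em.eq9 rfl]
    funext k
    fin_cases k <;> simp [cT, E9, bx9, bA]
  have b3 : cT {0, 7, 8} {1, 2} 1 0 = E ![1, 0, 0, 0, 0, 0, 1, 0, 0] := by
    rw [em.eq9 rfl]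
    funext k
    fin_cases k <;> simp [cT, E9, bx9]
  have lg1 : LegM 0 (![1, 0, 1, 0, 0, 0, 1, 0, 0] + (1:ℝ) • dE) := by
    constructor <;> simp [dE] <;> norm_num
  have lg2 : LegM 0 (![1, 1, 1, 0, 0, 0, 1, 0, 0] + (1:ℝ) • dE) := by
    constructor <;> simp [dE] <;> norm_num
  have lg3 : LegM 0 (![1, 0, 0, 0, 0, 0, 1, 0, 0] + (1:ℝ) • dE) := by
    constructor <;> simp [dE] <;> norm_num
  have f1 : Φ ![1, 0, 1, 0, 0, 0, 1, 0, 0] = Φ ![1, 0, 0, 0, 0, 0, 1, 0, 0] :=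
    hΦ _ _ (by intro u hu; fin_cases u <;> simp at hu ⊢) lg1 lg3
  have f2 : Φ ![1, 1, 1, 0, 0, 0, 1, 0, 0] = Φ ![1, 0, 0, 0, 0, 0, 1, 0, 0] :=
    hΦ _ _ (by intro u hu; fin_cases u <;> simp at hu ⊢) lg2 lg3
  rw [b1, b2, b3, hQ _ lg1, hQ _ lg2, hQ _ lg3, f1, f2, sumE, sumE, sumE] at key
  simp at key
  linarith

/-- **(W2) at an `e`-tie** -/
theorem u2 (ctx : CtxT G L r g s θ q Rg B I lev A f b vm wt fr fl sc w0 sa sb δ R I0 I' ν own c₀)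
    (hθ0 : 0 < θ 0) {j : Fin 12} (hj : j = 7 ∨ j = 8) (hB : TieT θ B I lev fl sc j)
    (em : EMd E M) (rz : Rz M {1, 2} (E dE))
    (pb : PBase (θ 0) (θ 1) w0 sa sb v0 R {0, 7, 8} E M ν X H v lam2)
    (hvX : ∀ k, k ≠ 0 → VisT B I fl sc k → k = 7 ∨ k = 8 ∨
      Vw (θ 0) (θ 1) w0 sa sb X H v (E w) (w 0) k)
    (ho : One 8 w) (h6 : w 6 = (θ 0 - θ 1) * w 0)
    (hL : LinS {0, 6, 7, 8} (fun w => lam2 (E w)) w Rw) : Rw 3 ≤ Rw 4 := by
  obtain ⟨ψ, h', Q, Φ, hψ, hp', h0', hΦ, hQ, k, W, N, cw, E', g', T, u, u', hd⟩ :=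
    winE ctx hθ0 hj hB em rz pb hvX (One.leg ho) h6 hL
  obtain ⟨l0, l2, l3, l4, l5, l6, l7, l8, l9, l10, l11⟩ := em.lt w
  obtain ⟨X5, X6, X7, X8, X11, X11', X11'', X10, X10', X9⟩ := pb.nb.walls
  have g0 : gap w 8 = 0 := ho.1
  change w 3 + w 6 - w 4 = 0 at g0
  have z : ∀ {k : Fin 12}, k ≠ 1 → k ≠ 2 → ((1:ℝ) • E dE) k = 0 := fun h1 h2 => by
    rw [Pi.smul_apply, E_dE_off em h1 h2, smul_zero]
  have t1 := Xs_tight (H := H) (ψ := ψ) (h' := h') (ew := E w) (c0 := (1:ℝ) • E dE) X11'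
    (by rw [l11, l5, l7]; linarith)
    (by rw [z (by decide) (by decide), z (by decide) (by decide), z (by decide) (by decide)]; ring)
  have t2 := Xs_tight (H := H) (ψ := ψ) (h' := h') (ew := E w) (c0 := (1:ℝ) • E dE) X11''
    (by rw [l11, l6, l8]; linarith)
    (by rw [z (by decide) (by decide), z (by decide) (by decide), z (by decide) (by decide)]; ring)
  have sl : Sl2 (Xs X H (E w) ((1:ℝ) • E dE) ψ h') (fun m => H (ψ m) * h' m) 1 := by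
    constructor
    · exact Xs_slack pb.pos hψ hp' h0' (Or.inl ⟨Eventually.of_forall fun l => (X5 l).le,
        by rw [l5, l0, l3]; exact One.g1 ho (by decide)⟩) 1
    · exact Xs_slack pb.pos hψ hp' h0' (Or.inl ⟨Eventually.of_forall fun l => (X6 l).le,
        by rw [l6, l0, l4]; exact One.g1 ho (by decide)⟩) 1
    · exact Xs_slack pb.pos hψ hp' h0' (pb.nb.slD.1 (One.g3 ho (by decide))) 1
    · exact Xs_slack pb.pos hψ hp' h0' (pb.nb.slD.2.1 (One.g3 ho (by decide))) 1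
    · exact Xs_slack pb.pos hψ hp' h0' (Or.inl ⟨Eventually.of_forall fun l => (X11 l).le,
        by rw [l11, l0, l10]; exact One.g7 ho (by decide)⟩) 1
    · exact Xs_slack pb.pos hψ hp' h0' (Or.inl ⟨Eventually.of_forall fun l => (X9 l).le,
        by rw [l11, l2, l9]; exact One.g9 ho (by decide)⟩) 1
  have key := T.w2 one_pos (by rcases hj with rfl | rfl <;> decide) (fun _ _ => rfl) hj
    (Finset.mem_singleton_self j) hd (Eventually.of_forall t1) (Eventually.of_forall t2) sl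
    zero_le_one le_rfl
  have b1 : cT {0, 7, 8} {1, 2} 1 (bA 1 {11}) = E ![1, 0, 0, 0, 1, 0, 1, 0, 0] := by
    rw [em.eq9 rfl]
    funext k
    fin_cases k <;> simp [cT, E9, bx9, bA]
  have b2 : cT {0, 7, 8} {1, 2} 1 (bA 1 {5, 6, 11}) = E ![1, 0, 0, 1, 1, 0, 1, 0, 0] := by
    rw [em.eq9 rfl]
    funext k
    fin_cases k <;> simp [cT, E9, bx9, bA]
  have b3 : cT {0, 7, 8} {1, 2} 1 0 = E ![1, 0, 0, 0, 0, 0, 1, 0, 0] := by
    rw [em.eq9 rfl]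
    funext k
    fin_cases k <;> simp [cT, E9, bx9]
  have lg1 : LegM 0 (![1, 0, 0, 0, 1, 0, 1, 0, 0] + (1:ℝ) • dE) := by
    constructor <;> simp [dE] <;> norm_num
  have lg2 : LegM 0 (![1, 0, 0, 1, 1, 0, 1, 0, 0] + (1:ℝ) • dE) := by
    constructor <;> simp [dE] <;> norm_num
  have lg3 : LegM 0 (![1, 0, 0, 0, 0, 0, 1, 0, 0] + (1:ℝ) • dE) := by
    constructor <;> simp [dE] <;> norm_num
  have f1 : Φ ![1, 0, 0, 0, 1, 0, 1, 0, 0] = Φ ![1, 0, 0, 0, 0, 0, 1, 0, 0] :=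
    hΦ _ _ (by intro u hu; fin_cases u <;> simp at hu ⊢) lg1 lg3
  have f2 : Φ ![1, 0, 0, 1, 1, 0, 1, 0, 0] = Φ ![1, 0, 0, 0, 0, 0, 1, 0, 0] :=
    hΦ _ _ (by intro u hu; fin_cases u <;> simp at hu ⊢) lg2 lg3
  rw [b1, b2, b3, hQ _ lg1, hQ _ lg2, hQ _ lg3, f1, f2, sumE, sumE, sumE] at key
  simp at key
  linarith

end etie

end Crest.Agent.R116.Tw369
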