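import Crest.Agent.R116.Hm1_621
import Crest.Agent.R116.TwF5_369

/-!
# R116 (K side, TIES): 369's own-strip facts over 363's planes, `D` frozen (helper621)

* `pb8`    : `Pd8` at a natural offset `⊢ PBase` (any tied set)
* `fctE8`  : (W3), (W2) on every natural plane of an `e`-tie (`B 6 = B 0 * (θa - θb)`), `D` frozen
* `fillE_lo` : the cell `1/2 ≤ s`, `e`-tie, `k < 1`, `(1 + k)/2 ≤ θa`; only `D0` is a binder
-/

set_option autoImplicit false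
set_option linter.unusedSectionVars false
set_option linter.unusedVariables false

open Set Filter Topology MeasureTheory

namespace Crest.Agent.R116.Hm621

open Crest.Agent.R138
open Crest.Agent.R138.Ex926 (Base U IsTan)
open Crest.Agent.R136
open Crest.Agent.R136.MkA627
open Crest.Agent.R136.TD627
open Crest.Agent.R136.Net191
open Crest.Agent.R136.Lq196
open Crest.Agent.R136.Qg926 Crest.Agent.R136.Gf356 Crest.Agent.R116.EvL504
open Crest.Agent.R116.ChL222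
open Crest.Agent.R116.PL504 (nb rL DN eL βL oL Shift eL_wall)
open Crest.Agent.R116.Sg337 (bx9 DL)
open Crest.Agent.R116.Gd222 (TSet sN PDL DT)
open Crest.Agent.R116.KI439
open Crest.Agent.R116.KF439 (PL)
open Crest.Agent.R116.CtxB468
open Crest.Agent.R116.Rcx363
open Crest.Agent.R116.RbM219
open Crest.Agent.R116.RbK219 (RS SOk Par dl)
open Crest.Agent.R116.Kz647
open Crest.Agent.R116.Pd363
open Crest.Agent.R116.Tq794
open Crest.Agent.R116.Tq741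
open Crest.Agent.R116.Tq126
open Crest.Agent.R116.Tp139
open Crest.Agent.R116.KTop387
open Crest.Agent.R116.KTie794
open Crest.Agent.R116.SgF665 (wl wl_add wl_smul LM0 bx9_mem)
open Crest.Agent.R116.Tw369
open Dg219 (mw Walls)
open Sl741 (slice xt rs)

variable {G : Geo TSet (Fin 2)} {L : ℕ → ℕ → LRay} {r : ℕ → ℝ} {g s : ℝ} {θ q : Fin 2 → ℝ}
    {Rg : ℝ} {B : Base} {I : ℕ → Finset (ℕ × ℝ)} {lev : ℕ → ℚ → ℕ} {A : ℕ → ℝ}
    {f : ℕ → ℚ → ℕ → ℤ → ℕ} {b : ℕ → ℚ → ℕ → TSet} {vm : ℕ → ℚ → ℝ} {wt : Fin 2 → ℕ → ℚ → ℝ}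
    {fr : ℕ → ℚ → ℕ × ℝ → LInc} {fl : ℕ → ℕ × ℝ → LInc} {sc : Fin 12 → ℕ → ℝ}
    {w0 sa sb δ R : ℝ} {I0 I' : ℕ → Finset (ℕ × ℝ)} {ν own : (Fin 12 → ℝ) → ℝ} {c₀ : ℝ}
    {v0 t κ sg l α v c p : ℝ} {a b' : Fin 2} {Vis' : Fin 12 → Prop} {X : ℕ → Fin 12 → ℝ}
    {h' H : ℕ → ℝ} {lam lam2 : Fin 2 → (Fin 12 → ℝ) → ℝ} {ρ ρ2 : Fin 8 → ℝ}

/-- **369's plane data from 363's, `D` frozen** (any natural offset, any tied set) -/
theorem pb8 (P : Pd8 R s a b' Vis' (θ 0) (θ 1) w0 sa sb v0 t κ (nat8 v c p) sg (fo ν own) lam ρ l α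
      h' X H lam2 ρ2) (ht : t ≠ 0) (hv0 : 0 < v0) (hv1 : v0 < 1) {S : Finset (Fin 12)}
    (hS : ∀ k ∈ S, k ≠ 1 ∧ nat8 v c p (cl8 k) = nat8 v c p 0 * βL (θ 0) (θ 1) k) :
    ∃ v' : ℕ → ℝ, PBase (θ 0) (θ 1) w0 sa sb v0 R S E8 LM0 ν X H v' (lam2 0) ∧
      ∀ k, k ≠ 1 → nat8 v c p (cl8 k) ≤ nat8 v c p 0 * βL (θ 0) (θ 1) k →
        ∀ m, X m k ≤ rL (θ 0) (θ 1) w0 sa sb (v' m) k := by
  obtain ⟨zz, cc, pp, dd, hXn⟩ := pd8_natural P
  obtain ⟨V, E, hV0, hE0, hEp, hb⟩ := P.base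
  have T : IsTan (Leg monL R) LM0 ν X H (lam2 0) :=
    Rc683.tan_mono (P.tan 0) Subset.rfl (LM0_L8B ht)
  have Hp := P.prf.mono (LM0_L8B (θa := θ 0) (θb := θ 1) (B := nat8 v c p) (sg := sg) ht)
  have e : ∀ m k, rL (θ 0) (θ 1) w0 sa sb (v0 + V m + E m * v) k =
      rL (θ 0) (θ 1) w0 sa sb (v0 + V m) k + E m * (v * βL (θ 0) (θ 1) k) := fun m k => by
    rw [rL_add, Pi.add_apply, Pi.smul_apply, smul_eq_mul]; ring
  have e0 : nat8 v c p 0 = v := rfl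
  refine ⟨fun m => v0 + V m + E m * v, ⟨P.pos, P.lim, T, ?_, ?_, ⟨hv0, hv1, ?_, ?_, ?_⟩, ?_⟩, ?_⟩
  · intro p' hp' q' hq' hpq
    have := (Hp.anti p' hp' q' hq' hpq).1
    linarith
  · exact nbase8 hXn fun K => slack_of_tan P.pos T hXn K
  · have h1 := (hV0.const_add v0).add (hE0.mul_const v)
    simp only [zero_mul, add_zero] at h1
    exact h1
  · intro m
    rw [hb m 0 (by decide)]
    show w0 + (v0 + V m) + E m * v = w0 + (v0 + V m + E m * v)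
    ring
  · intro m k hk
    rw [e, hb m k (hS k hk).1, (hS k hk).2, e0]
  · intro j _
    exact (tendsto_pi_nhds.1 P.xlim) j
  · intro k hk hle m
    show X m k ≤ rL (θ 0) (θ 1) w0 sa sb (v0 + V m + E m * v) k
    rw [e, hb m k hk]
    rw [e0] at hle
    have := mul_le_mul_of_nonneg_left hle (hEp m).le
    linarith

/-- **the own-strip facts on a natural plane of an `e`-tie, `D` frozen**, `E`, `D` invisible -/
theorem fctE8 (C : CtxT G L r g s θ q Rg B I lev A f b vm wt fr fl sc w0 sa sb δ R I0 I' ν own c₀)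
    (P : Pd8 R s a b' Vis' (θ 0) (θ 1) w0 sa sb v0 t κ (nat8 v c p) sg (fo ν own) lam ρ l α
      h' X H lam2 ρ2) (hθ : 0 < θ 0) (ht : t ≠ 0) (hv0 : 0 < v0) (hv1 : v0 < 1)
    (hp : p - c = v * (θ 0 - θ 1)) (hB : TieT θ B I lev fl sc 7 ∨ TieT θ B I lev fl sc 8)
    (hVis : ∀ k, VisT B I fl sc k → k = 0 ∨ k = 7 ∨ k = 8) :
    FctE (θ 0 - θ 1)
      (fun w => lam2 0 (xt kp 0 (RL8.vec (fun i : Fin 8 => w i.castSucc)))) := by
  obtain ⟨v', pb, -⟩ := pb8 P ht hv0 hv1 (S := {0, 7, 8}) (by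
    intro k hk
    have h1 : k = 0 ∨ k = 7 ∨ k = 8 := by simpa using hk
    rcases h1 with rfl | rfl | rfl
    · refine ⟨by decide, ?_⟩
      change v = v * 1
      ring
    · refine ⟨by decide, ?_⟩
      change p - c = v * (-(θ 1) - -(θ 0))
      rw [hp]; ring
    · refine ⟨by decide, ?_⟩
      change p - c = v * (-(θ 1) - -(θ 0))
      rw [hp]; ring)
  obtain ⟨j, hj, hT⟩ : ∃ j : Fin 12, (j = 7 ∨ j = 8) ∧ TieT θ B I lev fl sc j := by
    rcases hB with h | h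
    · exact ⟨7, Or.inl rfl, h⟩
    · exact ⟨8, Or.inr rfl, h⟩
  constructor
  · intro w Rw ho h6 hL
    refine Tw369.u3 C hθ hj hT em8 rz8E pb (fun k hk hV => (hVis k hV).elim (fun h => absurd h hk)
      fun h => h.elim Or.inl fun h => Or.inr (Or.inl h)) ho h6
      (linS_mono (Z := {0, 6}) (by decide) ?_)
    simpa only [E8_eq] using hL
  · intro w Rw ho h6 hL
    refine Tw369.u2 C hθ hj hT em8 rz8E pb (fun k hk hV => (hVis k hV).elim (fun h => absurd h hk)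
      fun h => h.elim Or.inl fun h => Or.inr (Or.inl h)) ho h6
      (linS_mono (Z := {0, 6}) (by decide) ?_)
    simpa only [E8_eq] using hL

/-- `E`, `D` invisible: only `z` and the `B`s are visible -/
theorem vis78 (C : CtxT G L r g s θ q Rg B I lev A f b vm wt fr fl sc w0 sa sb δ R I0 I' ν own c₀)
    (h1 : InvT PL B I 1 fl (sc 1)) (h2 : InvT PL B I 2 fl (sc 2)) :
    ∀ k, VisT B I fl sc k → k = 0 ∨ k = 7 ∨ k = 8 := by
  intro k hk
  by_contra h0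
  apply hk
  by_cases e1 : k = 1
  · rw [e1]; exact h1
  by_cases e2 : k = 2
  · rw [e2]; exact h2
  refine C.out.inv_ray ?_
  clear hk
  revert h0 e1 e2
  revert k
  decide

/-- (W3) on the plane `eD k` -/
theorem plugE {η : ℝ} : PlugE η := by
  intro G L r g s θ q Rg B I lev A f b vm w fr fl sc w0 sa sb δ R I0 I' ν own c₀ C hN hX hRg hR0
    hR1 hE1 hE2 hB v0 κ l α a b' X h' H lam lam2 ρ ρ2 hv0 hv1 P
  exact (fctE8 (v := -1) (c := -(θ 0 - θ 1)) (p := -2 * (θ 0 - θ 1)) C P hN.θa one_ne_zero hv0 hv1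
    (by ring) hB (vis78 C hE1 hE2)).W3

/-- **`e`-tie, `E`, `D` invisible, `k < 1`, `(1 + k)/2 ≤ θa`, `1/2 ≤ s`** -/
theorem fillE_lo {η : ℝ} (hη : η < 1) (hD : D0E η XLo) :
    Fill η (fun θ B I lev fl sc => VisB θ B I lev fl sc ∧ InvE B I fl sc)
      fun g s θ q => 1 / 2 ≤ s → θ 0 - θ 1 < 1 → 1 + (θ 0 - θ 1) ≤ 2 * θ 0 → False :=
  fillE_loW hη hD plugE

/-- the same, D0 given on the two parts of the region -/
theorem fillE_lo' {η : ℝ} (hη : η < 1)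
    (hD1 : D0T η fun s θ => XLo s θ ∧ 2 * θ 0 - θ 1 ≠ 1)
    (hD2 : D0E η fun s θ => XLo s θ ∧ 2 * θ 0 - θ 1 = 1) :
    Fill η (fun θ B I lev fl sc => VisB θ B I lev fl sc ∧ InvE B I fl sc)
      fun g s θ q => 1 / 2 ≤ s → θ 0 - θ 1 < 1 → 1 + (θ 0 - θ 1) ≤ 2 * θ 0 → False :=
  fillE_loW' hη hD1 hD2 plugE

end Crest.Agent.R116.Hm621
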