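import Crest.Agent.R116.Kt1_710

/-!
# R116 (helper710): the dead direction of all the windows of the context, without margins

The flags of the context have gradients of length exactly `1` (`CtxT.n1`), so `FlagZ` holds for every
margin `ζ` and `ThinU` for every natural base with `0 < t`, `0 < v + t`: no condition on `y`, `θ 0`,
`θ 1`.

* `flagZ_any`, `flagDz_any` : every `ζ`.
* `thinB'`, `thinM'`, `thinBC` (Kt1) : 330's `ThinB`, `ThinM`, 388's `ThinBC`.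
-/

set_option autoImplicit false
set_option linter.unusedVariables false
set_option linter.unusedSectionVars false

open Finset Filter Topology

namespace Crest.Agent.R116.Kt710

open Crest.Agent.R138.Ex926 (Base U IsTan)
open Crest.Agent.R136.MkA627
open Crest.Agent.R136.Net191 Crest.Agent.R136.Qg926 Crest.Agent.R136.Gf356
open Crest.Agent.R136.TD627
open Crest.Agent.R116.LZg725
open Crest.Agent.R116.ChL222
open Crest.Agent.R116.EvL504
open Crest.Agent.R116.Gd222 (TSet sN)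
open Crest.Agent.R116.KI439
open Crest.Agent.R116.Tw468
open Crest.Agent.R116.CtxB468
open Crest.Agent.R116.WinG954
open Crest.Agent.R116.ThinD954
open Crest.Agent.R116.Kz710
open Crest.Agent.R116.Kr710 (ThinU)
open Crest.Agent.R116.Kc388 (ThinC)
open Crest.Agent.R116.Kg330 (ThinB ThinM)

section ctx

variable {G : Geo TSet (Fin 2)} {L : ℕ → ℕ → LRay} {r : ℕ → ℝ} {g s : ℝ} {θ q : Fin 2 → ℝ}
    {Rg : ℝ} {B : Base}
    {I : ℕ → Finset (ℕ × ℝ)} {lev : ℕ → ℚ → ℕ} {A : ℕ → ℝ}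
    {f : ℕ → ℚ → ℕ → ℤ → ℕ} {b : ℕ → ℚ → ℕ → TSet} {vm : ℕ → ℚ → ℝ} {w : Fin 2 → ℕ → ℚ → ℝ}
    {fr : ℕ → ℚ → ℕ × ℝ → LInc} {fl : ℕ → ℕ × ℝ → LInc} {sc : Fin 12 → ℕ → ℝ}
    {w0 sa sb δ R : ℝ} {I0 I' : ℕ → Finset (ℕ × ℝ)} {ν own : (Fin 12 → ℝ) → ℝ} {c₀ : ℝ}

/-- the gradients have length `1`, so every `ζ` will do -/
theorem flagZ_of_unit (hs : ∀ n, 0 ≤ sN lev w 1 n)
    (h : ∀ᶠ n in (U : Filter ℕ), ∀ x ∈ I n, Xd954.bb (fl n x) 0 ^ 2 + Xd954.bb (fl n x) 1 ^ 2 = 1)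
    (ζ : ℝ) : FlagZ B I fl (sN lev w) ζ := fun ε hε => by
  filter_upwards [h] with n hn x hx
  rw [hn x hx, sub_self, abs_zero, zero_mul]
  exact mul_nonneg (hs n) (Crest.Agent.R138.Dp76.dpow_pos B n _).le

/-- **`FlagZ` for every margin** -/
theorem flagZ_any (h : CtxT G L r g s θ q Rg B I lev A f b vm w fr fl sc w0 sa sb δ R I0 I' ν own c₀)
    {J : ℕ → Finset (ℕ × ℝ)} (hJ : ∀ n, J n ⊆ I n) (ζ : ℝ) : FlagZ B J fl (sN lev w) ζ :=
  flagZ_of_unit (fun n => (Gd222.sN_pos lev w 1 n).le) (h.n1 hJ) ζ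

/-- **flag data of the context for every margin** -/
theorem flagDz_any (h : CtxT G L r g s θ q Rg B I lev A f b vm w fr fl sc w0 sa sb δ R I0 I' ν own c₀)
    {J : ℕ → Finset (ℕ × ℝ)} (hJ : ∀ n, J n ⊆ I n) (κ0 ζ : ℝ) :
    FlagDz B J lev fl (sN lev w) κ0 0 ζ :=
  flagDz h hJ (flagZ_any h (fun _ => Finset.Subset.refl _) ζ) κ0

variable {D : Set (Fin 12 → ℝ)} {lam : (Fin 12 → ℝ) → ℝ} {X : ℕ → Fin 12 → ℝ} {hh : ℕ → ℝ}
    {C : ℝ} {k' : ℕ → ℕ} {T : ℝ} {Mw : Mons 12} {top : Fin 12 → ℝ}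
    {W : Wnd 12 (fun _ => ℕ × ℝ)} {E : ∀ n, Finset (ℕ × ℝ)} {v t y : ℝ}

/-- **the dead direction in every window of the context**, no margin -/
theorem thinW' (h : CtxT G L r g s θ q Rg B I lev A f b vm w fr fl sc w0 sa sb δ R I0 I' ν own c₀)
    (ht : 0 < t) (hv : 0 < v + t)
    (hX : ∀ s, 3 ≤ s → Tendsto (fun l => X l s) atTop (𝓝 (PL504.nb w0 sa sb v t y s)))
    (e4 : ∀ᶠ l in atTop, X l 4 = X l 3) (e6 : ∀ᶠ l in atTop, X l 6 = X l 5)
    (e8 : ∀ᶠ l in atTop, X l 8 = X l 7) (hk : Tendsto k' U atTop) (hh0 : Tendsto hh atTop (𝓝 0))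
    (win : WinG W B I0 I' (PL504.coN B lev w w0 sa sb fl) C D ν lam X hh k' T Mw top)
    (hr : ∀ᶠ n in (U : Filter ℕ), Reg W E n) (hJ : ∀ᶠ n in (U : Filter ℕ), W.Cl n ⊆ I' n) (x : ℝ) :
    ThinU W.B' (W.cfg E) (dir W fl) x :=
  thinW (ζ := y - t + 1) h (flagZ_any h (fun _ => Finset.Subset.refl _) _) ht hv (by linarith) hX
    e4 e6 e8 hk hh0 win hr hJ x

/-- **330's `ThinB`** (slot `D` frozen), no margin -/
theorem thinB' (h : CtxT G L r g s θ q Rg B I lev A f b vm w fr fl sc w0 sa sb δ R I0 I' ν own c₀)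
    (ht : 0 < t) (hv : 0 < v + t)
    (hX : ∀ s, 3 ≤ s → Tendsto (fun l => X l s) atTop (𝓝 (PL504.nb w0 sa sb v t y s)))
    (e4 : ∀ᶠ l in atTop, X l 4 = X l 3) (e6 : ∀ᶠ l in atTop, X l 6 = X l 5)
    (e8 : ∀ᶠ l in atTop, X l 8 = X l 7) :
    ThinB B I0 I' (PL504.coN B lev w w0 sa sb fl) C ν X hh :=
  thinB (ζ := y - t + 1) h (flagZ_any h (fun _ => Finset.Subset.refl _) _) ht hv (by linarith) hX
    e4 e6 e8

/-- **330's `ThinM`** (slot `D` live), no margin -/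
theorem thinM' (h : CtxT G L r g s θ q Rg B I lev A f b vm w fr fl sc w0 sa sb δ R I0 I' ν own c₀)
    (ht : 0 < t) (hv : 0 < v + t)
    (hX : ∀ s, 3 ≤ s → Tendsto (fun l => X l s) atTop (𝓝 (PL504.nb w0 sa sb v t y s)))
    (e4 : ∀ᶠ l in atTop, X l 4 = X l 3) (e6 : ∀ᶠ l in atTop, X l 6 = X l 5)
    (e8 : ∀ᶠ l in atTop, X l 8 = X l 7) :
    ThinM B I0 I' (PL504.coN B lev w w0 sa sb fl) C ν X hh :=
  thinM (ζ := y - t + 1) h (flagZ_any h (fun _ => Finset.Subset.refl _) _) ht hv (by linarith) hX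
    e4 e6 e8

/-- limits of a base sequence near the record -/
theorem lim_rec {θa θb v0 : ℝ} (hX : Tendsto X atTop (𝓝 (PL504.rL θa θb w0 sa sb v0)))
    (k : Fin 12) : Tendsto (fun l => X l k) atTop
      (𝓝 (PL504.nb w0 sa sb v0 (θa * (1 - v0)) (θb * (1 - v0)) k)) := by
  rw [PL504.rL_nb] at hX
  exact (tendsto_pi_nhds.1 hX) k

/-- **330's binder `hth` of `bsF_shift`, 388's binder of `linFacts_sig'`**: `ThinB` near the record,
every `0 < θ 0`, every `θ 1` -/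
theorem hthB (h : CtxT G L r g s θ q Rg B I lev A f b vm w fr fl sc w0 sa sb δ R I0 I' ν own c₀)
    {v0 : ℝ} (hv0 : 0 < v0) (hv1 : v0 < 1) (h0 : 0 < θ 0) : ∀ (Y : ℕ → Fin 12 → ℝ) (k : ℕ → ℝ),
      Tendsto Y atTop (𝓝 (PL504.rL (θ 0) (θ 1) w0 sa sb v0)) → (∀ l, Y l 4 = Y l 3) →
      (∀ l, Y l 6 = Y l 5) → (∀ l, Y l 8 = Y l 7) →
      ThinB B I0 I' (PL504.coN B lev w w0 sa sb fl) C ν Y k :=
  fun Y k hY e4 e6 e8 => thinB' h (mul_pos h0 (by linarith))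
    (by have := mul_pos h0 (sub_pos.2 hv1); linarith) (fun s _ => lim_rec hY s)
    (Eventually.of_forall e4) (Eventually.of_forall e6) (Eventually.of_forall e8)

/-- **the same, slot `D` live**: 330's binder `hth` of `bsM_shift` -/
theorem hthM (h : CtxT G L r g s θ q Rg B I lev A f b vm w fr fl sc w0 sa sb δ R I0 I' ν own c₀)
    {v0 : ℝ} (hv0 : 0 < v0) (hv1 : v0 < 1) (h0 : 0 < θ 0) : ∀ (Y : ℕ → Fin 12 → ℝ) (k : ℕ → ℝ),
      Tendsto Y atTop (𝓝 (PL504.rL (θ 0) (θ 1) w0 sa sb v0)) → (∀ l, Y l 4 = Y l 3) →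
      (∀ l, Y l 6 = Y l 5) → (∀ l, Y l 8 = Y l 7) →
      ThinM B I0 I' (PL504.coN B lev w w0 sa sb fl) C ν Y k :=
  fun Y k hY e4 e6 e8 => thinM' h (mul_pos h0 (by linarith))
    (by have := mul_pos h0 (sub_pos.2 hv1); linarith) (fun s _ => lim_rec hY s)
    (Eventually.of_forall e4) (Eventually.of_forall e6) (Eventually.of_forall e8)

end ctx

end Crest.Agent.R116.Kt710
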