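import Crest.Agent.R116.K3e4_160
import Crest.Agent.R116.Tq1_741
import Crest.Agent.R116.Tq3_794

/-!
# R116, e-tie `k = 1` : **K3core**, part 5 (helper160): class layer

* `K3C c s φ ρ` : the fact in the letters of 741's `Cl9`;
* `LimV` : limits of a decoupled function at a moving base; `LimV.rate1`, `LimV.incr3`, `LimV.dens`;
* `exists_shift` : tangents at a raised base.
-/

set_option autoImplicit false
set_option linter.unusedVariables false
set_option linter.unusedSectionVars false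

open Filter Topology Finset

namespace Crest.Agent.R116.K3e160

open Crest.Agent.R138.Ex926
open Crest.Agent.R136
open Crest.Agent.R116.Tq741
open Crest.Agent.R116.Tw369
open Crest.Agent.R116.ChL222
open Crest.Agent.R116.Tq794 (E8 E9)

/-- **(K3)** at an `e`-tie with `k = 1`: `N` is fast if `X` is, `C_b` coarse -/
def K3C (c : Fin 9 → Fin 9) (s : ℝ) (φ : Fin 9 → V9 → ℝ) (ρ : V9) : Prop :=
  0 < ρ 1 → (∀ y : ℝ, 0 ≤ y → (1 - s) * y ≤ φ (c 3) 0 - φ (c 3) (y • e9 3)) → 1 - s ≤ ρ 4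

/-- limits of `Λ` at the moving base `w + k m • e'`, directions in `A` -/
structure LimV (Λ : V9 → ℝ) (w e' : V9) (k : ℕ → ℝ) (A : V9 → Prop) (F : V9 → ℝ) : Prop where
  kpos : ∀ m, 0 < k m
  leg : ∀ u, A u → ∀ᶠ m in (atTop : Filter ℕ), LegM 0 (w + k m • (u + e'))
  zero : A 0
  lim : ∀ u, A u → Tendsto (fun m => (Λ (w + k m • (u + e')) - Λ (w + k m • e')) / k m) atTop
    (𝓝 (F u))

section lim

variable {c : Fin 9 → Fin 9} {dl : V9} {s : ℝ} {Λ : V9 → ℝ} {φ : Fin 9 → V9 → ℝ} {ρ : V9}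
  {w e' : V9} {k : ℕ → ℝ} {A : V9 → Prop} {F : V9 → ℝ}

theorem LimV.sub (H : LimV Λ w e' k A F) {u u' : V9} (hu : A u) (hu' : A u') :
    Tendsto (fun m => (Λ (w + k m • (u + e')) - Λ (w + k m • (u' + e'))) / k m) atTop
      (𝓝 (F u - F u')) := by
  refine ((H.lim u hu).sub (H.lim u' hu')).congr fun m => ?_
  rw [← sub_div]
  congr 1
  ring

theorem LimV.ge (H : LimV Λ w e' k A F) {u u' : V9} (hu : A u) (hu' : A u') {r : ℝ}
    (h : ∀ᶠ m in (atTop : Filter ℕ),
      r * k m ≤ Λ (w + k m • (u + e')) - Λ (w + k m • (u' + e'))) : r ≤ F u - F u' := by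
  refine ge_of_tendsto (H.sub hu hu') ?_
  filter_upwards [h] with m hm
  rw [le_div_iff₀ (H.kpos m)]
  exact hm

theorem LimV.eq (H : LimV Λ w e' k A F) {u u' : V9} (hu : A u) (hu' : A u') {r : ℝ}
    (h : ∀ᶠ m in (atTop : Filter ℕ),
      Λ (w + k m • (u + e')) - Λ (w + k m • (u' + e')) = r * k m) : F u - F u' = r := by
  refine tendsto_nhds_unique (H.sub hu hu') (tendsto_const_nhds.congr' ?_)
  filter_upwards [h] with m hm
  rw [hm, mul_div_assoc, div_self (H.kpos m).ne', mul_one]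

theorem LimV.F0 (H : LimV Λ w e' k A F) : F 0 = 0 := by
  have h := H.lim 0 H.zero
  refine tendsto_nhds_unique h (tendsto_const_nhds.congr fun m => ?_)
  rw [zero_add, sub_self, zero_div]

/-- a slot which is alone in its class -/
theorem LimV.rate1 (H : LimV Λ w e' k A F) (C : Cl9 c dl s Λ φ ρ) {t : Fin 9}
    (ht : ∀ t', c t' = c t → t' = t) {u u' : V9} (hu : A u) (hu' : A u')
    (he : ∀ i, i ≠ t → u' i = u i) : F u - F u' = ρ t * (u' t - u t) := by
  refine H.eq hu hu' ?_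
  filter_upwards [H.leg u hu, H.leg u' hu'] with m h1 h2
  rw [← C.incr h1 h2 (c t) fun i hi => ?_, C.rate t _ fun t' ht' => by rw [ht t' ht'],
    C.rate t _ fun t' ht' => by rw [ht t' ht']]
  · simp only [Pi.add_apply, Pi.smul_apply, smul_eq_mul]
    ring
  · have : i ≠ t := fun h => hi (by rw [h])
    simp only [Pi.add_apply, Pi.smul_apply, smul_eq_mul]
    rw [he i this]

/-- the slot `3` finer, the other slots of its class at rest -/
theorem LimV.incr3 (H : LimV Λ w e' k A F) (C : Cl9 c dl s Λ φ ρ)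
    (hc : ∀ t, c t = c 3 → t = 2 ∨ t = 3 ∨ t = 5) (w2 : w 2 = 0) (w3 : w 3 = 0) (w5 : w 5 = 0)
    (e2 : e' 2 = 0) (e3 : e' 3 = 0) (e5 : e' 5 = 0) {σ : ℝ}
    (hX : ∀ y : ℝ, 0 ≤ y → σ * y ≤ φ (c 3) 0 - φ (c 3) (y • e9 3)) {u u' : V9} (hu : A u)
    (hu' : A u') (u2 : u 2 = 0) (u3 : u 3 = 0) (u5 : u 5 = 0) (he : ∀ i, i ≠ 3 → u' i = u i)
    (hy : 0 ≤ u' 3) : σ * u' 3 ≤ F u - F u' := by
  refine H.ge hu hu' ?_
  filter_upwards [H.leg u hu, H.leg u' hu'] with m h1 h2
  rw [← C.incr h1 h2 (c 3) fun i hi => ?_]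
  · have a1 : φ (c 3) (w + k m • (u + e')) = φ (c 3) 0 := by
      refine C.loc (c 3) _ _ fun t ht => ?_
      rcases hc t ht with rfl | rfl | rfl <;>
        simp only [Pi.add_apply, Pi.smul_apply, smul_eq_mul, Pi.zero_apply, w2, w3, w5, e2, e3, e5,
          u2, u3, u5] <;> ring
    have a2 : φ (c 3) (w + k m • (u' + e')) = φ (c 3) ((k m * u' 3) • e9 3) := by
      refine C.loc (c 3) _ _ fun t ht => ?_
      have u2' : u' 2 = 0 := by rw [he 2 (by decide), u2]
      have u5' : u' 5 = 0 := by rw [he 5 (by decide), u5]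
      rcases hc t ht with rfl | rfl | rfl
      · simp only [Pi.add_apply, Pi.smul_apply, smul_eq_mul, w2, e2, u2',
          e9_ne (show (2 : Fin 9) ≠ 3 by decide)]
        ring
      · simp only [Pi.add_apply, Pi.smul_apply, smul_eq_mul, w3, e3, e9_same]
        ring
      · simp only [Pi.add_apply, Pi.smul_apply, smul_eq_mul, w5, e5, u5',
          e9_ne (show (5 : Fin 9) ≠ 3 by decide)]
        ring
    rw [a1, a2]
    have := hX (k m * u' 3) (mul_nonneg (H.kpos m).le hy)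
    linarith
  · have : i ≠ 3 := fun h => hi (by rw [h])
    simp only [Pi.add_apply, Pi.smul_apply, smul_eq_mul]
    rw [he i this]

/-- density: every class moves either with `line` or with `level` -/
theorem LimV.dens (H : LimV Λ w e' k A F) (C : Cl9 c dl s Λ φ ρ) {T L V : V9} (hT : A T)
    (hL : A L) (hV : A V)
    (h : ∀ j, (∀ t, c t = j → T t = L t ∧ V t = 0) ∨ ∀ t, c t = j → T t = V t ∧ L t = 0) :
    F T = F L + F V := by
  have h1 := H.lim T hT
  have h2 := (H.lim L hL).add (H.lim V hV)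
  refine tendsto_nhds_unique h1 (h2.congr' ?_)
  have l0 := H.leg 0 H.zero
  filter_upwards [H.leg T hT, H.leg L hL, H.leg V hV, l0] with m m1 m2 m3 m4
  rw [zero_add] at m4
  rw [← add_div]
  congr 1
  rw [C.sum _ m1, C.sum _ m2, C.sum _ m3, C.sum _ m4, ← Finset.sum_sub_distrib,
    ← Finset.sum_sub_distrib, ← Finset.sum_sub_distrib, ← Finset.sum_add_distrib]
  refine Finset.sum_congr rfl fun j _ => ?_
  rcases h j with h5 | h5
  · have a1 : φ j (w + k m • (T + e')) = φ j (w + k m • (L + e')) :=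
      C.loc j _ _ fun t ht => by
        simp only [Pi.add_apply, Pi.smul_apply, smul_eq_mul]
        rw [(h5 t ht).1]
    have a2 : φ j (w + k m • (V + e')) = φ j (w + k m • e') :=
      C.loc j _ _ fun t ht => by
        simp only [Pi.add_apply, Pi.smul_apply, smul_eq_mul]
        rw [(h5 t ht).2, zero_add]
    rw [a1, a2]
    ring
  · have a1 : φ j (w + k m • (T + e')) = φ j (w + k m • (V + e')) :=
      C.loc j _ _ fun t ht => by
        simp only [Pi.add_apply, Pi.smul_apply, smul_eq_mul]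
        rw [(h5 t ht).1]
    have a2 : φ j (w + k m • (L + e')) = φ j (w + k m • e') :=
      C.loc j _ _ fun t ht => by
        simp only [Pi.add_apply, Pi.smul_apply, smul_eq_mul]
        rw [(h5 t ht).2, zero_add]
    rw [a1, a2]
    ring

end lim

/-! ### tangents at a raised base -/

/-- the tangent at the base `x + H • (b + K k • e)`, directions `d` with `d + K • e ∈ M` -/
theorem exists_shift {P M : Set (Fin 12 → ℝ)} {ν lam2 : (Fin 12 → ℝ) → ℝ}
    {X : ℕ → Fin 12 → ℝ} {H : ℕ → ℝ} (hMc : IsClosed M) (hMa : ∀ p ∈ M, ∀ q ∈ M, p + q ∈ M)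
    (hMs : ∀ t : ℝ, 0 ≤ t → ∀ p ∈ M, t • p ∈ M) (hpos : ∀ l, 0 < H l)
    (ht : IsTan P M ν X H lam2)
    (hlip : ∃ K : ℝ, 0 ≤ K ∧ ∀ p ∈ M, ∀ q ∈ M, |lam2 p - lam2 q| ≤ K * ‖p - q‖)
    {b e : Fin 12 → ℝ} (hb : b ∈ M) (he : e ∈ M) {K : ℝ} (hK : 0 ≤ K) :
    ∃ (ψ : ℕ → ℕ) (k : ℕ → ℝ) (lam3 : (Fin 12 → ℝ) → ℝ), StrictMono ψ ∧ (∀ m, 0 < k m) ∧
      Tendsto k atTop (𝓝 0) ∧
      IsTan P {d | d + K • e ∈ M} ν (fun m => X (ψ m) + H (ψ m) • (b + (K * k m) • e))
        (fun m => H (ψ m) * k m) lam3 ∧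
      ∀ d, d + K • e ∈ M → Tendsto (fun m => (lam2 (b + k m • (d + K • e)) -
        lam2 (b + k m • (K • e))) / k m) atTop (𝓝 (lam3 d)) := by
  obtain ⟨C, hC, hlip⟩ := hlip
  set h : ℕ → ℝ := fun m : ℕ => ((m : ℝ) + 1)⁻¹ with hh
  have hp : ∀ m, 0 < h m := fun m => by simp only [hh]; positivity
  have h0 : Tendsto h atTop (𝓝 0) := by
    have := tendsto_one_div_add_atTop_nhds_zero_nat (𝕜 := ℝ)
    simpa [one_div] using this
  have ec : ∀ (r : ℝ) (d : Fin 12 → ℝ), b + (K * r) • e + r • d = b + r • (d + K • e) := by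
    intro r d
    rw [smul_add, smul_smul, mul_comm r K]
    abel
  have hKe : K • e ∈ M := hMs K hK e he
  have hDc : IsClosed {d : Fin 12 → ℝ | d + K • e ∈ M} :=
    hMc.preimage (by fun_prop)
  have h0D : (0 : Fin 12 → ℝ) ∈ {d : Fin 12 → ℝ | d + K • e ∈ M} := by
    show 0 + K • e ∈ M
    rw [zero_add]; exact hKe
  obtain ⟨φ, hφ, lam, hT⟩ := Rc683.exists_tan (J := Unit) (P := fun _ => M)
    (D := fun _ => {d : Fin 12 → ℝ | d + K • e ∈ M}) (fun _ => hDc) (ν := fun _ => lam2) hC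
    (fun _ => hlip) (x := fun m => b + (K * h m) • e) (h := h) hp
    (fun _ C' => Eventually.of_forall fun l c hc _ => by
      rw [ec]
      exact hMa _ hb _ (hMs _ (hp l).le _ hc)) (fun _ => h0D)
  obtain ⟨ψ, hψ, -, hTT⟩ := RbK219.diagM (J := Unit) (P := fun _ => P) (L := fun _ => M)
    (L' := fun _ => {d : Fin 12 → ℝ | d + K • e ∈ M}) hpos (fun _ => ht)
    (y := fun m => b + (K * h (φ m)) • e) (fun _ m => hMa _ hb _
      (hMs _ (mul_nonneg hK (hp _).le) _ he)) (k := fun m => h (φ m)) (fun m => hp _)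
    (fun j => hT j) (A := fun _ _ => True) (fun _ => Eventually.of_forall fun _ => trivial)
  refine ⟨ψ, fun m => h (φ m), lam (), hψ, fun m => hp _, h0.comp hφ.tendsto_atTop, hTT (), ?_⟩
  intro d hd
  have h1 := SgO219.tan_lim (fun m => hp _) (hT ()) hd h0D
  have h2 : lam () 0 = 0 := Tq794.tan_zero (fun m => hp _) (hT ()) h0D
  rw [h2, sub_zero] at h1
  refine h1.congr fun m => ?_
  rw [ec, smul_zero, add_zero]
  congr 3
  rw [smul_smul, mul_comm K]

end Crest.Agent.R116.K3e160
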