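import Crest.Agent.R116.Tm3_741
import Crest.Agent.R116.K3e5_160

/-!
# R116, cell (H4) (`e`-tie, `k = 1`, `1/2 ≤ s`), class layer: the two rows (helper905)

The tie plane is `p = c + z`, `D` frozen (`ρ 8 = 0` is not used, `0 ≤ ρ 8` is);
`n0 = (-1; 0, -1)`, `n1 = (-1; 1, 0)`.

* `nN1`  : `0 < m ⊢ n ≤ s` (K1 for the increments of `X`, then (K3))
* `rowA` : `s < m ⊢ c - q_b - 2 s ≤ Λ n0 - DL n0`
* `rowB` : `m ≤ s + ε ⊢ c + q_a - 2 s - ε ≤ Λ n1 - DL n1`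
-/

set_option autoImplicit false
set_option linter.unusedSectionVars false
set_option linter.unusedVariables false

open Set Filter Topology

namespace Crest.Agent.R116.Ts905

open Tq741
open K3e160 (K3C)
open Tie460 (Pl)
open RbM219 (nat9)
open Sg337 (DL)

variable {c : Fin 9 → Fin 9} {dl : V9} {s : ℝ} {Λ : V9 → ℝ} {φ : Fin 9 → V9 → ℝ} {ρ : V9}

/-- the increments of `X` with `C_b` coarse, from (K1) -/
theorem incX (P : PlE 1 c dl) (H : Cl9 c dl s Λ φ ρ) (hs1 : s ≤ 1)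
    (F : Fct9 (fun w => w 6 < 1 * w 0) s Λ) (hm : 0 < ρ 1) {y : ℝ} (hy : 0 ≤ y) :
    (1 - s) * y ≤ φ (c 3) 0 - φ (c 3) (y • e9 3) := by
  rcases hy.eq_or_lt with rfl | hy
  · simp
  · have h2 := P.eX1 H (q := 1 - s) (by linarith) hy fun w R h1 h2 h3 h4 =>
      F.K1 w R h1 h2 h3 (by rw [h4]; exact hm)
    rwa [zero_add] at h2

/-- `n ≤ s` if `0 < m` -/
theorem nN1 (P : PlE 1 c dl) (H : Cl9 c dl s Λ φ ρ) (hs1 : s ≤ 1)
    (F : Fct9 (fun w => w 6 < 1 * w 0) s Λ) (K3 : K3C c s φ ρ) (hm : 0 < ρ 1) : 1 - s ≤ ρ 4 :=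
  K3 hm fun _ hy => incX P H hs1 F hm hy

/-- the value at `n0` -/
theorem val0 (P : PlE 1 c dl) (H : Cl9 c dl s Λ φ ρ) :
    Λ (nat9 (-1) 0 (-1)) = ρ 0 + rE c φ + (1 - xE c φ) + 2 * ρ 4 + (1 - hE c φ) + ρ 7 := by
  have h := natE H P (-1) 0
  have e : (0 : ℝ) + 1 * -1 = -1 := by norm_num
  rw [e] at h
  rw [h]
  ring

/-- the value at `n1` -/
theorem val1 (P : PlE 1 c dl) (H : Cl9 c dl s Λ φ ρ) :
    Λ (nat9 (-1) 1 0) = ρ 0 - ρ 1 + ρ 4 - (1 - hE c φ) + 2 * ρ 7 + ρ 8 := by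
  have h := natE H P (-1) 1
  have e : (1 : ℝ) + 1 * -1 = 0 := by norm_num
  rw [e] at h
  rw [h]
  ring

/-- **row (A)** : direction `n0`, `s < m` -/
theorem rowA (P : PlE 1 c dl) (H : Cl9 c dl s Λ φ ρ) (hs0 : 0 ≤ s) (hs1 : s ≤ 1)
    (F : Fct9 (fun w => w 6 < 1 * w 0) s Λ) (K3 : K3C c s φ ρ) (hm : s < ρ 1) {g qa qb : ℝ} :
    g - qb - 2 * s ≤ Λ (nat9 (-1) 0 (-1)) - DL g s qa qb (-1) 0 (-1) := by
  have hP := P.pos (s := s) H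
  have hA := P.fanA H one_pos F hs0
  have fx : xE c φ = 0 := hA.fx hm
  have fh : hE c φ = 0 := hA.fh hm
  have h4 := nN1 P H hs1 F K3 (hs0.trans_lt hm)
  have r0 : 0 ≤ rE c φ := hP.r0
  have u0 : 0 ≤ ρ 7 := hP.u0
  have e0 := H.own
  rw [val0 P H, fx, fh]
  unfold DL
  linarith

/-- **row (B)** : direction `n1`, `m ≤ s + ε` -/
theorem rowB (P : PlE 1 c dl) (H : Cl9 c dl s Λ φ ρ) (hs : 1 / 2 ≤ s) (hs1 : s ≤ 1)
    (F : Fct9 (fun w => w 6 < 1 * w 0) s Λ) (K3 : K3C c s φ ρ) {ε : ℝ} (hε : 0 ≤ ε)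
    (hm : ρ 1 ≤ s + ε) {g qa qb : ℝ} :
    g + qa - 2 * s - ε ≤ Λ (nat9 (-1) 1 0) - DL g s qa qb (-1) 1 0 := by
  have hP := P.pos (s := s) H
  have h0 : 0 ≤ hE c φ := hP.h0
  have u0 : 0 ≤ ρ 7 := hP.u0
  have d0 : 0 ≤ ρ 8 := hP.d0
  have m0 : 0 ≤ ρ 1 := hP.m0
  have n0 := P.al4.nonneg H
  have e0 := H.own
  rw [val1 P H]
  unfold DL
  rcases m0.eq_or_lt with hm0 | hm0
  · rw [← hm0]
    linarith
  · have h4 := nN1 P H hs1 F K3 hm0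
    linarith

end Crest.Agent.R116.Ts905
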