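import Crest.Agent.R116.K3e7_160
import Crest.Agent.R116.Ts3_905
import Crest.Agent.R116.Kt2_710
import Crest.Agent.R116.Hm2_621

/-!
# R116, cell (H4) (`e`-tie, `k = 1`, `1/2 ≤ s`): the facts at one point of the tie plane (helper72)

`P4 a b` = natural box `(-(a+b); b, -a)` with `D` frozen at the record level (raised by `b`): the
tie plane `p = c + z` of the **first** tangent at the record point `v0`.

* **`h4_pt`** : for tangents of the first tangent at `P4 a b`, `0 < b`, on `LM0`: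
  `Prf`, `Fct9` and (K3).
-/

set_option autoImplicit false
set_option linter.unusedVariables false
set_option linter.unusedSectionVars false

open Filter Topology Set

namespace Crest.Agent.R116.Ts72

open Crest.Agent.R138
open Crest.Agent.R138.Ex926 (Base U IsTan)
open Crest.Agent.R136
open Crest.Agent.R136.MkA627
open Crest.Agent.R136.TD627
open Crest.Agent.R136.Net191
open Crest.Agent.R136.Lq196
open Crest.Agent.R136.Qg926 Crest.Agent.R136.Gf356 Crest.Agent.R116.EvL504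
open Crest.Agent.R116.ChL222
open Crest.Agent.R116.PL504 (nb rL DN eL βL oL Shift eL_wall)
open Crest.Agent.R116.Xd954 (cs xs)
open Crest.Agent.R116.Sg337 (bx9 coneL DL natB eL_bx9)
open Crest.Agent.R116.Gd222 (TSet sN PDL DT)
open Crest.Agent.R116.KI439
open Crest.Agent.R116.KF439 (PL)
open Crest.Agent.R116.CtxB468
open Crest.Agent.R116.Rcx363
open Crest.Agent.R116.RbM219
open Crest.Agent.R116.Tq794
open Crest.Agent.R116.Tq741
open Crest.Agent.R116.KTie794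
open Crest.Agent.R116.Tw369 (TBase)
open Crest.Agent.R116.K3e160 (K3C K3P k3c_gen wG)
open Crest.Agent.R116.SgF665 (LM0)

/-- boxes of the tie plane `p = c + z`, `D` frozen at the record level -/
def P4 (a b : ℝ) : Fin 12 → ℝ := natB (-(a + b)) b (-a) + b • (Pi.single 1 1 : Fin 12 → ℝ)

theorem P4_mem {a b : ℝ} (hb : 0 ≤ b) : P4 a b ∈ coneL := single_mem (natB_mem _ _ _) hb

theorem P4_eL (a b : ℝ) :
    P4 a b = eL (-(a + b)) b (-a) + b • (Pi.single 1 1 : Fin 12 → ℝ) := by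
  rw [eL_bx9]; rfl

theorem P4_v (a b : ℝ) : P4 a b 0 = -(a + b) ∧ P4 a b 1 = 0 ∧ P4 a b 2 = -a - 2 * b ∧
    P4 a b 3 = b ∧ P4 a b 4 = b ∧ P4 a b 5 = -a ∧ P4 a b 6 = -a ∧ P4 a b 7 = -(a + b) ∧
    P4 a b 8 = -(a + b) ∧ P4 a b 9 = -a + b ∧ P4 a b 10 = -a ∧ P4 a b 11 = -(a + b) - a := by
  unfold P4 natB
  refine ⟨?_, ?_, ?_, ?_, ?_, ?_, ?_, ?_, ?_, ?_, ?_, ?_⟩ <;>
    simp [bx9] <;> ring

theorem P4_cs (a b : ℝ) (i : Fin 2) : P4 a b (cs i) = b := by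
  have h := P4_v a b
  fin_cases i
  · exact h.2.2.2.1
  · exact h.2.2.2.2.1

theorem P4_xs (a b : ℝ) (i : Fin 2) : P4 a b (xs i) = -a := by
  have h := P4_v a b
  fin_cases i
  · exact h.2.2.2.2.2.1
  · exact h.2.2.2.2.2.2.1

variable {G : Geo TSet (Fin 2)} {L : ℕ → ℕ → LRay} {r : ℕ → ℝ} {g s : ℝ} {θ q : Fin 2 → ℝ}
    {Rg : ℝ} {B : Base} {I : ℕ → Finset (ℕ × ℝ)} {lev : ℕ → ℚ → ℕ} {A : ℕ → ℝ}
    {f : ℕ → ℚ → ℕ → ℤ → ℕ} {b : ℕ → ℚ → ℕ → TSet} {vm : ℕ → ℚ → ℝ} {w : Fin 2 → ℕ → ℚ → ℝ}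
    {fr : ℕ → ℚ → ℕ × ℝ → LInc} {fl : ℕ → ℕ × ℝ → LInc} {sc : Fin 12 → ℕ → ℝ}
    {w0 sa sb δ R : ℝ} {I0 I' : ℕ → Finset (ℕ × ℝ)} {ν own : (Fin 12 → ℝ) → ℝ} {c₀ : ℝ}

theorem beta7 (h1 : θ 0 - θ 1 = 1) {k : Fin 12} (hk : k = 0 ∨ k = 7 ∨ k = 8) :
    βL (θ 0) (θ 1) k = 1 := by
  rcases hk with rfl | rfl | rfl
  · rfl
  · show -(θ 1) - -(θ 0) = 1
    linarith
  · show -(θ 1) - -(θ 0) = 1
    linarith

/-- **the facts at a point of the tie plane, over the first tangent** -/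
theorem h4_pt
    (C : CtxT G L r g s θ q Rg B I lev A f b vm w fr fl sc w0 sa sb δ R I0 I' ν own c₀)
    (hs0 : 0 ≤ s) (hs1 : s ≤ 1) (hθ : 0 < θ 0) (h1 : θ 0 - θ 1 = 1)
    (hVB : VisB θ B I lev fl sc) (hIE : InvE B I fl sc) {v0 : ℝ} (hv0 : 0 < v0) (hv1 : v0 < 1)
    {hh : ℕ → ℝ} (hpos : ∀ l, 0 < hh l) (hh0 : Tendsto hh atTop (𝓝 0))
    {g1 : Fin 2 → (Fin 12 → ℝ) → ℝ} (ht1 : ∀ j, IsTan (Leg monL R) coneL (fo ν own j)
      (fun _ => rL (θ 0) (θ 1) w0 sa sb v0) hh (g1 j)) {a' b' : Fin 2}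
    (hP1 : Prf coneL s a' b' (VisT B I fl sc) (βL (θ 0) (θ 1)) (g1 0))
    {x y : ℝ} (hy : 0 < y) {k : ℕ → ℝ} (kpos : ∀ m, 0 < k m) (k0 : Tendsto k atTop (𝓝 0))
    {lam : Fin 2 → (Fin 12 → ℝ) → ℝ}
    (hl : ∀ j, IsTan coneL LM0 (g1 j) (fun _ => P4 x y) k (lam j)) :
    Prf LM0 s a' b' (VisT B I fl sc) (βL (θ 0) (θ 1)) (lam 0) ∧
      Fct9 (fun w => w 6 < 1 * w 0) s (fun w => lam 0 (E8 w)) ∧
      ∀ (c : Fin 9 → Fin 9) (dl : V9) (φ : Fin 9 → V9 → ℝ) (ρ : V9),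
        Cl9 c dl s (fun w => lam 0 (E8 w)) φ ρ → PlE 1 c dl → K3C c s φ ρ := by
  have hvis := Hm621.vis78 C hIE.2 hIE.1
  obtain ⟨p0, p1, p2, p3, p4, p5, p6, p7, p8, p9, p10, p11⟩ := P4_v x y
  -- the profile
  have hP : Prf LM0 s a' b' (VisT B I fl sc) (βL (θ 0) (θ 1)) (lam 0) := by
    refine hP1.tan kpos k0 (hl 0) (fun m => ?_) (fun m => ?_) fun i hi => Or.inl ⟨hi, fun m => ?_⟩
    · show P4 x y (cs b') = P4 x y (cs a')
      rw [P4_cs, P4_cs]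
    · show P4 x y (xs b') = P4 x y (xs a')
      rw [P4_xs, P4_xs]
    · show P4 x y i ≤ P4 x y 0 * βL (θ 0) (θ 1) i
      rw [beta7 h1 (hvis i hi), mul_one, p0]
      rcases hvis i hi with rfl | rfl | rfl
      · rw [p0]
      · rw [p7]
      · rw [p8]
  -- the diagonal
  obtain ⟨ψ, hψ, -, hT⟩ := Rc683.diagF (P := fun _ : Fin 2 => Leg monL R) (L := fun _ => coneL)
    (L' := fun _ => LM0) hpos ht1 (y := P4 x y) (fun _ => P4_mem hy.le) kpos hl
    (A := fun _ _ => True) (fun _ => Eventually.of_forall fun _ => trivial)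
  set X : ℕ → Fin 12 → ℝ :=
    fun m => rL (θ 0) (θ 1) w0 sa sb v0 + hh (ψ m) • P4 x y with hX
  set H : ℕ → ℝ := fun m => hh (ψ m) * k m with hH
  have hψ0 : Tendsto (fun m => hh (ψ m)) atTop (𝓝 0) := hh0.comp hψ.tendsto_atTop
  have Hpos : ∀ m, 0 < H m := fun m => mul_pos (hpos _) (kpos m)
  have H0 : Tendsto H atTop (𝓝 0) := by
    have := hψ0.mul k0
    rwa [zero_mul] at this
  have hXl : Tendsto X atTop (𝓝 (rL (θ 0) (θ 1) w0 sa sb v0)) := by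
    have := (hψ0.smul_const (P4 x y)).const_add (rL (θ 0) (θ 1) w0 sa sb v0)
    rwa [zero_smul, add_zero] at this
  have hXn : ∀ m, X m = eL (w0 + v0 + hh (ψ m) * (-(x + y)))
      (θ 0 * (1 - v0) + sa + hh (ψ m) * y) (θ 1 * (1 - v0) + sb + hh (ψ m) * (-x)) +
      (hh (ψ m) * y) • (Pi.single 1 1 : Fin 12 → ℝ) := by
    intro m
    funext i
    have e1 := eL_lin (w0 + v0) (θ 0 * (1 - v0) + sa) (θ 1 * (1 - v0) + sb) (-(x + y)) y (-x)
      (hh (ψ m)) i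
    show rL (θ 0) (θ 1) w0 sa sb v0 i + hh (ψ m) * P4 x y i = _
    rw [P4_eL]
    simp only [Pi.add_apply, Pi.smul_apply, smul_eq_mul]
    rw [← e1]
    show eL (w0 + v0) (θ 0 * (1 - v0) + sa) (θ 1 * (1 - v0) + sb) i + _ = _
    ring
  have hdd : ∀ K : ℝ, ∀ᶠ m in atTop, K * H m ≤ hh (ψ m) * y := by
    intro K
    have h2 : Tendsto (fun m => K * k m) atTop (𝓝 0) := by
      have := k0.const_mul K
      rwa [mul_zero] at this
    filter_upwards [h2.eventually_lt_const hy] with m hm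
    have := mul_le_mul_of_nonneg_left hm.le (hpos (ψ m)).le
    show K * (hh (ψ m) * k m) ≤ _
    linarith
  have hSk : ∀ w : V9, LegM 0 w → w 6 < 1 * w 0 → ∀ k, VisT B I fl sc k →
      E8 w k ≤ w 0 * βL (θ 0) (θ 1) k := by
    intro w hw h6 i hi
    rw [beta7 h1 (hvis i hi), mul_one]
    rcases hvis i hi with rfl | rfl | rfl
    · exact le_refl (w 0)
    · show w 6 ≤ w 0
      linarith
    · show w 6 ≤ w 0
      linarith
  refine ⟨hP, fct8_ctx C hs0 hs1 (Kt710.hthB C hv0 hv1 hθ) Hpos H0 hXl hT hXn hdd hP hSk, ?_⟩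
  intro c dl φ ρ hC P
  -- the bases of (K3)
  have hv : Tendsto (fun m => v0 + hh (ψ m) * (-(x + y))) atTop (𝓝 v0) := by
    have := (hψ0.mul_const (-(x + y))).const_add v0
    rwa [zero_mul, add_zero] at this
  have hK : K3P (θ 0) (θ 1) w0 sa sb v0 X (fun m => v0 + hh (ψ m) * (-(x + y))) := by
    refine ⟨⟨hv0, hv1, hv, fun m => ?_, fun m i hi => ?_⟩,
      fun j _ => (tendsto_pi_nhds.1 hXl) j, fun m => ?_, fun m => ?_, fun m => ?_, fun m => ?_,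
      fun m => ?_, fun m => ?_, fun m => ?_⟩
    · show (w0 + v0) + hh (ψ m) * P4 x y 0 = _
      rw [p0]; ring
    · have hi' : i = 0 ∨ i = 7 ∨ i = 8 := by simpa using hi
      rw [rL_add]
      show rL (θ 0) (θ 1) w0 sa sb v0 i + hh (ψ m) * P4 x y i =
        rL (θ 0) (θ 1) w0 sa sb v0 i + hh (ψ m) * (-(x + y)) * βL (θ 0) (θ 1) i
      rw [beta7 h1 hi']
      rcases hi' with rfl | rfl | rfl
      · rw [p0]; ring
      · rw [p7]; ring
      · rw [p8]; ring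
    all_goals
      rw [hXn m]
      simp [eL]
      try ring
  obtain ⟨j, hj, hTj⟩ : ∃ j : Fin 12, (j = 7 ∨ j = 8) ∧ TieT θ B I lev fl sc j := by
    rcases hVB with h | h
    · exact ⟨7, Or.inl rfl, h⟩
    · exact ⟨8, Or.inr rfl, h⟩
  refine k3c_gen C (E := E8) (M := LM0) (Or.inl ⟨rfl, rfl⟩) Hpos H0 (hT 0) hK hθ h1 hj hTj
    (z := 0) (G' := 1) (D' := 100) (by norm_num) (by norm_num) (by norm_num)
    (fun i hi hV => (hvis i hV).elim (fun h => absurd h hi) fun h => h.elim Or.inl fun h =>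
      Or.inr (Or.inl h)) hC ?_ (P.al (Or.inl rfl)) (P.al (Or.inr (Or.inl rfl))) ?_ ?_
  · filter_upwards [self_mem_nhdsWithin] with x' hx' y' hy'
    have hx'' : (0:ℝ) < x' := hx'
    have e0 : (wG 0 1 100 + x' • Tw369.dE) 0 = 0 := by simp [wG, Tw369.dE]
    have e6 : (wG 0 1 100 + x' • Tw369.dE) 6 = 0 := by simp [wG, Tw369.dE]
    refine own_prf hP (fun d hd => E8_mem hd) E8_add (fun _ => rfl) e9_nonneg8 ?_ ?_ hy'
    · constructor <;> simp [wG, Tw369.dE] <;> linarith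
    · intro i hi
      rw [beta7 h1 (hvis i hi), mul_one]
      rcases hvis i hi with rfl | rfl | rfl
      · exact le_refl _
      · show (wG 0 1 100 + x' • Tw369.dE) 6 ≤ (wG 0 1 100 + x' • Tw369.dE) 0
        rw [e0, e6]
      · show (wG 0 1 100 + x' • Tw369.dE) 6 ≤ (wG 0 1 100 + x' • Tw369.dE) 0
        rw [e0, e6]
  · intro t ht
    have h2 := (P.par t 3).1 ht
    unfold PE at h2
    rcases h2 with h | ⟨h, h'⟩ | ⟨h, h'⟩ | ⟨-, ⟨h, h'⟩ | ⟨h, h'⟩⟩ | ⟨h, -⟩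
    · exact Or.inr h
    · simp at h'
    · simp at h'
    · exact Or.inl h
    · simp at h'
    · norm_num at h
  · intro t t' ht h0
    have h2 : c t' = c 0 := by
      rcases h0 with rfl | rfl
      · exact ht.symm
      · rw [← ht, P.c6]
    rcases P.z.1 h2 with h | h
    · exact Or.inl h
    · exact Or.inr (Or.inl h)

end Crest.Agent.R116.Ts72
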