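import Crest.Agent.R116.Ts1_654
import Crest.Agent.R116.Ts2p_604
import Crest.Agent.R116.Ts4_72
import Crest.Agent.R116.Ts6_894
import Crest.Agent.R116.FlH_850

/-!
# R116, cell (H4) (`e`-tie, `k = 1`, `1/2 ≤ s`): the end (helper654; doc 24076)

* `cone_C`, `incC_cone`, `MC_cone`, `P4_anti`, `MC_P4` : 604's predicate over the cone, on the plane
* `P4_lin`, `DL_lin`
* **`h4_end`** : no first tangent `g1` (profile, D-max, `g1 0 = 0`) has the two a.e. alternatives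
-/

set_option autoImplicit false
set_option linter.unusedVariables false
set_option linter.unusedSectionVars false

open Filter Topology Set MeasureTheory

namespace Crest.Agent.R116.Ts654

open Crest.Agent.R138
open Crest.Agent.R138.Ex926 (IsTan)
open Crest.Agent.R136
open Crest.Agent.R136.Net191
open Crest.Agent.R116.ChL222
open Crest.Agent.R116.Sg337 (bx9 coneL DL natB uC mem_coneL)
open Crest.Agent.R116.Ts2p604 (incC MC)
open Crest.Agent.R116.Ts72 (P4 P4_mem P4_v)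
open Dg262 (SupOn)

theorem cone_C {p : Fin 12 → ℝ} (hp : p ∈ coneL) {y : ℝ} (hy : 0 ≤ y) : p + y • uC ∈ coneL := by
  rw [mem_coneL] at hp ⊢
  simp only [Pi.add_apply, Pi.smul_apply, smul_eq_mul, uC, bx9]
  simp
  refine ⟨?_, ?_, ?_, ?_, ?_, ?_, ?_, ?_, ?_, ?_, ?_, ?_, ?_, ?_, ?_, ?_⟩ <;> linarith

/-- increments of `C` are larger at the coarser box -/
theorem incC_cone {f : (Fin 12 → ℝ) → ℝ} (hs : SupOn f coneL) {p q : Fin 12 → ℝ} (hp : p ∈ coneL)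
    (hq : q ∈ coneL) (hpq : p ≤ q) (h3 : p 3 = q 3) (h4 : p 4 = q 4) {y : ℝ} (hy : 0 ≤ y) :
    incC f q y ≤ incC f p y := by
  have hu : ∀ k : Fin 12, k ≠ 3 → k ≠ 4 → uC k = 0 := by
    intro k h1 h2
    by_contra h
    rcases Ts2p604.uC_ne h with h | h
    · exact h1 h
    · exact h2 h
  have e3 : uC 3 = 1 := rfl
  have e4 : uC 4 = 1 := rfl
  have h1 : (p + y • uC) ⊔ q = q + y • uC := by
    funext k
    rw [Pi.sup_apply, Pi.add_apply, Pi.add_apply, Pi.smul_apply, smul_eq_mul]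
    by_cases k3 : k = 3
    · subst k3; rw [e3, h3, mul_one]; exact sup_eq_left.2 (by linarith)
    by_cases k4 : k = 4
    · subst k4; rw [e4, h4, mul_one]; exact sup_eq_left.2 (by linarith)
    rw [hu k k3 k4, mul_zero, add_zero, add_zero]
    exact sup_eq_right.2 (hpq k)
  have h2 : (p + y • uC) ⊓ q = p := by
    funext k
    rw [Pi.inf_apply, Pi.add_apply, Pi.smul_apply, smul_eq_mul]
    by_cases k3 : k = 3
    · subst k3; rw [e3, h3, mul_one]; exact inf_eq_right.2 (by linarith)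
    by_cases k4 : k = 4
    · subst k4; rw [e4, h4, mul_one]; exact inf_eq_right.2 (by linarith)
    rw [hu k k3 k4, mul_zero, add_zero]
    exact inf_eq_left.2 (hpq k)
  have h := hs (p + y • uC) (cone_C hp hy) q hq (by rw [h2]; exact hp)
    (by rw [h1]; exact cone_C hq hy)
  rw [h1, h2] at h
  unfold incC
  linarith

/-- 604's predicate passes to coarser boxes of the cone with the same `C` -/
theorem MC_cone {f : (Fin 12 → ℝ) → ℝ} (hs : SupOn f coneL) {κ : ℝ} {h : ℕ → ℝ}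
    (hpos : ∀ l, 0 < h l) {p q : Fin 12 → ℝ} (hp : p ∈ coneL)
    (hq : q ∈ coneL) (hpq : p ≤ q) (h3 : p 3 = q 3) (h4 : p 4 = q 4) (hM : MC f κ h q) :
    MC f κ h p :=
  Filter.Frequently.mono hM fun l hl => le_trans hl (incC_cone hs hp hq hpq h3 h4 (hpos l).le)

theorem P4_anti {a a' : ℝ} (h : a ≤ a') (b : ℝ) : P4 a' b ≤ P4 a b := by
  obtain ⟨p0, p1, p2, p3, p4, p5, p6, p7, p8, p9, p10, p11⟩ := P4_v a b
  obtain ⟨q0, q1, q2, q3, q4, q5, q6, q7, q8, q9, q10, q11⟩ := P4_v a' b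
  intro k
  fin_cases k
  · show P4 a' b 0 ≤ P4 a b 0
    rw [p0, q0]; linarith
  · show P4 a' b 1 ≤ P4 a b 1
    rw [p1, q1]
  · show P4 a' b 2 ≤ P4 a b 2
    rw [p2, q2]; linarith
  · show P4 a' b 3 ≤ P4 a b 3
    rw [p3, q3]
  · show P4 a' b 4 ≤ P4 a b 4
    rw [p4, q4]
  · show P4 a' b 5 ≤ P4 a b 5
    rw [p5, q5]; linarith
  · show P4 a' b 6 ≤ P4 a b 6
    rw [p6, q6]; linarith
  · show P4 a' b 7 ≤ P4 a b 7
    rw [p7, q7]; linarith
  · show P4 a' b 8 ≤ P4 a b 8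
    rw [p8, q8]; linarith
  · show P4 a' b 9 ≤ P4 a b 9
    rw [p9, q9]; linarith
  · show P4 a' b 10 ≤ P4 a b 10
    rw [p10, q10]; linarith
  · show P4 a' b 11 ≤ P4 a b 11
    rw [p11, q11]; linarith

/-- the predicate is inherited along `a` -/
theorem MC_P4 {f : (Fin 12 → ℝ) → ℝ} (hs : SupOn f coneL) {κ : ℝ} {h : ℕ → ℝ}
    (hpos : ∀ l, 0 < h l) {a a' b : ℝ} (ha : a ≤ a') (hb : 0 ≤ b) (hM : MC f κ h (P4 a b)) :
    MC f κ h (P4 a' b) := by
  obtain ⟨p0, p1, p2, p3, p4, -⟩ := P4_v a b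
  obtain ⟨q0, q1, q2, q3, q4, -⟩ := P4_v a' b
  exact MC_cone hs hpos (P4_mem hb) (P4_mem hb) (P4_anti ha b) (by rw [p3, q3]) (by rw [p4, q4]) hM

theorem P4_lin (a b : ℝ) : P4 a b = a • P4 1 0 + b • P4 0 1 := by
  obtain ⟨p0, p1, p2, p3, p4, p5, p6, p7, p8, p9, p10, p11⟩ := P4_v a b
  obtain ⟨q0, q1, q2, q3, q4, q5, q6, q7, q8, q9, q10, q11⟩ := P4_v 1 0
  obtain ⟨r0, r1, r2, r3, r4, r5, r6, r7, r8, r9, r10, r11⟩ := P4_v 0 1
  funext k
  rw [Pi.add_apply, Pi.smul_apply, Pi.smul_apply, smul_eq_mul, smul_eq_mul]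
  fin_cases k
  · show P4 a b 0 = a * P4 1 0 0 + b * P4 0 1 0
    rw [p0, q0, r0]; ring
  · show P4 a b 1 = a * P4 1 0 1 + b * P4 0 1 1
    rw [p1, q1, r1]; ring
  · show P4 a b 2 = a * P4 1 0 2 + b * P4 0 1 2
    rw [p2, q2, r2]; ring
  · show P4 a b 3 = a * P4 1 0 3 + b * P4 0 1 3
    rw [p3, q3, r3]; ring
  · show P4 a b 4 = a * P4 1 0 4 + b * P4 0 1 4
    rw [p4, q4, r4]; ring
  · show P4 a b 5 = a * P4 1 0 5 + b * P4 0 1 5
    rw [p5, q5, r5]; ring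
  · show P4 a b 6 = a * P4 1 0 6 + b * P4 0 1 6
    rw [p6, q6, r6]; ring
  · show P4 a b 7 = a * P4 1 0 7 + b * P4 0 1 7
    rw [p7, q7, r7]; ring
  · show P4 a b 8 = a * P4 1 0 8 + b * P4 0 1 8
    rw [p8, q8, r8]; ring
  · show P4 a b 9 = a * P4 1 0 9 + b * P4 0 1 9
    rw [p9, q9, r9]; ring
  · show P4 a b 10 = a * P4 1 0 10 + b * P4 0 1 10
    rw [p10, q10, r10]; ring
  · show P4 a b 11 = a * P4 1 0 11 + b * P4 0 1 11
    rw [p11, q11, r11]; ring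

theorem DL_lin (g s qa qb a b : ℝ) : DL g s qa qb (-(a + b)) b (-a) =
    a * DL g s qa qb (-1) 0 (-1) + b * DL g s qa qb (-1) 1 0 := by
  unfold DL; ring

theorem nat_le_P4 {a b : ℝ} (hb : 0 ≤ b) : natB (-(a + b)) b (-a) ≤ P4 a b := by
  intro k
  show natB (-(a + b)) b (-a) k ≤ natB (-(a + b)) b (-a) k + b * (Pi.single 1 1 : Fin 12 → ℝ) k
  have h1 : (0:ℝ) ≤ (Pi.single 1 1 : Fin 12 → ℝ) k := by
    by_cases hk : k = 1
    · subst hk; rw [Pi.single_eq_same]; norm_num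
    · rw [Pi.single_eq_of_ne hk]
  have h2 := mul_nonneg hb h1
  linarith

/-- **the end of (H4)** -/
theorem h4_end {g s qa qb κ K γ : ℝ} {g1 : (Fin 12 → ℝ) → ℝ} {h : ℕ → ℝ} (hK : 0 ≤ K)
    (hlip : ∀ p ∈ coneL, ∀ q ∈ coneL, |g1 p - g1 q| ≤ K * dist p q)
    (hanti : ∀ p ∈ coneL, ∀ q ∈ coneL, p ≤ q → 0 ≤ g1 p - g1 q) (hsm : SupOn g1 coneL)
    (hDm : ∀ v x y : ℝ, g1 (natB v x y) ≤ DL g s qa qb v x y) (h00 : g1 0 = 0)
    (hpos : ∀ l, 0 < h l) (hγ : 0 < γ)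
    (hA : ∀ᵐ z : ℝ × ℝ, z.1 ∈ Ioo (0:ℝ) 1 → z.2 ∈ Ioo (0:ℝ) 1 → MC g1 κ h (P4 z.1 z.2) →
      ∀ d, HasDerivAt (fun a => g1 (P4 a z.2) - DL g s qa qb (-(a + z.2)) z.2 (-a)) d z.1 → γ ≤ d)
    (hB : ∀ᵐ z : ℝ × ℝ, z.1 ∈ Ioo (0:ℝ) 1 → z.2 ∈ Ioo (0:ℝ) 1 → ¬ MC g1 κ h (P4 z.1 z.2) →
      ∀ d, HasDerivAt (fun b => g1 (P4 z.1 b) - DL g s qa qb (-(z.1 + b)) b (-z.1)) d z.2 → γ ≤ d) :
    False := by
  set c0 := DL g s qa qb (-1) 0 (-1) with hc0
  set c1 := DL g s qa qb (-1) 1 0 with hc1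
  set N0 := ‖P4 1 0‖ with hN0
  set N1 := ‖P4 0 1‖ with hN1
  set M := K * (N0 + N1) + (|c0| + |c1|) with hM
  have hN0' : 0 ≤ N0 := norm_nonneg _
  have hN1' : 0 ≤ N1 := norm_nonneg _
  have hM0 : 0 ≤ M := by positivity
  set f : ℝ → ℝ → ℝ := fun a b => g1 (P4 a b) - DL g s qa qb (-(a + b)) b (-a) with hf
  have hfd : ∀ a b, f a b = g1 (P4 a b) - (a * c0 + b * c1) := fun a b => by
    show g1 (P4 a b) - DL g s qa qb (-(a + b)) b (-a) = _
    rw [DL_lin]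
  refine two_step (τ := 1) one_pos hγ hM0 (f := f) (Hi := fun a b => MC g1 κ h (P4 a b))
    ?_ ?_ ?_ ?_ ?_ hA hB
  · intro b hb a ha a' ha'
    have h1 := hlip _ (P4_mem (a := a) hb.1) _ (P4_mem (a := a') hb.1)
    have h2 : dist (P4 a b) (P4 a' b) = |a - a'| * N0 := by
      rw [dist_eq_norm, P4_lin a b, P4_lin a' b, add_sub_add_right_eq_sub, ← sub_smul, norm_smul,
        Real.norm_eq_abs]
    rw [h2] at h1
    have h3 : f a b - f a' b = (g1 (P4 a b) - g1 (P4 a' b)) - (a - a') * c0 := by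
      rw [hfd, hfd]; ring
    rw [h3]
    calc |g1 (P4 a b) - g1 (P4 a' b) - (a - a') * c0|
        ≤ |g1 (P4 a b) - g1 (P4 a' b)| + |(a - a') * c0| := abs_sub _ _
      _ ≤ K * (|a - a'| * N0) + |a - a'| * |c0| := by rw [abs_mul]; linarith
      _ ≤ M * |a - a'| := by
        have h4 := abs_nonneg (a - a')
        have h5 : 0 ≤ K * N1 * |a - a'| := by positivity
        have h6 : 0 ≤ |c1| * |a - a'| := by positivity
        rw [hM]; nlinarith
  · intro a ha b hb b' hb'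
    have h1 := hlip _ (P4_mem (a := a) hb.1) _ (P4_mem (a := a) hb'.1)
    have h2 : dist (P4 a b) (P4 a b') = |b - b'| * N1 := by
      rw [dist_eq_norm, P4_lin a b, P4_lin a b', add_sub_add_left_eq_sub, ← sub_smul, norm_smul,
        Real.norm_eq_abs]
    rw [h2] at h1
    have h3 : f a b - f a b' = (g1 (P4 a b) - g1 (P4 a b')) - (b - b') * c1 := by
      rw [hfd, hfd]; ring
    rw [h3]
    calc |g1 (P4 a b) - g1 (P4 a b') - (b - b') * c1|
        ≤ |g1 (P4 a b) - g1 (P4 a b')| + |(b - b') * c1| := abs_sub _ _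
      _ ≤ K * (|b - b'| * N1) + |b - b'| * |c1| := by rw [abs_mul]; linarith
      _ ≤ M * |b - b'| := by
        have h4 := abs_nonneg (b - b')
        have h5 : 0 ≤ K * N0 * |b - b'| := by positivity
        have h6 : 0 ≤ |c0| * |b - b'| := by positivity
        rw [hM]; nlinarith
  · have h1 : f 0 0 = 0 := by
      rw [hfd, P4_lin, zero_smul, zero_smul, add_zero, h00]; ring
    rw [h1]
    have : 0 ≤ γ * 1 / 8 := by positivity
    linarith
  · intro a ha b hb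
    have h1 := hanti _ (Rcx363.natB_mem (-(a + b)) b (-a)) _ (P4_mem (a := a) hb.1) (nat_le_P4 hb.1)
    have h2 := hDm (-(a + b)) b (-a)
    show g1 (P4 a b) - DL g s qa qb (-(a + b)) b (-a) ≤ 0
    linarith
  · intro a ha a' ha' b hb haa hM'
    exact MC_P4 hsm hpos haa hb.1.le hM'

end Crest.Agent.R116.Ts654
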