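import Crest.Agent.R116.TwW_420
import Crest.Agent.R116.Tq3_794
import Crest.Agent.R116.Tq4_741

/-!
# R116, ties (helper420): the own-strip fact at a κ-tie, `D` live

* `tan_coreZ` : 794's `tan_core` for `LinS Z` (any `Z`), with the function of the slots of `Z`
* `win_kD` (`D` tied), `win_kE` (`D` invisible, `E` tied) : the inequality of the window
* **`fctK9`** : `FctK9 k (fun w => lam2 (E9 w))` over the context
-/

set_option autoImplicit false
set_option linter.unusedVariables false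
set_option linter.unusedSectionVars false

open Finset Filter Topology

namespace Crest.Agent.R116.KW420

open Crest.Agent.R138.Ex926
open Crest.Agent.R138.Mk163 (zc zl rho alive)
open Crest.Agent.R136
open Crest.Agent.R136.Net191 Crest.Agent.R136.Gf356 Crest.Agent.R136.Qg926
open Crest.Agent.R136.MkA627 Crest.Agent.R136.TD627 Crest.Agent.R136.Lq196
open Crest.Agent.R116.LZg725 Crest.Agent.R116.ChL222
open Crest.Agent.R116.EvL504 (WL Reg side natD LnS ownL)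
open Crest.Agent.R116.PL504 (βL eL rL oL Shift nb DN prN wtL)
open Crest.Agent.R116.Gd222 (TSet sN PDL DT vb)
open Crest.Agent.R116.KI439
open Crest.Agent.R116.KF439 (PL Thin)
open Crest.Agent.R116.Tw468 Crest.Agent.R116.CtxB468
open Crest.Agent.R116.EvD369 Crest.Agent.R116.Kst593
open Crest.Agent.R116.Tw369
open Crest.Agent.R116.Sg337 (bx9)
open Crest.Agent.R116.SgF665 (wl)
open Crest.Agent.R116.WinG954 (LM)
open Crest.Agent.R116.Rcx363 (Prf)
open Crest.Agent.R116.Tq741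
open Crest.Agent.R116.Tq794 (E9 E9_eq E9_add E9_zero E9_mem LM_closed LM_add LM_smul LM_wl tan_zero)

section core

variable {J : Type*} [Finite J] {P M : Set (Fin 12 → ℝ)} {f lam2 : J → (Fin 12 → ℝ) → ℝ}
  {j0 : J} {X : ℕ → Fin 12 → ℝ} {H : ℕ → ℝ} {E : V9 → Fin 12 → ℝ} {w R : V9}

/-- **tangents at a point which is linear up to the slots of `Z`** -/
theorem tan_coreZ {Z : Finset (Fin 9)} (hMc : IsClosed M) (hM0 : (0 : Fin 12 → ℝ) ∈ M)
    (hMa : ∀ p ∈ M, ∀ q ∈ M, p + q ∈ M) (hMs : ∀ t : ℝ, 0 ≤ t → ∀ p ∈ M, t • p ∈ M)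
    (hpos : ∀ l, 0 < H l) (ht : ∀ j, IsTan P M (f j) X H (lam2 j))
    (hlip : ∃ K : ℝ, 0 ≤ K ∧ ∀ j, ∀ p ∈ M, ∀ q ∈ M, |lam2 j p - lam2 j q| ≤ K * ‖p - q‖)
    (hE : ∀ (w d : V9) (t : ℝ), E (w + t • d) = E w + t • E d) (hE0 : E 0 = 0) (hw : E w ∈ M)
    (hL : LinS Z (fun w => lam2 j0 (E w)) w R)
    {Pr : ℕ → ℕ → Prop} (hPr : ∀ m, ∀ᶠ l in atTop, Pr m l) :
    ∃ (ψ : ℕ → ℕ) (h' : ℕ → ℝ) (lam3 : J → (Fin 12 → ℝ) → ℝ) (Ψ : V9 → ℝ), StrictMono ψ ∧
      (∀ m, Pr m (ψ m)) ∧ (∀ m, 0 < h' m) ∧ Tendsto h' atTop (𝓝 0) ∧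
      (∀ j, IsTan P M (f j) (fun m => X (ψ m) + H (ψ m) • E w) (fun m => H (ψ m) * h' m)
        (lam3 j)) ∧
      (∀ j, IsTan M M (lam2 j) (fun _ => E w) h' (lam3 j)) ∧
      (∀ d d', (∀ t ∈ Z, d t = d' t) → LegM 0 d → LegM 0 d' → Ψ d = Ψ d') ∧ Ψ 0 = 0 ∧
      ∀ d, LegM 0 d → E d ∈ M → lam3 j0 (E d) = -(Ψ d + ∑ t ∈ Zᶜ, R t * d t) := by
  obtain ⟨h, Ψ, hp, h0, hΨ, hd⟩ := hL
  obtain ⟨K, hK, hlip⟩ := hlip
  have hΨ0 : Ψ 0 = 0 := by
    have h1 := hd 0 leg_zero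
    have h2 : Tendsto (fun m => (lam2 j0 (E (w + h m • 0)) - lam2 j0 (E w)) / h m) atTop
        (𝓝 0) := by
      refine tendsto_const_nhds.congr fun m => ?_
      rw [smul_zero, add_zero, sub_self, zero_div]
    have h3 := tendsto_nhds_unique h1 h2
    simp only [Pi.zero_apply, mul_zero, Finset.sum_const_zero, add_zero] at h3
    linarith
  obtain ⟨φ, hφ, lam3, hT⟩ := Rc683.exists_tan (J := J) (P := fun _ => M) (D := fun _ => M)
    (fun _ => hMc) (ν := lam2) hK hlip (x := fun _ => E w) (h := h) hp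
    (fun _ C => Eventually.of_forall fun l c hc _ => hMa _ hw _ (hMs _ (hp l).le _ hc))
    (fun _ => hM0)
  have hp' : ∀ m, 0 < h (φ m) := fun m => hp _
  obtain ⟨ψ, hψ, hPψ, hTT⟩ := Kz647.diag_at hpos ht hw hp' hT hPr
  refine ⟨ψ, fun m => h (φ m), lam3, Ψ, hψ, hPψ, hp', h0.comp hφ.tendsto_atTop, hTT, hT, hΨ, hΨ0,
    fun d hdl hdM => ?_⟩
  have h1 := SgO219.tan_lim hp' (hT j0) hdM hM0
  rw [tan_zero hp' (hT j0) hM0, sub_zero] at h1
  refine tendsto_nhds_unique h1 (((hd d hdl).comp hφ.tendsto_atTop).congr fun m => ?_)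
  simp only [Function.comp]
  rw [hE, smul_zero, add_zero]

end core

/-! ### boxes -/

theorem LM_zero : (0 : Fin 12 → ℝ) ∈ LM := by
  have h := E9_mem (w := 0) leg_zero
  rwa [E9_zero] at h

theorem wlc_add (e : Fin 12 → ℕ) (p q : Fin 12 → ℝ) :
    ∑ s, (e s : ℝ) * (p + q) s = ∑ s, (e s : ℝ) * p s + ∑ s, (e s : ℝ) * q s := by
  rw [← Finset.sum_add_distrib]
  exact Finset.sum_congr rfl fun s _ => by rw [Pi.add_apply]; ring

/-- the vector `D = t` -/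
def vD (t : ℝ) : V9 := ![0, 0, 0, 0, 0, 0, 0, 0, t]

theorem E9_vD (t : ℝ) : E9 (vD t) = Pi.single 1 t := by
  funext i
  fin_cases i <;> simp [E9, bx9, vD]

theorem leg_empty {t : ℝ} : Leg (monX ∅) t ⊆ LM := by
  intro p hp k e he
  exact hp.1.wall k e (mem_monX.2 ⟨he, fun s hs => absurd hs (Finset.notMem_empty s)⟩)

theorem mon_one' {k : Fin 12} {e : Fin 12 → ℕ} (he : e ∈ monL.mon k) : k ≠ 1 := by
  rintro rfl
  change e ∈ mfL 1 at he
  simp [mfL] at he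

theorem leg_raise {t : ℝ} (ht : 0 ≤ t) {p : Fin 12 → ℝ} (hp : p ∈ Leg (monX {1}) t) :
    Pi.single 1 t + p ∈ LM := by
  intro k e he
  have hk := mon_one' he
  rw [wlc_add, Pi.add_apply, Pi.single_eq_of_ne hk, zero_add]
  have e1 : ∑ s, (e s : ℝ) * (Pi.single 1 t : Fin 12 → ℝ) s = (e 1 : ℝ) * t := by
    rw [Finset.sum_eq_single (1 : Fin 12)]
    · rw [Pi.single_eq_same]
    · intro s _ hs
      rw [Pi.single_eq_of_ne hs, mul_zero]
    · intro h
      exact absurd (Finset.mem_univ _) h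
  rw [e1]
  have h0 : 0 ≤ ∑ s, (e s : ℝ) * p s :=
    Finset.sum_nonneg fun s _ => mul_nonneg (Nat.cast_nonneg _) (hp.1.nonneg s)
  by_cases h1 : e 1 = 0
  · have h2 := hp.1.wall k e (mem_monX.2 ⟨he, fun s hs => by
      rw [Finset.mem_singleton.1 hs]; exact h1⟩)
    rw [h1, Nat.cast_zero, zero_mul, zero_add]
    exact h2
  · have h2 : (1 : ℝ) ≤ e 1 := by exact_mod_cast Nat.one_le_iff_ne_zero.2 h1
    have h3 := hp.2 k
    nlinarith

/-! boxes of the window `{0, 1, 2}` -/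

theorem bD_top (t : ℝ) : (cT {0, 1, 2} ∅ t fun _ => t) = E9 fun _ => t := by
  funext i
  fin_cases i <;> simp [cT, E9, bx9]

theorem bD_lin (t : ℝ) : (cL {0, 1, 2} ∅ fun _ => t) = E9 ![0, t, t, t, t, t, t, 0, 0] := by
  funext i
  fin_cases i <;> simp [cL, E9, bx9]

theorem bD_lev (t : ℝ) : cT {0, 1, 2} ∅ t 0 = E9 ![t, 0, 0, 0, 0, 0, 0, t, t] := by
  funext i
  fin_cases i <;> simp [cT, E9, bx9]

theorem bD_1 (t y : ℝ) : cT {0, 1, 2} ∅ t (bA y {5, 6, 7, 8}) =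
    E9 ![t, 0, 0, y, 0, 0, y, t, t] := by
  funext i
  fin_cases i <;> simp [cT, bA, E9, bx9]

theorem bD_2 (t y : ℝ) : cT {0, 1, 2} ∅ t (bA y {3, 4, 5, 6, 7, 8}) =
    E9 ![t, y, 0, y, 0, 0, y, t, t] := by
  funext i
  fin_cases i <;> simp [cT, bA, E9, bx9]

theorem bD_3 (t y : ℝ) : cT {0, 1, 2} ∅ t (bA y {7, 8}) = E9 ![t, 0, 0, 0, 0, 0, y, t, t] := by
  funext i
  fin_cases i <;> simp [cT, bA, E9, bx9]

theorem bD_0 (y : ℝ) : (Pi.single 0 y : Fin 12 → ℝ) = E9 ![y, 0, 0, 0, 0, 0, 0, 0, 0] := by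
  funext i
  fin_cases i <;> simp [E9, bx9]

/-! boxes of the window `{0, 2}`, `D` raised -/

theorem bE_top (t : ℝ) : (Pi.single 1 t + cT {0, 2} {1} t fun _ => t) = E9 fun _ => t := by
  funext i
  fin_cases i <;> simp [cT, E9, bx9]

theorem bE_lin (t : ℝ) : (Pi.single 1 t + cL {0, 2} {1} fun _ => t) =
    E9 ![0, t, t, t, t, t, t, 0, t] := by
  funext i
  fin_cases i <;> simp [cL, E9, bx9]

theorem bE_lev (t : ℝ) : Pi.single 1 t + cT {0, 2} {1} t 0 = E9 ![t, 0, 0, 0, 0, 0, 0, t, t] := by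
  funext i
  fin_cases i <;> simp [cT, E9, bx9]

theorem bE_1 (t y : ℝ) : Pi.single 1 t + cT {0, 2} {1} t (bA y {7, 8}) =
    E9 ![t, 0, 0, 0, 0, 0, y, t, t] := by
  funext i
  fin_cases i <;> simp [cT, bA, E9, bx9]

theorem bE_2 (t y : ℝ) : Pi.single 1 t + cT {0, 2} {1} t (bA y {3, 4, 7, 8}) =
    E9 ![t, y, 0, 0, 0, 0, y, t, t] := by
  funext i
  fin_cases i <;> simp [cT, bA, E9, bx9]

theorem bE_0 (t y : ℝ) : Pi.single 1 t + (Pi.single 0 y : Fin 12 → ℝ) =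
    E9 ![y, 0, 0, 0, 0, 0, 0, 0, t] := by
  funext i
  fin_cases i <;> simp [E9, bx9]

theorem bE_z (t : ℝ) : (Pi.single 1 t : Fin 12 → ℝ) = E9 ![0, 0, 0, 0, 0, 0, 0, 0, t] := by
  funext i
  fin_cases i <;> simp [E9, bx9]

/-- legality of the class vectors -/
theorem lv {a0 a1 a2 a3 a4 a5 a6 a7 a8 : ℝ} (g0 : a7 ≤ a0 + a8) (g1 : a3 ≤ a0 + a1)
    (g2 : a6 ≤ a7 + a1) (g3 : a6 ≤ a8 + a3) (g4 : a5 ≤ a1 + a3) (g5 : a2 ≤ a1 + a6)
    (g6 : a2 ≤ a8 + a5) (g7 : a4 ≤ a0 + a2) (g8 : a4 ≤ a3 + a6) (g9 : a4 ≤ a7 + a5) :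
    LegM 0 ![a0, a1, a2, a3, a4, a5, a6, a7, a8] where
  G := by show a7 + 0 ≤ a0 + a8; linarith
  X := by show a3 + 0 ≤ a0 + a1; linarith
  B := by show a6 + 0 ≤ a7 + a1; linarith
  B' := by show a6 + 0 ≤ a8 + a3; linarith
  H := by show a5 + 0 ≤ a1 + a3; linarith
  P := by show a2 + 0 ≤ a1 + a6; linarith
  P' := by show a2 + 0 ≤ a8 + a5; linarith
  N1 := by show a4 + 0 ≤ a0 + a2; linarith
  N2 := by show a4 + 0 ≤ a3 + a6; linarith
  N3 := by show a4 + 0 ≤ a7 + a5; linarith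

/-- the sum over the slots off `{0, 7, 8}` -/
theorem sum_off (R : V9) (a0 a1 a2 a3 a4 a5 a6 a7 a8 : ℝ) :
    ∑ t ∈ ({0, 7, 8} : Finset (Fin 9))ᶜ, R t * (![a0, a1, a2, a3, a4, a5, a6, a7, a8] : V9) t =
      R 1 * a1 + R 2 * a2 + R 3 * a3 + R 4 * a4 + R 5 * a5 + R 6 * a6 := by
  have e : (({0, 7, 8} : Finset (Fin 9))ᶜ) = {1, 2, 3, 4, 5, 6} := by decide
  rw [e]
  rw [Finset.sum_insert (by decide), Finset.sum_insert (by decide), Finset.sum_insert (by decide),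
    Finset.sum_insert (by decide), Finset.sum_insert (by decide), Finset.sum_singleton]
  show R 1 * a1 + (R 2 * a2 + (R 3 * a3 + (R 4 * a4 + (R 5 * a5 + R 6 * a6)))) = _
  ring

theorem const_vec (t : ℝ) : (fun _ => t : V9) = ![t, t, t, t, t, t, t, t, t] := by
  funext i
  fin_cases i <;> rfl


/-- a tangent at a shifted base point (120's `tan_shift`) -/
theorem tan_sh {V : Type*} [NormedAddCommGroup V] [NormedSpace ℝ V] {P D D' : Set V}
    {ν lam : V → ℝ} {x : ℕ → V} {h : ℕ → ℝ} (H : IsTan P D ν x h lam) {c0 : V}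
    (h0 : (0 : V) ∈ D') (hD : ∀ c ∈ D', c0 + c ∈ D) :
    IsTan P D' ν (fun l => x l + h l • c0) h (fun c => lam (c0 + c) - lam c0) := by
  intro C ε hε
  have hc0 : c0 ∈ D := by have := hD 0 h0; rwa [add_zero] at this
  filter_upwards [H (‖c0‖ + |C|) (ε / 2) (by positivity)] with l hl c hc hcC
  have a1 := hl (c0 + c) (hD c hc) ((norm_add_le _ _).trans (by
    have := le_abs_self C
    linarith))
  have a2 := hl c0 hc0 (by have := abs_nonneg C; linarith)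
  have e1 : x l + h l • (c0 + c) = x l + h l • c0 + h l • c := by
    rw [smul_add, add_assoc]
  rw [e1] at a1
  refine ⟨a1.1, ?_⟩
  have b1 := abs_le.1 a1.2
  have b2 := abs_le.1 a2.2
  rw [abs_le]
  constructor <;> nlinarith [b1.1, b1.2, b2.1, b2.2]

theorem off_eq {a0 a1 a2 a3 a4 a5 a6 a7 a8 b1 b2 b3 b4 b5 b6 : ℝ} :
    ∀ t ∈ ({0, 7, 8} : Finset (Fin 9)), (![a0, a1, a2, a3, a4, a5, a6, a7, a8] : V9) t =
      (![a0, b1, b2, b3, b4, b5, b6, a7, a8] : V9) t := by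
  intro t ht
  rw [Finset.mem_insert, Finset.mem_insert, Finset.mem_singleton] at ht
  rcases ht with rfl | rfl | rfl <;> rfl

section ctx

variable {G : Geo TSet (Fin 2)} {L : ℕ → ℕ → LRay} {r : ℕ → ℝ} {g s : ℝ} {θ q : Fin 2 → ℝ}
    {Rg : ℝ} {B : Base} {I : ℕ → Finset (ℕ × ℝ)} {lev : ℕ → ℚ → ℕ} {A : ℕ → ℝ}
    {f : ℕ → ℚ → ℕ → ℤ → ℕ} {b : ℕ → ℚ → ℕ → TSet} {vm : ℕ → ℚ → ℝ} {w : Fin 2 → ℕ → ℚ → ℝ}
    {fr : ℕ → ℚ → ℕ × ℝ → LInc} {fl : ℕ → ℕ × ℝ → LInc} {sc : Fin 12 → ℕ → ℝ}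
    {w0 sa sb δ R : ℝ} {I0 I' : ℕ → Finset (ℕ × ℝ)} {ν own : (Fin 12 → ℝ) → ℝ} {c₀ : ℝ}
    {X : ℕ → Fin 12 → ℝ} {H v zz cc pp : ℕ → ℝ} {v0 : ℝ} {lam2 : (Fin 12 → ℝ) → ℝ} {a b' : Fin 2}
    {Vis' : Fin 12 → Prop}

/-- tied slots of a shifted base -/
theorem tie_shift {θa θb w0 sa sb u h : ℝ} {Y c : Fin 12 → ℝ} {k : Fin 12}
    (hY : Y k = rL θa θb w0 sa sb u k) (hc : c k = c 0 * βL θa θb k) :
    (Y + h • c) k = rL θa θb w0 sa sb (u + h * c 0) k := by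
  rw [Rcx363.rL_add, Pi.add_apply, Pi.smul_apply, Pi.add_apply, Pi.smul_apply, smul_eq_mul,
    smul_eq_mul, hY, hc]
  ring

theorem β1 (θa θb : ℝ) : βL θa θb 1 = 2 * θa - θb - 1 := by
  show -θb - 2 * -θa - 1 = _
  ring

theorem β2 (θa θb : ℝ) : βL θa θb 2 = 2 * θa - θb := by
  show -θb - 2 * -θa = _
  ring

/-- the slots of a class vector on the `κ`-tie -/
theorem tie_E9 {k : ℝ} (hk : k = 2 * θ 0 - θ 1) {u : V9} (h7 : u 7 = k * u 0)
    (h8 : u 8 = (k - 1) * u 0) : ∀ j ∈ ({0, 1, 2} : Finset (Fin 12)),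
      E9 u j = E9 u 0 * βL (θ 0) (θ 1) j := by
  intro j hj
  rw [Finset.mem_insert, Finset.mem_insert, Finset.mem_singleton] at hj
  rcases hj with rfl | rfl | rfl
  · show u 0 = u 0 * 1
    ring
  · show u 8 = u 0 * _
    rw [β1, h8, hk]; ring
  · show u 7 = u 0 * _
    rw [β2, h7, hk]; ring

/-- a slot coarser than its own level stays coarser -/
theorem coarse_shift {ψ : ℕ → ℕ} (hψ : Tendsto ψ atTop atTop) (hpos : ∀ l, 0 < H l)
    {h' : ℕ → ℝ} (hp' : ∀ m, 0 < h' m) (h0' : Tendsto h' atTop (𝓝 0)) {k : Fin 12}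
    (hB : ∀ K : ℝ, ∀ᶠ l in atTop, X l k + K * H l ≤ rL (θ 0) (θ 1) w0 sa sb (v l) k)
    {c : Fin 12 → ℝ} :
    ∀ᶠ m in atTop, (X (ψ m) + H (ψ m) • c) k + 1 * (H (ψ m) * h' m) ≤
      rL (θ 0) (θ 1) w0 sa sb (v (ψ m) + H (ψ m) * c 0) k := by
  filter_upwards [hψ.eventually (hB (c k - c 0 * βL (θ 0) (θ 1) k + 1)),
    h0'.eventually_lt_const one_pos] with m h1 h2
  rw [Rcx363.rL_add, Pi.add_apply, Pi.smul_apply, Pi.add_apply, Pi.smul_apply, smul_eq_mul,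
    smul_eq_mul]
  have h3 := hpos (ψ m)
  have h4 := hp' m
  nlinarith

/-- **the own-strip fact at a `κ`-tie, `D` live** -/
theorem fctK9
    (C : CtxT G L r g s θ q Rg B I lev A f b vm w fr fl sc w0 sa sb δ R I0 I' ν own c₀)
    (hs0 : 0 ≤ s) (hs1 : s < 1) (hpos : ∀ l, 0 < H l) (h0 : Tendsto H atTop (𝓝 0))
    (ht : IsTan (Leg monL R) LM ν X H lam2)
    (hlip : ∃ K : ℝ, 0 ≤ K ∧ ∀ p ∈ LM, ∀ q ∈ LM, |lam2 p - lam2 q| ≤ K * ‖p - q‖)
    (hXn : ∀ l, X l = eL (zz l) (cc l) (pp l))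
    (hv : Tendsto v atTop (𝓝 v0)) (hv0 : 0 < v0) (hv1 : v0 < 1)
    (htie : ∀ l, ∀ k ∈ ({0, 1, 2} : Finset (Fin 12)), X l k = rL (θ 0) (θ 1) w0 sa sb (v l) k)
    (hB : ∀ k, k = 7 ∨ k = 8 → InvT PL B I k fl (sc k) ∨
      ∀ K : ℝ, ∀ᶠ l in atTop, X l k + K * H l ≤ rL (θ 0) (θ 1) w0 sa sb (v l) k)
    (Hp : Prf LM s a b' Vis' (βL (θ 0) (θ 1)) lam2) (hV : ∀ k, Vis' k → k = 0 ∨ k = 1 ∨ k = 2)
    (hT : InvT PL B I 1 fl (sc 1) ∧ TieT θ B I lev fl sc 2 ∨ TieT θ B I lev fl sc 1)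
    {k : ℝ} (hk : k = 2 * θ 0 - θ 1) : FctK9 k (fun u => lam2 (E9 u)) := by
  refine ⟨fun u Rr g0 g1 g2 g3 gp h7 h8 hL => ?_⟩
  have hu : LegM 0 u := by
    have e0 : u 0 + u 8 - u 7 = 0 := g0
    have e1 : u 0 + u 1 - u 3 = 0 := g1
    have e2 : u 7 + u 1 - u 6 = 0 := g2
    have e3 : u 8 + u 3 - u 6 = 0 := g3
    have e4 : 0 < u 1 + u 3 - u 5 := gp 4 (by decide)
    have e5 : 0 < u 1 + u 6 - u 2 := gp 5 (by decide)
    have e6 : 0 < u 8 + u 5 - u 2 := gp 6 (by decide)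
    have e7 : 0 < u 0 + u 2 - u 4 := gp 7 (by decide)
    have e8 : 0 < u 3 + u 6 - u 4 := gp 8 (by decide)
    have e9 : 0 < u 7 + u 5 - u 4 := gp 9 (by decide)
    constructor <;> linarith
  have e0 : u 0 + u 8 - u 7 = 0 := g0
  have e2 : u 7 + u 1 - u 6 = 0 := g2
  have e3 : u 8 + u 3 - u 6 = 0 := g3
  have hsT : ∀ k, VisT B I fl sc k → k ≠ 0 → k = 1 ∨ k = 2 ∨ k = 7 ∨ k = 8 := by
    intro k hk1 hk0
    by_contra hcon
    refine hk1 (C.out.inv_ray ?_)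
    clear hk1
    revert hk0 hcon
    revert k
    decide
  have hvB : ∀ k, k = 7 ∨ k = 8 → VisT B I fl sc k →
      ∀ K : ℝ, ∀ᶠ l in atTop, X l k + K * H l ≤ rL (θ 0) (θ 1) w0 sa sb (v l) k := by
    intro k hk1 hk2
    exact (hB k hk1).resolve_left hk2
  obtain ⟨ψ, h', lam3, Ψ, hψ, -, hp', h0', hTT, hTL, hΨ, hΨ0, hlin⟩ := tan_coreZ (J := Unit)
    (j0 := ()) (P := Leg monL R) (M := LM) (f := fun _ => ν) (lam2 := fun _ => lam2) (E := E9)
    LM_closed LM_zero (fun p hp q hq => LM_add hp hq) (fun t ht p hp => LM_smul ht hp) hpos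
    (fun _ => ht) (by obtain ⟨K, hK, h⟩ := hlip; exact ⟨K, hK, fun _ => h⟩) E9_add E9_zero
    (E9_mem hu) hL (Pr := fun _ _ => True) (fun _ => Eventually.of_forall fun _ => trivial)
  have hψt := hψ.tendsto_atTop
  have hTT := hTT ()
  have hTL := hTL ()
  have val : ∀ a0 a1 a2 a3 a4 a5 a6 a7 a8 : ℝ, LegM 0 ![a0, a1, a2, a3, a4, a5, a6, a7, a8] →
      lam3 () (E9 ![a0, a1, a2, a3, a4, a5, a6, a7, a8]) =
        -(Ψ ![a0, a1, a2, a3, a4, a5, a6, a7, a8] +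
          (Rr 1 * a1 + Rr 2 * a2 + Rr 3 * a3 + Rr 4 * a4 + Rr 5 * a5 + Rr 6 * a6)) := by
    intro a0 a1 a2 a3 a4 a5 a6 a7 a8 hl
    rw [hlin _ hl (E9_mem hl), sum_off]
  have hc := tie_E9 (θ := θ) hk h7 h8
  have l1 : LegM 0 ![(1:ℝ), 1, 1, 1, 1, 1, 1, 1, 1] := by apply lv <;> norm_num
  have l2 : LegM 0 ![(1:ℝ), 0, 0, 0, 0, 0, 0, 1, 1] := by apply lv <;> norm_num
  have l4 : LegM 0 ![(1:ℝ), 0, 0, 0, 0, 0, 1, 1, 1] := by apply lv <;> norm_num
  have hHh : Tendsto (fun m => H (ψ m) * h' m) atTop (𝓝 0) := by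
    have h1 := (h0.comp hψt).mul h0'
    simpa using h1
  have hHp : ∀ m, 0 < H (ψ m) * h' m := fun m => mul_pos (hpos _) (hp' m)
  have hv' : Tendsto (fun m => v (ψ m) + H (ψ m) * E9 u 0) atTop (𝓝 v0) := by
    have h1 := (hv.comp hψt).add ((h0.comp hψt).mul_const (E9 u 0))
    simpa using h1
  have nat2 : ∀ l, X l 2 = X l 0 + X l 1 := fun l => by rw [hXn l]; simp [eL]
  have nat7 : ∀ l, X l 7 = X l 2 + X l 3 := fun l => by rw [hXn l]; simp [eL]; ring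
  have nat8 : ∀ l, X l 8 = X l 2 + X l 4 := fun l => by rw [hXn l]; simp [eL]; ring
  have nat7' : ∀ l, X l 7 = X l 1 + X l 5 := fun l => by rw [hXn l]; simp [eL]; ring
  have nat8' : ∀ l, X l 8 = X l 1 + X l 6 := fun l => by rw [hXn l]; simp [eL]; ring
  rcases hT with ⟨hI1, hT2⟩ | hT1
  · -- `D` invisible, `E` tied, `D` raised
    have l3 : LegM 0 ![(0:ℝ), 0, 0, 0, 0, 0, 0, 0, 1] := by apply lv <;> norm_num
    have l5 : LegM 0 ![(1:ℝ), 1, 0, 0, 0, 0, 1, 1, 1] := by apply lv <;> norm_num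
    have l6 : LegM 0 ![(0:ℝ), 1, 1, 1, 1, 1, 1, 0, 1] := by apply lv <;> norm_num
    have hsh := tan_sh (D' := {c | Pi.single 1 1 + c ∈ LM}) hTT (c0 := Pi.single 1 1)
      (by
        show Pi.single 1 1 + (0 : Fin 12 → ℝ) ∈ LM
        rw [add_zero, bE_z]; exact E9_mem l3) (fun c hc => hc)
    have hden : DensT {0, 2} {1} 1 0 fun c => lam3 () (Pi.single 1 1 + c) -
        lam3 () (Pi.single 1 1) := by
      refine ⟨?_, le_rfl, zero_le_one, fun y hy hy1 => ?_⟩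
      · rw [bE_top, const_vec, bE_lin, bE_lev, bE_z, val _ _ _ _ _ _ _ _ _ l1,
          val _ _ _ _ _ _ _ _ _ l6, val _ _ _ _ _ _ _ _ _ l2, val _ _ _ _ _ _ _ _ _ l3,
          hΨ _ _ (off_eq (b1 := 0) (b2 := 0) (b3 := 0) (b4 := 0) (b5 := 0) (b6 := 0)) l1 l2,
          hΨ _ _ (off_eq (b1 := 0) (b2 := 0) (b3 := 0) (b4 := 0) (b5 := 0) (b6 := 0)) l6 l3]
        linarith
      · have l7 : LegM 0 ![y, 0, 0, 0, 0, 0, 0, 0, 1] := by apply lv <;> linarith
        rw [bE_0, bE_z]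
        have h1 := (SgO219.tan_mono hp' hTL Hp.anti _ (E9_mem l3) _ (E9_mem l7) (by
          intro i
          fin_cases i <;> simp [E9, bx9, hy])).1
        linarith
    have hb : TBase (θ 0) (θ 1) w0 sa sb v0 {0, 2}
        (fun m => X (ψ m) + H (ψ m) • E9 u + (H (ψ m) * h' m) • (Pi.single 1 1 : Fin 12 → ℝ))
        (fun m => v (ψ m) + H (ψ m) * E9 u 0) := by
      have hz : ∀ m j, j ≠ 1 → (X (ψ m) + H (ψ m) • E9 u +
          (H (ψ m) * h' m) • (Pi.single 1 1 : Fin 12 → ℝ)) j = (X (ψ m) + H (ψ m) • E9 u) j := by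
        intro m j hj
        rw [Pi.add_apply, Pi.smul_apply (H (ψ m) * h' m), Pi.single_eq_of_ne hj, smul_zero,
          add_zero]
      refine ⟨hv0, hv1, hv', fun m => ?_, fun m j hj => ?_⟩
      · rw [hz m 0 (by decide), tie_shift (htie (ψ m) 0 (by decide)) (hc 0 (by decide))]
        rfl
      · have hj1 : j ≠ 1 := by
          rintro rfl
          exact absurd hj (by decide)
        have hj2 : j ∈ ({0, 1, 2} : Finset (Fin 12)) := by
          revert hj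
          revert j
          decide
        rw [hz m j hj1, tie_shift (htie (ψ m) j hj2) (hc j hj2)]
    obtain ⟨kk, W, N, cw, E', g', T⟩ := exists_twinV C wsd_k one_pos hHp hHh hsh
      (fun p hp => leg_raise zero_le_one hp) hb (Ts := {2}) (by decide)
      (fun j hj => by rw [Finset.mem_singleton.1 hj]; exact hT2.2.1) (Sl := fun _ => {0})
      (fun _ _ => Or.inl rfl)
      (fun j hj => by
        rw [Finset.mem_singleton.1 hj]
        exact stC_of_TwP KF439.PL_d hT2.2.2.2)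
      (fun j hj0 hjv => by
        rcases hsT j hjv hj0 with rfl | rfl | h78
        · exact absurd hI1 hjv
        · exact Or.inl (by decide)
        · right
          have h1 := coarse_shift (w0 := w0) (sa := sa) (sb := sb) hψt hpos hp' h0'
            (hvB j h78 hjv) (c := E9 u)
          refine h1.mono fun m hm => ?_
          have hj1 : j ≠ 1 := by rcases h78 with rfl | rfl <;> decide
          rw [Pi.add_apply, Pi.smul_apply (H (ψ m) * h' m), Pi.single_eq_of_ne hj1, smul_zero,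
            add_zero]
          exact hm) hden
    have ev : ∀ m j, j ≠ 1 → (X (ψ m) + H (ψ m) • E9 u +
          (H (ψ m) * h' m) • (Pi.single 1 1 : Fin 12 → ℝ)) j =
          X (ψ m) j + H (ψ m) * E9 u j := by
      intro m j hj
      rw [Pi.add_apply, Pi.smul_apply (H (ψ m) * h' m), Pi.single_eq_of_ne hj, smul_zero,
        add_zero, Pi.add_apply, Pi.smul_apply, smul_eq_mul]
    have ev1 : ∀ m, (X (ψ m) + H (ψ m) • E9 u +
          (H (ψ m) * h' m) • (Pi.single 1 1 : Fin 12 → ℝ)) 1 =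
          X (ψ m) 1 + H (ψ m) * E9 u 1 + H (ψ m) * h' m := by
      intro m
      rw [Pi.add_apply, Pi.smul_apply (H (ψ m) * h' m), Pi.single_eq_same, smul_eq_mul, mul_one,
        Pi.add_apply, Pi.smul_apply, smul_eq_mul]
    have key := T.w3k one_pos (by decide) (fun _ _ => rfl) (by decide)
      (Eventually.of_forall fun m => by
        rw [ev m 7 (by decide), ev m 2 (by decide), ev m 3 (by decide), nat7]
        show _ + H (ψ m) * u 6 = _ + H (ψ m) * u 7 + (_ + H (ψ m) * u 1)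
        rw [show u 6 = u 7 + u 1 by linarith]; ring)
      (Eventually.of_forall fun m => by
        rw [ev m 8 (by decide), ev m 2 (by decide), ev m 4 (by decide), nat8]
        show _ + H (ψ m) * u 6 = _ + H (ψ m) * u 7 + (_ + H (ψ m) * u 1)
        rw [show u 6 = u 7 + u 1 by linarith]; ring)
      (Eventually.of_forall fun m => by
        rw [ev m 2 (by decide), ev m 0 (by decide), ev1 m, nat2]
        show _ + H (ψ m) * u 7 + _ ≤ _ + H (ψ m) * u 0 + (_ + H (ψ m) * u 8 + _)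
        rw [show u 7 = u 0 + u 8 by linarith]
        apply le_of_eq; ring)
      (Eventually.of_forall fun m => by
        rw [ev m 7 (by decide), ev m 5 (by decide), ev1 m, nat7']
        show _ + H (ψ m) * u 6 + _ ≤ _ + H (ψ m) * u 8 + _ + (_ + H (ψ m) * u 3)
        rw [show u 6 = u 8 + u 3 by linarith]
        apply le_of_eq; ring)
      (Eventually.of_forall fun m => by
        rw [ev m 8 (by decide), ev m 6 (by decide), ev1 m, nat8']
        show _ + H (ψ m) * u 6 + _ ≤ _ + H (ψ m) * u 8 + _ + (_ + H (ψ m) * u 3)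
        rw [show u 6 = u 8 + u 3 by linarith]
        apply le_of_eq; ring) (y := 1) zero_le_one le_rfl
    rw [bE_1, bE_2, bE_lev, val _ _ _ _ _ _ _ _ _ l4, val _ _ _ _ _ _ _ _ _ l5,
      val _ _ _ _ _ _ _ _ _ l2,
      hΨ _ _ (off_eq (b1 := 0) (b2 := 0) (b3 := 0) (b4 := 0) (b5 := 0) (b6 := 0)) l4 l2,
      hΨ _ _ (off_eq (b1 := 0) (b2 := 0) (b3 := 0) (b4 := 0) (b5 := 0) (b6 := 0)) l5 l2] at key
    linarith
  · -- `D` tied
    have l3 : LegM 0 ![(1:ℝ), 0, 0, 1, 0, 0, 1, 1, 1] := by apply lv <;> norm_num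
    have l5 : LegM 0 ![(1:ℝ), 1, 0, 1, 0, 0, 1, 1, 1] := by apply lv <;> norm_num
    have l6 : LegM 0 ![(0:ℝ), 1, 1, 1, 1, 1, 1, 0, 0] := by apply lv <;> norm_num
    have l8 : LegM 0 ![(0:ℝ), 0, 0, 0, 0, 0, 0, 0, 0] := by apply lv <;> norm_num
    have hz : (![(0:ℝ), 0, 0, 0, 0, 0, 0, 0, 0] : V9) = 0 := by
      funext i; fin_cases i <;> rfl
    have hden : DensT {0, 1, 2} ∅ 1 (1 - s) (lam3 ()) := by
      refine ⟨?_, by linarith, by linarith, fun y hy hy1 => ?_⟩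
      · rw [bD_top, const_vec, bD_lin, bD_lev, val _ _ _ _ _ _ _ _ _ l1,
          val _ _ _ _ _ _ _ _ _ l6, val _ _ _ _ _ _ _ _ _ l2,
          hΨ _ _ (off_eq (b1 := 0) (b2 := 0) (b3 := 0) (b4 := 0) (b5 := 0) (b6 := 0)) l1 l2,
          hΨ _ _ (off_eq (b1 := 0) (b2 := 0) (b3 := 0) (b4 := 0) (b5 := 0) (b6 := 0)) l6 l8, hz,
          hΨ0]
        linarith
      · have l7 : LegM 0 ![y, 0, 0, 0, 0, 0, 0, 0, 0] := by apply lv <;> linarith
        rw [bD_0]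
        have h1 := SgO219.tan_lim hp' hTL LM_zero (E9_mem l7)
        rw [tan_zero hp' hTL LM_zero, zero_sub] at h1
        have h2 := ge_of_tendsto h1 (b := (1 - s) * y) (Eventually.of_forall fun m => by
          have hm := hp' m
          have h3 := Hp.own (E9 u) (E9_mem hu) (E9 (u + h' m • ![y, 0, 0, 0, 0, 0, 0, 0, 0]))
            (E9_mem (hu.add_smul l7 hm.le)) (by
              rw [E9_add]
              intro i
              simp only [Pi.add_apply, Pi.smul_apply, smul_eq_mul]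
              have h4 : 0 ≤ E9 ![y, 0, 0, 0, 0, 0, 0, 0, 0] i := by
                fin_cases i <;> simp [E9, bx9, hy]
              have := mul_nonneg hm.le h4
              linarith) (E9 u 0) le_rfl (fun j hj => by
                rw [hc j (by rcases hV j hj with rfl | rfl | rfl <;> decide)])
          rw [le_div_iff₀ hm]
          rw [E9_add] at h3
          rw [smul_zero, add_zero]
          have h5 : (E9 u + h' m • E9 ![y, 0, 0, 0, 0, 0, 0, 0, 0]) 0 = E9 u 0 + h' m * y := rfl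
          rw [h5] at h3
          nlinarith)
        linarith
    have hb : TBase (θ 0) (θ 1) w0 sa sb v0 {0, 1, 2}
        (fun m => X (ψ m) + H (ψ m) • E9 u) (fun m => v (ψ m) + H (ψ m) * E9 u 0) := by
      refine ⟨hv0, hv1, hv', fun m => ?_, fun m j hj => ?_⟩
      · rw [tie_shift (htie (ψ m) 0 (by decide)) (hc 0 (by decide))]
        rfl
      · rw [tie_shift (htie (ψ m) j hj) (hc j hj)]
    obtain ⟨kk, W, N, cw, E', g', T⟩ := exists_twinV C wsd_d one_pos hHp hHh hTT leg_empty hb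
      (Ts := {1}) (by decide) (fun j hj => by rw [Finset.mem_singleton.1 hj]; exact hT1.2.1)
      (Sl := fun _ => {0}) (fun _ _ => Or.inl rfl)
      (fun j hj => by
        rw [Finset.mem_singleton.1 hj]
        exact stC_of_TwP KF439.PL_d hT1.2.2.2)
      (fun j hj0 hjv => by
        rcases hsT j hjv hj0 with rfl | rfl | h78
        · exact Or.inl (by decide)
        · exact Or.inl (by decide)
        · right
          exact coarse_shift (w0 := w0) (sa := sa) (sb := sb) hψt hpos hp' h0'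
            (hvB j h78 hjv) (c := E9 u)) hden
    have ev : ∀ m j, (X (ψ m) + H (ψ m) • E9 u) j = X (ψ m) j + H (ψ m) * E9 u j := by
      intro m j
      rw [Pi.add_apply, Pi.smul_apply, smul_eq_mul]
    have key := KW420.TWin.w3d T (by linarith) one_pos (by decide) (fun _ _ => rfl) (by decide)
      (Eventually.of_forall fun m => by
        rw [ev m 2, ev m 0, ev m 1, nat2]
        show _ + H (ψ m) * u 7 = _ + H (ψ m) * u 0 + (_ + H (ψ m) * u 8)
        rw [show u 7 = u 0 + u 8 by linarith]; ring)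
      (Eventually.of_forall fun m => by
        rw [ev m 7, ev m 2, ev m 3, nat7]
        show _ + H (ψ m) * u 6 = _ + H (ψ m) * u 7 + (_ + H (ψ m) * u 1)
        rw [show u 6 = u 7 + u 1 by linarith]; ring)
      (Eventually.of_forall fun m => by
        rw [ev m 8, ev m 2, ev m 4, nat8]
        show _ + H (ψ m) * u 6 = _ + H (ψ m) * u 7 + (_ + H (ψ m) * u 1)
        rw [show u 6 = u 7 + u 1 by linarith]; ring) (y := 1) zero_le_one le_rfl
    rw [bD_1, bD_2, bD_3, bD_lev, val _ _ _ _ _ _ _ _ _ l3, val _ _ _ _ _ _ _ _ _ l5,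
      val _ _ _ _ _ _ _ _ _ l2, val _ _ _ _ _ _ _ _ _ l4,
      hΨ _ _ (off_eq (b1 := 0) (b2 := 0) (b3 := 0) (b4 := 0) (b5 := 0) (b6 := 0)) l3 l2,
      hΨ _ _ (off_eq (b1 := 0) (b2 := 0) (b3 := 0) (b4 := 0) (b5 := 0) (b6 := 0)) l5 l2,
      hΨ _ _ (off_eq (b1 := 0) (b2 := 0) (b3 := 0) (b4 := 0) (b5 := 0) (b6 := 0)) l4 l2] at key
    linarith

end ctx

end Crest.Agent.R116.KW420
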