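import Crest.Agent.R116.Tk8_126
import Crest.Agent.R116.TwK9_420
import Crest.Agent.R116.Kt3_387
import Crest.Agent.R116.Fk1_647
import Crest.Agent.R116.Pd2_363

/-!
# R116 (K side, ties), `KUp'` over the context, `k > 1` (helper126)

* `Prf.drop0` : the slot `0` is no condition
* `fctK9_pd` : 420's own-strip fact on plane data whose offset has `0 = z = G = D`
* **`kU9ctx`** : `CtxT`, `Out9` on `kU9`, `oP9` ⊢ `KUp'`
-/

set_option autoImplicit false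
set_option linter.unusedVariables false
set_option linter.unusedSectionVars false

open Set Filter Topology MeasureTheory

namespace Crest.Agent.R116.Ku126

open Crest.Agent.R138
open Crest.Agent.R138.Ex926 (Base U IsTan)
open Crest.Agent.R136
open Crest.Agent.R136.MkA627
open Crest.Agent.R136.TD627
open Crest.Agent.R136.Net191
open Crest.Agent.R136.Lq196
open Crest.Agent.R136.Qg926 Crest.Agent.R136.Gf356 Crest.Agent.R116.EvL504
open Crest.Agent.R116.ChL222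
open Crest.Agent.R116.PL504 (nb rL DN eL βL oL Shift)
open Crest.Agent.R116.Sg337 (bx9 coneL DL natB)
open Crest.Agent.R116.Gd222 (TSet sN PDL DT)
open Crest.Agent.R116.KI439 hiding kD
open Crest.Agent.R116.KF439 (PL)
open Crest.Agent.R116.CtxB468
open Crest.Agent.R116.Rcx363
open Crest.Agent.R116.RbM219
open Crest.Agent.R116.RbK219 (RS SOk Par dl Aln)
open Crest.Agent.R116.SgO219 (PP)
open Crest.Agent.R116.Kz647
open Crest.Agent.R116.Pd363
open Crest.Agent.R116.WinG954 (LM)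
open Crest.Agent.R116.Tq741
open Crest.Agent.R116.Tq794 (E8 E9 E9_eq)
open Crest.Agent.R116.Tq126
open Crest.Agent.R116.Tp139 hiding cl8
open Crest.Agent.R116.Tie460 (Pl KF' KUp')
open Dg219 (mw Walls)
open Sl741 (slice xt rs)

/-- the slot `0` is no condition in `own` -/
theorem Prf.drop0 {L : Set (Fin 12 → ℝ)} {s : ℝ} {a b : Fin 2} {Vis : Fin 12 → Prop}
    {θa θb : ℝ} {g : (Fin 12 → ℝ) → ℝ} (H : Prf L s a b Vis (βL θa θb) g) :
    Prf L s a b (fun k => Vis k ∧ k ≠ 0) (βL θa θb) g where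
  ab := H.ab
  anti := H.anti
  sm := H.sm
  own := fun p hp q hq hpq u hu hk => H.own p hp q hq hpq u hu fun k hv => by
    by_cases h0 : k = 0
    · subst h0
      have : βL θa θb 0 = 1 := rfl
      rw [this, mul_one]
      exact hu
    · exact hk k ⟨hv, h0⟩
  cost := H.cost

section ctx

variable {G : Geo TSet (Fin 2)} {L : ℕ → ℕ → LRay} {r : ℕ → ℝ} {g s : ℝ} {θ q : Fin 2 → ℝ}
    {Rg : ℝ} {B : Base} {I : ℕ → Finset (ℕ × ℝ)} {lev : ℕ → ℚ → ℕ} {A : ℕ → ℝ}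
    {f : ℕ → ℚ → ℕ → ℤ → ℕ} {b : ℕ → ℚ → ℕ → TSet} {vm : ℕ → ℚ → ℝ} {w : Fin 2 → ℕ → ℚ → ℝ}
    {fr : ℕ → ℚ → ℕ × ℝ → LInc} {fl : ℕ → ℕ × ℝ → LInc} {sc : Fin 12 → ℕ → ℝ}
    {w0 sa sb δ R : ℝ} {I0 I' : ℕ → Finset (ℕ × ℝ)} {ν own : (Fin 12 → ℝ) → ℝ} {c₀ : ℝ}
    {v0 k κ sg l α cc0 : ℝ} {a b' : Fin 2} {x X : ℕ → Fin 12 → ℝ} {hh h' H : ℕ → ℝ}
    {lam lam2 : Fin 2 → (Fin 12 → ℝ) → ℝ} {T : Type*}

/-- **420's own-strip fact on plane data**, offset `nat9 0 c (2 c)` -/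
theorem fctK9_pd {ρ ρ2 : Fin 9 → ℝ}
    (C : CtxT G L r g s θ q Rg B I lev A f b vm w fr fl sc w0 sa sb δ R I0 I' ν own c₀)
    (hs0 : 0 ≤ s) (hs1 : s < 1) (hv0 : 0 < v0) (hv1 : v0 < 1)
    (P : Pd9 R s a b' (VisT B I fl sc) (θ 0) (θ 1) w0 sa sb v0 κ (nat9 0 cc0 (2 * cc0)) sg
      (fo ν own) lam ρ l α h' X H lam2 ρ2)
    (hlip : ∀ p ∈ PP (mw monL), ∀ q ∈ PP (mw monL), |lam 0 p - lam 0 q| ≤ (12:ℝ) * dist p q)
    (hI7 : InvT PL B I 7 fl (sc 7)) (hI8 : InvT PL B I 8 fl (sc 8))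
    (hT : InvT PL B I 1 fl (sc 1) ∧ TieT θ B I lev fl sc 2 ∨ TieT θ B I lev fl sc 1)
    (hk : k = 2 * θ 0 - θ 1) : FctK9 k (fun w => lam2 0 (RL9.vec w)) := by
  obtain ⟨zz, cc, pp, hX⟩ := P.nat
  obtain ⟨v, hv, hv1', hv2⟩ := P.tb (S := {0, 1, 2}) (by
      intro j hj
      have e0 : nat9 0 cc0 (2 * cc0) 0 = 0 := rfl
      rw [e0, zero_mul]
      rw [Finset.mem_insert, Finset.mem_insert, Finset.mem_singleton] at hj
      rcases hj with rfl | rfl | rfl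
      · rfl
      · show 2 * cc0 - 2 * cc0 - 0 = 0
        ring
      · show 2 * cc0 - 2 * cc0 = 0
        ring) (c := 0) (by intro j _; simp) (ψ := id) strictMono_id (u := fun _ => 0)
    tendsto_const_nhds
  have hL := L9B_nat (θa := θ 0) (θb := θ 1) 0 cc0 (2 * cc0) sg
  have ht2 := P.tan2 0
  have hl2 := SgO219.tan_lip P.half.hpos ht2 hlip
  rw [hL] at hl2
  have hVis : ∀ j, VisT B I fl sc j ∧ j ≠ 0 → j = 1 ∨ j = 2 := by
    rintro j ⟨hj, h0⟩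
    rcases Fk647.vis_flag C.out j hj with h | h | h | h | h
    · exact absurd h h0
    · exact Or.inl h
    · exact Or.inr h
    · subst h; exact absurd hI7 hj
    · subst h; exact absurd hI8 hj
  have key := KW420.fctK9 (X := X) (H := H) (v := v) C hs0 hs1 P.pos P.lim
    (P.tan0 0) ⟨12, by norm_num, fun p hp q hq => by
      have := hl2 p hp q hq
      rwa [dist_eq_norm] at this⟩ hX hv hv0 hv1 (fun m j hj => by
      have := hv2 m j hj
      simpa using this) (fun j hj => by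
        rcases hj with rfl | rfl
        · exact Or.inl hI7
        · exact Or.inl hI8) (Prf.drop0 P.prf0)
    (fun j hj => Or.inr (hVis j hj)) hT hk
  simpa only [E9_eq] using key

/-- 299's `tm_k`, `D` live, as a binder -/
def TmK9 (s k : ℝ) : Prop := ∀ {c : Fin 9 → Fin 9} {dl : V9} {Λ : V9 → ℝ} {φ : Fin 9 → V9 → ℝ}
  {ρ : V9}, Cl9 c dl s Λ φ ρ → Tk299.PlK True k c dl →
  Fct9 (fun w => w 7 < k * w 0 ∧ w 8 < (k - 1) * w 0) s Λ → FctK9 k Λ →
  KF' s k (Tk299.AK c s φ ρ)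

/-- **`KUp'` over the context, `k > 1`** -/
theorem kU9ctx_of (tm : TmK9 s k)
    (C : CtxT G L r g s θ q Rg B I lev A f b vm w fr fl sc w0 sa sb δ R I0 I' ν own c₀)
    (hs0 : 0 ≤ s) (hs1 : s < 1) (hθ : 0 < θ 0) (hk : 1 < k) (hb : θ 1 = 2 * θ 0 - k)
    (hk2 : 2 * θ 0 < k) (hv0 : 0 < v0) (hv1 : v0 < 1) (hI7 : InvT PL B I 7 fl (sc 7))
    (hI8 : InvT PL B I 8 fl (sc 8))
    (hT : InvT PL B I 1 fl (sc 1) ∧ TieT θ B I lev fl sc 2 ∨ TieT θ B I lev fl sc 1)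
    {Bs : T → Fin 9 → ℝ} {sgs : T → ℝ}
    (O : Out9 R s a b' (VisT B I fl sc) (θ 0) (θ 1) g (q 0) (q 1) Bs sgs
      (rL (θ 0) (θ 1) w0 sa sb v0) (fo ν own) x hh lam)
    {iU iP : T} (hU : Bs iU = kU9) (hU1 : sgs iU = 1) (hP : Bs iP = oP9) (hP1 : sgs iP = 1)
    (A' : Pl) : ∃ B', KUp' k (θ 0) s g (q 0) (q 1) A' B' := by
  have hvis : ∀ j, VisT B I fl sc j → j = 0 ∨ j = 1 ∨ j = 2 := by
    intro j hj
    rcases Fk647.vis_flag C.out j hj with h | h | h | h | h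
    · exact Or.inl h
    · exact Or.inr (Or.inl h)
    · exact Or.inr (Or.inr h)
    · subst h; exact absurd hI7 hj
    · subst h; exact absurd hI8 hj
  refine kU9up' hb O hθ hk hk2 hU hU1 hP hP1 hvis (fun P hC => ?_) A'
  refine tm hC (tk9_U hk hb) ?_ ?_
  · refine Kt387.pd9_fct' P C hs0 hs1.le hθ hv0 hv1 ?_
    intro w hw hSk i hi
    rcases hvis i hi with rfl | rfl | rfl
    · change w 0 ≤ w 0 * βL (θ 0) (θ 1) 0
      have : βL (θ 0) (θ 1) 0 = 1 := rfl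
      rw [this, mul_one]
    · change w 8 ≤ w 0 * βL (θ 0) (θ 1) 1
      have e2 : βL (θ 0) (θ 1) 1 = -(θ 1) - 2 * -(θ 0) - 1 := rfl
      have e3 : βL (θ 0) (θ 1) 1 = k - 1 := by rw [e2, hb]; ring
      rw [e3, mul_comm]
      exact hSk.2.le
    · change w 7 ≤ w 0 * βL (θ 0) (θ 1) 2
      have e2 : βL (θ 0) (θ 1) 2 = -(θ 1) - 2 * -(θ 0) := rfl
      have e3 : βL (θ 0) (θ 1) 2 = k := by rw [e2, hb]; ring
      rw [e3, mul_comm]
      exact hSk.1.le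
  · have e : kU9 = nat9 0 1 (2 * 1) := by unfold kU9; norm_num
    rw [e] at P
    exact fctK9_pd C hs0 hs1 hv0 hv1 P (fun p hp q hq => O.lip 0 p (by rwa [coneL_PP]) q
      (by rwa [coneL_PP])) hI7 hI8 hT (by rw [hb]; ring)

end ctx

end Crest.Agent.R116.Ku126
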