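import Crest.Agent.R116.TwK9_420
import Crest.Agent.R116.Pe0_794

/-!
# R116, ties (helper420): `FctK9` at the plane data `Pd9` of a natural offset on the `κ`-tie

* **`fctK9_pd`** : `CtxT` + `Pd9 .. (nat9 0 c (2 c)) ..` `⊢ FctK9 (2 θ_a - θ_b)`
-/

set_option autoImplicit false
set_option linter.unusedVariables false
set_option linter.unusedSectionVars false

open Finset Filter Topology

namespace Crest.Agent.R116.KW420

open Crest.Agent.R138.Ex926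
open Crest.Agent.R136
open Crest.Agent.R136.Net191
open Crest.Agent.R136.MkA627 Crest.Agent.R136.TD627 Crest.Agent.R136.Lq196
open Crest.Agent.R116.ChL222
open Crest.Agent.R116.PL504 (βL eL rL)
open Crest.Agent.R116.Gd222 (TSet)
open Crest.Agent.R116.KI439
open Crest.Agent.R116.KF439 (PL)
open Crest.Agent.R116.CtxB468
open Crest.Agent.R116.WinG954 (LM)
open Crest.Agent.R116.Rcx363 (fo fo_lip Prf)
open Crest.Agent.R116.RbM219
open Crest.Agent.R116.Kz647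
open Crest.Agent.R116.Pd363
open Crest.Agent.R116.Tq741
open Crest.Agent.R116.Tq794 (E9 E9_eq LM_L9B pd9_natural)

/-- less directions -/
theorem tan_restrict {V : Type*} [NormedAddCommGroup V] [NormedSpace ℝ V] {P D D' : Set V}
    {ν lam : V → ℝ} {x : ℕ → V} {h : ℕ → ℝ} (H : IsTan P D ν x h lam) (hD : D' ⊆ D) :
    IsTan P D' ν x h lam := fun C ε hε => (H C ε hε).mono fun l hl c hc => hl c (hD hc)

section ctx

variable {G : Geo TSet (Fin 2)} {L : ℕ → ℕ → LRay} {r : ℕ → ℝ} {g s : ℝ} {θ q : Fin 2 → ℝ}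
    {Rg : ℝ} {B : Base} {I : ℕ → Finset (ℕ × ℝ)} {lev : ℕ → ℚ → ℕ} {A : ℕ → ℝ}
    {f : ℕ → ℚ → ℕ → ℤ → ℕ} {b : ℕ → ℚ → ℕ → TSet} {vm : ℕ → ℚ → ℝ} {w : Fin 2 → ℕ → ℚ → ℝ}
    {fr : ℕ → ℚ → ℕ × ℝ → LInc} {fl : ℕ → ℕ × ℝ → LInc} {sc : Fin 12 → ℕ → ℝ}
    {w0 sa sb δ R : ℝ} {I0 I' : ℕ → Finset (ℕ × ℝ)} {ν own : (Fin 12 → ℝ) → ℝ} {c₀ : ℝ}
    {a b' : Fin 2} {Vis' : Fin 12 → Prop} {v0 κ : ℝ} {sg l α c p : ℝ} {X : ℕ → Fin 12 → ℝ}
    {h' H : ℕ → ℝ} {lam lam2 : Fin 2 → (Fin 12 → ℝ) → ℝ} {ρ ρ2 : Fin 9 → ℝ}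

/-- **the own-strip fact at the plane data of a natural offset on the `κ`-tie** -/
theorem fctK9_pd
    (C : CtxT G L r g s θ q Rg B I lev A f b vm w fr fl sc w0 sa sb δ R I0 I' ν own c₀)
    (hs0 : 0 ≤ s) (hs1 : s < 1)
    (P : Pd9 R s a b' Vis' (θ 0) (θ 1) w0 sa sb v0 κ (nat9 0 c p) sg (fo ν own) lam ρ l α h' X H
      lam2 ρ2) (hp : p = 2 * c) (hv0 : 0 < v0) (hv1 : v0 < 1)
    (hB : ∀ k, k = 7 ∨ k = 8 → InvT PL B I k fl (sc k) ∨
      ∀ K : ℝ, ∀ᶠ m in atTop, X m k + K * H m ≤ rL (θ 0) (θ 1) w0 sa sb (X m 0 - w0) k)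
    (hV : ∀ k, Vis' k → k = 0 ∨ k = 1 ∨ k = 2)
    (hT : InvT PL B I 1 fl (sc 1) ∧ TieT θ B I lev fl sc 2 ∨ TieT θ B I lev fl sc 1) :
    FctK9 (2 * θ 0 - θ 1) (fun w => lam2 0 (RL9.vec w)) := by
  obtain ⟨V, E, hV0, -, -, hb⟩ := P.base
  obtain ⟨zz, cc, pp, hXn⟩ := pd9_natural P
  have hx0 : ∀ m, X m 0 - w0 = v0 + V m := fun m => by
    rw [hb m 0]
    show w0 + (v0 + V m) + E m * 0 - w0 = _
    ring
  have h := fctK9 (v := fun m => X m 0 - w0) (v0 := v0) (zz := zz) (cc := cc) (pp := pp) C hs0 hs1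
    P.pos P.lim (tan_restrict (P.tan 0) LM_L9B)
    ⟨12, by norm_num, fun p' hp' q' hq' => by
      have := SgO219.tan_lip P.pos (P.tan 0) (K := 12) (fo_lip C 0) p' (LM_L9B hp') q'
        (LM_L9B hq')
      rwa [dist_eq_norm] at this⟩ hXn
    (by
      have h1 := hV0.const_add v0
      rw [add_zero] at h1
      exact h1.congr fun m => (hx0 m).symm) hv0 hv1
    (fun m k hk => by
      show X m k = rL (θ 0) (θ 1) w0 sa sb (X m 0 - w0) k
      rw [hx0, hb m k]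
      have e : nat9 0 c p (cl9 k) = 0 := by
        rw [Finset.mem_insert, Finset.mem_insert, Finset.mem_singleton] at hk
        rcases hk with rfl | rfl | rfl
        · rfl
        · show p - 2 * c - 0 = 0
          rw [hp]; ring
        · show p - 2 * c = 0
          rw [hp]; ring
      rw [e, mul_zero, add_zero]) hB (P.prf.mono LM_L9B) hV hT rfl
  have e : (fun w => lam2 0 (RL9.vec w)) = fun w => lam2 0 (E9 w) := by
    funext w
    rw [E9_eq]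
  rw [e]
  exact h

end ctx

end Crest.Agent.R116.KW420
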