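import Crest.Agent.R116.Pk1_348
import Crest.Agent.R116.Tk5_299
import Crest.Agent.R116.Tk9_126
import Crest.Agent.R116.TwM_420
import Crest.Agent.R116.IIr4_460
import Crest.Agent.R116.Hm1_621

/-!
# R116, `κ`-tie, cell K1 (helper79): `k' = 2 θa - θb > 1`, every `s`

* `low9`       : the plane `kD9` over `CtxT` ⊢ facts, tangency, vertical inequality, `qa ≤ m`
* **`fillK1`** : the data `KTie'` for `1 < k'`
-/

set_option autoImplicit false
set_option linter.unusedVariables false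
set_option linter.unusedSectionVars false

open Set Filter Topology MeasureTheory

namespace Crest.Agent.R116.FlK79

open Crest.Agent.R138
open Crest.Agent.R138.Ex926 (Base U IsTan)
open Crest.Agent.R136
open Crest.Agent.R136.MkA627
open Crest.Agent.R136.TD627
open Crest.Agent.R136.Net191
open Crest.Agent.R136.Lq196
open Crest.Agent.R136.Qg926 Crest.Agent.R136.Gf356 Crest.Agent.R116.EvL504
open Crest.Agent.R116.ChL222
open Crest.Agent.R116.PL504 (nb rL DN eL βL oL Shift)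
open Crest.Agent.R116.Sg337 (bx9 coneL DL natB)
open Crest.Agent.R116.Gd222 (TSet sN PDL DT)
open Crest.Agent.R116.KI439 hiding kD
open Crest.Agent.R116.KF439 (PL)
open Crest.Agent.R116.CtxB468
open Crest.Agent.R116.Rcx363
open Crest.Agent.R116.RbM219
open Crest.Agent.R116.RbK219 (RS SOk Par dl Aln)
open Crest.Agent.R116.SgO219 (PP)
open Crest.Agent.R116.Kz647
open Crest.Agent.R116.Pd363
open Crest.Agent.R116.WinG954 (LM)
open Crest.Agent.R116.Tq741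
open Crest.Agent.R116.Tq126
open Crest.Agent.R116.Tp139 hiding cl8
open Crest.Agent.R116.Pk348
open Crest.Agent.R116.KTop387 (NumL)
open Crest.Agent.R116.KTie794 (Fill InvB VisE)
open Crest.Agent.R116.Tie460 (Pl KF' KUp' KTie')
open Dg219 (mw Walls)
open Sl741 (slice xt rs)

/-- the slot `0` is no condition in the plane data -/
theorem pd9_drop0 {R s : ℝ} {a b : Fin 2} {Vis' : Fin 12 → Prop} {θa θb w0 sa sb v0 κ : ℝ}
    {B : Fin 9 → ℝ} {sg : ℝ} {f : Fin 2 → (Fin 12 → ℝ) → ℝ} {lam : Fin 2 → (Fin 12 → ℝ) → ℝ}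
    {ρ : Fin 9 → ℝ} {l α : ℝ} {h' : ℕ → ℝ} {X : ℕ → Fin 12 → ℝ} {H : ℕ → ℝ}
    {lam2 : Fin 2 → (Fin 12 → ℝ) → ℝ} {ρ2 : Fin 9 → ℝ}
    (P : Pd9 R s a b Vis' θa θb w0 sa sb v0 κ B sg f lam ρ l α h' X H lam2 ρ2) :
    Pd9 R s a b (fun k => Vis' k ∧ k ≠ 0) θa θb w0 sa sb v0 κ B sg f lam ρ l α h' X H lam2 ρ2 where
  half := P.half
  tan2 := P.tan2
  pos := P.pos
  lim := P.lim
  xlim := P.xlim
  base := P.base
  tan := P.tan
  prf := Ku126.Prf.drop0 P.prf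

section ctx

variable {G : Geo TSet (Fin 2)} {L : ℕ → ℕ → LRay} {r : ℕ → ℝ} {g s : ℝ} {θ q : Fin 2 → ℝ}
    {Rg : ℝ} {B : Base} {I : ℕ → Finset (ℕ × ℝ)} {lev : ℕ → ℚ → ℕ} {A : ℕ → ℝ}
    {f : ℕ → ℚ → ℕ → ℤ → ℕ} {b : ℕ → ℚ → ℕ → TSet} {vm : ℕ → ℚ → ℝ} {w : Fin 2 → ℕ → ℚ → ℝ}
    {fr : ℕ → ℚ → ℕ × ℝ → LInc} {fl : ℕ → ℕ × ℝ → LInc} {sc : Fin 12 → ℕ → ℝ}
    {w0 sa sb δ R : ℝ} {I0 I' : ℕ → Finset (ℕ × ℝ)} {ν own : (Fin 12 → ℝ) → ℝ} {c₀ : ℝ}
    {v0 k : ℝ} {a b' : Fin 2} {x : ℕ → Fin 12 → ℝ} {hh : ℕ → ℝ}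
    {lam : Fin 2 → (Fin 12 → ℝ) → ℝ} {T : Type*}

/-- **the side below the record of the `κ`-plane, `D` live** -/
theorem low9
    (C : CtxT G L r g s θ q Rg B I lev A f b vm w fr fl sc w0 sa sb δ R I0 I' ν own c₀)
    (hs0 : 0 ≤ s) (hs1 : s < 1) (hθ : 0 < θ 0) (hk : 1 < k) (hb : θ 1 = 2 * θ 0 - k)
    (hv0 : 0 < v0) (hv1 : v0 < 1) (hI7 : InvT PL B I 7 fl (sc 7)) (hI8 : InvT PL B I 8 fl (sc 8))
    (hT : InvT PL B I 1 fl (sc 1) ∧ TieT θ B I lev fl sc 2 ∨ TieT θ B I lev fl sc 1)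
    {Bs : T → Fin 9 → ℝ} {sgs : T → ℝ}
    (O : Out9 R s a b' (VisT B I fl sc) (θ 0) (θ 1) g (q 0) (q 1) Bs sgs
      (rL (θ 0) (θ 1) w0 sa sb v0) (fo ν own) x hh lam) {i : T} (hi : Bs i = kD9)
    (hi1 : sgs i = -1) :
    ∃ A' : Pl, KF' s k A' ∧ A'.Tan g (θ 0) (2 * θ 0 - k) (q 0) (q 1) ∧
      0 ≤ A'.Fa (q 0) + 2 * A'.Fb (q 1) ∧ q 0 ≤ A'.m := by
  obtain ⟨c0, hc0, hLW, -, ρ, hρ⟩ := O.surf i
  rw [hi, hi1] at hLW hρ
  obtain ⟨l, α, h', X, H, lam2, ρ2, φ, K⟩ := kdat9 C hs0 hs1.le hθ hk hb hv0 hv1 O hc0 hLW hρ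
  have hPd : Pd9 R s a b' (VisK (VisT B I fl sc)) (θ 0) (θ 1) w0 sa sb v0
      (DL g s (q 0) (q 1) 0 (-1) (-2)) (nat9 0 (-1) (-2)) (-1) (fo ν own) lam ρ l α h' X H lam2
      ρ2 := K.pd
  have hk' : 2 * θ 0 - θ 1 = k := by rw [hb]; ring
  have hW := KW420.fctK9_pd C hs0 hs1 (pd9_drop0 hPd) (by norm_num) hv0 hv1
    (fun j hj => by
      rcases hj with rfl | rfl
      · exact Or.inl hI7
      · exact Or.inl hI8)
    (fun j hj => by
      have h : j = 1 ∨ j = 2 := by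
        rcases Fk647.vis_flag C.out j hj.1.1 with h | h | h | h | h
        · exact absurd h hj.2
        · exact Or.inl h
        · exact Or.inr h
        · exact absurd h hj.1.2.1
        · exact absurd h hj.1.2.2
      first
        | exact h
        | exact Or.inr h) hT
  rw [hk'] at hW
  have hP := Ku126.tk9_D (θ := θ 0) (θb := θ 1) hk hb
  have hF : KF' s k (Tk299.AK (cK9 k) s φ ρ2) :=
    Tk299.kf9 hP K.cl hk hs0 hs1.le K.fct (fun w h7 h8 => ⟨h7.le, h8.le⟩)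
      (fun h => absurd trivial h) (fun _ => hW)
  have hTT := K.T
  rw [hb] at hTT
  have hVV := K.V
  have tv : TVk k (θ 0) s g (q 0) (q 1) 0 (-1) (Tk299.AK (cK9 k) s φ ρ2) :=
    Ku126.tvK K.cl hP (fun h => absurd trivial h) hTT (by
      have e : (2:ℝ) * (-1) + k * 0 = -2 := by ring
      rw [e]
      exact hVV)
  refine ⟨Tk299.AK (cK9 k) s φ ρ2, hF, tv.tan, tv.ver (by norm_num), ?_⟩
  show q 0 ≤ ρ2 1
  rw [K.r1]
  exact K.pos

/-- **`KTie'` over the context, `1 < k`** -/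
theorem kTie9
    (C : CtxT G L r g s θ q Rg B I lev A f b vm w fr fl sc w0 sa sb δ R I0 I' ν own c₀)
    (hs0 : 0 ≤ s) (hs1 : s < 1) (hθ : 0 < θ 0) (hk : 1 < k) (hb : θ 1 = 2 * θ 0 - k)
    (hR0 : w0 + (θ 1 + sb) < R) (hR1 : w0 + 1 + sb < R) (hRg : θ 0 + |θ 1| < Rg)
    (hI7 : InvT PL B I 7 fl (sc 7)) (hI8 : InvT PL B I 8 fl (sc 8))
    (hT : InvT PL B I 1 fl (sc 1) ∧ TieT θ B I lev fl sc 2 ∨ TieT θ B I lev fl sc 1) :
    KTie' k (θ 0) s g (q 0) (q 1) := by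
  have tm : Ku126.TmK9 s k := fun H P F W =>
    Tk299.kf9 P H hk hs0 hs1.le F (fun w h7 h8 => ⟨h7, h8⟩) (fun h => absurd trivial h)
      (fun _ => W)
  by_cases hk2 : 2 * θ 0 < k
  · obtain ⟨v0, -, hv0, hv1, a, b', x, hh, lam, -, O⟩ := exists_out9 (T := Fin 3) C hR0 hR1 hθ hRg
      (Bs := ![kD9, kU9, oP9]) (sg := ![-1, 1, 1])
      (fun i => by
        fin_cases i
        · exact sok_kD9 hk hb
        · exact sok_kU9 hk hb
        · exact sok_oP9 (by linarith) (by linarith) (by linarith) hθ)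
      (fun i => by
        fin_cases i
        · exact leg_kD9
        · exact leg_kU9
        · exact leg_oP9) (N := univ) (by simp)
    obtain ⟨A', h1, h2, h3, h4⟩ := low9 C hs0 hs1 hθ hk hb hv0 hv1 hI7 hI8 hT O (i := 0) rfl rfl
    exact ⟨A', h1, fun h => absurd h (by linarith), h2, h3, h4, fun _ h => absurd h (by linarith),
      fun _ h => absurd h (by linarith), fun _ _ =>
        Ku126.kU9ctx_of tm C hs0 hs1 hθ hk hb hk2 hv0 hv1 hI7 hI8 hT O (iU := 1) (iP := 2) rfl rfl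
          rfl rfl A'⟩
  · obtain ⟨v0, -, hv0, hv1, a, b', x, hh, lam, -, O⟩ := exists_out9 (T := Unit) C hR0 hR1 hθ hRg
      (Bs := fun _ => kD9) (sg := fun _ => -1) (fun i => sok_kD9 hk hb) (fun i => leg_kD9)
      (N := univ) (by simp)
    obtain ⟨A', h1, h2, h3, h4⟩ := low9 C hs0 hs1 hθ hk hb hv0 hv1 hI7 hI8 hT O (i := ()) rfl rfl
    exact ⟨A', h1, fun h => absurd h (by linarith), h2, h3, h4, fun _ h => absurd h (by linarith),
      fun _ h => absurd h (by linarith), fun h => absurd h hk2⟩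

end ctx

/-- **cell K1** : `κ`-tie or `D`-tie, `B` invisible, `k' > 1` -/
theorem fillK1 {η : ℝ} (hη : η < 1) :
    Fill η (fun θ B I lev fl sc => InvB B I fl sc ∧ VisE θ B I lev fl sc)
      fun g s θ q => 1 < 2 * θ 0 - θ 1 →
        Tie460.KTie' (2 * θ 0 - θ 1) (θ 0) s (g + 2 * s) (q 0) (q 1) := by
  intro g s θ q hN
  refine ⟨θ 0 + |θ 1| + 1, fun Rg hRg => ?_⟩
  intro G L r B I lev A f b vm w fr fl sc w0 sa sb δ R I0 I' ν own c₀ C hV hk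
  obtain ⟨hB, hE⟩ := hV
  obtain ⟨R', J0, J', ν', own', c', C', hR0, hR1⟩ := Hm621.strict_ctx C
  refine kTie9 C' hN.s0 hN.s1 hN.θa hk (by ring) hR0 hR1 (by linarith) hB.1 hB.2 ?_
  rcases hE with h | h
  · rcases C.out.clsD with h1 | h1
    · exact Or.inl ⟨h1, h⟩
    · exact Or.inr h1
  · exact Or.inr h

end Crest.Agent.R116.FlK79
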