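import Crest.Agent.R116.FlK9_363
import Crest.Agent.R116.FlK3_79
import Crest.Agent.R116.FlK2_30
import Crest.Agent.R116.Th5k_363

/-!
# R116, **`κ`-tie** : `FalseK η` for every `η < 1`, no binder (helper363)

Cells: `k' > 1` 79, `k' = 1` 30, `k' < 1`, `s < 1/2` 363, `1/2 ≤ s` 954, 538, 658 / 363.
-/

set_option autoImplicit false

namespace Crest.Agent.R116.FlK363

open Crest.Agent.R116.KTie794

/-- **the `κ`-tie is impossible** -/
theorem falseK {η : ℝ} (hη : η < 1) : FalseK η :=
  falseK_of3 hη (FlK79.fillK1 hη) (K1d30.fillK2 hη) (Th5k363.fillH5_k hη)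

end Crest.Agent.R116.FlK363
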