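import Crest.Agent.R116.FlK2_363
import Crest.Agent.R116.D0y5_219
import Crest.Agent.R116.FlH_850
import Crest.Agent.R116.Tk7_538
import Crest.Agent.R116.ApW_954

/-!
# R116, `κ`-tie: the cells together (helper363)

* `falseK_of3` : `FalseK η` from the cells `k' > 1`, `k' = 1` and `T⁻`, `1/2 ≤ s`
-/

set_option autoImplicit false
set_option linter.unusedVariables false

open Set Filter Topology

namespace Crest.Agent.R116.FlK363

open Crest.Agent.R116.KTop387
open Crest.Agent.R116.KTie794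
open Crest.Agent.R116.Tie460 (KTie')
open Crest.Agent.R116.FlH850

/-- **`FalseK`** from the cells `k' > 1` (79), `k' = 1` (30), `T⁻` at `1/2 ≤ s` (658) -/
theorem falseK_of3 {η : ℝ} (hη : η < 1)
    (h1 : Fill η (fun θ B I lev fl sc => InvB B I fl sc ∧ VisE θ B I lev fl sc)
      fun g s θ q => 1 < 2 * θ 0 - θ 1 →
        KTie' (2 * θ 0 - θ 1) (θ 0) s (g + 2 * s) (q 0) (q 1))
    (h2 : Fill η (fun θ B I lev fl sc => InvB B I fl sc ∧ VisE θ B I lev fl sc)
      fun g s θ q => 2 * θ 0 - θ 1 = 1 → False)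
    (h5 : Fill η (fun θ B I lev fl sc => InvB B I fl sc ∧ VisE θ B I lev fl sc)
      fun g s θ q => 1 / 2 ≤ s → 1 / 2 < 2 * θ 0 - θ 1 → 2 * θ 0 - θ 1 < 1 →
        1 + (2 * θ 0 - θ 1) ≤ 3 * θ 0 → False) : FalseK η := by
  refine falseK_cells hη ?_ (ApV954.fillHk fun _ _ _ _ _ _ h => h.1) Tk538.fillH2 h5
  refine (((fillK3 (D0y219.D0neg hη.le)).and h1).and h2).mono fun g s θ q hN h hr => ?_
  obtain ⟨⟨a, b⟩, c⟩ := h
  rcases lt_trichotomy (2 * θ 0 - θ 1) 1 with hk | hk | hk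
  · rcases hr with hs | h
    · exact a hs hk
    · exact absurd h (not_le.2 hk)
  · exact (c hk).elim
  · exact b hk

end Crest.Agent.R116.FlK363
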