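import Crest.Agent.R116.Hm2_621
import Crest.Agent.R116.D0h4_708
import Crest.Agent.R116.D0h5_894

/-!
# R116 (K side, TIES): the cell `1/2 ≤ s`, `e`-tie, `k < 1`, `(1 + k)/2 ≤ θa`, with D0 plugged (helper621)
-/

set_option autoImplicit false
set_option linter.unusedSectionVars false
set_option linter.unusedVariables false

open Set Filter Topology MeasureTheory

namespace Crest.Agent.R116.Hm621

open Crest.Agent.R116.KTie794

/-- **`e`-tie, `k < 1`, `(1 + k)/2 ≤ θa`, `1/2 ≤ s`**; `D0` at `1 ≤ β_D` is the only binder -/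
theorem fillE_lo3 {η : ℝ} (hη : η < 1)
    (hD : D0T η fun s θ => XLo s θ ∧ 1 ≤ 2 * θ 0 - θ 1 - 1) :
    Fill η (fun θ B I lev fl sc => VisB θ B I lev fl sc ∧ InvE B I fl sc)
      fun g s θ q => 1 / 2 ≤ s → θ 0 - θ 1 < 1 → 1 + (θ 0 - θ 1) ≤ 2 * θ 0 → False := by
  have h1 : D0T η fun s θ => XLo s θ ∧ 2 * θ 0 - θ 1 ≠ 1 :=
    D0T.mono (D0T.or (D0h708.d0H hη) hD) (Y := fun s θ => XLo s θ ∧ 2 * θ 0 - θ 1 ≠ 1)
      fun s θ h => by
        obtain ⟨⟨h1, h2, h3, h4⟩, h5⟩ := h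
        by_cases h6 : 2 * θ 0 - θ 1 - 1 < 1
        · refine Or.inl ⟨h1, by linarith, by linarith, by linarith, h6,
            fun h7 => h5 (by linarith), ?_⟩
          linarith
        · exact Or.inr ⟨⟨h1, h2, h3, h4⟩, not_lt.1 h6⟩
  have h2 : D0E η fun s θ => XLo s θ ∧ 2 * θ 0 - θ 1 = 1 :=
    D0E.mono (D0h0894.D0Hz hη) (Y := fun s θ => XLo s θ ∧ 2 * θ 0 - θ 1 = 1) fun s θ h => by
      obtain ⟨⟨h1, h2, h3, h4⟩, h5⟩ := h
      exact ⟨h1, h5, by linarith⟩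
  exact fillE_lo' hη h1 h2

end Crest.Agent.R116.Hm621
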