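import Crest.Agent.R116.Hm2_621
import Crest.Agent.R116.D0h5_708
import Crest.Agent.R116.D0h5_894

/-!
# R116 (K side, TIES): the cell `1/2 ≤ s`, `e`-tie, `k < 1`, `(1 + k)/2 ≤ θa`, no binder (helper621)
-/

set_option autoImplicit false
set_option linter.unusedSectionVars false
set_option linter.unusedVariables false

open Set Filter Topology MeasureTheory

namespace Crest.Agent.R116.Hm621

open Crest.Agent.R116.KTie794

/-- **D0 on the region of the cell**, `β_D ≠ 0` -/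
theorem d0_XLo {η : ℝ} (hη : η < 1) : D0T η fun s θ => XLo s θ ∧ 2 * θ 0 - θ 1 ≠ 1 :=
  D0T.mono (D0h708.d0H2 hη) (Y := fun s θ => XLo s θ ∧ 2 * θ 0 - θ 1 ≠ 1) fun s θ h => by
    obtain ⟨⟨h1, h2, h3, h4⟩, h5⟩ := h
    refine ⟨h1, by linarith, by linarith, by linarith, fun h7 => h5 (by linarith), by linarith,
      fun h8 => ?_⟩
    linarith [h8.1, h8.2]

/-- **D0 on the region of the cell**, `β_D = 0` -/
theorem d0_XLo0 {η : ℝ} (hη : η < 1) : D0E η fun s θ => XLo s θ ∧ 2 * θ 0 - θ 1 = 1 :=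
  D0E.mono (D0h0894.D0Hz hη) (Y := fun s θ => XLo s θ ∧ 2 * θ 0 - θ 1 = 1) fun s θ h => by
    obtain ⟨⟨h1, h2, h3, h4⟩, h5⟩ := h
    exact ⟨h1, h5, by linarith⟩

/-- **`e`-tie, `k < 1`, `(1 + k)/2 ≤ θa`, `1/2 ≤ s`** -/
theorem fillE_lo4 {η : ℝ} (hη : η < 1) :
    Fill η (fun θ B I lev fl sc => VisB θ B I lev fl sc ∧ InvE B I fl sc)
      fun g s θ q => 1 / 2 ≤ s → θ 0 - θ 1 < 1 → 1 + (θ 0 - θ 1) ≤ 2 * θ 0 → False :=
  fillE_lo' hη (d0_XLo hη) (d0_XLo0 hη)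

end Crest.Agent.R116.Hm621
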