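import Crest.Agent.R116.K3h_593
import Crest.Agent.R116.Kr9_710
import Crest.Agent.R136.CD2_366

/-!
# R116, ties: **[K3H]** over 710's `LLaw` (helper593)

`κ`-tie, `k' = 1` : level slots `{0, 2}`.  Fibre of a pin: `C, X` (slots `3 4 5 6`) and the normal slot
`11` fine, `H` (9) and `P` (10) coarse.  If the height graph of the flag `2` has no heavy strips
(linear modulus, `Strips` of `K3h_593`) and `H, P` have joint growth `≥ σ`, then the normal slot
has growth `≥ σ`.
-/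

set_option autoImplicit false
set_option linter.unusedVariables false
set_option linter.unusedSectionVars false

open Filter Topology Finset

namespace Crest.Agent.R116.K3h593

open Crest.Agent.R138.Ex926 (Base U)
open Crest.Agent.R138.TwA501 (dpow_pos dpow_anti dpow_add dpow_le_one)
open Crest.Agent.R136.Gf356
open Crest.Agent.R136.Rg6_501
open Crest.Agent.R116.ChL222 Crest.Agent.R116.PL504 Crest.Agent.R116.EvL504
open Crest.Agent.R116.Kr710

section alg

variable {S : Finset (Fin 12)}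

theorem evoS_k (h0 : (0 : Fin 12) ∈ S) (h2 : (2 : Fin 12) ∈ S)
    (h7 : (7 : Fin 12) ∉ S) (h8 : (8 : Fin 12) ∉ S) (hS : S ⊆ SL) (a c : Fin 12 → ℝ)
    (h1 : (1 : Fin 12) ∉ S ∨ a 1 = 0) :
    ((1 : Fin 12) ∉ S → evoS S a c 1 = c 1) ∧ evoS S a c 3 = c 3 ∧ evoS S a c 4 = c 4 ∧
    evoS S a c 5 = c 5 - a 0 * c 3 ∧ evoS S a c 6 = c 6 - a 0 * c 4 ∧
    evoS S a c 7 = c 7 + a 2 * c 3 ∧ evoS S a c 8 = c 8 + a 2 * c 4 ∧
    evoS S a c 9 = c 9 - a 0 * ((c 3 ^ 2 + c 4 ^ 2) / 2) ∧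
    evoS S a c 10 = c 10 - a 2 * ((c 3 ^ 2 + c 4 ^ 2) / 2) ∧
    evoS S a c 11 = c 11 - a 0 * c 10 - a 2 * (c 9 - a 0 * ((c 3 ^ 2 + c 4 ^ 2) / 2)) := by
  have n3 : (3 : Fin 12) ∉ S := fun h => by have := hS h; simp [SL] at this
  have n4 : (4 : Fin 12) ∉ S := fun h => by have := hS h; simp [SL] at this
  have n5 : (5 : Fin 12) ∉ S := fun h => by have := hS h; simp [SL] at this
  have n6 : (6 : Fin 12) ∉ S := fun h => by have := hS h; simp [SL] at this
  have n9 : (9 : Fin 12) ∉ S := fun h => by have := hS h; simp [SL] at this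
  have n10 : (10 : Fin 12) ∉ S := fun h => by have := hS h; simp [SL] at this
  have n11 : (11 : Fin 12) ∉ S := fun h => by have := hS h; simp [SL] at this
  have e1 : LvS S a 1 = 0 := by
    rcases h1 with h1 | h1
    · simp [LvS, h1]
    · simp [LvS, h1]
  refine ⟨fun h => ?_, ?_, ?_, ?_, ?_, ?_, ?_, ?_, ?_, ?_⟩
  · simp [evoS, comp, LvS, LnS, hgt, h]
  all_goals
    simp only [evoS, comp, e1]
    simp [LvS, LnS, hgt, h0, h2, h7, h8, n3, n4, n5, n6, n9, n10, n11]

end alg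

theorem dpow_sq (B : Base) (n : ℕ) (t : ℝ) : B.d n ^ (2 * t) = (B.d n ^ t) ^ 2 := by
  rw [sq, ← dpow_add]; congr 1; ring

/-- exponents of the fibre of [K3H] -/
structure KD (x : ℝ) (pS : Fin 12 → ℝ) : Prop where
  x0 : 0 < x
  le : ∀ s, pS s ≤ x
  f3 : pS 3 = x
  f4 : pS 4 = x
  f5 : pS 5 = x
  f6 : pS 6 = x
  f11 : pS 11 = x
  z9 : pS 9 = 0
  z10 : pS 10 = 0

open Classical in
/-- **[K3H] over `LLaw`** -/
theorem k3h_law {σ R a γ x : ℝ} {B : Base} {G : ℕ → RCfg (Fin 12)} {Leg : Set (Fin 12 → ℝ)}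
    {ν : (Fin 12 → ℝ) → ℝ} {D : ℝ} {S : Finset (Fin 12)} {own : ℕ → ℕ → ℕ → ℕ → Fin 12 → ℝ}
    (H : RModel B G σ R Leg ν D) (L : LLaw B G S own x) (h2 : (2 : Fin 12) ∈ S)
    (h1 : (1 : Fin 12) ∉ S ∨ ∀ n i k₀ k, own n i k₀ k 1 = 0) (h7 : (7 : Fin 12) ∉ S)
    (h8 : (8 : Fin 12) ∉ S) (hxR : x ≤ R)
    (i0 : ℕ → ℕ) (hi0 : ∀ᶠ n in (U : Filter ℕ), i0 n ∈ (G n).L) (f : ℕ → ℕ → ℝ)
    (hzf : ∀ᶠ n in (U : Filter ℕ), ∀ k ∈ (G n).Z, |(G n).z k| ≤ 1 ∧ |f n k| ≤ 1)
    {pS : Fin 12 → ℝ} (K : KD x pS) (lS : pS ∈ Leg) (lT : Function.update pS 11 0 ∈ Leg)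
    (lQ : ∀ t : ℝ, 0 ≤ t → t ≤ x → Function.update (Function.update pS 9 t) 10 t ∈ Leg)
    {Cf : ℝ} (hCf : 0 ≤ Cf)
    (own2 : ∀ ε : ℝ, 0 < ε → ∀ᶠ n in (U : Filter ℕ), ∀ k₀ ∈ (G n).hts (i0 n), ∀ k ∈ (G n).Z,
      ∀ i ∈ (G n).box pS ε (i0 n) k₀, (i, k) ∈ (G n).I →
      |own n i k₀ k 2 - (f n k₀ - f n k)| ≤ B.d n ^ (x - Cf * ε))
    (hst : Strips B (fun n => (G n).Z) (fun n => (G n).z) f x γ) (hγ : 0 < γ) (ha : 0 ≤ a)
    (lossQ : ∀ t : ℝ, 0 ≤ t → t ≤ x →
      σ * t ≤ ν pS - ν (Function.update (Function.update pS 9 t) 10 t))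
    (lossF : ν (Function.update pS 11 0) - ν pS ≤ a * x) : σ ≤ a := by
  have hD := H.D1
  have hD2 : 1 ≤ D ^ 2 := one_le_pow₀ hD
  set C1 : ℝ := 2 * D ^ 2 + Cf + 6 with hC1
  have hC11 : 1 ≤ C1 := by rw [hC1]; linarith
  refine k3h ha H.σ_le hγ H.toRUnif i0 (fun n => (G n).Z) (fun n => (G n).hts (i0 n))
    (fun n => (G n).z) f (fun n k₀ i i' => (G n).rel k₀ i i' 10)
    (fun n k₀ i i' => -(G n).rel k₀ i i' 9) pS (Function.update pS 11 0) pS
    (fun t => Function.update (Function.update pS 9 t) 10 t) x C1 C1 ?_ hst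
  have hx := K.x0
  refine
    { x_pos := hx
      C1_nonneg := by linarith
      C4_pos := by linarith
      bd := ?_
      frost := ?_
      pins := ?_
      pinI := ?_
      legS := lS
      legT := lT
      legr := lS
      Tr := ?_
      legQ := lQ
      one := ?_
      alive := ?_
      mv := ?_
      inT := ?_
      inQ := ?_
      lossQ := lossQ
      lossF := lossF }
  · filter_upwards [hzf] with n hn
    obtain ⟨⟨i, k⟩, hik⟩ := H.nonempty n
    exact ⟨⟨k, (mem_product.1 (H.sub n hik)).2⟩, hn⟩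
  · intro y hy0 hyx ε hε
    filter_upwards [H.frost y hy0 (hyx.trans hxR) ε hε] with n hn k hk T hT hTk
    refine le_trans (Nat.cast_le.2 (card_le_card fun k' hk' => ?_)) (hn k hk)
    unfold RCfg.hbox
    rw [mem_filter, H.base n]
    exact ⟨hT hk', hTk k' hk'⟩
  · intro ε hε
    filter_upwards [H.line ε hε, hi0] with n hn hi
    refine ⟨filter_subset _ _, le_trans ?_ (hn _ hi)⟩
    exact mul_le_mul_of_nonneg_right (dpow_anti B n (by nlinarith)) (Nat.cast_nonneg _)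
  · exact Eventually.of_forall fun n k₀ hk₀ => (RCfg.mem_hts.1 hk₀).2
  · intro j
    by_cases hj : j = 11
    · subst hj; rw [Function.update_self, K.f11]; exact hx.le
    · rw [Function.update_of_ne hj]
  · intro ε hε
    filter_upwards [L.bd ε hε] with n hn k₀ hk₀ i hi i' hi'
    have a1 := H.memSlice.1 (RCfg.box_subset_slice hi)
    have a2 := H.memSlice.1 (RCfg.box_subset_slice hi')
    have h3 : B.d n ^ (-ε) ≤ B.d n ^ (-(C1 * ε)) := dpow_anti B n (by nlinarith)
    refine ⟨(hn k₀ i i' a1 a2 10).trans h3, ?_⟩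
    rw [abs_neg]
    exact (hn k₀ i i' a1 a2 9).trans h3
  · intro ε hε
    filter_upwards [H.line ε hε] with n hn k₀ hk₀ i hi T hT hTi
    have a1 := H.memSlice.1 (RCfg.box_subset_slice hi)
    have a2 : i ∈ (G n).L := (mem_product.1 (H.sub n a1)).1
    refine le_trans (mul_le_mul_of_nonneg_right (dpow_anti B n (by nlinarith))
      (Nat.cast_nonneg _)) ((hn i a2).trans ?_)
    refine Nat.cast_le.2 (card_le_card fun k hk => ?_)
    obtain ⟨b1, b2⟩ := RCfg.mem_hts.1 hk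
    exact hTi k b1 b2
  · -- the movement of the normal slot
    intro ε hε
    filter_upwards [Crest.Agent.R136.CD366.box_pair H.toRUnif pS lS hε, L.evo ε hε, L.own0 ε hε,
      L.ownbd ε hε, L.bd ε hε, own2 ε hε, Crest.Agent.R136.Gf356.ev_const_le B hε 6] with
      n b1 b2 b3 b4 b5 b6 b7 k₀ hk₀ k hk i hi i' hi' hik hi'k hl
    have hI0 : (i0 n, k₀) ∈ (G n).I := (RCfg.mem_hts.1 hk₀).2
    have a1 := H.memSlice.1 (RCfg.box_subset_slice hi)
    have a2 := H.memSlice.1 (RCfg.box_subset_slice hi')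
    have hp := b1 k₀ (i0 n) i i' hI0 hi hi'
    have hev := b2 k₀ k i i' a1 a2 hik hi'k 11
      (fun h => by have := L.SSL h; simp [SL] at this)
    rw [(evoS_k L.S0 h2 h7 h8 L.SSL _ _ (h1.imp id fun h => h n i k₀ k)).2.2.2.2.2.2.2.2.2] at hev
    set c := (G n).rel k₀ i i' with hc
    set o := own n i k₀ k with ho
    have c11 : |c 11| ≤ B.d n ^ (x - D ^ 2 * ε) := by
      have := hp 11; rwa [H.base n, K.f11] at this
    have c3 : |c 3| ≤ B.d n ^ (x - D ^ 2 * ε) := by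
      have := hp 3; rwa [H.base n, K.f3] at this
    have c4 : |c 4| ≤ B.d n ^ (x - D ^ 2 * ε) := by
      have := hp 4; rwa [H.base n, K.f4] at this
    have hR : |(G n).rel k i i' 11| ≤ B.d n ^ (x - ε) := by
      have := hl 11; rwa [H.base n, K.f11] at this
    have o0 := b4 i k₀ k a1 hik 0
    have o2 := b4 i k₀ k a1 hik 2
    have e0 := b3 i k₀ k a1 hik
    have c9 := b5 k₀ i i' a1 a2 9
    have c10 := b5 k₀ i i' a1 a2 10
    have e2 := b6 k₀ hk₀ k hk i hi hik
    rw [← ho] at o0 o2 e0 e2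
    rw [← hc] at c9 c10
    set E1 : ℝ := 2 * D ^ 2 + Cf + 3 with hE1
    set q : ℝ := (c 3 ^ 2 + c 4 ^ 2) / 2 with hq
    have hd := fun t => dpow_pos B n t
    have hqb : |q| ≤ B.d n ^ (2 * (x - D ^ 2 * ε)) := by
      have s3 : c 3 ^ 2 ≤ B.d n ^ (2 * (x - D ^ 2 * ε)) := by
        rw [dpow_sq, ← sq_abs]
        exact pow_le_pow_left₀ (abs_nonneg _) c3 2
      have s4 : c 4 ^ 2 ≤ B.d n ^ (2 * (x - D ^ 2 * ε)) := by
        rw [dpow_sq, ← sq_abs]
        exact pow_le_pow_left₀ (abs_nonneg _) c4 2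
      have : 0 ≤ q := by rw [hq]; positivity
      rw [abs_of_nonneg this, hq]
      linarith
    have t1 : |c 11| ≤ B.d n ^ (x - E1 * ε) := c11.trans (dpow_anti B n (by rw [hE1]; nlinarith))
    have t2 : |(G n).rel k i i' 11| ≤ B.d n ^ (x - E1 * ε) :=
      hR.trans (dpow_anti B n (by rw [hE1]; nlinarith))
    have t3 : |o 2 * o 0 * q| ≤ B.d n ^ (x - E1 * ε) := by
      rw [abs_mul, abs_mul]
      calc |o 2| * |o 0| * |q| ≤ B.d n ^ (-ε) * B.d n ^ (-ε) * B.d n ^ (2 * (x - D ^ 2 * ε)) := by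
            gcongr
        _ = B.d n ^ (2 * x - (2 * D ^ 2 + 2) * ε) := by
            rw [← dpow_add, ← dpow_add]; congr 1; ring
        _ ≤ _ := dpow_anti B n (by rw [hE1]; nlinarith)
    have t4 : |(o 0 + ((G n).z k - (G n).z k₀)) * c 10| ≤ B.d n ^ (x - E1 * ε) := by
      rw [abs_mul]
      calc |o 0 + ((G n).z k - (G n).z k₀)| * |c 10| ≤ B.d n ^ (x - ε) * B.d n ^ (-ε) := by
            gcongr
            exact (hd _).le
        _ = B.d n ^ (x - 2 * ε) := by rw [← dpow_add]; congr 1; ring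
        _ ≤ _ := dpow_anti B n (by rw [hE1]; nlinarith)
    have t5 : |(o 2 - (f n k₀ - f n k)) * c 9| ≤ B.d n ^ (x - E1 * ε) := by
      rw [abs_mul]
      calc |o 2 - (f n k₀ - f n k)| * |c 9| ≤ B.d n ^ (x - Cf * ε) * B.d n ^ (-ε) := by
            gcongr
            exact (hd _).le
        _ = B.d n ^ (x - (Cf + 1) * ε) := by rw [← dpow_add]; congr 1; ring
        _ ≤ _ := dpow_anti B n (by rw [hE1]; nlinarith)
    have t6 : |(G n).rel k i i' 11 - (c 11 - o 0 * c 10 - o 2 * (c 9 - o 0 * q))| ≤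
        B.d n ^ (x - E1 * ε) := hev.trans (dpow_anti B n (by rw [hE1]; nlinarith))
    have key : ((G n).z k - (G n).z k₀) * c 10 - (f n k - f n k₀) * (-c 9) =
        (G n).rel k i i' 11 - c 11 - o 2 * o 0 * q -
          ((G n).rel k i i' 11 - (c 11 - o 0 * c 10 - o 2 * (c 9 - o 0 * q))) +
          (o 0 + ((G n).z k - (G n).z k₀)) * c 10 + (o 2 - (f n k₀ - f n k)) * c 9 := by ring
    show |((G n).z k - (G n).z k₀) * c 10 - (f n k - f n k₀) * (-c 9)| ≤ _
    rw [key]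
    have g1 := abs_le.1 t1
    have g2 := abs_le.1 t2
    have g3 := abs_le.1 t3
    have g4 := abs_le.1 t4
    have g5 := abs_le.1 t5
    have g6 := abs_le.1 t6
    have h6 : 6 * B.d n ^ (x - E1 * ε) ≤ B.d n ^ (x - C1 * ε) := by
      calc 6 * B.d n ^ (x - E1 * ε) ≤ B.d n ^ (-ε) * B.d n ^ (x - E1 * ε) :=
            mul_le_mul_of_nonneg_right b7 (hd _).le
        _ = B.d n ^ (x - (E1 + 1) * ε) := by rw [← dpow_add]; congr 1; ring
        _ ≤ _ := dpow_anti B n (by rw [hE1, hC1]; nlinarith)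
    refine le_trans ?_ h6
    rw [abs_le]
    constructor <;> linarith
  · -- the fibre at the other heights
    intro ε hε
    filter_upwards [Crest.Agent.R136.CD366.box_pair H.toRUnif pS lS hε, L.evo ε hε,
      L.ownbd ε hε, L.bd ε hε, Crest.Agent.R136.Gf356.ev_const_le B hε 3] with
      n b1 b2 b4 b5 b7 k₀ hk₀ k hk i hi i' hi' hik hi'k
    have hI0 : (i0 n, k₀) ∈ (G n).I := (RCfg.mem_hts.1 hk₀).2
    have a1 := H.memSlice.1 (RCfg.box_subset_slice hi)
    have a2 := H.memSlice.1 (RCfg.box_subset_slice hi')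
    have hp := b1 k₀ (i0 n) i i' hI0 hi hi'
    have hev := b2 k₀ k i i' a1 a2 hik hi'k
    obtain ⟨v1, v3, v4, v5, v6, v7, v8, -, -, -⟩ :=
      evoS_k L.S0 h2 h7 h8 L.SSL (own n i k₀ k) ((G n).rel k₀ i i')
        (h1.imp id fun h => h n i k₀ k)
    have hd := fun t => dpow_pos B n t
    have o0 := b4 i k₀ k a1 hik 0
    have o2 := b4 i k₀ k a1 hik 2
    set c := (G n).rel k₀ i i' with hc
    set o := own n i k₀ k with ho
    set E2 : ℝ := D ^ 2 + 1 with hE2
    have hcb : ∀ s, |c s| ≤ B.d n ^ (pS s - D ^ 2 * ε) := fun s => by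
      have := hp s; rwa [H.base n] at this
    -- three terms
    have three : ∀ (s : Fin 12) (A P : ℝ), |(G n).rel k i i' s - (c s + P)| ≤ B.d n ^ (x - ε) →
        |P| ≤ B.d n ^ (pS s - E2 * ε) →
        |(G n).rel k i i' s| ≤ B.d n ^ (pS s - C1 * ε) := by
      intro s A P q1 q2
      have q3 := (hcb s).trans (dpow_anti B n (show pS s - E2 * ε ≤ pS s - D ^ 2 * ε by
        rw [hE2]; nlinarith))
      have q4 := q1.trans (dpow_anti B n (show pS s - E2 * ε ≤ x - ε by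
        have := K.le s; rw [hE2]; nlinarith))
      have h3 : 3 * B.d n ^ (pS s - E2 * ε) ≤ B.d n ^ (pS s - C1 * ε) := by
        calc 3 * B.d n ^ (pS s - E2 * ε) ≤ B.d n ^ (-ε) * B.d n ^ (pS s - E2 * ε) :=
              mul_le_mul_of_nonneg_right b7 (hd _).le
          _ = B.d n ^ (pS s - (E2 + 1) * ε) := by rw [← dpow_add]; congr 1; ring
          _ ≤ _ := dpow_anti B n (by rw [hE2, hC1]; nlinarith)
      refine le_trans ?_ h3
      have g1 := abs_le.1 q2
      have g2 := abs_le.1 q3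
      have g3 := abs_le.1 q4
      rw [abs_le]
      constructor <;> linarith
    -- products with `c 3`, `c 4`
    have prod : ∀ (s j : Fin 12) (t : ℝ), (j = 3 ∨ j = 4) → |t| ≤ B.d n ^ (-ε) →
        |t * c j| ≤ B.d n ^ (pS s - E2 * ε) := by
      intro s j t hj ht
      have q1 : |c j| ≤ B.d n ^ (x - D ^ 2 * ε) := by
        rcases hj with rfl | rfl
        · have := hcb 3; rwa [K.f3] at this
        · have := hcb 4; rwa [K.f4] at this
      rw [abs_mul]
      calc |t| * |c j| ≤ B.d n ^ (-ε) * B.d n ^ (x - D ^ 2 * ε) := by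
            gcongr
        _ = B.d n ^ (x - E2 * ε) := by rw [← dpow_add]; congr 1; rw [hE2]; ring
        _ ≤ _ := dpow_anti B n (by have := K.le s; linarith)
    have zeroP : ∀ s : Fin 12, |(0 : ℝ)| ≤ B.d n ^ (pS s - E2 * ε) := fun s => by
      rw [abs_zero]; exact (hd _).le
    have coarse : ∀ s : Fin 12, Function.update pS 11 0 s ≤ 0 →
        |(G n).rel k i i' s| ≤ B.d n ^ (Function.update pS 11 0 s - C1 * ε) := by
      intro s hs
      exact (b5 k i i' hik hi'k s).trans (dpow_anti B n (by nlinarith))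
    have neg : ∀ (t : ℝ), |t| ≤ B.d n ^ (-ε) → |-t| ≤ B.d n ^ (-ε) := fun t ht => by rwa [abs_neg]
    intro s
    rw [H.base n]
    by_cases hs : s ∈ S
    · rw [L.relS n k i i' s hs, abs_zero]; exact (hd _).le
    · have he := hev s hs
      fin_cases s
      · exact absurd L.S0 hs
      · show |(G n).rel k i i' 1| ≤ B.d n ^ (pS 1 - C1 * ε)
        refine three 1 0 0 ?_ (zeroP 1)
        rw [add_zero, ← v1 hs]; exact he
      · exact absurd h2 hs
      · show |(G n).rel k i i' 3| ≤ B.d n ^ (pS 3 - C1 * ε)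
        refine three 3 0 0 ?_ (zeroP 3)
        rw [add_zero, ← v3]; exact he
      · show |(G n).rel k i i' 4| ≤ B.d n ^ (pS 4 - C1 * ε)
        refine three 4 0 0 ?_ (zeroP 4)
        rw [add_zero, ← v4]; exact he
      · show |(G n).rel k i i' 5| ≤ B.d n ^ (pS 5 - C1 * ε)
        refine three 5 0 (-(o 0) * c 3) ?_ (prod 5 3 _ (Or.inl rfl) (neg _ o0))
        have e : c 5 + -(o 0) * c 3 = evoS S o c 5 := by rw [v5]; ring
        rw [e]; exact he
      · show |(G n).rel k i i' 6| ≤ B.d n ^ (pS 6 - C1 * ε)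
        refine three 6 0 (-(o 0) * c 4) ?_ (prod 6 4 _ (Or.inr rfl) (neg _ o0))
        have e : c 6 + -(o 0) * c 4 = evoS S o c 6 := by rw [v6]; ring
        rw [e]; exact he
      · show |(G n).rel k i i' 7| ≤ B.d n ^ (pS 7 - C1 * ε)
        refine three 7 0 (o 2 * c 3) ?_ (prod 7 3 _ (Or.inl rfl) o2)
        have e : c 7 + o 2 * c 3 = evoS S o c 7 := by rw [v7]
        rw [e]; exact he
      · show |(G n).rel k i i' 8| ≤ B.d n ^ (pS 8 - C1 * ε)
        refine three 8 0 (o 2 * c 4) ?_ (prod 8 4 _ (Or.inr rfl) o2)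
        have e : c 8 + o 2 * c 4 = evoS S o c 8 := by rw [v8]
        rw [e]; exact he
      · exact coarse 9 (by rw [Function.update_of_ne (by decide), K.z9])
      · exact coarse 10 (by rw [Function.update_of_ne (by decide), K.z10])
      · exact coarse 11 (by rw [Function.update_self])
  · -- the boxes `Q t`
    intro t ht0 htx ε hε
    filter_upwards [Crest.Agent.R136.CD366.box_pair H.toRUnif pS lS hε] with
      n b1 k₀ hk₀ i hi i' hi' hP hX
    have hI0 : (i0 n, k₀) ∈ (G n).I := (RCfg.mem_hts.1 hk₀).2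
    have hp := b1 k₀ (i0 n) i i' hI0 hi hi'
    intro s
    rw [H.base n]
    by_cases h10 : s = 10
    · subst h10
      rw [Function.update_self]
      exact hP.trans (dpow_anti B n (by nlinarith))
    · rw [Function.update_of_ne h10]
      by_cases h9 : s = 9
      · subst h9
        rw [Function.update_self]
        rw [abs_neg] at hX
        exact hX.trans (dpow_anti B n (by nlinarith))
      · rw [Function.update_of_ne h9]
        have := hp s
        rw [H.base n] at this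
        exact this.trans (dpow_anti B n (by rw [hC1]; nlinarith))

end Crest.Agent.R116.K3h593
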