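import Crest.Agent.R116.Kst2_593
import Crest.Agent.R116.K3h_593

/-!
# R116, K side: own strips in a window (helper593), part 3: interface

`exO W rl ex` = extra partitions for the pruning: real line, (real line, fat line), (fat line,
height), then the partitions `ex` of the user.  For `E'` pruned inside the whole class:

* `strip_fat` : a strip (slope 0) on a fat line has share `<= d'^(γ τ - o(1))` of its heights;
* `strip_zero`, `strip_all` : strips in the set of all heights (slope 0 / any slope);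
* `alive_part` : form of the hypothesis `hal` of `KW2_420`;
* `Strips` of `K3h_593`.
-/

set_option autoImplicit false
set_option linter.unusedSectionVars false
set_option linter.unusedVariables false

open Filter Topology

namespace Crest.Agent.R116.Kst593

open Finset Crest.Agent.R138.Ex926 Crest.Agent.R136.Net191 Crest.Agent.R136.Gf356
open Crest.Agent.R136.Qg926

variable {m : ℕ} {ι : ℕ → Type*} [∀ n, DecidableEq (ι n)]

/-- extra partitions for the pruning -/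
noncomputable def exO (W : Wnd m ι) (rl : ∀ n, ι n → ℕ) (ex : ℕ → ∀ n, ι n → ℕ) :
    ℕ → ∀ n, ι n → ℕ
  | 0 => rl
  | 1 => fun n i => Nat.pair (rl n i) (W.lc n i)
  | 2 => fun n i => Nat.pair (W.lc n i) (W.zc n i)
  | (j + 3) => ex j

section

variable {W : Wnd m ι} {κ : Type*} [DecidableEq κ] {rl : ∀ n, ι n → ℕ} {cw : ∀ n, ι n → κ}
  {t : Fin m} {Sl : Set ℝ} {N : ℕ → ℝ} {x γ : ℝ} {E' : ∀ n, Finset (ι n)} {g : ℕ → ℝ}
  {ex : ℕ → ∀ n, ι n → ℕ}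

/-- **strips (slope 0) on a fat line**; `φ` follows the slot `t` of the real lines inside the fat
line `l` -/
theorem strip_fat (h : W.Ok) (R : RLines W rl N) (H : WStrip W rl cw t Sl N x γ)
    (h0 : (0 : ℝ) ∈ Sl) (hP : Wnd.Pruned W W.Cl E' g (exO W rl ex))
    {τ : ℝ} (hτ : 0 < τ) (hτx : τ ≤ x) (K : ℝ) {ε : ℝ} (hε : 0 < ε) :
    ∀ᶠ n in (U : Filter ℕ), ∀ l, ∀ φ : ℕ → ℝ,
      (∀ i ∈ E' n, ∀ j ∈ E' n, W.lc n i = l → W.lc n j = l → rl n j = rl n i →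
        |φ (W.zc n j) - φ (W.zc n i) - W.crd n i j t| ≤ K * W.B'.d n ^ τ) →
      ∀ a : ℝ, ∀ T ⊆ (W.cfg E' n).hts l, (∀ k ∈ T, |φ k - a| ≤ K * W.B'.d n ^ τ) →
      (T.card : ℝ) ≤ W.B'.d n ^ (γ * τ - ε) * (((W.cfg E' n).hts l).card : ℝ) := by
  have H0 : WStrip W rl cw t {0} N x γ :=
    H.mono le_rfl le_rfl (Set.singleton_subset_iff.2 h0)
  filter_upwards [H0.fat (j₁ := 1) (j₂ := 2) h hP (Eventually.of_forall fun n i _ j _ hij =>
      (Nat.pair_eq_pair.1 hij)) (fun n i => rfl) (fun n => div_pos (h.cls.T0 n) (R.N0 n))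
      R.fat hτ hτx K hε, Wnd.ev_cfg h h.eok_class hP] with n h1 h2
  rw [h2.2.2.2]
  exact h1

/-- **strips of slope 0 in the set of all heights** -/
theorem strip_zero (h : W.Ok) (R : RLines W rl N) (H : WStrip W rl cw t {0} N x γ)
    (hP : Wnd.Pruned W W.Cl E' g (exO W rl ex)) (hγ : 0 ≤ γ)
    {f : ℕ → ℕ → ℝ} (hf : HCmp W rl t {0} f x) {τ : ℝ} (hτ : 0 < τ) (hτx : τ ≤ x) {ε : ℝ}
    (hε : 0 < ε) :
    ∀ᶠ n in (U : Filter ℕ), ∀ a : ℝ, ∀ T ⊆ (W.cfg E' n).Z,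
      (∀ k ∈ T, |f n k - a| ≤ W.B'.d n ^ τ) →
      (T.card : ℝ) ≤ W.B'.d n ^ (γ * τ - ε) * ((W.cfg E' n).Z.card : ℝ) := by
  filter_upwards [H.zero (j₀ := 0) h hP (Eventually.of_forall fun n i _ j _ hij => hij)
      (fun n => div_pos (h.cls.T0 n) (R.N0 n)) R.lines hγ hf hτ hτx hε,
    Wnd.ev_cfg h h.eok_class hP] with n h1 h2
  rw [h2.2.2.2]
  exact h1

/-- **strips of any slope in the set of all heights** -/
theorem strip_all (h : W.Ok) (R : RLines W rl N) (H : WStrip W rl cw t Set.univ N x γ)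
    (hP : Wnd.Pruned W W.Cl E' g (exO W rl ex)) (hγ : 0 ≤ γ)
    {σ Rr : ℝ} {Leg : Set (Fin m → ℝ)} {ν : (Fin m → ℝ) → ℝ} {Dc : ℝ}
    (hmod : RModel W.B' (W.cfg E') σ Rr Leg ν Dc)
    (hxR : x ≤ Rr) (hx2 : 2 * x ≤ W.top W.kz)
    {f : ℕ → ℕ → ℝ} (hf : HCmp W rl t Set.univ f x)
    (hfb : ∀ ε : ℝ, 0 < ε → ∀ᶠ n in (U : Filter ℕ), ∀ k ∈ (W.cfg E' n).Z,
      ∀ k' ∈ (W.cfg E' n).Z, |f n k - f n k'| ≤ W.B'.d n ^ (-ε))
    {τ : ℝ} (hτ : 0 < τ) (hτx : τ ≤ x) {ε : ℝ} (hε : 0 < ε) :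
    ∀ᶠ n in (U : Filter ℕ), ∀ a μ : ℝ, ∀ T ⊆ (W.cfg E' n).Z,
      (∀ k ∈ T, |f n k - a - μ * (W.cfg E' n).z k| ≤ W.B'.d n ^ τ) →
      (T.card : ℝ) ≤ W.B'.d n ^ (min γ σ * τ - ε) * ((W.cfg E' n).Z.card : ℝ) :=
  H.all (j₀ := 0) h hP (Eventually.of_forall fun n i _ j _ hij => hij)
    (fun n => div_pos (h.cls.T0 n) (R.N0 n)) R.lines hγ hmod
    ((Wnd.ev_cfg h h.eok_class hP).mono fun n hn => hn.2.2.2) hxR hx2 hf hfb hτ hτx hε

/-- **`Strips` of `K3h_593`** for a part `Zs n` of the heights with full share -/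
theorem strips (h : W.Ok) (R : RLines W rl N) (H : WStrip W rl cw t Set.univ N x γ)
    (hP : Wnd.Pruned W W.Cl E' g (exO W rl ex)) (hγ : 0 ≤ γ)
    {σ Rr : ℝ} {Leg : Set (Fin m → ℝ)} {ν : (Fin m → ℝ) → ℝ} {Dc : ℝ}
    (hmod : RModel W.B' (W.cfg E') σ Rr Leg ν Dc)
    (hxR : x ≤ Rr) (hx2 : 2 * x ≤ W.top W.kz)
    {f : ℕ → ℕ → ℝ} (hf : HCmp W rl t Set.univ f x)
    (hfb : ∀ ε : ℝ, 0 < ε → ∀ᶠ n in (U : Filter ℕ), ∀ k ∈ (W.cfg E' n).Z,
      ∀ k' ∈ (W.cfg E' n).Z, |f n k - f n k'| ≤ W.B'.d n ^ (-ε))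
    (Zs : ℕ → Finset ℕ) (hZs : ∀ᶠ n in (U : Filter ℕ), Zs n ⊆ (W.cfg E' n).Z)
    (hbig : ∀ ε : ℝ, 0 < ε → ∀ᶠ n in (U : Filter ℕ),
      W.B'.d n ^ ε * ((W.cfg E' n).Z.card : ℝ) ≤ ((Zs n).card : ℝ)) :
    K3h593.Strips W.B' Zs (fun n => (W.cfg E' n).z) f x (min γ σ) := by
  intro τ hτ hτx ε hε
  filter_upwards [strip_all h R H hP hγ hmod hxR hx2 hf hfb hτ hτx (ε := ε / 2) (by positivity),
    hZs, hbig (ε / 2) (by positivity)] with n h1 h2 h3 k₁ hk₁ μ T hT hst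
  have h4 := h1 (f n k₁ - μ * (W.cfg E' n).z k₁) μ T (hT.trans h2) (fun k hk => by
    have := hst k hk
    have e1 : f n k - (f n k₁ - μ * (W.cfg E' n).z k₁) - μ * (W.cfg E' n).z k =
        f n k - f n k₁ - μ * ((W.cfg E' n).z k - (W.cfg E' n).z k₁) := by ring
    rwa [e1])
  have hp := fun s => rp_pos W.B' n s
  have h5 : ((W.cfg E' n).Z.card : ℝ) ≤ W.B'.d n ^ (-(ε / 2)) * ((Zs n).card : ℝ) := by
    have := mul_le_mul_of_nonneg_left h3 (hp (-(ε / 2))).le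
    rw [← mul_assoc, ← rp_add] at this
    simpa using this
  calc (T.card : ℝ) ≤ W.B'.d n ^ (min γ σ * τ - ε / 2) * ((W.cfg E' n).Z.card : ℝ) := h4
    _ ≤ W.B'.d n ^ (min γ σ * τ - ε / 2) * (W.B'.d n ^ (-(ε / 2)) * ((Zs n).card : ℝ)) :=
        mul_le_mul_of_nonneg_left h5 (hp _).le
    _ = W.B'.d n ^ (min γ σ * τ - ε) * ((Zs n).card : ℝ) := by
        rw [← mul_assoc, ← rp_add]; congr 2; ring

/-- **most heights of a fat line are moved** (form of `hal` in `KW2_420`): `Zg n` = heights in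
use, alive on a full share of the heights of every line of `S n` -/
theorem alive_part (h : W.Ok) (R : RLines W rl N) (H : WStrip W rl cw t Sl N x γ)
    (h0 : (0 : ℝ) ∈ Sl) (hγ : 0 < γ) (hx : 0 < x)
    (hP : Wnd.Pruned W W.Cl E' g (exO W rl ex))
    (S Zg : ℕ → Finset ℕ) (φ : ℕ → ℕ → ℕ → ℝ)
    (hZg : ∀ᶠ n in (U : Filter ℕ), Zg n ⊆ (W.cfg E' n).Z)
    (hal : ∀ ε : ℝ, 0 < ε → ∀ᶠ n in (U : Filter ℕ), ∀ i ∈ S n,
      W.B'.d n ^ ε * ((W.cfg E' n).Z.card : ℝ) ≤ (((Zg n) ∩ (W.cfg E' n).hts i).card : ℝ))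
    (hφ : ∀ ε : ℝ, 0 < ε → ∀ᶠ n in (U : Filter ℕ), ∀ l ∈ S n, ∀ i ∈ E' n, ∀ j ∈ E' n,
      W.lc n i = l → W.lc n j = l → rl n j = rl n i →
        |φ n l (W.zc n j) - φ n l (W.zc n i) - W.crd n i j t| ≤ W.B'.d n ^ (x - ε))
    {ε : ℝ} (hε : 0 < ε) :
    ∀ᶠ n in (U : Filter ℕ), ∀ l ∈ S n, ∀ T ⊆ Zg n,
      (∀ k ∈ Zg n, k ∈ (W.cfg E' n).hts l → W.B'.d n ^ ε ≤ |φ n l k| → k ∈ T) →
      W.B'.d n ^ ε * ((Zg n).card : ℝ) ≤ (T.card : ℝ) := by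
  -- exponent of the strip
  set τ : ℝ := min (x / 2) ε with hτ
  have hτ0 : 0 < τ := lt_min (by linarith) hε
  have hτx : τ ≤ x := (min_le_left _ _).trans (by linarith)
  have hτε : τ ≤ ε := min_le_right _ _
  have hγτ : 0 < γ * τ := mul_pos hγ hτ0
  set δ : ℝ := min (γ * τ / 4) (ε / 4) with hδ
  have hδ0 : 0 < δ := lt_min (by positivity) (by positivity)
  have hδ1 : δ ≤ γ * τ / 4 := min_le_left _ _
  have hδ2 : δ ≤ ε / 4 := min_le_right _ _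
  filter_upwards [strip_fat h R H h0 hP hτ0 hτx 1 hδ0, hal δ hδ0, hZg,
    hφ (x / 2) (by linarith), W.B'.ev_rpow_small (η := γ * τ / 4) (c := 1 / 2) (by positivity)
      (by norm_num), W.B'.ev_rpow_small (η := ε / 4) (c := 1 / 2) (by positivity)
      (by norm_num)] with n h1 h2 h3 h4 h5 h6 l hl T hT hTT
  have hp := fun s => rp_pos W.B' n s
  set Zc : ℝ := ((W.cfg E' n).Z.card : ℝ) with hZc
  have hZc0 : 0 ≤ Zc := Nat.cast_nonneg _
  set Bd := ((Zg n) ∩ (W.cfg E' n).hts l).filter fun k => |φ n l k| ≤ W.B'.d n ^ τ with hBd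
  have c1 : (Bd.card : ℝ) ≤ W.B'.d n ^ (γ * τ - δ) * (((W.cfg E' n).hts l).card : ℝ) := by
    refine h1 l (φ n l) (fun i hi j hj hil hjl hr => ?_) 0 Bd ?_ (fun k hk => ?_)
    · rw [one_mul]
      refine (h4 l hl i hi j hj hil hjl hr).trans (rp_anti _ _ ?_)
      have := min_le_left (x / 2) ε
      rw [hτ]; linarith
    · exact (filter_subset _ _).trans inter_subset_right
    · rw [sub_zero, one_mul]
      exact (mem_filter.1 hk).2
  have c2 : (((W.cfg E' n).hts l).card : ℝ) ≤ Zc := by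
    rw [hZc]; exact_mod_cast card_le_card (filter_subset _ _)
  have c3 : (((Zg n) ∩ (W.cfg E' n).hts l) \ Bd) ⊆ T := by
    intro k hk
    obtain ⟨k1, k2⟩ := mem_sdiff.1 hk
    obtain ⟨k3, k4⟩ := mem_inter.1 k1
    refine hTT k k3 k4 ?_
    by_contra hcon
    push Not at hcon
    exact k2 (mem_filter.2 ⟨k1, hcon.le.trans (rp_anti _ _ hτε)⟩)
  have c4 : ((((Zg n) ∩ (W.cfg E' n).hts l)).card : ℝ) ≤ Bd.card + T.card := by
    have h7 := card_le_card_sdiff_add_card (s := (Zg n) ∩ (W.cfg E' n).hts l) (t := Bd)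
    have h8 := card_le_card c3
    have : ((Zg n) ∩ (W.cfg E' n).hts l).card ≤ Bd.card + T.card := by omega
    exact_mod_cast this
  have c5 : W.B'.d n ^ (γ * τ - δ) ≤ W.B'.d n ^ δ * (1 / 2) := by
    have e1 : γ * τ / 4 + (γ * τ * (3 / 4) - δ) = γ * τ - δ := by ring
    calc W.B'.d n ^ (γ * τ - δ) ≤ W.B'.d n ^ (δ + γ * τ / 4) := rp_anti _ _ (by linarith)
      _ = W.B'.d n ^ δ * W.B'.d n ^ (γ * τ / 4) := rp_add _ _ _ _
      _ ≤ _ := mul_le_mul_of_nonneg_left h5 (hp _).le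
  have c6 : W.B'.d n ^ δ * Zc ≤ W.B'.d n ^ δ * (1 / 2) * Zc + T.card := by
    refine (h2 l hl).trans (c4.trans ?_)
    refine add_le_add ?_ le_rfl
    refine c1.trans ?_
    exact mul_le_mul c5 c2 (Nat.cast_nonneg _) (mul_pos (hp _) (by norm_num)).le
  have c7 : W.B'.d n ^ δ * (1 / 2) * Zc ≤ T.card := by linarith
  have c8 : ((Zg n).card : ℝ) ≤ Zc := by
    rw [hZc]; exact_mod_cast card_le_card h3
  have c9 : W.B'.d n ^ ε ≤ W.B'.d n ^ δ * (1 / 2) := by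
    calc W.B'.d n ^ ε ≤ W.B'.d n ^ (δ + ε / 4) := rp_anti _ _ (by linarith)
      _ = W.B'.d n ^ δ * W.B'.d n ^ (ε / 4) := rp_add _ _ _ _
      _ ≤ _ := mul_le_mul_of_nonneg_left h6 (hp _).le
  calc W.B'.d n ^ ε * ((Zg n).card : ℝ) ≤ (W.B'.d n ^ δ * (1 / 2)) * Zc :=
        mul_le_mul c9 c8 (Nat.cast_nonneg _) (mul_pos (hp _) (by norm_num)).le
    _ ≤ T.card := c7

end

end Crest.Agent.R116.Kst593
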