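import Crest.Agent.R116.K3W1_593
import Crest.Agent.R116.Kst3_593
import Crest.Agent.R116.EvL6_504

/-!
# R116, ties: [K3H] in a window (helper593)

`κ`-tie, `k' = 1` : the level slots are `0, 2` (and possibly `1`, frozen).

* `cpl`, `crd2`, `crd1` : exact laws of the slots `2`, `1`;
* `fb W b n k` = slot `2` of the height `k` seen from the incidence `b n`; `hcmp2` : `HCmp` for it;
* `own_two` : own motion of the slot `2` against `fb`;
* **`k3h_nat`** (slot `D` natural), **`k3h_fro`** (slot `D` frozen).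
-/

set_option autoImplicit false
set_option linter.unusedVariables false
set_option linter.unusedSectionVars false

open Filter Topology Finset

namespace Crest.Agent.R116.K3h593

open Crest.Agent.R138.Ex926 (Base U)
open Crest.Agent.R138.TwA501 (dpow_pos dpow_anti dpow_add dpow_le_one)
open Crest.Agent.R136.Gf356 Crest.Agent.R136.Net191 Crest.Agent.R136.Qg926
open Crest.Agent.R116.ChL222 Crest.Agent.R116.PL504 Crest.Agent.R116.EvL504
open Crest.Agent.R116.Kr710 Crest.Agent.R116.Kst593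

variable {ι : ℕ → Type*} [∀ n, DecidableEq (ι n)] {W : Wnd 12 ι} {K tp : ℝ}

/-- coupling of the slots `0, 1` in the slot `2` -/
noncomputable def cpl (W : Wnd 12 ι) (n : ℕ) : ℝ := side W n 0 * side W n 1 / side W n 2

theorem cpl_nonneg (h : WL W K tp) (n : ℕ) : 0 ≤ cpl W n :=
  div_nonneg (mul_nonneg (h.side_pos' n 0).le (h.side_pos' n 1).le) (h.side_pos' n 2).le

theorem cpl_le (h : WL W K tp) {n : ℕ} (g : W.Good n) : cpl W n ≤ 1 := by
  unfold cpl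
  rw [div_le_one (h.side_pos' n 2)]
  exact (h.sides g).w2

theorem crd2 (h : WL W K tp) (n : ℕ) (i j l : ι n) :
    W.crd n i l 2 = W.crd n i j 2 + W.crd n j l 2 -
      2 * (cpl W n * (W.crd n i j 1 * W.crd n j l 0)) := by
  rw [h.crd_add i j l 2]
  unfold compW cpl
  have h2 := (h.side_pos' n 2).ne'
  show (side W n 2 * W.crd n i j 2 + side W n 2 * W.crd n j l 2 -
    2 * ((side W n 1 * W.crd n i j 1) * (side W n 0 * W.crd n j l 0))) / side W n 2 = _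
  field_simp

theorem crd1 (h : WL W K tp) (n : ℕ) (i j l : ι n) :
    W.crd n i l 1 = W.crd n i j 1 + W.crd n j l 1 := by
  rw [h.crd_add i j l 1]
  exact FrX.compW_D h _ _

/-- slot `2` of the height `k` seen from `b n` -/
noncomputable def fb (W : Wnd 12 ι) (b : ∀ n, ι n) (n k : ℕ) : ℝ :=
  W.crd n (b n) (W.zrep n k) 2

theorem fb_near (h : WL W K tp) (h2 : (2 : Fin 12) ∈ W.S) {n : ℕ} (g : W.Good n) {b : ∀ n, ι n}
    (hb : b n ∈ W.Cl n) {j : ι n} (hj : j ∈ W.Cl n) :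
    |fb W b n (W.zc n j) - W.crd n (b n) j 2| ≤ 3 * W.B'.d n ^ tp := by
  obtain ⟨r1, r2⟩ := W.zrep_spec hj
  have e := crd2 h n (b n) j (W.zrep n (W.zc n j))
  have a2 := h.crd_z g hj r1 r2.symm h2
  have a0 := h.crd_z g hj r1 r2.symm h.z0
  have b1 := h.crd_le g hb hj 1
  have c0 := cpl_nonneg h n
  have c1 := cpl_le h g
  have r0 := h.r0 n
  have q : |cpl W n * (W.crd n (b n) j 1 * W.crd n j (W.zrep n (W.zc n j)) 0)| ≤
      W.B'.d n ^ tp := by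
    rw [abs_mul, abs_mul, abs_of_nonneg c0]
    calc cpl W n * (|W.crd n (b n) j 1| * |W.crd n j (W.zrep n (W.zc n j)) 0|)
        ≤ 1 * (1 * W.B'.d n ^ tp) := by gcongr
      _ = _ := by ring
  unfold fb
  rw [e]
  rw [abs_le] at a2 q ⊢
  constructor <;> linarith [a2.1, a2.2, q.1, q.2]

theorem fb_le (h : WL W K tp) {n : ℕ} (g : W.Good n) {b : ∀ n, ι n} (hb : b n ∈ W.Cl n) {k : ℕ}
    (hk : W.zrep n k ∈ W.Cl n) : |fb W b n k| ≤ 1 := h.crd_le g hb hk 2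

/-- **`HCmp` for the slot `2`** -/
theorem hcmp2 (h : WL W K tp) (h2 : (2 : Fin 12) ∈ W.S) {b : ∀ n, ι n}
    (hb : ∀ᶠ n in (U : Filter ℕ), b n ∈ W.Cl n) (rl : ∀ n, ι n → ℕ) {x : ℝ} (hx : x ≤ tp) :
    HCmp W rl 2 Set.univ (fb W b) x := by
  intro ε hε
  filter_upwards [hb, h.ok.ev_good, ev_up W 6 tp hε] with n hb g hu i hi
  refine ⟨-(2 * (cpl W n * W.crd n (b n) i 1)), Set.mem_univ _, fun j hj _ => ?_⟩
  have f1 := fb_near h h2 g hb hi
  have f2 := fb_near h h2 g hb hj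
  have e := crd2 h n (b n) i j
  rw [h.kz]
  have e2 : (fb W b n (W.zc n j) - fb W b n (W.zc n i)) - W.crd n i j 2 -
      -(2 * (cpl W n * W.crd n (b n) i 1)) * W.crd n i j 0 =
      (fb W b n (W.zc n j) - W.crd n (b n) j 2) - (fb W b n (W.zc n i) - W.crd n (b n) i 2) := by
    rw [e]; ring
  rw [e2]
  have hxx : W.B'.d n ^ (tp - ε) ≤ W.B'.d n ^ (x - ε) := dpow_anti W.B' n (by linarith)
  rw [abs_le] at f1 f2 ⊢
  constructor <;> linarith [f1.1, f1.2, f2.1, f2.2]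

/-- **own motion of the slot `2`** -/
theorem own_two (h : WL W K tp) (h2 : (2 : Fin 12) ∈ W.S) {E : ∀ n, Finset (ι n)} {n : ℕ}
    (r : Reg W E n) {b : ∀ n, ι n} (hb : b n ∈ W.Cl n) {i k₀ k : ℕ}
    (hi₀ : (i, k₀) ∈ (W.cfg E n).I) (hi : (i, k) ∈ (W.cfg E n).I) {δ : ℝ}
    (hδ : cpl W n * |W.crd n (b n) (W.rep n i k) 1| ≤ δ) :
    |own W n i k k₀ 2 - (fb W b n k₀ - fb W b n k)| ≤ 6 * W.B'.d n ^ tp + 2 * δ := by
  obtain ⟨u1, u2, u3⟩ := r.spec hi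
  obtain ⟨v1, v2, v3⟩ := r.spec hi₀
  have f1 := fb_near h h2 r.good hb u1
  rw [u3] at f1
  have f2 := fb_near h h2 r.good hb v1
  rw [v3] at f2
  have e := crd2 h n (b n) (W.rep n i k) (W.rep n i k₀)
  have hz := h.crd_le r.good u1 v1 0
  have c0 := cpl_nonneg h n
  have q : |cpl W n * (W.crd n (b n) (W.rep n i k) 1 *
      W.crd n (W.rep n i k) (W.rep n i k₀) 0)| ≤ δ := by
    rw [abs_mul, abs_mul, abs_of_nonneg c0, ← mul_assoc]
    calc cpl W n * |W.crd n (b n) (W.rep n i k) 1| * |W.crd n (W.rep n i k) (W.rep n i k₀) 0|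
        ≤ cpl W n * |W.crd n (b n) (W.rep n i k) 1| * 1 := by gcongr
      _ ≤ δ := by rw [mul_one]; exact hδ
  have e2 : own W n i k k₀ 2 - (fb W b n k₀ - fb W b n k) =
      -(fb W b n k₀ - W.crd n (b n) (W.rep n i k₀) 2) +
        (fb W b n k - W.crd n (b n) (W.rep n i k) 2) +
        2 * (cpl W n * (W.crd n (b n) (W.rep n i k) 1 *
          W.crd n (W.rep n i k) (W.rep n i k₀) 0)) := by
    show W.crd n (W.rep n i k) (W.rep n i k₀) 2 - _ = _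
    rw [e]; ring
  rw [e2]
  rw [abs_le] at f1 f2 q ⊢
  constructor <;> linarith [f1.1, f1.2, f2.1, f2.2, q.1, q.2]

/-- the flag `D` along a box with fine slot `1` -/
theorem crd1_box (h : WL W K tp) (h1 : (1 : Fin 12) ∉ W.S) (ht1 : tp ≤ W.top 1)
    {E : ∀ n, Finset (ι n)} {n : ℕ} (r : Reg W E n) {i₀ i kb k₀ k : ℕ}
    (hb : (i₀, kb) ∈ (W.cfg E n).I) (h0 : (i₀, k₀) ∈ (W.cfg E n).I)
    (hi₀ : (i, k₀) ∈ (W.cfg E n).I) (hi : (i, k) ∈ (W.cfg E n).I) {q : ℝ}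
    (hq : |(W.cfg E n).rel k₀ i₀ i 1| ≤ q) :
    |W.crd n (W.rep n i₀ kb) (W.rep n i k) 1| ≤ 2 * W.B'.d n ^ tp + q := by
  have a1 := r.own_line h h0 hb h1 ht1
  have a2 := r.own_line h hi hi₀ h1 ht1
  rw [r.rel_of h1] at hq
  have e1 := crd1 h n (W.rep n i₀ kb) (W.rep n i₀ k₀) (W.rep n i k)
  have e2 := crd1 h n (W.rep n i₀ k₀) (W.rep n i k₀) (W.rep n i k)
  have b1 : |W.crd n (W.rep n i₀ kb) (W.rep n i₀ k₀) 1| ≤ W.B'.d n ^ tp := a1
  have b2 : |W.crd n (W.rep n i k₀) (W.rep n i k) 1| ≤ W.B'.d n ^ tp := a2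
  rw [e1, e2]
  rw [abs_le] at b1 b2 hq ⊢
  constructor <;> linarith [b1.1, b1.2, b2.1, b2.2, hq.1, hq.2]

theorem cpl_fro (h : WL W K tp) {n : ℕ} (f : FrX W K 0 tp n) : cpl W n ≤ W.B'.d n ^ tp := by
  obtain ⟨z, c, p, γ, γ0, γ1, hγ, e⟩ := f
  have hK : (0 : ℝ) < K := by linarith [h.K1]
  rw [sub_zero, abs_of_pos γ0] at hγ
  refine le_trans (le_of_eq ?_) hγ
  unfold cpl
  rw [e, sc_D, sc_of_ne (k := 0) (by decide), sc_of_ne (k := 2) (by decide)]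
  have hd := W.B.pos n
  have n2 := natD_pos hK hd z c p 2
  rw [div_eq_iff n2.ne']
  have e3 : natD K (W.B.d n) z c p 0 * natD K (W.B.d n) z c p 1 = natD K (W.B.d n) z c p 2 := by
    unfold natD
    have w : K ^ wtL 2 = K ^ wtL 0 * K ^ wtL 1 := by rw [← pow_add]; rfl
    have x2 : W.B.d n ^ eL z c p 2 = W.B.d n ^ eL z c p 0 * W.B.d n ^ eL z c p 1 := by
      rw [← Real.rpow_add hd]
      congr 1
      show p - 2 * c = z + (p - 2 * c - z)
      ring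
    rw [w, x2]; ring
  rw [← e3]; ring

section main

variable {κ : Type*} [DecidableEq κ] {rl : ∀ n, ι n → ℕ} {cw : ∀ n, ι n → κ}
  {N : ℕ → ℝ} {x γ : ℝ} {E' : ∀ n, Finset (ι n)} {g : ℕ → ℝ} {ex : ℕ → ∀ n, ι n → ℕ}
  {σ Rr Dc : ℝ} {Leg : Set (Fin 12 → ℝ)} {ν : (Fin 12 → ℝ) → ℝ}

theorem zrep_mem {n : ℕ} (r : Reg W E' n) {k : ℕ} (hk : k ∈ (W.cfg E' n).Z) :
    W.zrep n k ∈ W.Cl n := by
  rw [r.cfg_eq] at hk
  obtain ⟨y, hy, rfl⟩ := mem_image.1 hk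
  exact (W.zrep_spec (r.sub hy)).1

/-- common part of `k3h_nat` and `k3h_fro` -/
theorem k3h_core (h : WL W K tp) (h2 : (2 : Fin 12) ∈ W.S)
    (R : RLines W rl N) (H : WStrip W rl cw 2 Set.univ N x γ)
    (hP : Wnd.Pruned W W.Cl E' g (exO W rl ex)) (hγ : 0 < γ)
    (hmod : RModel W.B' (W.cfg E') σ Rr Leg ν Dc) (hσ : 0 < σ) (hxR : x ≤ Rr)
    (hx2 : 2 * x ≤ tp) {G : ℕ → RCfg (Fin 12)} {Leg' : Set (Fin 12 → ℝ)} {ν' : (Fin 12 → ℝ) → ℝ}
    {D' : ℝ} (hL : ∀ n, (G n).L = (W.cfg E' n).L) (hZ : ∀ n, (G n).Z = (W.cfg E' n).Z)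
    (hz : ∀ n, (G n).z = (W.cfg E' n).z) (hI : ∀ n, (G n).I = (W.cfg E' n).I)
    (HG : RModel W.B' G σ Rr Leg' ν' D') {S' : Finset (Fin 12)}
    {own : ℕ → ℕ → ℕ → ℕ → Fin 12 → ℝ} (L : LLaw W.B' G S' own x) (h2' : (2 : Fin 12) ∈ S')
    (h1' : (1 : Fin 12) ∉ S' ∨ ∀ n i k₀ k, own n i k₀ k 1 = 0) (h7' : (7 : Fin 12) ∉ S')
    (h8' : (8 : Fin 12) ∉ S') {pS : Fin 12 → ℝ} (kd : KD x pS) (lS : pS ∈ Leg')
    (lT : Function.update pS 11 0 ∈ Leg')
    (lQ : ∀ t : ℝ, 0 ≤ t → t ≤ x → Function.update (Function.update pS 9 t) 10 t ∈ Leg')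
    {Cf : ℝ} (hCf : 0 ≤ Cf)
    (own2 : ∀ i₀ kb : ℕ → ℕ, (∀ n, (i₀ n, kb n) ∈ (W.cfg E' n).I) →
      ∀ ε : ℝ, 0 < ε → ∀ᶠ n in (U : Filter ℕ), ∀ k₀, (i₀ n, k₀) ∈ (W.cfg E' n).I → ∀ k,
        ∀ i ∈ (G n).box pS ε (i₀ n) k₀, (i, k) ∈ (W.cfg E' n).I →
        |own n i k₀ k 2 - (fb W (fun n => W.rep n (i₀ n) (kb n)) n k₀ -
          fb W (fun n => W.rep n (i₀ n) (kb n)) n k)| ≤ W.B'.d n ^ (x - Cf * ε))
    {a : ℝ} (ha : 0 ≤ a)
    (lossQ : ∀ t : ℝ, 0 ≤ t → t ≤ x →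
      σ * t ≤ ν' pS - ν' (Function.update (Function.update pS 9 t) 10 t))
    (lossF : ν' (Function.update pS 11 0) - ν' pS ≤ a * x) : σ ≤ a := by
  have hx0 := kd.x0
  choose ik hik using fun n => hmod.nonempty n
  set i₀ : ℕ → ℕ := fun n => (ik n).1 with hi₀
  set kb : ℕ → ℕ := fun n => (ik n).2 with hkb
  have hik' : ∀ n, (i₀ n, kb n) ∈ (W.cfg E' n).I := hik
  set b : ∀ n, ι n := fun n => W.rep n (i₀ n) (kb n) with hb
  have hreg : ∀ᶠ n in (U : Filter ℕ), Reg W E' n := by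
    filter_upwards [Wnd.ev_cfg h.ok h.ok.eok_class hP] with n hn
    exact ⟨hn.1, hP.sub n, hn.2.2.1⟩
  have hbC : ∀ᶠ n in (U : Filter ℕ), b n ∈ W.Cl n := by
    filter_upwards [hreg] with n r
    exact (r.spec (hik' n)).1
  have eZ : (fun n => (G n).Z) = fun n => (W.cfg E' n).Z := funext hZ
  have ez : (fun n => (G n).z) = fun n => (W.cfg E' n).z := funext hz
  have htop : 2 * x ≤ W.top W.kz := hx2.trans (h.topS _ (by rw [h.kz]; exact h.z0))
  have hst : Strips W.B' (fun n => (G n).Z) (fun n => (G n).z) (fb W b) x (min γ σ) := by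
    rw [eZ, ez]
    refine strips h.ok R H hP hγ.le hmod hxR htop (hcmp2 h h2 hbC rl (by linarith)) ?_
      (fun n => (W.cfg E' n).Z) (Eventually.of_forall fun n => Subset.refl _) ?_
    · intro ε hε
      filter_upwards [hreg, hbC, Crest.Agent.R136.Gf356.ev_const_le W.B' hε 2] with
        n r hb h2 k hk k' hk'
      have q1 := fb_le h r.good hb (zrep_mem r hk)
      have q2 := fb_le h r.good hb (zrep_mem r hk')
      refine le_trans ?_ h2
      rw [abs_le] at q1 q2 ⊢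
      constructor <;> linarith [q1.1, q1.2, q2.1, q2.2]
    · intro ε hε
      refine Eventually.of_forall fun n => ?_
      have : W.B'.d n ^ ε ≤ 1 := Real.rpow_le_one (W.B'.pos n).le (W.B'.lt n).le hε.le
      calc W.B'.d n ^ ε * ((W.cfg E' n).Z.card : ℝ) ≤ 1 * ((W.cfg E' n).Z.card : ℝ) :=
            mul_le_mul_of_nonneg_right this (Nat.cast_nonneg _)
        _ = _ := one_mul _
  refine k3h_law HG L h2' h1' h7' h8' hxR i₀ ?_ (fb W b) ?_ kd lS lT lQ hCf ?_ hst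
    (lt_min hγ hσ) ha lossQ lossF
  · refine Eventually.of_forall fun n => ?_
    rw [hL n]
    exact (mem_product.1 (hmod.sub n (hik' n))).1
  · filter_upwards [hreg, hbC] with n r hb k hk
    rw [hZ n] at hk
    rw [hz n]
    refine ⟨?_, fb_le h r.good hb (zrep_mem r hk)⟩
    rw [r.z_eq]
    exact h.crd_le r.good r.good.s0 (zrep_mem r hk) _
  · intro ε hε
    filter_upwards [own2 i₀ kb hik' ε hε] with n hn k₀ hk₀ k hk i hi hik2
    refine hn k₀ ?_ k i hi (by rw [← hI n]; exact hik2)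
    rw [← hI n]
    exact (RCfg.mem_hts.1 hk₀).2

/-- **[K3H] in a window, slot `D` natural** -/
theorem k3h_nat (h : WL W K tp) (hres : ∀ s, tp ≤ W.top s) (h1 : (1 : Fin 12) ∉ W.S)
    (h2 : (2 : Fin 12) ∈ W.S) (h7 : (7 : Fin 12) ∉ W.S) (h8 : (8 : Fin 12) ∉ W.S)
    (hX : ∀ᶠ n in (U : Filter ℕ), FrX W K 1 tp n)
    (R : RLines W rl N) (H : WStrip W rl cw 2 Set.univ N x γ)
    (hP : Wnd.Pruned W W.Cl E' g (exO W rl ex)) (hγ : 0 < γ)
    (hmod : RModel W.B' (W.cfg E') σ Rr Leg ν Dc) (hxR : x ≤ Rr) (hx2 : 2 * x ≤ tp)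
    {pS : Fin 12 → ℝ} (kd : KD x pS) (f1 : pS 1 = x) (lS : pS ∈ Leg)
    (lT : Function.update pS 11 0 ∈ Leg)
    (lQ : ∀ t : ℝ, 0 ≤ t → t ≤ x → Function.update (Function.update pS 9 t) 10 t ∈ Leg)
    {a : ℝ} (ha : 0 ≤ a)
    (lossQ : ∀ t : ℝ, 0 ≤ t → t ≤ x →
      σ * t ≤ ν pS - ν (Function.update (Function.update pS 9 t) 10 t))
    (lossF : ν (Function.update pS 11 0) - ν pS ≤ a * x) : σ ≤ a := by
  rcases le_or_gt σ 0 with hσ | hσ
  · linarith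
  have hx0 := kd.x0
  have hreg : ∀ᶠ n in (U : Filter ℕ), Reg W E' n := by
    filter_upwards [Wnd.ev_cfg h.ok h.ok.eok_class hP] with n hn
    exact ⟨hn.1, hP.sub n, hn.2.2.1⟩
  refine k3h_core h h2 R H hP hγ hmod hσ hxR hx2 (fun n => rfl) (fun n => rfl) (fun n => rfl)
    (fun n => rfl) hmod ((llaw h hres hreg hX).mono (by linarith)) h2 (Or.inl h1) h7 h8 kd lS lT
    lQ (Cf := 2) (by norm_num) ?_ ha lossQ lossF
  intro i₀ kb hik ε hε
  filter_upwards [hreg, Crest.Agent.R136.Gf356.ev_const_le W.B' hε 12] with n r hc k₀ hk₀ k i hi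
    hik2
  obtain ⟨a1, a2⟩ := RCfg.mem_box.1 hi
  have I1 := hmod.memSlice.1 a1
  have hd := fun t => dpow_pos W.B' n t
  have a3 := a2 1
  rw [hmod.base n, f1] at a3
  have g1 := crd1_box h h1 (hres 1) r (hik n) hk₀ I1 hik2 a3
  have hc1 := cpl_le h r.good
  have hc0 := cpl_nonneg h n
  have e1 : W.B'.d n ^ tp ≤ W.B'.d n ^ (x - ε) := dpow_anti W.B' n (by linarith)
  refine (own_two h h2 r (r.spec (hik n)).1 I1 hik2 (δ := 3 * W.B'.d n ^ (x - ε)) ?_).trans ?_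
  · calc cpl W n * |W.crd n (W.rep n (i₀ n) (kb n)) (W.rep n i k) 1|
        ≤ 1 * (2 * W.B'.d n ^ tp + W.B'.d n ^ (x - ε)) :=
          mul_le_mul hc1 g1 (abs_nonneg _) zero_le_one
      _ ≤ _ := by linarith
  · calc 6 * W.B'.d n ^ tp + 2 * (3 * W.B'.d n ^ (x - ε)) ≤ 12 * W.B'.d n ^ (x - ε) := by
          linarith
      _ ≤ W.B'.d n ^ (-ε) * W.B'.d n ^ (x - ε) := mul_le_mul_of_nonneg_right hc (hd _).le
      _ = _ := by rw [← dpow_add]; congr 1; ring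

/-- **[K3H] in a window, slot `D` frozen** -/
theorem k3h_fro (h : WL W K tp) (hres : ∀ s, tp ≤ W.top s)
    (h2 : (2 : Fin 12) ∈ W.S) (h7 : (7 : Fin 12) ∉ W.S) (h8 : (8 : Fin 12) ∉ W.S)
    (hX : ∀ᶠ n in (U : Filter ℕ), FrX W K 0 tp n)
    (R : RLines W rl N) (H : WStrip W rl cw 2 Set.univ N x γ)
    (hP : Wnd.Pruned W W.Cl E' g (exO W rl ex)) (hγ : 0 < γ)
    (hmod : RModel W.B' (W.cfg E') σ Rr Leg ν Dc) (hxR : x ≤ Rr) (hx2 : 2 * x ≤ tp)
    {pS : Fin 12 → ℝ} (kd : KD x pS) (lS : Function.update pS 1 0 ∈ Leg)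
    (lT : Function.update (Function.update pS 11 0) 1 0 ∈ Leg)
    (lQ : ∀ t : ℝ, 0 ≤ t → t ≤ x →
      Function.update (Function.update (Function.update pS 9 t) 10 t) 1 0 ∈ Leg)
    {a : ℝ} (ha : 0 ≤ a)
    (lossQ : ∀ t : ℝ, 0 ≤ t → t ≤ x → σ * t ≤ ν (Function.update pS 1 0) -
      ν (Function.update (Function.update (Function.update pS 9 t) 10 t) 1 0))
    (lossF : ν (Function.update (Function.update pS 11 0) 1 0) - ν (Function.update pS 1 0) ≤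
      a * x) : σ ≤ a := by
  rcases le_or_gt σ 0 with hσ | hσ
  · linarith
  have hx0 := kd.x0
  have hreg : ∀ᶠ n in (U : Filter ℕ), Reg W E' n := by
    filter_upwards [Wnd.ev_cfg h.ok h.ok.eok_class hP] with n hn
    exact ⟨hn.1, hP.sub n, hn.2.2.1⟩
  have HD : RModel W.B' (fun n => EvL504.drop 1 (W.cfg E' n)) σ Rr
      {p | Function.update p 1 0 ∈ Leg} (fun p => ν (Function.update p 1 0)) Dc := by
    refine hmod.drop ?_ fun p hp => hp
    intro ε hε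
    filter_upwards [hreg] with n r k i l hi hl
    exact (r.rel_le h hi hl 1).trans
      (Real.one_le_rpow_of_pos_of_le_one_of_nonpos (W.B'.pos n) (W.B'.lt n).le (by linarith))
  have hx1 : x ≤ tp := by linarith
  have h7' : (7 : Fin 12) ∉ insert 1 W.S := by
    rw [mem_insert, not_or]; exact ⟨by decide, h7⟩
  have h8' : (8 : Fin 12) ∉ insert 1 W.S := by
    rw [mem_insert, not_or]; exact ⟨by decide, h8⟩
  refine k3h_core (G := fun n => EvL504.drop 1 (W.cfg E' n)) h h2 R H hP hγ hmod hσ hxR hx2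
    (fun n => rfl) (fun n => rfl) (fun n => rfl)
    (fun n => rfl) HD ((llaw_drop h hres hreg hX).mono hx1)
    (mem_insert_of_mem h2) (Or.inr fun n i k₀ k => by
      show sc 0 (own W n i k k₀) 1 = 0
      rw [sc_D, zero_mul]) h7' h8' kd lS lT
    lQ (Cf := 2) (by norm_num) ?_ ha lossQ lossF
  intro i₀ kb hik ε hε
  filter_upwards [hreg, hX, Crest.Agent.R136.Gf356.ev_const_le W.B' hε 12] with n r hf hc k₀ hk₀ k
    i hi hik2
  obtain ⟨a1, a2⟩ := RCfg.mem_box.1 hi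
  have I1 : (i, k₀) ∈ (W.cfg E' n).I := HD.memSlice.1 a1
  have hd := fun t => dpow_pos W.B' n t
  have hc1 := cpl_fro h hf
  have hc0 := cpl_nonneg h n
  have e1 : W.B'.d n ^ tp ≤ W.B'.d n ^ (x - ε) := dpow_anti W.B' n (by linarith)
  have e2 : ownL0 W n i k₀ k 2 = own W n i k k₀ 2 := sc_of_ne (by decide)
  rw [e2]
  refine (own_two h h2 r (r.spec (hik n)).1 I1 hik2 (δ := W.B'.d n ^ (x - ε)) ?_).trans ?_
  · calc cpl W n * |W.crd n (W.rep n (i₀ n) (kb n)) (W.rep n i k) 1|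
        ≤ W.B'.d n ^ tp * 1 := mul_le_mul hc1
          (h.crd_le r.good (r.spec (hik n)).1 (r.spec hik2).1 1) (abs_nonneg _) (hd _).le
      _ ≤ _ := by linarith
  · calc 6 * W.B'.d n ^ tp + 2 * W.B'.d n ^ (x - ε) ≤ 12 * W.B'.d n ^ (x - ε) := by
          linarith [hd (x - ε)]
      _ ≤ W.B'.d n ^ (-ε) * W.B'.d n ^ (x - ε) := mul_le_mul_of_nonneg_right hc (hd _).le
      _ = _ := by rw [← dpow_add]; congr 1; ring

end main

end Crest.Agent.R116.K3h593
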