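import Crest.Agent.R116.K3W3_593

/-!
# R116, ties: [K3H] in a window at any legal base point (helper593)

The walls `F ≤ z + P` and `F ≤ E + N` are tight, the wall `E ≤ z + D` is slack, the other walls
are arbitrary; the slot `D` may be unresolved.

* `ev11` : the movement of the slot `11` along the fibre `C, X` fine;
* **`k3h_u`**.
-/

set_option autoImplicit false
set_option linter.unusedVariables false
set_option linter.unusedSectionVars false

open Filter Topology Finset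

namespace Crest.Agent.R116.K3h593

open Crest.Agent.R138.Ex926 (Base U)
open Crest.Agent.R138.TwA501 (dpow_pos dpow_anti dpow_add dpow_le_one)
open Crest.Agent.R136.Gf356 Crest.Agent.R136.Net191 Crest.Agent.R136.Qg926
open Crest.Agent.R136.Rg6_501
open Crest.Agent.R116.ChL222 Crest.Agent.R116.PL504 Crest.Agent.R116.EvL504
open Crest.Agent.R116.Kr710 Crest.Agent.R116.Kst593

variable {ι : ℕ → Type*} [∀ n, DecidableEq (ι n)] {W : Wnd 12 ι} {K tp : ℝ}

theorem prA {p q P Q T : ℝ} (hp : |p| ≤ P) (hq : |q| ≤ Q) (h : P * Q ≤ T) : |p * q| ≤ T :=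
  (bd2D hp hq).trans h

theorem prB {S1 S2 T u v : ℝ} (h1 : 0 < S1) (h2 : 0 < S2) (hT : S1 * S2 ≤ T) (hu : |u| ≤ 1) :
    |S1 * u * (S2 * v)| ≤ |v| * T := by
  have e : S1 * u * (S2 * v) = (S1 * S2) * (u * v) := by ring
  have hp := mul_pos h1 h2
  rw [e, abs_mul (S1 * S2), abs_of_pos hp, abs_mul u v]
  calc S1 * S2 * (|u| * |v|) ≤ T * (1 * |v|) :=
        mul_le_mul hT (mul_le_mul_of_nonneg_right hu (abs_nonneg _))
          (mul_nonneg (abs_nonneg _) (abs_nonneg _)) (hp.le.trans hT)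
    _ = _ := by ring

/-- algebra of the slot `11` -/
theorem alg11 {D a b : Fin 12 → ℝ} (hD : Sides D) {q κ : ℝ} (q0 : 0 ≤ q) (q1 : q ≤ 1)
    (ha : ∀ k, |a k| ≤ D k) (hb : ∀ k, |b k| ≤ D k) (h3 : |b 3| ≤ q * D 3) (h4 : |b 4| ≤ q * D 4)
    (h5 : |b 5| ≤ q * D 5) (h6 : |b 6| ≤ q * D 6) (hκ : D 0 * D 1 ≤ κ * D 2) (a11 : a 11 = 0)
    (hκ0 : 0 ≤ κ) :
    |comp a b 11 - (b 11 - a 0 * b 10 - a 2 * b 9)| ≤ (11 * q + 2 * κ) * D 11 := by
  have p := fun s => (hD.pos s).le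
  have hq := fun s => mul_nonneg q0 (p s)
  -- `a0 b3`, `a0 b4`, `a1 b5`, `a1 b6`
  have u3 : |a 0 * b 3| ≤ q * D 5 := prA (ha 0) h3 (by nlinarith [hD.w5])
  have u4 : |a 0 * b 4| ≤ q * D 6 := prA (ha 0) h4 (by nlinarith [hD.w6])
  have v5 : |a 1 * b 5| ≤ q * D 7 := prA (ha 1) h5 (by nlinarith [hD.w7'])
  have v6 : |a 1 * b 6| ≤ q * D 8 := prA (ha 1) h6 (by nlinarith [hD.w8'])
  have qq : q * q ≤ q := by nlinarith
  have n11 := p 11
  have q11 : q * q * D 11 ≤ q * D 11 := mul_le_mul_of_nonneg_right qq n11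
  have t1 : |a 7 * b 5| ≤ q * D 11 := prA (ha 7) h5 (by
    have := mul_le_mul_of_nonneg_left hD.w11a q0; linarith [mul_comm (D 5) (D 7),
      mul_left_comm (D 7) q (D 5)])
  have t2 : |a 8 * b 6| ≤ q * D 11 := prA (ha 8) h6 (by
    have := mul_le_mul_of_nonneg_left hD.w11b q0; linarith [mul_comm (D 6) (D 8),
      mul_left_comm (D 8) q (D 6)])
  have t3 : |a 7 * (a 0 * b 3)| ≤ q * D 11 := prA (ha 7) u3 (by
    have := mul_le_mul_of_nonneg_left hD.w11a q0; linarith [mul_comm (D 5) (D 7),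
      mul_left_comm (D 7) q (D 5)])
  have t4 : |a 8 * (a 0 * b 4)| ≤ q * D 11 := prA (ha 8) u4 (by
    have := mul_le_mul_of_nonneg_left hD.w11b q0; linarith [mul_comm (D 6) (D 8),
      mul_left_comm (D 8) q (D 6)])
  have s3 : |a 0 * b 3 * b 3| ≤ q * q * D 9 := prA u3 h3 (by
    have := mul_le_mul_of_nonneg_left hD.w9 (mul_nonneg q0 q0)
    have e : q * D 5 * (q * D 3) = q * q * (D 3 * D 5) := by ring
    rw [e]; exact this)
  have s4 : |a 0 * b 4 * b 4| ≤ q * q * D 9 := prA u4 h4 (by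
    have := mul_le_mul_of_nonneg_left hD.w9' (mul_nonneg q0 q0)
    have e : q * D 6 * (q * D 4) = q * q * (D 4 * D 6) := by ring
    rw [e]; exact this)
  have w29 : D 2 * (q * q * D 9) ≤ q * D 11 := by
    have := mul_le_mul_of_nonneg_left hD.w11c (mul_nonneg q0 q0)
    have e : D 2 * (q * q * D 9) = q * q * (D 2 * D 9) := by ring
    rw [e]; linarith
  have t5 : |a 2 * (a 0 * b 3 * b 3)| ≤ q * D 11 := prA (ha 2) s3 w29
  have t6 : |a 2 * (a 0 * b 4 * b 4)| ≤ q * D 11 := prA (ha 2) s4 w29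
  have w75 : q * D 7 * (q * D 5) ≤ q * D 11 := by
    have := mul_le_mul_of_nonneg_left hD.w11a (mul_nonneg q0 q0)
    have e : q * D 7 * (q * D 5) = q * q * (D 5 * D 7) := by ring
    rw [e]; linarith
  have w86 : q * D 8 * (q * D 6) ≤ q * D 11 := by
    have := mul_le_mul_of_nonneg_left hD.w11b (mul_nonneg q0 q0)
    have e : q * D 8 * (q * D 6) = q * q * (D 6 * D 8) := by ring
    rw [e]; linarith
  have t7 : |a 1 * b 5 * b 5| ≤ q * D 11 := prA v5 h5 w75
  have t8 : |a 1 * b 6 * b 6| ≤ q * D 11 := prA v6 h6 w86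
  have t9 : |a 1 * b 5 * (a 0 * b 3)| ≤ q * D 11 := prA v5 u3 w75
  have t10 : |a 1 * b 6 * (a 0 * b 4)| ≤ q * D 11 := prA v6 u4 w86
  have s9 : |a 0 * a 1| ≤ κ * D 2 := prA (ha 0) (ha 1) hκ
  have t11 : |a 0 * a 1 * b 9| ≤ κ * D 11 := prA s9 (hb 9) (by
    have := mul_le_mul_of_nonneg_left hD.w11c hκ0
    have e : κ * D 2 * D 9 = κ * (D 2 * D 9) := by ring
    rw [e]; exact this)
  have e : comp a b 11 - (b 11 - a 0 * b 10 - a 2 * b 9) =
      -(a 7 * b 5) - a 8 * b 6 + a 7 * (a 0 * b 3) + a 8 * (a 0 * b 4) +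
      (a 2 * (a 0 * b 3 * b 3)) / 2 + (a 2 * (a 0 * b 4 * b 4)) / 2 - a 1 * b 5 * b 5 -
      a 1 * b 6 * b 6 + 2 * (a 1 * b 5 * (a 0 * b 3)) + 2 * (a 1 * b 6 * (a 0 * b 4)) -
      2 * (a 0 * a 1 * b 9) := by
    have : comp a b 11 = a 11 + b 11 - a 0 * b 10 - a 7 * (b 5 - a 0 * b 3) -
      a 8 * (b 6 - a 0 * b 4) - a 2 * (b 9 - a 0 * ((b 3 ^ 2 + b 4 ^ 2) / 2)) -
      a 1 * (b 5 ^ 2 + b 6 ^ 2 - 2 * (a 0 * (b 5 * b 3 + b 6 * b 4 - b 9))) := rfl
    rw [this, a11]; ring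
  rw [e]
  have g1 := abs_le.1 t1
  have g2 := abs_le.1 t2
  have g3 := abs_le.1 t3
  have g4 := abs_le.1 t4
  have g5 := abs_le.1 t5
  have g6 := abs_le.1 t6
  have g7 := abs_le.1 t7
  have g8 := abs_le.1 t8
  have g9 := abs_le.1 t9
  have g10 := abs_le.1 t10
  have g11 := abs_le.1 t11
  rw [abs_le]
  constructor <;> linarith [g1.1, g1.2, g2.1, g2.2, g3.1, g3.2, g4.1, g4.2, g5.1, g5.2, g6.1,
    g6.2, g7.1, g7.2, g8.1, g8.2, g9.1, g9.2, g10.1, g10.2, g11.1, g11.2]

variable {E : ∀ n, Finset (ι n)}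

/-- **the movement of the slot `11`** -/
theorem ev11 (h : WL W K tp) {n : ℕ} (r : Reg W E n) (T1 : side W n 0 * side W n 10 = side W n 11)
    (T2 : side W n 2 * side W n 9 = side W n 11) {k k' i l : ℕ} (hi : (i, k) ∈ (W.cfg E n).I)
    (hl : (l, k) ∈ (W.cfg E n).I) (hi' : (i, k') ∈ (W.cfg E n).I) (hl' : (l, k') ∈ (W.cfg E n).I)
    {q : ℝ} (q0 : 0 ≤ q) (q1 : q ≤ 1) (h3 : |(W.cfg E n).rel k i l 3| ≤ q)
    (h4 : |(W.cfg E n).rel k i l 4| ≤ q) (h5 : |(W.cfg E n).rel k i l 5| ≤ q)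
    (h6 : |(W.cfg E n).rel k i l 6| ≤ q) :
    |(W.cfg E n).rel k' i l 11 - ((W.cfg E n).rel k i l 11 -
      own W n i k' k 0 * (W.cfg E n).rel k i l 10 - own W n i k' k 2 * (W.cfg E n).rel k i l 9)| ≤
      11 * q + 2 * cpl W n + 96 * W.B'.d n ^ tp := by
  have key := r.evoSL h hi hl hi' hl' (s := 11) (by decide)
  have hs := h.side_pos' n
  have hD := h.sides r.good
  set o := own W n i k' k with ho
  set c := (W.cfg E n).rel k i l with hc
  set a : Fin 12 → ℝ := fun j => side W n j * LvS SL o j with ha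
  set b : Fin 12 → ℝ := fun j => side W n j * LnS SL c j with hb
  have o1 : ∀ s, |LvS SL o s| ≤ 1 := fun s => by
    unfold LvS
    split_ifs
    · exact r.own_le h hi hi' s
    · rw [abs_zero]; exact zero_le_one
  have c1 : ∀ s, |LnS SL c s| ≤ 1 := fun s => by
    unfold LnS
    split_ifs
    · rw [abs_zero]; exact zero_le_one
    · exact r.rel_le h hi hl s
  have ab : ∀ (s : Fin 12) (u Q : ℝ), |u| ≤ Q → |side W n s * u| ≤ Q * side W n s := by
    intro s u Q hu
    rw [abs_mul, abs_of_pos (hs s), mul_comm]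
    exact mul_le_mul_of_nonneg_right hu (hs s).le
  have a1 : ∀ s, |a s| ≤ side W n s := fun s => by
    have := ab s _ _ (o1 s); rwa [one_mul] at this
  have b1 : ∀ s, |b s| ≤ side W n s := fun s => by
    have := ab s _ _ (c1 s); rwa [one_mul] at this
  have l3 : LnS SL c 3 = c 3 := if_neg (by decide)
  have l4 : LnS SL c 4 = c 4 := if_neg (by decide)
  have l5 : LnS SL c 5 = c 5 := if_neg (by decide)
  have l6 : LnS SL c 6 = c 6 := if_neg (by decide)
  have l9 : LnS SL c 9 = c 9 := if_neg (by decide)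
  have l10 : LnS SL c 10 = c 10 := if_neg (by decide)
  have l11 : LnS SL c 11 = c 11 := if_neg (by decide)
  have o0 : LvS SL o 0 = o 0 := if_pos (by decide)
  have o2 : LvS SL o 2 = o 2 := if_pos (by decide)
  have o11 : LvS SL o 11 = 0 := if_neg (by decide)
  have hκ : side W n 0 * side W n 1 ≤ cpl W n * side W n 2 := by
    unfold cpl
    rw [div_mul_cancel₀ _ (hs 2).ne']
  have A := alg11 hD q0 q1 a1 b1 (by
      have := ab 3 _ _ (show |LnS SL c 3| ≤ q by rw [l3]; exact h3); exact this) (by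
      have := ab 4 _ _ (show |LnS SL c 4| ≤ q by rw [l4]; exact h4); exact this) (by
      have := ab 5 _ _ (show |LnS SL c 5| ≤ q by rw [l5]; exact h5); exact this) (by
      have := ab 6 _ _ (show |LnS SL c 6| ≤ q by rw [l6]; exact h6); exact this) hκ
    (by show side W n 11 * LvS SL o 11 = 0; rw [o11, mul_zero]) (cpl_nonneg h n)
  have e1 : b 11 - a 0 * b 10 - a 2 * b 9 = side W n 11 * (c 11 - o 0 * c 10 - o 2 * c 9) := by
    show side W n 11 * LnS SL c 11 - (side W n 0 * LvS SL o 0) * (side W n 10 * LnS SL c 10) -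
      (side W n 2 * LvS SL o 2) * (side W n 9 * LnS SL c 9) = _
    rw [l11, o0, l10, o2, l9]
    have f1 : side W n 0 * o 0 * (side W n 10 * c 10) =
        (side W n 0 * side W n 10) * (o 0 * c 10) := by ring
    have f2 : side W n 2 * o 2 * (side W n 9 * c 9) =
        (side W n 2 * side W n 9) * (o 2 * c 9) := by ring
    rw [f1, f2, T1, T2]; ring
  rw [e1] at A
  have B : |compW W n (LvS SL o) (LnS SL c) 11 - (c 11 - o 0 * c 10 - o 2 * c 9)| ≤
      11 * q + 2 * cpl W n := by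
    have e2 : compW W n (LvS SL o) (LnS SL c) 11 - (c 11 - o 0 * c 10 - o 2 * c 9) =
        (comp a b 11 - side W n 11 * (c 11 - o 0 * c 10 - o 2 * c 9)) / side W n 11 := by
      unfold compW
      rw [sub_div, mul_div_cancel_left₀ _ (hs 11).ne']
    rw [e2, abs_div, abs_of_pos (hs 11), div_le_iff₀ (hs 11)]
    exact A
  have e3 := abs_sub_le ((W.cfg E n).rel k' i l 11) (compW W n (LvS SL o) (LnS SL c) 11)
    (c 11 - o 0 * c 10 - o 2 * c 9)
  linarith

/-- slots `3`, `4` -/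
theorem ev3 (h : WL W K tp) {n : ℕ} (r : Reg W E n) {k k' i l : ℕ} (hi : (i, k) ∈ (W.cfg E n).I)
    (hl : (l, k) ∈ (W.cfg E n).I) (hi' : (i, k') ∈ (W.cfg E n).I) (hl' : (l, k') ∈ (W.cfg E n).I)
    {s : Fin 12} (hs34 : s = 3 ∨ s = 4) :
    |(W.cfg E n).rel k' i l s| ≤ |(W.cfg E n).rel k i l s| + 96 * W.B'.d n ^ tp := by
  have hss : s ∉ SL := by rcases hs34 with rfl | rfl <;> decide
  have key := r.evoSL h hi hl hi' hl' hss
  have e : compW W n (LvS SL (own W n i k' k)) (LnS SL ((W.cfg E n).rel k i l)) s =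
      (W.cfg E n).rel k i l s := by
    unfold compW
    have h1 : LvS SL (own W n i k' k) s = 0 := if_neg hss
    have h2 : LnS SL ((W.cfg E n).rel k i l) s = (W.cfg E n).rel k i l s := if_neg hss
    rw [div_eq_iff (h.side_pos' n s).ne']
    rcases hs34 with rfl | rfl
    · show side W n 3 * LvS SL (own W n i k' k) 3 +
        side W n 3 * LnS SL ((W.cfg E n).rel k i l) 3 = _
      rw [h1, h2]; ring
    · show side W n 4 * LvS SL (own W n i k' k) 4 +
        side W n 4 * LnS SL ((W.cfg E n).rel k i l) 4 = _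
      rw [h1, h2]; ring
  rw [e] at key
  have := abs_sub_abs_le_abs_sub ((W.cfg E n).rel k' i l s) ((W.cfg E n).rel k i l s)
  linarith

/-- slots `5`, `6` -/
theorem ev5 (h : WL W K tp) {n : ℕ} (r : Reg W E n) {k k' i l : ℕ} (hi : (i, k) ∈ (W.cfg E n).I)
    (hl : (l, k) ∈ (W.cfg E n).I) (hi' : (i, k') ∈ (W.cfg E n).I) (hl' : (l, k') ∈ (W.cfg E n).I)
    {s s' : Fin 12} (hs56 : (s = 5 ∧ s' = 3) ∨ (s = 6 ∧ s' = 4)) :
    |(W.cfg E n).rel k' i l s| ≤ |(W.cfg E n).rel k i l s| + |(W.cfg E n).rel k i l s'| +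
      96 * W.B'.d n ^ tp := by
  have hss : s ∉ SL := by rcases hs56 with ⟨rfl, -⟩ | ⟨rfl, -⟩ <;> decide
  have hss' : s' ∉ SL := by rcases hs56 with ⟨-, rfl⟩ | ⟨-, rfl⟩ <;> decide
  have key := r.evoSL h hi hl hi' hl' hss
  have hsd := h.side_pos' n
  have hD := h.sides r.good
  have h1 : LvS SL (own W n i k' k) s = 0 := if_neg hss
  have h2 : LnS SL ((W.cfg E n).rel k i l) s = (W.cfg E n).rel k i l s := if_neg hss
  have h3 : LnS SL ((W.cfg E n).rel k i l) s' = (W.cfg E n).rel k i l s' := if_neg hss'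
  have o0 : LvS SL (own W n i k' k) 0 = own W n i k' k 0 := if_pos (by decide)
  have ho := r.own_le h hi hi' 0
  have hw : side W n 0 * side W n s' ≤ side W n s := by
    rcases hs56 with ⟨rfl, rfl⟩ | ⟨rfl, rfl⟩
    · exact hD.w5
    · exact hD.w6
  have e : |compW W n (LvS SL (own W n i k' k)) (LnS SL ((W.cfg E n).rel k i l)) s| ≤
      |(W.cfg E n).rel k i l s| + |(W.cfg E n).rel k i l s'| := by
    have e1 : compW W n (LvS SL (own W n i k' k)) (LnS SL ((W.cfg E n).rel k i l)) s =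
        (side W n s * (W.cfg E n).rel k i l s - side W n 0 * own W n i k' k 0 *
          (side W n s' * (W.cfg E n).rel k i l s')) / side W n s := by
      unfold compW
      congr 1
      rcases hs56 with ⟨rfl, rfl⟩ | ⟨rfl, rfl⟩
      · show side W n 5 * LvS SL (own W n i k' k) 5 +
          side W n 5 * LnS SL ((W.cfg E n).rel k i l) 5 - side W n 0 * LvS SL (own W n i k' k) 0 *
          (side W n 3 * LnS SL ((W.cfg E n).rel k i l) 3) = _
        rw [h1, h2, h3, o0]; ring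
      · show side W n 6 * LvS SL (own W n i k' k) 6 +
          side W n 6 * LnS SL ((W.cfg E n).rel k i l) 6 - side W n 0 * LvS SL (own W n i k' k) 0 *
          (side W n 4 * LnS SL ((W.cfg E n).rel k i l) 4) = _
        rw [h1, h2, h3, o0]; ring
    rw [e1, abs_div, abs_of_pos (hsd s), div_le_iff₀ (hsd s)]
    refine (abs_sub _ _).trans ?_
    have t1 : |side W n s * (W.cfg E n).rel k i l s| = |(W.cfg E n).rel k i l s| * side W n s := by
      rw [abs_mul, abs_of_pos (hsd s), mul_comm]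
    have t2 : |side W n 0 * own W n i k' k 0 * (side W n s' * (W.cfg E n).rel k i l s')| ≤
        |(W.cfg E n).rel k i l s'| * side W n s := prB (hsd 0) (hsd s') hw ho
    rw [t1, add_mul]
    linarith
  have := abs_sub_abs_le_abs_sub ((W.cfg E n).rel k' i l s)
    (compW W n (LvS SL (own W n i k' k)) (LnS SL ((W.cfg E n).rel k i l)) s)
  linarith

/-- slot `7` or `8`, resolved -/
theorem ev7 (h : WL W K tp) {n : ℕ} (r : Reg W E n) {k k' i l : ℕ} (hi : (i, k) ∈ (W.cfg E n).I)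
    (hl : (l, k) ∈ (W.cfg E n).I) (hi' : (i, k') ∈ (W.cfg E n).I) (hl' : (l, k') ∈ (W.cfg E n).I)
    {s s3 s5 : Fin 12} (hs78 : (s = 7 ∧ s3 = 3 ∧ s5 = 5) ∨ (s = 8 ∧ s3 = 4 ∧ s5 = 6))
    (hS : s ∉ W.S) (ht : tp ≤ W.top s) :
    |(W.cfg E n).rel k' i l s| ≤ |(W.cfg E n).rel k i l s| + |(W.cfg E n).rel k i l s3| +
      2 * |(W.cfg E n).rel k i l s5| + 5 * W.B'.d n ^ tp := by
  have hsd := h.side_pos' n
  have hD := h.sides r.good
  have n3 : s3 ∉ SL := by rcases hs78 with ⟨-, rfl, -⟩ | ⟨-, rfl, -⟩ <;> decide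
  have n5 : s5 ∉ SL := by rcases hs78 with ⟨-, -, rfl⟩ | ⟨-, -, rfl⟩ <;> decide
  have w3 : side W n 2 * side W n s3 ≤ side W n s := by
    rcases hs78 with ⟨rfl, rfl, rfl⟩ | ⟨rfl, rfl, rfl⟩
    · exact hD.w7
    · exact hD.w8
  have w5 : side W n 1 * side W n s5 ≤ side W n s := by
    rcases hs78 with ⟨rfl, rfl, rfl⟩ | ⟨rfl, rfl, rfl⟩
    · exact hD.w7'
    · exact hD.w8'
  -- the law
  have law : ∀ a c : Fin 12 → ℝ, |a 2| ≤ 1 → |a 1| ≤ 1 → |compW W n a c s| ≤
      |a s| + |c s| + |c s3| + 2 * |c s5| := by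
    intro a c h2 h1
    have e : compW W n a c s = (side W n s * a s + side W n s * c s + side W n 2 * a 2 *
        (side W n s3 * c s3) + 2 * (side W n 1 * a 1 * (side W n s5 * c s5))) / side W n s := by
      unfold compW
      congr 1
      rcases hs78 with ⟨rfl, rfl, rfl⟩ | ⟨rfl, rfl, rfl⟩ <;> rfl
    rw [e, abs_div, abs_of_pos (hsd s), div_le_iff₀ (hsd s)]
    have t1 : |side W n s * a s| = |a s| * side W n s := by
      rw [abs_mul, abs_of_pos (hsd s), mul_comm]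
    have t2 : |side W n s * c s| = |c s| * side W n s := by
      rw [abs_mul, abs_of_pos (hsd s), mul_comm]
    have t3 : |side W n 2 * a 2 * (side W n s3 * c s3)| ≤ |c s3| * side W n s :=
      prB (hsd 2) (hsd s3) w3 h2
    have t4 : |side W n 1 * a 1 * (side W n s5 * c s5)| ≤ |c s5| * side W n s :=
      prB (hsd 1) (hsd s5) w5 h1
    refine (abs_add_le _ _).trans ?_
    have q1 := abs_add_le (side W n s * a s + side W n s * c s) (side W n 2 * a 2 * (side W n s3 * c s3))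
    have q2 := abs_add_le (side W n s * a s) (side W n s * c s)
    have q3 : |2 * (side W n 1 * a 1 * (side W n s5 * c s5))| =
        2 * |side W n 1 * a 1 * (side W n s5 * c s5)| := by rw [abs_mul, abs_two]
    rw [q3]
    nlinarith
  obtain ⟨a1, a2, a3⟩ := r.spec hi
  obtain ⟨b1, b2, b3⟩ := r.spec hl
  obtain ⟨c1, c2, c3⟩ := r.spec hi'
  obtain ⟨d1, d2, d3⟩ := r.spec hl'
  rw [r.rel_of hS, r.rel_of hS, r.rel_of (h.notS n3), r.rel_of (h.notS n5)]
  have g := r.good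
  have m1 := law (W.crd n (W.rep n i k') (W.rep n i k)) (W.crd n (W.rep n i k) (W.rep n l k))
    (h.crd_le g c1 a1 2) (h.crd_le g c1 a1 1)
  rw [← h.crd_add] at m1
  have m2 := law (W.crd n (W.rep n i k') (W.rep n l k)) (W.crd n (W.rep n l k) (W.rep n l k'))
    (h.crd_le g c1 b1 2) (h.crd_le g c1 b1 1)
  rw [← h.crd_add] at m2
  have o7 := h.crd_l g c1 a1 (c2.trans a2.symm) hS ht
  have p7 := h.crd_l g b1 d1 (b2.trans d2.symm) hS ht
  have p3 := h.crd_l g b1 d1 (b2.trans d2.symm) (h.notS n3) (h.topL _ n3)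
  have p5 := h.crd_l g b1 d1 (b2.trans d2.symm) (h.notS n5) (h.topL _ n5)
  linarith

/-- slot `1`, resolved -/
theorem ev1 (h : WL W K tp) {n : ℕ} (r : Reg W E n) {k k' i l : ℕ} (hi : (i, k) ∈ (W.cfg E n).I)
    (hl : (l, k) ∈ (W.cfg E n).I) (hi' : (i, k') ∈ (W.cfg E n).I) (hl' : (l, k') ∈ (W.cfg E n).I)
    (hS : (1 : Fin 12) ∉ W.S) (ht : tp ≤ W.top 1) :
    |(W.cfg E n).rel k' i l 1| ≤ |(W.cfg E n).rel k i l 1| + 2 * W.B'.d n ^ tp := by
  obtain ⟨a1, a2, a3⟩ := r.spec hi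
  obtain ⟨b1, b2, b3⟩ := r.spec hl
  obtain ⟨c1, c2, c3⟩ := r.spec hi'
  obtain ⟨d1, d2, d3⟩ := r.spec hl'
  rw [r.rel_of hS, r.rel_of hS]
  have g := r.good
  have e1 := crd1 h n (W.rep n i k') (W.rep n i k) (W.rep n l k')
  have e2 := crd1 h n (W.rep n i k) (W.rep n l k) (W.rep n l k')
  have o7 := h.crd_l g c1 a1 (c2.trans a2.symm) hS ht
  have p7 := h.crd_l g b1 d1 (b2.trans d2.symm) hS ht
  rw [e1, e2]
  have q1 := abs_add_le (W.crd n (W.rep n i k') (W.rep n i k) 1)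
    (W.crd n (W.rep n i k) (W.rep n l k) 1 + W.crd n (W.rep n l k) (W.rep n l k') 1)
  have q2 := abs_add_le (W.crd n (W.rep n i k) (W.rep n l k) 1)
    (W.crd n (W.rep n l k) (W.rep n l k') 1)
  linarith

/-- exponents of the fibre: `C`, `X`, `F` fine, `N`, `P` coarse, the flags `1, 7, 8` coarse or
resolved -/
structure KU (W : Wnd 12 ι) (tp x : ℝ) (pS : Fin 12 → ℝ) : Prop where
  x0 : 0 < x
  le : ∀ s, pS s ≤ x
  f3 : pS 3 = x
  f4 : pS 4 = x
  f5 : pS 5 = x
  f6 : pS 6 = x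
  f11 : pS 11 = x
  z9 : pS 9 = 0
  z10 : pS 10 = 0
  m2 : (2 : Fin 12) ∈ W.S
  c1 : (1 : Fin 12) ∈ W.S ∨ pS 1 ≤ 0 ∨ tp ≤ W.top 1
  c7 : (7 : Fin 12) ∈ W.S ∨ pS 7 ≤ 0 ∨ tp ≤ W.top 7
  c8 : (8 : Fin 12) ∈ W.S ∨ pS 8 ≤ 0 ∨ tp ≤ W.top 8

section main

variable {κ : Type*} [DecidableEq κ] {rl : ∀ n, ι n → ℕ} {cw : ∀ n, ι n → κ}
  {N : ℕ → ℝ} {x γ : ℝ} {E' : ∀ n, Finset (ι n)} {g : ℕ → ℝ} {ex : ℕ → ∀ n, ι n → ℕ}
  {σ Rr Dc : ℝ} {Leg : Set (Fin 12 → ℝ)} {ν : (Fin 12 → ℝ) → ℝ}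

open Classical in
/-- **[K3H] in a window at a legal base point** -/
theorem k3h_u (h : WL W K tp) (R : RLines W rl N) (H : WStrip W rl cw 2 Set.univ N x γ)
    (hP : Wnd.Pruned W W.Cl E' g (exO W rl ex)) (hγ : 0 < γ)
    (hmod : RModel W.B' (W.cfg E') σ Rr Leg ν Dc) (hxR : x ≤ Rr) (hx2 : 2 * x ≤ tp)
    (hT1 : ∀ᶠ n in (U : Filter ℕ), side W n 0 * side W n 10 = side W n 11)
    (hT2 : ∀ᶠ n in (U : Filter ℕ), side W n 2 * side W n 9 = side W n 11)
    (hcpl : ∀ᶠ n in (U : Filter ℕ), cpl W n ≤ W.B'.d n ^ x)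
    {pS : Fin 12 → ℝ} (ku : KU W tp x pS) (lS : pS ∈ Leg) (lT : Function.update pS 11 0 ∈ Leg)
    (lQ : ∀ t : ℝ, 0 ≤ t → t ≤ x → Function.update (Function.update pS 9 t) 10 t ∈ Leg)
    {a : ℝ} (ha : 0 ≤ a)
    (lossQ : ∀ t : ℝ, 0 ≤ t → t ≤ x →
      σ * t ≤ ν pS - ν (Function.update (Function.update pS 9 t) 10 t))
    (lossF : ν (Function.update pS 11 0) - ν pS ≤ a * x) : σ ≤ a := by
  rcases le_or_gt σ 0 with hσ | hσ
  · linarith
  have hx := ku.x0
  have h2 := ku.m2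
  -- the base incidence
  choose ik hik using fun n => hmod.nonempty n
  set i₀ : ℕ → ℕ := fun n => (ik n).1 with hi₀
  set kb : ℕ → ℕ := fun n => (ik n).2 with hkb
  have hik' : ∀ n, (i₀ n, kb n) ∈ (W.cfg E' n).I := hik
  set b : ∀ n, ι n := fun n => W.rep n (i₀ n) (kb n) with hb
  have hreg : ∀ᶠ n in (U : Filter ℕ), Reg W E' n := by
    filter_upwards [Wnd.ev_cfg h.ok h.ok.eok_class hP] with n hn
    exact ⟨hn.1, hP.sub n, hn.2.2.1⟩
  have hbC : ∀ᶠ n in (U : Filter ℕ), b n ∈ W.Cl n := by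
    filter_upwards [hreg] with n r
    exact (r.spec (hik' n)).1
  have htop : 2 * x ≤ W.top W.kz := hx2.trans (h.topS _ (by rw [h.kz]; exact h.z0))
  have hst : Strips W.B' (fun n => (W.cfg E' n).Z) (fun n => (W.cfg E' n).z) (fb W b) x
      (min γ σ) := by
    refine strips h.ok R H hP hγ.le hmod hxR htop (hcmp2 h h2 hbC rl (by linarith)) ?_
      (fun n => (W.cfg E' n).Z) (Eventually.of_forall fun n => Subset.refl _) ?_
    · intro ε hε
      filter_upwards [hreg, hbC, Crest.Agent.R136.Gf356.ev_const_le W.B' hε 2] with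
        n r hb h2 k hk k' hk'
      have q1 := fb_le h r.good hb (zrep_mem r hk)
      have q2 := fb_le h r.good hb (zrep_mem r hk')
      refine le_trans ?_ h2
      rw [abs_le] at q1 q2 ⊢
      constructor <;> linarith [q1.1, q1.2, q2.1, q2.2]
    · intro ε hε
      refine Eventually.of_forall fun n => ?_
      have : W.B'.d n ^ ε ≤ 1 := Real.rpow_le_one (W.B'.pos n).le (W.B'.lt n).le hε.le
      calc W.B'.d n ^ ε * ((W.cfg E' n).Z.card : ℝ) ≤ 1 * ((W.cfg E' n).Z.card : ℝ) :=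
            mul_le_mul_of_nonneg_right this (Nat.cast_nonneg _)
        _ = _ := one_mul _
  -- constants
  have hD := hmod.D1
  have hD2 : 1 ≤ Dc ^ 2 := one_le_pow₀ hD
  set C1 : ℝ := 2 * Dc ^ 2 + 8 with hC1
  have hC11 : 1 ≤ C1 := by rw [hC1]; linarith
  have hd := fun n t => dpow_pos W.B' n t
  have htx : ∀ n, W.B'.d n ^ tp ≤ W.B'.d n ^ x := fun n => dpow_anti W.B' n (by linarith)
  refine k3h ha hmod.σ_le (lt_min hγ hσ) hmod.toRUnif i₀ (fun n => (W.cfg E' n).Z)
    (fun n => (W.cfg E' n).hts (i₀ n)) (fun n => (W.cfg E' n).z) (fb W b)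
    (fun n k₀ i i' => (W.cfg E' n).rel k₀ i i' 10)
    (fun n k₀ i i' => -(W.cfg E' n).rel k₀ i i' 9) pS (Function.update pS 11 0) pS
    (fun t => Function.update (Function.update pS 9 t) 10 t) x C1 C1 ?_ hst
  -- the box of a pin
  have boxq : ∀ ε : ℝ, 0 < ε → ∀ᶠ n in (U : Filter ℕ), ∀ k₀ ∈ (W.cfg E' n).hts (i₀ n),
      ∀ i ∈ (W.cfg E' n).box pS ε (i₀ n) k₀, ∀ i' ∈ (W.cfg E' n).box pS ε (i₀ n) k₀,
      (i, k₀) ∈ (W.cfg E' n).I ∧ (i', k₀) ∈ (W.cfg E' n).I ∧
      ∀ s, |(W.cfg E' n).rel k₀ i i' s| ≤ W.B'.d n ^ (pS s - Dc ^ 2 * ε) := by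
    intro ε hε
    filter_upwards [Crest.Agent.R136.CD366.box_pair hmod.toRUnif pS lS hε] with
      n b1 k₀ hk₀ i hi i' hi'
    refine ⟨hmod.memSlice.1 (RCfg.box_subset_slice hi),
      hmod.memSlice.1 (RCfg.box_subset_slice hi'), fun s => ?_⟩
    have := b1 k₀ (i₀ n) i i' (RCfg.mem_hts.1 hk₀).2 hi hi' s
    rwa [hmod.base n] at this
  refine
    { x_pos := hx
      C1_nonneg := by linarith
      C4_pos := by linarith
      bd := ?_
      frost := ?_
      pins := ?_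
      pinI := ?_
      legS := lS
      legT := lT
      legr := lS
      Tr := ?_
      legQ := lQ
      one := ?_
      alive := ?_
      mv := ?_
      inT := ?_
      inQ := ?_
      lossQ := lossQ
      lossF := lossF }
  · filter_upwards [hreg, hbC] with n r hb
    refine ⟨⟨kb n, (mem_product.1 (hmod.sub n (hik' n))).2⟩, fun k hk => ?_⟩
    refine ⟨?_, fb_le h r.good hb (zrep_mem r hk)⟩
    rw [r.z_eq]
    exact h.crd_le r.good r.good.s0 (zrep_mem r hk) _
  · intro y hy0 hyx ε hε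
    filter_upwards [hmod.frost y hy0 (hyx.trans hxR) ε hε] with n hn k hk T hT hTk
    refine le_trans (Nat.cast_le.2 (card_le_card fun k' hk' => ?_)) (hn k hk)
    unfold RCfg.hbox
    rw [mem_filter, hmod.base n]
    exact ⟨hT hk', hTk k' hk'⟩
  · intro ε hε
    filter_upwards [hmod.line ε hε] with n hn
    have hi : i₀ n ∈ (W.cfg E' n).L := (mem_product.1 (hmod.sub n (hik' n))).1
    refine ⟨filter_subset _ _, le_trans ?_ (hn _ hi)⟩
    exact mul_le_mul_of_nonneg_right (dpow_anti W.B' n (by nlinarith)) (Nat.cast_nonneg _)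
  · exact Eventually.of_forall fun n k₀ hk₀ => (RCfg.mem_hts.1 hk₀).2
  · intro j
    by_cases hj : j = 11
    · subst hj; rw [Function.update_self, ku.f11]; exact hx.le
    · rw [Function.update_of_ne hj]
  · intro ε hε
    filter_upwards [hreg] with n r k₀ hk₀ i hi i' hi'
    have a1 := hmod.memSlice.1 (RCfg.box_subset_slice hi)
    have a2 := hmod.memSlice.1 (RCfg.box_subset_slice hi')
    have h3 : (1 : ℝ) ≤ W.B'.d n ^ (-(C1 * ε)) :=
      Real.one_le_rpow_of_pos_of_le_one_of_nonpos (W.B'.pos n) (W.B'.lt n).le (by nlinarith)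
    refine ⟨(r.rel_le h a1 a2 10).trans h3, ?_⟩
    rw [abs_neg]
    exact (r.rel_le h a1 a2 9).trans h3
  · intro ε hε
    filter_upwards [hmod.line ε hε] with n hn k₀ hk₀ i hi T hT hTi
    have a1 := hmod.memSlice.1 (RCfg.box_subset_slice hi)
    have a2 : i ∈ (W.cfg E' n).L := (mem_product.1 (hmod.sub n a1)).1
    refine le_trans (mul_le_mul_of_nonneg_right (dpow_anti W.B' n (by nlinarith))
      (Nat.cast_nonneg _)) ((hn i a2).trans ?_)
    refine Nat.cast_le.2 (card_le_card fun k hk => ?_)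
    obtain ⟨b1, b2⟩ := RCfg.mem_hts.1 hk
    exact hTi k b1 b2
  · -- the movement of the normal slot
    intro ε hε
    -- the case of a large `ε`
    rcases le_or_gt x (Dc ^ 2 * ε) with hεx | hεx
    · filter_upwards [hreg, hbC, Crest.Agent.R136.Gf356.ev_const_le W.B' hε 4] with
        n r hbn h4 k₀ hk₀ k hk i hi i' hi' hik hi'k hl
      have a1 := hmod.memSlice.1 (RCfg.box_subset_slice hi)
      have a2 := hmod.memSlice.1 (RCfg.box_subset_slice hi')
      have q9 := r.rel_le h a1 a2 9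
      have q10 := r.rel_le h a1 a2 10
      have hzb : ∀ k ∈ (W.cfg E' n).Z, |(W.cfg E' n).z k| ≤ 1 := fun k hk => by
        rw [r.z_eq]; exact h.crd_le r.good r.good.s0 (zrep_mem r hk) _
      have hk₀Z : k₀ ∈ (W.cfg E' n).Z := (RCfg.mem_hts.1 hk₀).1
      have z1 := hzb k hk
      have z2 := hzb k₀ hk₀Z
      have f1 := fb_le h r.good hbn (zrep_mem r hk)
      have f2 := fb_le h r.good hbn (zrep_mem r hk₀Z)
      have m1 : |((W.cfg E' n).z k - (W.cfg E' n).z k₀) * (W.cfg E' n).rel k₀ i i' 10| ≤ 2 := by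
        rw [abs_mul]
        have w1 : |(W.cfg E' n).z k - (W.cfg E' n).z k₀| ≤ 2 :=
          (abs_sub _ _).trans (by linarith)
        have w2 := mul_le_mul w1 q10 (abs_nonneg _) zero_le_two
        linarith
      have m2 : |(fb W b n k - fb W b n k₀) * -(W.cfg E' n).rel k₀ i i' 9| ≤ 2 := by
        rw [abs_mul, abs_neg]
        have w1 : |fb W b n k - fb W b n k₀| ≤ 2 := (abs_sub _ _).trans (by linarith)
        have w2 := mul_le_mul w1 q9 (abs_nonneg _) zero_le_two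
        linarith
      refine (abs_sub _ _).trans ?_
      calc _ ≤ (4 : ℝ) := by linarith
        _ ≤ W.B'.d n ^ (-ε) := h4
        _ ≤ _ := dpow_anti W.B' n (by rw [hC1]; nlinarith)
    filter_upwards [boxq ε hε, hreg, hbC, hT1, hT2, hcpl,
      Crest.Agent.R136.Gf356.ev_const_le W.B' hε 200] with
      n b1 r hbn T1 T2 hc b7 k₀ hk₀ k hk i hi i' hi' hik hi'k hl
    obtain ⟨a1, a2, hp⟩ := b1 k₀ hk₀ i hi i' hi'
    set q : ℝ := W.B'.d n ^ (x - Dc ^ 2 * ε) with hq
    have q0 : 0 ≤ q := (hd n _).le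
    have q1 : q ≤ 1 := Real.rpow_le_one (W.B'.pos n).le (W.B'.lt n).le (by linarith)
    have hev := ev11 h r T1 T2 a1 a2 hik hi'k q0 q1 (by have := hp 3; rwa [ku.f3] at this)
      (by have := hp 4; rwa [ku.f4] at this) (by have := hp 5; rwa [ku.f5] at this)
      (by have := hp 6; rwa [ku.f6] at this)
    set c := (W.cfg E' n).rel k₀ i i' with hc'
    set o := own W n i k k₀ with ho
    have c11 : |c 11| ≤ q := by have := hp 11; rwa [ku.f11] at this
    have hR : |(W.cfg E' n).rel k i i' 11| ≤ W.B'.d n ^ (x - ε) := by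
      have := hl 11; rwa [hmod.base n, ku.f11] at this
    have e0 := r.own_z h a1 hik
    have e2 := own_two h h2 r (b := b) hbn a1 hik (δ := W.B'.d n ^ x) (by
      calc cpl W n * |W.crd n (b n) (W.rep n i k) 1| ≤ W.B'.d n ^ x * 1 :=
            mul_le_mul hc (h.crd_le r.good hbn (r.spec hik).1 1) (abs_nonneg _) (hd n _).le
        _ = _ := mul_one _)
    rw [← ho] at e0 e2
    have c9 := r.rel_le h a1 a2 9
    have c10 := r.rel_le h a1 a2 10
    rw [← hc'] at c9 c10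
    set Q : ℝ := W.B'.d n ^ (x - (Dc ^ 2 + 1) * ε) with hQ
    have y1 : q ≤ Q := dpow_anti W.B' n (by nlinarith)
    have y2 : W.B'.d n ^ (x - ε) ≤ Q := dpow_anti W.B' n (by nlinarith)
    have y3 : W.B'.d n ^ x ≤ Q := dpow_anti W.B' n (by nlinarith)
    have y4 := (htx n).trans y3
    have t4 : |(o 0 + ((W.cfg E' n).z k - (W.cfg E' n).z k₀)) * c 10| ≤ 2 * Q := by
      rw [abs_mul]
      have e : o 0 + ((W.cfg E' n).z k - (W.cfg E' n).z k₀) =
          o 0 - ((W.cfg E' n).z k₀ - (W.cfg E' n).z k) := by ring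
      rw [e]
      calc |o 0 - ((W.cfg E' n).z k₀ - (W.cfg E' n).z k)| * |c 10| ≤ (2 * W.B'.d n ^ tp) * 1 :=
            mul_le_mul e0 c10 (abs_nonneg _) (by have := hd n tp; linarith)
        _ ≤ _ := by linarith
    have t5 : |(o 2 - (fb W b n k₀ - fb W b n k)) * c 9| ≤ 8 * Q := by
      rw [abs_mul]
      calc |o 2 - (fb W b n k₀ - fb W b n k)| * |c 9|
          ≤ (6 * W.B'.d n ^ tp + 2 * W.B'.d n ^ x) * 1 :=
            mul_le_mul e2 c9 (abs_nonneg _) (by
              have := hd n tp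
              have := hd n x
              linarith)
        _ ≤ _ := by linarith
    have t6 : |(W.cfg E' n).rel k i i' 11 - (c 11 - o 0 * c 10 - o 2 * c 9)| ≤ 109 * Q :=
      hev.trans (by linarith)
    have key : ((W.cfg E' n).z k - (W.cfg E' n).z k₀) * c 10 -
        (fb W b n k - fb W b n k₀) * (-c 9) =
        (W.cfg E' n).rel k i i' 11 - c 11 -
          ((W.cfg E' n).rel k i i' 11 - (c 11 - o 0 * c 10 - o 2 * c 9)) +
          (o 0 + ((W.cfg E' n).z k - (W.cfg E' n).z k₀)) * c 10 +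
          (o 2 - (fb W b n k₀ - fb W b n k)) * c 9 := by ring
    show |((W.cfg E' n).z k - (W.cfg E' n).z k₀) * c 10 -
      (fb W b n k - fb W b n k₀) * (-c 9)| ≤ _
    rw [key]
    have g1 := abs_le.1 c11
    have g2 := abs_le.1 hR
    have g4 := abs_le.1 t4
    have g5 := abs_le.1 t5
    have g6 := abs_le.1 t6
    have h6 : 200 * Q ≤ W.B'.d n ^ (x - C1 * ε) := by
      calc 200 * Q ≤ W.B'.d n ^ (-ε) * Q := mul_le_mul_of_nonneg_right b7 (hd n _).le
        _ = W.B'.d n ^ (x - (Dc ^ 2 + 2) * ε) := by rw [hQ, ← dpow_add]; congr 1; ring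
        _ ≤ _ := dpow_anti W.B' n (by rw [hC1]; nlinarith)
    refine le_trans ?_ h6
    have hQ0 := hd n (x - (Dc ^ 2 + 1) * ε)
    rw [abs_le]
    constructor <;> linarith [g1.1, g1.2, g2.1, g2.2, g4.1, g4.2, g5.1, g5.2, g6.1, g6.2]
  · -- the fibre at the other heights
    intro ε hε
    filter_upwards [boxq ε hε, hreg, Crest.Agent.R136.Gf356.ev_const_le W.B' hε 200] with
      n b1 r b7 k₀ hk₀ k hk i hi i' hi' hik hi'k
    obtain ⟨a1, a2, hp⟩ := b1 k₀ hk₀ i hi i' hi'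
    set c := (W.cfg E' n).rel k₀ i i' with hc'
    -- a sum of at most `200` fine terms
    have fin : ∀ (s : Fin 12) (y M : ℝ), y ≤ x → 0 ≤ M → M ≤ 200 →
        |(W.cfg E' n).rel k i i' s| ≤ M * W.B'.d n ^ (y - Dc ^ 2 * ε) →
        |(W.cfg E' n).rel k i i' s| ≤ W.B'.d n ^ (y - C1 * ε) := by
      intro s y M hy hM0 hM hs
      refine hs.trans ?_
      calc M * W.B'.d n ^ (y - Dc ^ 2 * ε) ≤ W.B'.d n ^ (-ε) * W.B'.d n ^ (y - Dc ^ 2 * ε) :=
            mul_le_mul_of_nonneg_right (hM.trans b7) (hd n _).le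
        _ = W.B'.d n ^ (y - (Dc ^ 2 + 1) * ε) := by rw [← dpow_add]; congr 1; ring
        _ ≤ _ := dpow_anti W.B' n (by rw [hC1]; nlinarith)
    have tpy : ∀ y : ℝ, y ≤ x → W.B'.d n ^ tp ≤ W.B'.d n ^ (y - Dc ^ 2 * ε) := fun y hy =>
      dpow_anti W.B' n (by nlinarith)
    have xy : ∀ y : ℝ, y ≤ x → W.B'.d n ^ (x - Dc ^ 2 * ε) ≤ W.B'.d n ^ (y - Dc ^ 2 * ε) :=
      fun y hy => dpow_anti W.B' n (by linarith)
    have coarse : ∀ s : Fin 12, Function.update pS 11 0 s ≤ 0 →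
        |(W.cfg E' n).rel k i i' s| ≤ W.B'.d n ^ (Function.update pS 11 0 s - C1 * ε) := by
      intro s hs
      refine (r.rel_le h hik hi'k s).trans
        (Real.one_le_rpow_of_pos_of_le_one_of_nonpos (W.B'.pos n) (W.B'.lt n).le (by nlinarith))
    have hp3 : |c 3| ≤ W.B'.d n ^ (x - Dc ^ 2 * ε) := by have := hp 3; rwa [ku.f3] at this
    have hp4 : |c 4| ≤ W.B'.d n ^ (x - Dc ^ 2 * ε) := by have := hp 4; rwa [ku.f4] at this
    have hp5 : |c 5| ≤ W.B'.d n ^ (x - Dc ^ 2 * ε) := by have := hp 5; rwa [ku.f5] at this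
    have hp6 : |c 6| ≤ W.B'.d n ^ (x - Dc ^ 2 * ε) := by have := hp 6; rwa [ku.f6] at this
    intro s
    rw [hmod.base n]
    by_cases hs : s ∈ W.S
    · rw [r.rel_S hs, abs_zero]; exact (hd n _).le
    · fin_cases s
      · exact absurd h.z0 hs
      · show |(W.cfg E' n).rel k i i' 1| ≤ W.B'.d n ^ (pS 1 - C1 * ε)
        rcases ku.c1 with h1 | h1 | h1
        · exact absurd h1 hs
        · exact coarse 1 (by rw [Function.update_of_ne (by decide)]; exact h1)
        · refine fin 1 _ 3 (ku.le 1) (by norm_num) (by norm_num) ?_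
          have := ev1 h r a1 a2 hik hi'k hs h1
          have := hp 1
          have := tpy _ (ku.le 1)
          linarith
      · exact absurd h2 hs
      · show |(W.cfg E' n).rel k i i' 3| ≤ W.B'.d n ^ (pS 3 - C1 * ε)
        rw [ku.f3]
        refine fin 3 _ 97 le_rfl (by norm_num) (by norm_num) ?_
        have := ev3 h r a1 a2 hik hi'k (Or.inl rfl)
        have := tpy _ le_rfl
        linarith
      · show |(W.cfg E' n).rel k i i' 4| ≤ W.B'.d n ^ (pS 4 - C1 * ε)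
        rw [ku.f4]
        refine fin 4 _ 97 le_rfl (by norm_num) (by norm_num) ?_
        have := ev3 h r a1 a2 hik hi'k (Or.inr rfl)
        have := tpy _ le_rfl
        linarith
      · show |(W.cfg E' n).rel k i i' 5| ≤ W.B'.d n ^ (pS 5 - C1 * ε)
        rw [ku.f5]
        refine fin 5 _ 98 le_rfl (by norm_num) (by norm_num) ?_
        have := ev5 h r a1 a2 hik hi'k (Or.inl ⟨rfl, rfl⟩)
        have := tpy _ le_rfl
        linarith
      · show |(W.cfg E' n).rel k i i' 6| ≤ W.B'.d n ^ (pS 6 - C1 * ε)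
        rw [ku.f6]
        refine fin 6 _ 98 le_rfl (by norm_num) (by norm_num) ?_
        have := ev5 h r a1 a2 hik hi'k (Or.inr ⟨rfl, rfl⟩)
        have := tpy _ le_rfl
        linarith
      · show |(W.cfg E' n).rel k i i' 7| ≤ W.B'.d n ^ (pS 7 - C1 * ε)
        rcases ku.c7 with h1 | h1 | h1
        · exact absurd h1 hs
        · exact coarse 7 (by rw [Function.update_of_ne (by decide)]; exact h1)
        · refine fin 7 _ 9 (ku.le 7) (by norm_num) (by norm_num) ?_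
          have := ev7 h r a1 a2 hik hi'k (Or.inl ⟨rfl, rfl, rfl⟩) hs h1
          have := hp 7
          have := tpy _ (ku.le 7)
          have := xy _ (ku.le 7)
          linarith
      · show |(W.cfg E' n).rel k i i' 8| ≤ W.B'.d n ^ (pS 8 - C1 * ε)
        rcases ku.c8 with h1 | h1 | h1
        · exact absurd h1 hs
        · exact coarse 8 (by rw [Function.update_of_ne (by decide)]; exact h1)
        · refine fin 8 _ 9 (ku.le 8) (by norm_num) (by norm_num) ?_
          have := ev7 h r a1 a2 hik hi'k (Or.inr ⟨rfl, rfl, rfl⟩) hs h1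
          have := hp 8
          have := tpy _ (ku.le 8)
          have := xy _ (ku.le 8)
          linarith
      · exact coarse 9 (by rw [Function.update_of_ne (by decide), ku.z9])
      · exact coarse 10 (by rw [Function.update_of_ne (by decide), ku.z10])
      · exact coarse 11 (by rw [Function.update_self])
  · -- the boxes `Q t`
    intro t ht0 htx' ε hε
    filter_upwards [boxq ε hε] with n b1 k₀ hk₀ i hi i' hi' hP hX
    obtain ⟨a1, a2, hp⟩ := b1 k₀ hk₀ i hi i' hi'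
    intro s
    rw [hmod.base n]
    by_cases h10 : s = 10
    · subst h10
      rw [Function.update_self]
      exact hP.trans (dpow_anti W.B' n (by nlinarith))
    · rw [Function.update_of_ne h10]
      by_cases h9 : s = 9
      · subst h9
        rw [Function.update_self]
        rw [abs_neg] at hX
        exact hX.trans (dpow_anti W.B' n (by nlinarith))
      · rw [Function.update_of_ne h9]
        exact (hp s).trans (dpow_anti W.B' n (by rw [hC1]; nlinarith))

end main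

end Crest.Agent.R116.K3h593
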