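import Crest.Agent.R116.K3W5_593
import Crest.Agent.R116.Kst4_593
import Crest.Agent.R116.WinG_954
import Crest.Agent.R136.Lq1_196

/-!
# R116, ties: [K3H] from the profile (helper593)

Level slots `0, 2`; slot `D` unresolved (walls with `D` slack).

* `stT` : static data of the window; `k3h_ext` : [K3H] for a tangent of the profile at any legal
  base point with `F = z + P`, `F = E + N` tight, `E ≤ z + D` slack, `z`, `E` at the levels of the
  record line.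
-/

set_option autoImplicit false
set_option linter.unusedVariables false
set_option linter.unusedSectionVars false

open Filter Topology Finset

namespace Crest.Agent.R116.K3h593

open Crest.Agent.R138.Ex926 (Base U IsTan)
open Crest.Agent.R138.TwA501 (dpow_pos dpow_anti dpow_add dpow_le_one)
open Crest.Agent.R136.Gf356 Crest.Agent.R136.Net191 Crest.Agent.R136.Qg926
open Crest.Agent.R136.Lq196
open Crest.Agent.R116.ChL222 Crest.Agent.R116.PL504 Crest.Agent.R116.EvL504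
open Crest.Agent.R116.Kr710 Crest.Agent.R116.Kst593
open Crest.Agent.R116.WinU954 Crest.Agent.R116.WinG954
open Crest.Agent.R116.Sg337 (bx9)

/-- level slots `0, 2`, slot `D` unresolved -/
noncomputable def stT (K t : ℝ) : WSt 12 where
  S := {0, 2}
  kz := 0
  top := topD t
  kap := fun s => K ^ wtL s
  Mw := monD
  R' := t

theorem cut02 (t : ℝ) (z D E C X B N P F : ℝ) :
    cut {0, 2} (bx9 z D E C X B N P F) (topD t) = bx9 t D t C X B N P F := by
  funext s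
  by_cases hs : s ∈ ({0, 2} : Finset (Fin 12))
  · rw [cut_of_mem hs]
    rcases mem_insert.1 hs with rfl | hs
    · rw [topD_ne t (by decide)]; rfl
    · rw [mem_singleton.1 hs, topD_ne t (by decide)]; rfl
  · rw [cut_of_notMem hs]
    fin_cases s <;> first | rfl | exact absurd (by decide) hs

theorem cut02_lin (t : ℝ) : cut {0, 2} (topD t) 0 = bx9 0 0 0 t t t t t t := by
  funext s
  by_cases hs : s ∈ ({0, 2} : Finset (Fin 12))
  · rw [cut_of_mem hs]
    rcases mem_insert.1 hs with rfl | hs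
    · rfl
    · rw [mem_singleton.1 hs]; rfl
  · rw [cut_of_notMem hs]
    fin_cases s <;> first | rfl | exact absurd (by decide) hs

theorem cut02_lev (t : ℝ) : cut {0, 2} 0 (topD t) = bx9 t 0 t 0 0 0 0 0 0 := by
  funext s
  by_cases hs : s ∈ ({0, 2} : Finset (Fin 12))
  · rw [cut_of_mem hs]
    rcases mem_insert.1 hs with rfl | hs
    · rw [topD_ne t (by decide)]; rfl
    · rw [mem_singleton.1 hs, topD_ne t (by decide)]; rfl
  · rw [cut_of_notMem hs]
    fin_cases s <;> first | rfl | exact absurd (by decide) hs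

theorem lin_mem02 {t : ℝ} (ht : 0 ≤ t) : bx9 0 0 0 t t t t t t ∈ Leg monD t :=
  bx9_legD.2 ⟨⟨le_rfl, le_rfl, le_rfl, ht, ht, ht, ht, ht, ht⟩,
    ⟨by linarith, by linarith, by linarith, by linarith, by linarith, by linarith, by linarith⟩,
    ⟨ht, ht, ht, le_rfl, le_rfl, le_rfl, le_rfl, le_rfl, le_rfl⟩⟩

theorem lev_mem02 {t : ℝ} (ht : 0 ≤ t) : bx9 t 0 t 0 0 0 0 0 0 ∈ Leg monD t :=
  bx9_legD.2 ⟨⟨ht, le_rfl, ht, le_rfl, le_rfl, le_rfl, le_rfl, le_rfl, le_rfl⟩,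
    ⟨by linarith, by linarith, by linarith, by linarith, by linarith, by linarith, by linarith⟩,
    ⟨le_rfl, ht, le_rfl, ht, ht, ht, ht, ht, ht⟩⟩

theorem stT_ok {K t : ℝ} (hK : 0 < K) (ht : 0 ≤ t) {D : Set (Fin 12 → ℝ)} (hD : Leg monD t ⊆ D) :
    (stT K t).Ok monL D where
  R0 := ht
  leg := hD
  top_leg := (stG_fro ht).top_leg ht
  lin_leg := by
    show cut {0, 2} (topD t) 0 ∈ Leg monD t
    rw [cut02_lin]; exact lin_mem02 ht
  lev_leg := by
    show cut {0, 2} 0 (topD t) ∈ Leg monD t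
    rw [cut02_lev]; exact lev_mem02 ht
  kzS := by simp [stT]
  kz0 := WinU954.mon0
  kzw := (stG_fro ht).mon0
  kap := fun s => pow_pos hK _

theorem upd11 (z D E C X B N P F F' : ℝ) :
    Function.update (bx9 z D E C X B N P F) 11 F' = bx9 z D E C X B N P F' := by
  funext s
  fin_cases s <;> rfl

theorem upd910 (z D E C X B N P F N' P' : ℝ) :
    Function.update (Function.update (bx9 z D E C X B N P F) 9 N') 10 P' =
      bx9 z D E C X B N' P' F := by
  funext s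
  fin_cases s <;> rfl

theorem bx9_le {z D E C X B N P F z' D' E' C' X' B' N' P' F' : ℝ} (h0 : z ≤ z') (h1 : D ≤ D')
    (h2 : E ≤ E') (h3 : C ≤ C') (h4 : X ≤ X') (h5 : B ≤ B') (h6 : N ≤ N') (h7 : P ≤ P')
    (h8 : F ≤ F') : bx9 z D E C X B N P F ≤ bx9 z' D' E' C' X' B' N' P' F' := by
  intro s
  fin_cases s
  exacts [h0, h1, h2, h3, h3, h4, h4, h5, h5, h6, h7, h8]

theorem bx9_ub {z D E C X B N P F c : ℝ} (h0 : z ≤ c) (h1 : D ≤ c)
    (h2 : E ≤ c) (h3 : C ≤ c) (h4 : X ≤ c) (h5 : B ≤ c) (h6 : N ≤ c) (h7 : P ≤ c)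
    (h8 : F ≤ c) (s : Fin 12) : bx9 z D E C X B N P F s ≤ c := by
  fin_cases s
  exacts [h0, h1, h2, h3, h3, h4, h4, h5, h5, h6, h7, h8]

section ext

variable {B : Base} {I0 I' : ℕ → Finset (ℕ × ℝ)} {co : ∀ n : ℕ, ℕ × ℝ → ℕ × ℝ → Fin 12 → ℝ}
  {C R w0 s c₀ : ℝ} {PD : Set (Fin 12 → ℝ)} {Dm : (Fin 12 → ℝ) → ℝ} {r o : ℝ → Fin 12 → ℝ}
  {Em : ℝ → ℝ} {T : Fin 12 → Prop} {ν own : (Fin 12 → ℝ) → ℝ}
  {κ : Type*} [DecidableEq κ] {cell : ∀ n : ℕ, ℚ → ℕ × ℝ → κ} {γ o0 β : Fin 12 → ℝ}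
  {Sl : Fin 12 → Set ℝ}

/-- tangents are antitone -/
theorem tan_anti (hext : ExtQ B I0 I' co monL C R 0 w0 s PD Dm r o Em T ν own c₀)
    {X : ℕ → Fin 12 → ℝ} {hh : ℕ → ℝ} (hpos : ∀ l, 0 < hh l) {D : Set (Fin 12 → ℝ)}
    {lam : (Fin 12 → ℝ) → ℝ} (htan : IsTan (Leg monL R) D ν X hh lam) {c c' : Fin 12 → ℝ}
    (hc : c ∈ D) (hc' : c' ∈ D) (hcc : c ≤ c') : lam c' ≤ lam c := by
  refine le_of_forall_pos_le_add fun ε hε => ?_
  obtain ⟨l, hl⟩ := (htan (max ‖c‖ ‖c'‖) (ε / 2) (by positivity)).exists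
  obtain ⟨a1, a2⟩ := hl c hc (le_max_left _ _)
  obtain ⟨b1, b2⟩ := hl c' hc' (le_max_right _ _)
  have hle : X l + hh l • c ≤ X l + hh l • c' := by
    intro k
    show X l k + hh l * c k ≤ X l k + hh l * c' k
    have := mul_le_mul_of_nonneg_left (hcc k) (hpos l).le
    linarith
  have h1 := (hext.lip _ a1 _ b1 hle).1
  have a3 := abs_le.1 a2
  have b3 := abs_le.1 b2
  have h2 : hh l * lam c' ≤ hh l * (lam c + ε) := by nlinarith [a3.1, a3.2, b3.1, b3.2, hpos l]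
  exact le_of_mul_le_mul_left h2 (hpos l)

/-- tail of a tangent -/
theorem tan_tail {P D : Set (Fin 12 → ℝ)} {f lam : (Fin 12 → ℝ) → ℝ} {X : ℕ → Fin 12 → ℝ}
    {hh : ℕ → ℝ} (h : IsTan P D f X hh lam) (l₀ : ℕ) :
    IsTan P D f (fun l => X (l + l₀)) (fun l => hh (l + l₀)) lam := by
  intro K ε hε
  exact (tendsto_add_atTop_nat l₀).eventually (h K ε hε)

theorem k3h_ext0 (hR : 0 ≤ R) (hC : 0 < cK0 monL C)
    (hext : ExtQ B I0 I' co monL C R 0 w0 s PD Dm r o Em T ν own c₀)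
    (hcoc : ∀ n, Coc (co n))
    (H : OStrips B I0 co (fun _ x => x.1) cell 0 {2} w0 s γ o0 β Sl) (hγ : 0 < γ 2)
    (hβ : 0 < β 2) (hSl : Sl 2 = Set.univ)
    (ho0 : ∀ v, o v 0 = w0 + v) (ho2 : ∀ v, o v 2 = o0 2 + β 2 * v)
    (hoR : ∀ v k, k ≠ 0 → k ≠ 2 → o v k = R)
    {X : ℕ → Fin 12 → ℝ} {hh : ℕ → ℝ} (hpos : ∀ l, 0 < hh l) (hh0 : Tendsto hh atTop (𝓝 0))
    {D : Set (Fin 12 → ℝ)} {lam : (Fin 12 → ℝ) → ℝ} (htan : IsTan (Leg monL R) D ν X hh lam)
    {t : ℝ} (ht : 0 < t) (hD : Leg monD t ⊆ D) {v : ℕ → ℝ} (hX0 : ∀ l, X l 0 = w0 + v l)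
    (hX2 : ∀ l, X l 2 = o0 2 + β 2 * v l) (hv0 : ∀ l, 0 < v l)
    (hv1 : ∀ l, v l + hh l * (t / β 2) ≤ 1) (hv2 : ∀ l, v l + hh l * t ≤ 1)
    (hleg : ∀ l, X l ∈ Leg monL R)
    (hT1 : ∀ l, X l 11 = X l 0 + X l 10) (hT2 : ∀ l, X l 11 = X l 2 + X l 9)
    (hsl : ∀ K : ℝ, ∀ᶠ l in atTop, X l 2 + K * hh l ≤ X l 0 + X l 1)
    (dens : lam (topD t) ≤ lam (bx9 0 0 0 t t t t t t) + lam (bx9 t 0 t 0 0 0 0 0 0))
    {x y : ℝ} (hx0 : 0 < x) (hx : 2 * x ≤ t) (hy0 : 0 ≤ y) (hyx : y ≤ x)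
    (hQ : ∀ t' : ℝ, 0 ≤ t' → t' ≤ x →
      (1 - s) * t' ≤ lam (bx9 t 0 t x x y 0 0 x) - lam (bx9 t 0 t x x y t' t' x)) :
    (1 - s) * x ≤ lam (bx9 t 0 t x x y 0 0 0) - lam (bx9 t 0 t x x y 0 0 x) := by
  have hs0 := hext.s0
  have hs1 := hext.s1
  set σ : ℝ := 1 - s with hσ
  have hσ0 : 0 ≤ σ := by rw [hσ]; linarith
  have hσ1 : σ ≤ 1 := by rw [hσ]; linarith
  have hN := nprof_of_ext hR hext
  have hzero : (0 : Fin 12 → ℝ) ∈ Leg monD t := (stG_fro ht.le).zero_mem ht.le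
  have h0 : (0 : Fin 12 → ℝ) ∈ D := hD hzero
  have hst := stT_ok (K := cK0 monL C) hC ht.le hD
  -- own profile at the base points
  have hval : ∀ l, 0 ≤ v l ∧ v l ≤ 1 := fun l => by
    refine ⟨(hv0 l).le, ?_⟩
    have h1 := hv1 l
    have h2 : 0 ≤ hh l * (t / β 2) := mul_nonneg (hpos l).le (div_nonneg ht.le hβ.le)
    linarith
  have hle : ∀ l, ∀ p ∈ Leg monL R, p 0 = w0 + v l → p 2 = o0 2 + β 2 * v l →
      own p = (1 - s) * (1 - v l) := by
    intro l p hp h0 h2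
    refine hext.own_rot p hp (v l) (hval l).1 (hval l).2 h0 fun k => ?_
    by_cases hk0 : k = 0
    · rw [hk0, ho0, h0]
    · by_cases hk2 : k = 2
      · rw [hk2, ho2, h2]
      · rw [hoR _ _ hk0 hk2]; exact hp.2 k
  have hov : ∀ l, own (X l) = (1 - s) * (1 - v l) := fun l => hle l _ (hleg l) (hX0 l) (hX2 l)
  -- the height
  have frost : ∀ y, 0 ≤ y → y ≤ t → lam (Pi.single 0 y) ≤ -(σ * y) := by
    intro y h1 h2
    have hcD : (Pi.single 0 y : Fin 12 → ℝ) ∈ D := hD ((stG_fro ht.le).single_leg h1 h2)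
    refine le_of_forall_pos_le_add fun ε hε => ?_
    obtain ⟨l, hl⟩ := (htan ‖(Pi.single 0 y : Fin 12 → ℝ)‖ ε hε).exists
    obtain ⟨a1, a2⟩ := hl _ hcD le_rfl
    have hy : 0 ≤ hh l * y := mul_nonneg (hpos l).le h1
    have hxk : ∀ k, k ≠ 0 → (X l + hh l • (Pi.single 0 y : Fin 12 → ℝ)) k = X l k := by
      intro k hk
      show X l k + hh l * (Pi.single 0 y : Fin 12 → ℝ) k = _
      rw [Pi.single_eq_of_ne hk, mul_zero, add_zero]
    have hx0' : (X l + hh l • (Pi.single 0 y : Fin 12 → ℝ)) 0 = w0 + (v l + hh l * y) := by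
      show X l 0 + hh l * (Pi.single 0 y : Fin 12 → ℝ) 0 = _
      rw [Pi.single_eq_same, hX0]; ring
    have hle2 : X l ≤ X l + hh l • (Pi.single 0 y : Fin 12 → ℝ) := by
      intro k
      by_cases hk : k = 0
      · rw [hk, hx0', hX0]; linarith
      · rw [hxk k hk]
    have h3 := hext.own_le _ (hleg l) _ a1 hle2
    have h4 : own (X l + hh l • (Pi.single 0 y : Fin 12 → ℝ)) =
        (1 - s) * (1 - (v l + hh l * y)) := by
      refine hext.own_rot _ a1 _ (by linarith [(hval l).1]) ?_ hx0' fun k => ?_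
      · have := hv2 l
        have := mul_le_mul_of_nonneg_left h2 (hpos l).le
        linarith
      · by_cases hk0 : k = 0
        · rw [hk0, ho0, hx0']
        · rw [hxk k hk0]
          by_cases hk2 : k = 2
          · rw [hk2, ho2, hX2]
            have := mul_nonneg hβ.le hy
            linarith
          · rw [hoR _ _ hk0 hk2]; exact (hleg l).2 k
    rw [hov l, h4] at h3
    have a3 := abs_le.1 a2
    have h5 : hh l * lam (Pi.single 0 y) ≤ hh l * (-(σ * y) + ε) := by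
      have e : (1 - s) * (1 - v l) - (1 - s) * (1 - (v l + hh l * y)) = hh l * (σ * y) := by
        rw [hσ]; ring
      rw [e] at h3
      linarith [a3.1, a3.2]
    exact le_of_mul_le_mul_left h5 (hpos l)
  have hown : ∀ᶠ l in (atTop : Filter ℕ),
      own (X l + hh l • cut (stT (cK0 monL C) t).S (stT (cK0 monL C) t).top 0) = own (X l) := by
    have e : cut (stT (cK0 monL C) t).S (stT (cK0 monL C) t).top 0 = bx9 0 0 0 t t t t t t :=
      cut02_lin t
    rw [e]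
    filter_upwards [htan ‖bx9 0 0 0 t t t t t t‖ 1 one_pos] with l hl
    have h1 := (hl _ (hD (lin_mem02 ht.le)) le_rfl).1
    rw [hov l]
    refine hle l _ h1 ?_ ?_
    · show X l 0 + hh l * (0 : ℝ) = _
      rw [mul_zero, add_zero]; exact hX0 l
    · show X l 2 + hh l * (0 : ℝ) = _
      rw [mul_zero, add_zero]; exact hX2 l
  obtain ⟨uq, k, hk, hk2⟩ := exists_swin (st := stT (cK0 monL C) t) hN hpos h0 htan hst
    (rl := fun _ x => x.1) (own := own) hext.oprof hown (cell := cell) (Ts := {2}) H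
    (fun j hj => by rw [mem_singleton.1 hj]; exact hγ.le)
    (fun j hj => by rw [mem_singleton.1 hj]; exact hβ) hs0 hs1 (v := v) hX0 hv0
    (fun l => (hval l).2) ht (fun j hj l => by rw [mem_singleton.1 hj]; exact hv1 l)
    (fun j hj l => by rw [mem_singleton.1 hj]; exact hX2 l) hov (fun _ _ => 1)
    (fun _ => Base.Sub.const one_pos) (fun _ => (0, 0)) (Gd := I') (E := I')
    (Eventually.of_forall fun n => Subset.refl _) (Eventually.of_forall fun n => Subset.refl _)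
    (Sd := fun _ => 1) (Base.Sub.const one_pos) (Eventually.of_forall fun n => by rw [one_mul])
  obtain ⟨B', s₀, W, hW, b1, b2, b3, b4, ok, RL, WS⟩ :=
    hk2 k hk (Eventually.of_forall fun n => le_rfl)
  have hWS := WS 2 (mem_singleton_self 2)
  rw [hSl] at hWS
  have hden : (stT (cK0 monL C) t).Dens lam σ t :=
    { dens := by
        show lam (topD t) ≤ lam (cut {0, 2} (topD t) 0) + lam (cut {0, 2} 0 (topD t))
        rw [cut02_lin, cut02_lev]
        exact dens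
      σ0 := hσ0
      σ1 := hσ1
      hR := by
        show t ≤ topD t 0
        rw [topD_ne t (by decide)]
      frost := frost }
  have eB : W.B = B := by rw [hW]; rfl
  have eB' : W.B' = B' := by rw [hW]; rfl
  have eS : W.S = {0, 2} := by rw [hW]; rfl
  have etop : W.top = topD t := by rw [hW]; rfl
  have ekap : W.kap = fun s => cK0 monL C ^ wtL s := by rw [hW]; rfl
  have eX : W.X = fun n => X (k n) := by rw [hW]; rfl
  have enu : ∀ p, W.nu p = lam (cut {0, 2} p (topD t)) - lam (topD t) := fun p => by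
    rw [hW]; rfl
  have eleg : ∀ p, p ∈ W.legW ↔ cut {0, 2} p (topD t) ∈ Leg monD t ∧
      ∀ s, s ∉ ({0, 2} : Finset (Fin 12)) → p s ≤ topD t s := fun p => by rw [hW]; rfl
  have hmodel : ∃ (E' : ∀ n, Finset (ℕ × ℝ)) (g : ℕ → ℝ),
      Wnd.Pruned W W.Cl E' g (exO W (fun _ x => x.1) (fun _ _ _ => 0)) ∧
      RModel W.B' (W.cfg E') σ t W.legW W.nu W.Dc := by
    subst hW
    obtain ⟨E', g, p1, p2, p3⟩ := hden.model ok ok.eok_class
      (exO _ (fun _ x => x.1) (fun _ _ _ => 0)) (g₀ := fun n => (n : ℝ))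
      (tendsto_natCast_atTop_atTop.mono_left Crest.Agent.R138.Ex926.U_le_atTop)
    exact ⟨E', g, p1, p3⟩
  obtain ⟨E', g, hP, hmod⟩ := hmodel
  have wl : WL W (cK0 monL C) t :=
    { ok := ok
      hM := by rw [hW]; rfl
      coc := by rw [hW]; exact hcoc
      hK := by rw [hW]; exact le_rfl
      kap := fun s => by rw [ekap]
      hS := by rw [eS]; decide
      kz := by rw [hW]; rfl
      topS := fun s hs => by
        rw [eS] at hs
        rw [etop, topD_ne t (by rintro rfl; exact absurd hs (by decide))]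
      topL := fun s hs => by
        rw [etop, topD_ne t (by rintro rfl; exact hs (by decide))] }
  have hside : ∀ n s, side W n s = cK0 monL C ^ wtL s * B.d n ^ X (k n) s := fun n s => by
    unfold side; rw [ekap, eB, eX]
  have hxt : x ≤ t := by linarith
  -- the fact
  set Δ : ℝ := lam (bx9 t 0 t x x y 0 0 0) - lam (bx9 t 0 t x x y 0 0 x) with hΔ
  have m1 : bx9 t 0 t x x y 0 0 0 ∈ Leg monD t :=
    bx9_legD.2 ⟨⟨ht.le, le_rfl, ht.le, hx0.le, hx0.le, hy0, le_rfl, le_rfl, le_rfl⟩,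
      ⟨by linarith, by linarith, by linarith, by linarith, by linarith, by linarith, by linarith⟩,
      ⟨le_rfl, ht.le, le_rfl, hxt, hxt, hyx.trans hxt, ht.le, ht.le, ht.le⟩⟩
  have m2 : bx9 t 0 t x x y 0 0 x ∈ Leg monD t :=
    bx9_legD.2 ⟨⟨ht.le, le_rfl, ht.le, hx0.le, hx0.le, hy0, le_rfl, le_rfl, hx0.le⟩,
      ⟨by linarith, by linarith, by linarith, by linarith, by linarith, by linarith, by linarith⟩,
      ⟨le_rfl, ht.le, le_rfl, hxt, hxt, hyx.trans hxt, ht.le, ht.le, hxt⟩⟩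
  have m3 : ∀ t', 0 ≤ t' → t' ≤ x → bx9 t 0 t x x y t' t' x ∈ Leg monD t := fun t' h1 h2 =>
    bx9_legD.2 ⟨⟨ht.le, le_rfl, ht.le, hx0.le, hx0.le, hy0, h1, h1, hx0.le⟩,
      ⟨by linarith, by linarith, by linarith, by linarith, by linarith, by linarith, by linarith⟩,
      ⟨le_rfl, ht.le, le_rfl, hxt, hxt, hyx.trans hxt, h2.trans hxt, h2.trans hxt, hxt⟩⟩
  have hΔ0 : 0 ≤ Δ := by
    have := tan_anti hext hpos htan (hD m1) (hD m2)
      (bx9_le le_rfl le_rfl le_rfl le_rfl le_rfl le_rfl le_rfl le_rfl hx0.le)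
    rw [hΔ]; linarith
  have off : ∀ (p : Fin 12 → ℝ), p 1 ≤ 0 → (∀ s, p s ≤ t) →
      ∀ s, s ∉ ({0, 2} : Finset (Fin 12)) → p s ≤ topD t s := fun p h1 h2 s _ => by
    by_cases hs : s = 1
    · rw [hs, topD_one]; exact h1
    · rw [topD_ne t hs]; exact h2 s
  have ku : KU W t x (bx9 0 0 0 x x y 0 0 x) :=
    { x0 := hx0
      le := bx9_ub hx0.le hx0.le hx0.le le_rfl le_rfl hyx hx0.le hx0.le le_rfl
      f3 := rfl
      f4 := rfl
      f5 := rfl
      f6 := rfl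
      f11 := rfl
      z9 := rfl
      z10 := rfl
      m2 := by rw [eS]; decide
      c1 := Or.inr (Or.inl le_rfl)
      c7 := Or.inr (Or.inr (by rw [etop, topD_ne t (by decide)]))
      c8 := Or.inr (Or.inr (by rw [etop, topD_ne t (by decide)])) }
  have key := k3h_u (a := Δ / x) wl RL (hWS.mono hxt le_rfl (Set.Subset.refl _)) hP
    (div_pos hγ hβ) hmod hxt hx
    (Eventually.of_forall fun n => by
      rw [hside, hside, hside, hT1]
      have e1 : wtL 0 + wtL 10 = wtL 11 := rfl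
      rw [← e1, pow_add, Real.rpow_add (B.pos n)]; ring)
    (Eventually.of_forall fun n => by
      rw [hside, hside, hside, hT2]
      have e1 : wtL 2 + wtL 9 = wtL 11 := rfl
      rw [← e1, pow_add, Real.rpow_add (B.pos n)]; ring)
    (by
      filter_upwards [hk.eventually (hsl x)] with n hn
      rw [eB', b1]
      unfold cpl
      rw [hside, hside, hside, div_le_iff₀ (mul_pos (pow_pos hC _) (dpow_pos B n _))]
      have e1 : wtL 0 + wtL 1 = wtL 2 := rfl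
      rw [← Real.rpow_mul (B.pos n).le]
      have e2 : B.d n ^ (hh (k n) * x) * (cK0 monL C ^ wtL 2 * B.d n ^ X (k n) 2) =
          cK0 monL C ^ wtL 2 * B.d n ^ (hh (k n) * x + X (k n) 2) := by
        rw [Real.rpow_add (B.pos n)]; ring
      have e3 : cK0 monL C ^ wtL 0 * B.d n ^ X (k n) 0 * (cK0 monL C ^ wtL 1 * B.d n ^ X (k n) 1) =
          cK0 monL C ^ wtL 2 * B.d n ^ (X (k n) 0 + X (k n) 1) := by
        rw [← e1, pow_add, Real.rpow_add (B.pos n)]; ring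
      rw [e2, e3]
      exact mul_le_mul_of_nonneg_left (dpow_anti B n (by linarith)) (pow_pos hC _).le) ku
    ((eleg _).2 ⟨by rw [cut02]; exact m2, off _ le_rfl (fun s => (ku.le s).trans hxt)⟩)
    (by
      rw [upd11]
      exact (eleg _).2 ⟨by rw [cut02]; exact m1, off _ le_rfl
        (bx9_ub ht.le ht.le ht.le hxt hxt (hyx.trans hxt) ht.le ht.le ht.le)⟩)
    (fun t' h1 h2 => by
      rw [upd910]
      exact (eleg _).2 ⟨by rw [cut02]; exact m3 t' h1 h2, off _ le_rfl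
        (bx9_ub ht.le ht.le ht.le hxt hxt (hyx.trans hxt) (h2.trans hxt) (h2.trans hxt) hxt)⟩)
    (div_nonneg hΔ0 hx0.le)
    (fun t' h1 h2 => by
      rw [upd910, enu, enu, cut02, cut02]
      have := hQ t' h1 h2
      linarith)
    (by
      rw [upd11, enu, enu, cut02, cut02, div_mul_cancel₀ _ hx0.ne', hΔ]
      linarith)
  rwa [le_div_iff₀ hx0] at key

/-- **[K3H] for a tangent of the profile** -/
theorem k3h_ext (hR : 0 ≤ R) (hC : 0 < cK0 monL C)
    (hext : ExtQ B I0 I' co monL C R 0 w0 s PD Dm r o Em T ν own c₀)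
    (hcoc : ∀ n, Coc (co n))
    (H : OStrips B I0 co (fun _ x => x.1) cell 0 {2} w0 s γ o0 β Sl) (hγ : 0 < γ 2)
    (hβ : 0 < β 2) (hSl : Sl 2 = Set.univ)
    (ho0 : ∀ v, o v 0 = w0 + v) (ho2 : ∀ v, o v 2 = o0 2 + β 2 * v)
    (hoR : ∀ v k, k ≠ 0 → k ≠ 2 → o v k = R)
    {X : ℕ → Fin 12 → ℝ} {hh : ℕ → ℝ} (hpos : ∀ l, 0 < hh l) (hh0 : Tendsto hh atTop (𝓝 0))
    {D : Set (Fin 12 → ℝ)} {lam : (Fin 12 → ℝ) → ℝ} (htan : IsTan (Leg monL R) D ν X hh lam)
    {t : ℝ} (ht : 0 < t) (hD : Leg monD t ⊆ D) {v : ℕ → ℝ} (hX0 : ∀ l, X l 0 = w0 + v l)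
    (hX2 : ∀ l, X l 2 = o0 2 + β 2 * v l) (hv0 : ∀ l, 0 < v l)
    {v1 : ℝ} (hv1 : v1 < 1) (hvv : ∀ᶠ l in atTop, v l ≤ v1)
    (hT1 : ∀ l, X l 11 = X l 0 + X l 10) (hT2 : ∀ l, X l 11 = X l 2 + X l 9)
    (hsl : ∀ K : ℝ, ∀ᶠ l in atTop, X l 2 + K * hh l ≤ X l 0 + X l 1)
    (dens : lam (topD t) ≤ lam (bx9 0 0 0 t t t t t t) + lam (bx9 t 0 t 0 0 0 0 0 0))
    {x y : ℝ} (hx0 : 0 < x) (hx : 2 * x ≤ t) (hy0 : 0 ≤ y) (hyx : y ≤ x)
    (hQ : ∀ t' : ℝ, 0 ≤ t' → t' ≤ x →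
      (1 - s) * t' ≤ lam (bx9 t 0 t x x y 0 0 x) - lam (bx9 t 0 t x x y t' t' x)) :
    (1 - s) * x ≤ lam (bx9 t 0 t x x y 0 0 0) - lam (bx9 t 0 t x x y 0 0 x) := by
  have hzero : (0 : Fin 12 → ℝ) ∈ D := hD ((stG_fro ht.le).zero_mem ht.le)
  have e1 : ∀ᶠ l in atTop, hh l * (t / β 2) < 1 - v1 := by
    have h1 : Tendsto (fun l => hh l * (t / β 2)) atTop (𝓝 (0 * (t / β 2))) :=
      hh0.mul_const _
    rw [zero_mul] at h1
    exact h1.eventually_lt_const (by linarith)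
  have e2 : ∀ᶠ l in atTop, hh l * t < 1 - v1 := by
    have h1 : Tendsto (fun l => hh l * t) atTop (𝓝 (0 * t)) := hh0.mul_const _
    rw [zero_mul] at h1
    exact h1.eventually_lt_const (by linarith)
  obtain ⟨l₀, hl₀⟩ := eventually_atTop.1 (((e1.and e2).and hvv).and (htan 0 1 one_pos))
  have hsh := tendsto_add_atTop_nat l₀
  refine k3h_ext0 hR hC hext hcoc H hγ hβ hSl ho0 ho2 hoR (X := fun l => X (l + l₀))
    (hh := fun l => hh (l + l₀)) (fun l => hpos _) (hh0.comp hsh) (tan_tail htan l₀) ht hD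
    (v := fun l => v (l + l₀)) (fun l => hX0 _) (fun l => hX2 _) (fun l => hv0 _) (fun l => ?_)
    (fun l => ?_) (fun l => ?_) (fun l => hT1 _) (fun l => hT2 _)
    (fun K => hsh.eventually (hsl K)) dens hx0 hx hy0 hyx hQ
  · obtain ⟨⟨⟨h1, h3⟩, h2⟩, -⟩ := hl₀ (l + l₀) (Nat.le_add_left _ _)
    show v (l + l₀) + hh (l + l₀) * (t / β 2) ≤ 1
    linarith
  · obtain ⟨⟨⟨h1, h3⟩, h2⟩, -⟩ := hl₀ (l + l₀) (Nat.le_add_left _ _)
    show v (l + l₀) + hh (l + l₀) * t ≤ 1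
    linarith
  · obtain ⟨-, h3⟩ := hl₀ (l + l₀) (Nat.le_add_left _ _)
    have := (h3 0 hzero (by rw [norm_zero])).1
    rwa [smul_zero, add_zero] at this

end ext

end Crest.Agent.R116.K3h593
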