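import Crest.Agent.R116.K3W6_593
import Crest.Agent.R116.CtxB_468
import Crest.Agent.R116.SgF_665

/-!
# R116, ties: [K3H] in the context of the rows (helper593)

`κ`-tie, `k' = 1` (`β_D = 0`), `B` constant along the lines.

* **`k3h_ctx`** : for a tangent `lam` of the profile at any legal base point with `F = z + P`,
  `F = E + N` tight, `E ≤ z + D` slack, `z`, `E` at the levels of the record line;
* **`k3h_lin`** : the same for 665's `LinTan` : `1 - s ≤ rH + gP → 1 - s ≤ rF`.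
-/

set_option autoImplicit false
set_option linter.unusedVariables false
set_option linter.unusedSectionVars false

open Filter Topology Finset

namespace Crest.Agent.R116.K3h593

open Crest.Agent.R138.Ex926 (Base U IsTan)
open Crest.Agent.R136.Net191 Crest.Agent.R136.MkA627 Crest.Agent.R136.Lq196
open Crest.Agent.R136.TD627 Crest.Agent.R136.Qg926
open Crest.Agent.R116.LZg725 Crest.Agent.R116.ChL222
open Crest.Agent.R116.PL504 (βL eL rL oL Shift nb DN)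
open Crest.Agent.R116.Gd222 (TSet sN PDL DT vb)
open Crest.Agent.R116.KI439
open Crest.Agent.R116.KF439 (PL Thin frF flF scN)
open Crest.Agent.R116.Kst593
open Crest.Agent.R116.Tw468 Crest.Agent.R116.CtxB468
open Crest.Agent.R116.WinG954
open Crest.Agent.R116.Sg337 (bx9)
open Crest.Agent.R116.SgF665

variable {G : Geo TSet (Fin 2)} {L : ℕ → ℕ → LRay} {r : ℕ → ℝ} {g s : ℝ} {θ q : Fin 2 → ℝ}
    {Rg : ℝ} {B : Base}
    {I : ℕ → Finset (ℕ × ℝ)} {lev : ℕ → ℚ → ℕ} {A : ℕ → ℝ}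
    {f : ℕ → ℚ → ℕ → ℤ → ℕ} {b : ℕ → ℚ → ℕ → TSet} {vm : ℕ → ℚ → ℝ} {w : Fin 2 → ℕ → ℚ → ℝ}
    {fr : ℕ → ℚ → ℕ × ℝ → LInc} {fl : ℕ → ℕ × ℝ → LInc} {sc : Fin 12 → ℕ → ℝ}
    {w0 sa sb δ R : ℝ} {I0 I' : ℕ → Finset (ℕ × ℝ)} {ν own : (Fin 12 → ℝ) → ℝ} {c₀ : ℝ}

/-- **[K3H] from the context** -/
theorem k3h_ctx (h : CtxT G L r g s θ q Rg B I lev A f b vm w fr fl sc w0 sa sb δ R I0 I' ν own c₀)
    (hk : βL (θ 0) (θ 1) 1 = 0) (hE : ¬ InvT PL B I 2 fl (sc 2)) (h7 : InvT PL B I 7 fl (sc 7))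
    (h8 : InvT PL B I 8 fl (sc 8))
    {X : ℕ → Fin 12 → ℝ} {hh : ℕ → ℝ} (hpos : ∀ l, 0 < hh l) (hh0 : Tendsto hh atTop (𝓝 0))
    {D : Set (Fin 12 → ℝ)} {lam : (Fin 12 → ℝ) → ℝ} (htan : IsTan (Leg monL R) D ν X hh lam)
    {t : ℝ} (ht : 0 < t) (hD : Leg monD t ⊆ D) {v : ℕ → ℝ} (hX0 : ∀ l, X l 0 = w0 + v l)
    (hX2 : ∀ l, X l 2 = rL (θ 0) (θ 1) w0 sa sb (v l) 2) (hv0 : ∀ l, 0 < v l)
    {v1 : ℝ} (hv1 : v1 < 1) (hvv : ∀ᶠ l in atTop, v l ≤ v1)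
    (hT1 : ∀ l, X l 11 = X l 0 + X l 10) (hT2 : ∀ l, X l 11 = X l 2 + X l 9)
    (hsl : ∀ K : ℝ, ∀ᶠ l in atTop, X l 2 + K * hh l ≤ X l 0 + X l 1)
    (dens : lam (topD t) ≤ lam (bx9 0 0 0 t t t t t t) + lam (bx9 t 0 t 0 0 0 0 0 0))
    {x y : ℝ} (hx0 : 0 < x) (hx : 2 * x ≤ t) (hy0 : 0 ≤ y) (hyx : y ≤ x)
    (hQ : ∀ t' : ℝ, 0 ≤ t' → t' ≤ x →
      (1 - s) * t' ≤ lam (bx9 t 0 t x x y 0 0 x) - lam (bx9 t 0 t x x y t' t' x)) :
    (1 - s) * x ≤ lam (bx9 t 0 t x x y 0 0 0) - lam (bx9 t 0 t x x y 0 0 x) := by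
  have hR : 0 ≤ R := by
    obtain ⟨l, hl⟩ := (htan 0 1 one_pos).exists
    have h0 : (0 : Fin 12 → ℝ) ∈ D := hD ((stG_fro ht.le).zero_mem ht.le)
    have := (hl 0 h0 (by rw [norm_zero])).1
    rw [smul_zero, add_zero] at this
    exact (this.1.nonneg 0).trans (this.2 0)
  have hC : 0 < cK0 monL (2 : ℝ) := by
    have := cK0_one (M := monL) ((h.ext.chart 0).C0)
    linarith
  have hβ : βL (θ 0) (θ 1) 2 = 1 := by
    have e1 : βL (θ 0) (θ 1) 1 = -(θ 1) - 2 * -(θ 0) - 1 := rfl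
    have e2 : βL (θ 0) (θ 1) 2 = -(θ 1) - 2 * -(θ 0) := rfl
    rw [e1] at hk
    rw [e2]; linarith
  have h1 : InvT PL B I 1 fl (sc 1) := by
    rcases h.out.clsD with h1 | h1
    · exact h1
    · exact absurd h1.2.1 (by rw [hk]; exact lt_irrefl _)
  have hST : Rm899.STwL2 B I lev fl (sc 2) := by
    rcases h.out.kone hk with h2 | h2
    · exact absurd h2 hE
    · exact h2
  obtain ⟨γ, hγ, H⟩ := ostrips_of h.out.win.sys (fun k n v => rfl) h.out.win.hz w0 sa sb {2}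
    (fun j hj => by rw [mem_singleton.1 hj, hβ]; exact one_pos) (fun _ => Set.univ)
    (fun j hj => Or.inr rfl) (fun j hj => by
      rw [mem_singleton.1 hj, hβ]
      exact stC_of_STwL2 hST)
  have H' := H.sub (Eventually.of_forall h.sub0)
  have hV : ∀ k, k ≠ 0 → k ≠ 2 → ¬ VisT B I fl sc k := by
    intro k k0 k2 hv
    refine hv ?_
    fin_cases k
    · exact absurd rfl k0
    · exact h1
    · exact absurd rfl k2
    · exact h.out.inv_ray (by decide)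
    · exact h.out.inv_ray (by decide)
    · exact h.out.inv_ray (by decide)
    · exact h.out.inv_ray (by decide)
    · exact h7
    · exact h8
    · exact h.out.inv_ray (by decide)
    · exact h.out.inv_ray (by decide)
    · exact h.out.inv_ray (by decide)
  exact k3h_ext hR hC h.ext (Sd369.coc_N B lev w w0 sa sb fl) H' (hγ 2) (by rw [hβ]; exact one_pos)
    rfl (fun v => oz _ v) (fun v => by rw [oV hE, PL504.rL_lin]) (fun v k k0 k2 => oR k0 (hV k k0 k2) v)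
    hpos hh0 htan ht hD hX0 (fun l => by rw [hX2, PL504.rL_lin]) hv0 hv1 hvv hT1 hT2 hsl dens hx0 hx
    hy0 hyx hQ

/-- **[K3H] for linear tangents** : `1 - s ≤ rH + gP → 1 - s ≤ rF` -/
theorem k3h_lin (h : CtxT G L r g s θ q Rg B I lev A f b vm w fr fl sc w0 sa sb δ R I0 I' ν own c₀)
    (hk : βL (θ 0) (θ 1) 1 = 0) (hE : ¬ InvT PL B I 2 fl (sc 2)) (h7 : InvT PL B I 7 fl (sc 7))
    (h8 : InvT PL B I 8 fl (sc 8)) {J : Type*} {fJ : J → (Fin 12 → ℝ) → ℝ} {j0 : J}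
    (hf : fJ j0 = ν) {X : ℕ → Fin 12 → ℝ} {hh : ℕ → ℝ} {rz rX rH rF gC gP gE gB : ℝ}
    (hL : LinTan (Leg monL R) fJ j0 X hh rz rX rH rF gC gP gE gB)
    {v : ℕ → ℝ} (hX0 : ∀ l, X l 0 = w0 + v l)
    (hX2 : ∀ l, X l 2 = rL (θ 0) (θ 1) w0 sa sb (v l) 2) (hv0 : ∀ l, 0 < v l)
    {v1 : ℝ} (hv1 : v1 < 1) (hvv : ∀ᶠ l in atTop, v l ≤ v1)
    (hT1 : ∀ l, X l 11 = X l 0 + X l 10) (hT2 : ∀ l, X l 11 = X l 2 + X l 9)
    (h1 : 1 - s ≤ rH + gP) : 1 - s ≤ rF := by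
  obtain ⟨D, lam, hD, htan, hlin⟩ := hL.ex
  have hD' : Leg monD 1 ⊆ D := fun p hp => hD fun k e he h1 => leg_LMd 1 hp k e he h1
  have htan' : IsTan (Leg monL R) D ν X hh (lam j0) := by rw [← hf]; exact htan j0
  have hsl : ∀ K : ℝ, ∀ᶠ l in atTop, X l 2 + K * hh l ≤ X l 0 + X l 1 := by
    intro K
    have he : (![1, 1, 0, 0, 0, 0, 0, 0, 0, 0, 0, 0] : Fin 12 → ℕ) ∈ monL.mon 2 := by
      change _ ∈ mfL 2
      decide
    filter_upwards [hL.slD 2 _ he (by decide) K] with n hn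
    refine hn.trans (le_of_eq ?_)
    simp [wl, Fin.sum_univ_succ]
  have mem : ∀ p : Fin 12 → ℝ, p ∈ Leg monD 1 → p ∈ LM0 := fun p hp k e he h1 =>
    leg_LMd 1 hp k e he h1
  have m1 : bx9 1 0 1 (1 / 2) (1 / 2) 0 0 0 0 ∈ Leg monD 1 := bx9_legD.2 (by norm_num)
  have m2 : bx9 1 0 1 (1 / 2) (1 / 2) 0 0 0 (1 / 2) ∈ Leg monD 1 := bx9_legD.2 (by norm_num)
  have m3 : ∀ t' : ℝ, 0 ≤ t' → t' ≤ 1 / 2 →
      bx9 1 0 1 (1 / 2) (1 / 2) 0 t' t' (1 / 2) ∈ Leg monD 1 := fun t' h1 h2 =>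
    bx9_legD.2 ⟨⟨by norm_num, le_rfl, by norm_num, by norm_num, by norm_num, le_rfl, h1, h1,
      by norm_num⟩, ⟨by linarith, by linarith, by linarith, by linarith, by linarith, by linarith,
      by linarith⟩, ⟨le_rfl, by norm_num, le_rfl, by norm_num, by norm_num, by norm_num,
      by linarith, by linarith, by norm_num⟩⟩
  have l1 := hlin _ _ _ _ _ _ _ _ (mem _ m1)
  have l2 := hlin _ _ _ _ _ _ _ _ (mem _ m2)
  have htop : topD 1 ∈ Leg monD 1 := (stG_fro zero_le_one).top_leg zero_le_one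
  have dens : lam j0 (topD 1) ≤
      lam j0 (bx9 0 0 0 1 1 1 1 1 1) + lam j0 (bx9 1 0 1 0 0 0 0 0 0) := by
    rw [topD_eq] at htop ⊢
    rw [hlin _ _ _ _ _ _ _ _ (mem _ htop), hlin _ _ _ _ _ _ _ _ (mem _ (lin_mem02 zero_le_one)),
      hlin _ _ _ _ _ _ _ _ (mem _ (lev_mem02 zero_le_one))]
    linarith
  have key := k3h_ctx h hk hE h7 h8 hL.hpos hL.h0 htan' (t := 1) one_pos hD' hX0 hX2 hv0 hv1 hvv
    hT1 hT2 hsl dens (x := 1 / 2) (y := 0) (by norm_num) (by norm_num) le_rfl (by norm_num)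
    (fun t' h2 h3 => by
      rw [hlin _ _ _ _ _ _ _ _ (mem _ (m3 t' h2 h3)), l2]
      nlinarith)
  rw [l1, l2] at key
  linarith

end Crest.Agent.R116.K3h593
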