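import Crest.Agent.R116.K3V_460
import Crest.Agent.R116.Tq3_794

/-!
# R116, ties: [K3H] in class letters (helper593)

* `K3N c s φ`   : (K3) at a `κ`-tie with `k' = 1` (classes `{z, G}`, `{C_b, H}`, `{X, N, B}`), `D`
  frozen;
* **`n1_ctx`**   : `CtxT` + the data of a plane (`X`, `H`, `lam`, the box `E8`) + `Cl9` `⊢ K3N c s φ`.
-/

set_option autoImplicit false
set_option linter.unusedVariables false
set_option linter.unusedSectionVars false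

open Filter Topology Finset

namespace Crest.Agent.R116.K3h593

open Crest.Agent.R138.Ex926 (Base U IsTan)
open Crest.Agent.R136.Net191 Crest.Agent.R136.MkA627 Crest.Agent.R136.Lq196
open Crest.Agent.R136.TD627 Crest.Agent.R136.Qg926
open Crest.Agent.R116.LZg725 Crest.Agent.R116.ChL222
open Crest.Agent.R116.PL504 (βL eL rL oL Shift nb DN)
open Crest.Agent.R116.Gd222 (TSet sN PDL DT vb)
open Crest.Agent.R116.KI439
open Crest.Agent.R116.KF439 (PL Thin frF flF scN)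
open Crest.Agent.R116.Kst593
open Crest.Agent.R116.Tw468 Crest.Agent.R116.CtxB468
open Crest.Agent.R116.WinG954
open Crest.Agent.R116.Sg337 (bx9)
open Crest.Agent.R116.SgF665
open Crest.Agent.R116.Tq741 Crest.Agent.R116.Tq794

/-- **(K3) at a `κ`-tie with `k' = 1`**, `D` frozen: if the joint increments of `{C_b, H}` are at
least `1 - s`, then so is the mean rate of `N` alone from `0` to `n ∈ [x, x + b]`, above `X` and `B`
finer by `x` and `b ≤ x` (for instance `x = b = 1`, `n = 2`) -/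
def K3N (c : Fin 9 → Fin 9) (s : ℝ) (φ : Fin 9 → V9 → ℝ) : Prop :=
  (∀ y : ℝ, 0 ≤ y → (1 - s) * y ≤ φ (c 2) 0 - φ (c 2) (y • (e9 2 + e9 5))) →
    ∀ x b n : ℝ, 0 ≤ b → b ≤ x → 0 < n → x ≤ n → n ≤ x + b →
      (1 - s) * n ≤ φ (c 4) (x • e9 3 + b • e9 6) - φ (c 4) (x • e9 3 + b • e9 6 + n • e9 4)

variable {G : Geo TSet (Fin 2)} {L : ℕ → ℕ → LRay} {r : ℕ → ℝ} {g s : ℝ} {θ q : Fin 2 → ℝ}
    {Rg : ℝ} {B : Base}
    {I : ℕ → Finset (ℕ × ℝ)} {lev : ℕ → ℚ → ℕ} {A : ℕ → ℝ}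
    {f : ℕ → ℚ → ℕ → ℤ → ℕ} {b : ℕ → ℚ → ℕ → TSet} {vm : ℕ → ℚ → ℝ} {w : Fin 2 → ℕ → ℚ → ℝ}
    {fr : ℕ → ℚ → ℕ × ℝ → LInc} {fl : ℕ → ℕ × ℝ → LInc} {sc : Fin 12 → ℕ → ℝ}
    {w0 sa sb δ R : ℝ} {I0 I' : ℕ → Finset (ℕ × ℝ)} {ν own : (Fin 12 → ℝ) → ℝ} {c₀ : ℝ}

/-- density of `{z, G}` against everything else, from the classes -/
theorem dens_cl9 {c : Fin 9 → Fin 9} {dl ρ : V9} {φ : Fin 9 → V9 → ℝ} {lam : (Fin 12 → ℝ) → ℝ}
    (H : Cl9 c dl s (fun w => lam (E8 w)) φ ρ) (c7 : c 7 = c 0)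
    (cz : ∀ t, c t = c 0 → t = 0 ∨ t = 7 ∨ t = 8) {t : ℝ} (ht : 0 ≤ t) :
    lam (topD t) ≤ lam (bx9 0 0 0 t t t t t t) + lam (bx9 t 0 t 0 0 0 0 0 0) := by
  have e1 : topD t = E8 ![t, t, t, t, t, t, t, t, 0] := topD_eq t
  have e2 : bx9 0 0 0 t t t t t t = E8 ![0, t, t, t, t, t, t, 0, 0] := rfl
  have e3 : bx9 t 0 t 0 0 0 0 0 0 = E8 ![t, 0, 0, 0, 0, 0, 0, t, 0] := rfl
  have m1 : LegM 0 (![t, t, t, t, t, t, t, t, 0] : V9) := by
    constructor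
    · show t + 0 ≤ t + 0
      linarith
    · show t + 0 ≤ t + t
      linarith
    · show t + 0 ≤ t + t
      linarith
    · show t + 0 ≤ 0 + t
      linarith
    · show t + 0 ≤ t + t
      linarith
    · show t + 0 ≤ t + t
      linarith
    · show t + 0 ≤ 0 + t
      linarith
    · show t + 0 ≤ t + t
      linarith
    · show t + 0 ≤ t + t
      linarith
    · show t + 0 ≤ t + t
      linarith
  have m2 : LegM 0 (![0, t, t, t, t, t, t, 0, 0] : V9) := by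
    constructor
    · show (0:ℝ) + 0 ≤ 0 + 0
      linarith
    · show t + 0 ≤ 0 + t
      linarith
    · show t + 0 ≤ 0 + t
      linarith
    · show t + 0 ≤ 0 + t
      linarith
    · show t + 0 ≤ t + t
      linarith
    · show t + 0 ≤ t + t
      linarith
    · show t + 0 ≤ 0 + t
      linarith
    · show t + 0 ≤ 0 + t
      linarith
    · show t + 0 ≤ t + t
      linarith
    · show t + 0 ≤ 0 + t
      linarith
  have m3 : LegM 0 (![t, 0, 0, 0, 0, 0, 0, t, 0] : V9) := by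
    constructor
    · show t + 0 ≤ t + 0
      linarith
    · show (0:ℝ) + 0 ≤ t + 0
      linarith
    · show (0:ℝ) + 0 ≤ t + 0
      linarith
    · show (0:ℝ) + 0 ≤ 0 + 0
      linarith
    · show (0:ℝ) + 0 ≤ 0 + 0
      linarith
    · show (0:ℝ) + 0 ≤ 0 + 0
      linarith
    · show (0:ℝ) + 0 ≤ 0 + 0
      linarith
    · show (0:ℝ) + 0 ≤ t + 0
      linarith
    · show (0:ℝ) + 0 ≤ 0 + 0
      linarith
    · show (0:ℝ) + 0 ≤ t + 0
      linarith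
  have s1 : lam (E8 ![t, t, t, t, t, t, t, t, 0]) = _ := H.sum _ m1
  have s2 : lam (E8 ![0, t, t, t, t, t, t, 0, 0]) = _ := H.sum _ m2
  have s3 : lam (E8 ![t, 0, 0, 0, 0, 0, 0, t, 0]) = _ := H.sum _ m3
  rw [e1, e2, e3, s1, s2, s3, ← Finset.sum_add_distrib]
  refine (Finset.sum_congr rfl fun k _ => ?_).le
  by_cases hk : k = c 0
  · subst hk
    rw [H.zero_of 0 (w := ![0, t, t, t, t, t, t, 0, 0]) fun t' ht' => by
      rcases cz t' ht' with rfl | rfl | rfl <;> simp, zero_add]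
    refine H.loc _ _ _ fun t' ht' => ?_
    rcases cz t' ht' with rfl | rfl | rfl <;> simp
  · have h0 : ∀ t', c t' = k → t' ≠ 0 ∧ t' ≠ 7 := fun t' ht' =>
      ⟨fun h => hk (by rw [← ht', h]), fun h => hk (by rw [← ht', h, c7])⟩
    have hz : φ k (![t, 0, 0, 0, 0, 0, 0, t, 0] : V9) = 0 := by
      by_cases hex : ∃ t0, c t0 = k
      · obtain ⟨t0, rfl⟩ := hex
        refine H.zero_of t0 fun t' ht' => ?_
        obtain ⟨h1, h2⟩ := h0 t' ht'
        clear ht'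
        revert h1 h2
        fin_cases t' <;> simp
      · exact H.emp k (fun t' ht' => hex ⟨t', ht'⟩) _
    rw [hz, add_zero]
    refine H.loc _ _ _ fun t' ht' => ?_
    obtain ⟨h1, h2⟩ := h0 t' ht'
    clear ht'
    revert h1 h2
    fin_cases t' <;> simp

theorem bx9_sup (z D E C X B H P F X' F' : ℝ) :
    bx9 z D E C X B H P F ⊔ bx9 z D E C X' B H P F' = bx9 z D E C (X ⊔ X') B H P (F ⊔ F') := by
  funext i
  rw [Pi.sup_apply]
  fin_cases i <;> simp [bx9]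

theorem bx9_inf (z D E C X B H P F X' F' : ℝ) :
    bx9 z D E C X B H P F ⊓ bx9 z D E C X' B H P F' = bx9 z D E C (X ⊓ X') B H P (F ⊓ F') := by
  funext i
  rw [Pi.inf_apply]
  fin_cases i <;> simp [bx9]

/-- **(K3), `κ`-tie, `k' = 1`, FROM THE CONTEXT** -/
theorem n1_ctx (h : CtxT G L r g s θ q Rg B I lev A f b vm w fr fl sc w0 sa sb δ R I0 I' ν own c₀)
    (hk : βL (θ 0) (θ 1) 1 = 0) (hE : ¬ InvT PL B I 2 fl (sc 2))     {X : ℕ → Fin 12 → ℝ} {hh : ℕ → ℝ} (hpos : ∀ l, 0 < hh l) (hh0 : Tendsto hh atTop (𝓝 0))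
    {D : Set (Fin 12 → ℝ)} {lam : (Fin 12 → ℝ) → ℝ} (htan : IsTan (Leg monL R) D ν X hh lam)
    (hD : LM0 ⊆ D) {v : ℕ → ℝ} (hX0 : ∀ l, X l 0 = w0 + v l)
    (hB : ∀ k, k = 7 ∨ k = 8 → InvT PL B I k fl (sc k) ∨
      ∀ K : ℝ, ∀ᶠ l in atTop, X l k + K * hh l ≤ rL (θ 0) (θ 1) w0 sa sb (v l) k)
    (hX2 : ∀ l, X l 2 = rL (θ 0) (θ 1) w0 sa sb (v l) 2) (hv0 : ∀ l, 0 < v l)
    {v1 : ℝ} (hv1 : v1 < 1) (hvv : ∀ᶠ l in atTop, v l ≤ v1)
    (hT1 : ∀ l, X l 11 = X l 0 + X l 10) (hT2 : ∀ l, X l 11 = X l 2 + X l 9)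
    (hsl : ∀ K : ℝ, ∀ᶠ l in atTop, X l 2 + K * hh l ≤ X l 0 + X l 1) (hsm : Crest.Agent.R136.Dg262.SupOn lam LM0)
    {c : Fin 9 → Fin 9} {dl ρ : V9} {φ : Fin 9 → V9 → ℝ}
    (H : Cl9 c dl s (fun w => lam (E8 w)) φ ρ) (c7 : c 7 = c 0) (c5 : c 5 = c 2)
    (cz : ∀ t, c t = c 0 → t = 0 ∨ t = 7 ∨ t = 8) (cP : ∀ t, c t = c 2 → t = 2 ∨ t = 5 ∨ t = 8)
    (cN : ∀ t, c t = c 4 → t = 3 ∨ t = 4 ∨ t = 6 ∨ t = 8) : K3N c s φ := by
  intro hQ x₀ b' n hb hbx₀ hn hxn hnb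
  set x := n with hx
  have hbx : b' ≤ x := hbx₀.trans hxn
  have m1 : ∀ n p : ℝ, 0 ≤ n → n ≤ x → 0 ≤ p → p ≤ x →
      LegM 0 (![2 * x, x, p, x, n, p, b', 2 * x, 0] : V9) := by
    intro n p hn0 hn hp0 hp
    constructor
    · show 2 * x + 0 ≤ 2 * x + 0
      linarith
    · show x + 0 ≤ 2 * x + x
      linarith
    · show b' + 0 ≤ 2 * x + x
      linarith
    · show b' + 0 ≤ 0 + x
      linarith
    · show p + 0 ≤ x + x
      linarith
    · show p + 0 ≤ x + b'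
      linarith
    · show p + 0 ≤ 0 + p
      linarith
    · show n + 0 ≤ 2 * x + p
      linarith
    · show n + 0 ≤ x + b'
      linarith
    · show n + 0 ≤ 2 * x + p
      linarith
  have key := K3V460.k3h_ctxV h hk hE hpos hh0 htan (t := 2 * x) (by linarith)
    (fun p hp => hD fun k e he h1 => leg_LMd (2 * x) hp k e he h1) hX0 hB hX2 hv0 hv1 hvv hT1 hT2 hsl
    (dens_cl9 H c7 cz (by linarith)) hn le_rfl hb hbx (fun t' h1 h2 => by
      have q1 := H.incr (m1 x 0 hn.le le_rfl le_rfl hn.le) (m1 x t' hn.le le_rfl h1 h2) (c 2)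
        (fun i hi => by
          revert hi
          fin_cases i <;> simp [c5])
      have q2 : φ (c 2) (![2 * x, x, 0, x, x, 0, b', 2 * x, 0] : V9) = φ (c 2) 0 :=
        H.loc _ _ _ fun i hi => by rcases cP i hi with rfl | rfl | rfl <;> simp
      have q3 : φ (c 2) (![2 * x, x, t', x, x, t', b', 2 * x, 0] : V9) =
          φ (c 2) (t' • (e9 2 + e9 5)) :=
        H.loc _ _ _ fun i hi => by
          rcases cP i hi with rfl | rfl | rfl <;> simp [e9]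
      have q4 := hQ t' h1
      rw [← q2, ← q3, q1] at q4
      exact q4)
  -- `X` coarser
  have m2 : ∀ n', 0 ≤ n' → n' ≤ x →
      LegM 0 (![2 * x, x, 0, x₀, n', 0, b', 2 * x, 0] : V9) := by
    intro n' h0 h1
    constructor
    · show 2 * x + 0 ≤ 2 * x + 0
      linarith
    · show x₀ + 0 ≤ 2 * x + x
      linarith
    · show b' + 0 ≤ 2 * x + x
      linarith
    · show b' + 0 ≤ 0 + x₀
      linarith
    · show (0:ℝ) + 0 ≤ x + x₀
      linarith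
    · show (0:ℝ) + 0 ≤ x + b'
      linarith
    · show (0:ℝ) + 0 ≤ 0 + 0
      linarith
    · show n' + 0 ≤ 2 * x + 0
      linarith
    · show n' + 0 ≤ x₀ + b'
      linarith
    · show n' + 0 ≤ 2 * x + 0
      linarith
  have sup := hsm _ (E8_mem (m1 0 0 le_rfl hn.le le_rfl hn.le)) _ (E8_mem (m2 x hn.le le_rfl))
  have e1 : E8 ![2 * x, x, 0, x, 0, 0, b', 2 * x, 0] ⊔ E8 ![2 * x, x, 0, x₀, x, 0, b', 2 * x, 0] =
      E8 ![2 * x, x, 0, x, x, 0, b', 2 * x, 0] := by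
    have := bx9_sup (2 * x) 0 (2 * x) x x b' 0 0 0 x₀ x
    rw [sup_eq_left.2 hxn, sup_eq_right.2 hn.le] at this
    exact this
  have e2 : E8 ![2 * x, x, 0, x, 0, 0, b', 2 * x, 0] ⊓ E8 ![2 * x, x, 0, x₀, x, 0, b', 2 * x, 0] =
      E8 ![2 * x, x, 0, x₀, 0, 0, b', 2 * x, 0] := by
    have := bx9_inf (2 * x) 0 (2 * x) x x b' 0 0 0 x₀ x
    rw [inf_eq_right.2 hxn, inf_eq_left.2 hn.le] at this
    exact this
  rw [e1, e2] at sup
  have sup' := sup (E8_mem (m2 0 le_rfl hn.le)) (E8_mem (m1 x 0 hn.le le_rfl le_rfl hn.le))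
  have r1 := H.incr (m2 0 le_rfl hn.le) (m2 x hn.le le_rfl) (c 4)
    (fun i hi => by
      revert hi
      fin_cases i <;> simp)
  have r2 : φ (c 4) (![2 * x, x, 0, x₀, 0, 0, b', 2 * x, 0] : V9) =
      φ (c 4) (x₀ • e9 3 + b' • e9 6) :=
    H.loc _ _ _ fun i hi => by
      rcases cN i hi with rfl | rfl | rfl | rfl <;> simp [e9]
  have r3 : φ (c 4) (![2 * x, x, 0, x₀, x, 0, b', 2 * x, 0] : V9) =
      φ (c 4) (x₀ • e9 3 + b' • e9 6 + x • e9 4) :=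
    H.loc _ _ _ fun i hi => by
      rcases cN i hi with rfl | rfl | rfl | rfl <;> simp [e9]
  rw [← r2, ← r3, r1]
  have k2 : (1 - s) * x ≤ lam (E8 ![2 * x, x, 0, x, 0, 0, b', 2 * x, 0]) -
      lam (E8 ![2 * x, x, 0, x, x, 0, b', 2 * x, 0]) := key
  show (1 - s) * x ≤ lam (E8 ![2 * x, x, 0, x₀, 0, 0, b', 2 * x, 0]) -
      lam (E8 ![2 * x, x, 0, x₀, x, 0, b', 2 * x, 0])
  linarith

end Crest.Agent.R116.K3h593
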