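import Crest.Agent.R116.KW3_420
import Crest.Agent.R136.CD5_366

/-!
# R116, e-tie `k = 1` : **K3core**, part 1 (helper160)

* `runif_conj`, `rmodel_conj` : another system of relative coordinates with comparable boxes;
* `rot u v G` : slots `3`, `5` = twice the components of `{3, 4}`, `{5, 6}` along `(-v, u)`, slots
  `4`, `6` forgotten; `rot_loose`, `loose_rot`, `rmodel_rot`;
* `k3_data` : 366's `K3` for the rotated configuration from 710's `LLaw`, 420's `Dir` and common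
  heights of the slots `7`, `8`;
* **`k3core_e`** : `σ ≤ a`.
-/

set_option autoImplicit false
set_option linter.unusedVariables false
set_option linter.unusedSectionVars false

open Filter Topology Finset

namespace Crest.Agent.R116.K3e160

open Crest.Agent.R138.Ex926 (Base U)
open Crest.Agent.R136.Gf356
open Crest.Agent.R116.EvL504 (evoS LvS LnS SL)
open Crest.Agent.R116.Kr710 (LLaw)
open Crest.Agent.R116.KW420 (Dir evoS_10 evoS_11)

/-! ### another system of relative coordinates -/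

section conj

variable {κ κ' : Type} {B : Base} {G : ℕ → RCfg κ} {G' : ℕ → RCfg κ'} {Leg : Set (κ → ℝ)}
  {Leg' : Set (κ' → ℝ)} {ν : (κ → ℝ) → ℝ} {σ R D : ℝ} {φ : (κ' → ℝ) → κ → ℝ}

/-- **comparable boxes** -/
theorem runif_conj (H : RUnif B G Leg ν D) {c : ℝ} (hc : 1 ≤ c)
    (e1 : ∀ n, (G' n).ρ = (G n).ρ) (e2 : ∀ n, (G' n).L = (G n).L) (e3 : ∀ n, (G' n).Z = (G n).Z)
    (e4 : ∀ n, (G' n).I = (G n).I)
    (e5 : ∀ n k i, (i, k) ∈ (G n).I → ∀ j, (G' n).rel k i i j = 0)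
    (hφ : ∀ p ∈ Leg', φ p ∈ Leg)
    (h1 : ∀ p ∈ Leg', ∀ ε : ℝ, 0 < ε → ∀ᶠ n in (U : Filter ℕ), ∀ k i l, (i, k) ∈ (G n).I →
      (l, k) ∈ (G n).I → (G' n).loose p ε k i l → (G n).loose (φ p) (c * ε) k i l)
    (h2 : ∀ p ∈ Leg', ∀ ε : ℝ, 0 < ε → ∀ᶠ n in (U : Filter ℕ), ∀ k i l, (i, k) ∈ (G n).I →
      (l, k) ∈ (G n).I → (G n).loose (φ p) ε k i l → (G' n).loose p (c * ε) k i l) :
    RUnif B G' Leg' (fun p => ν (φ p)) (c ^ 2 * D) := by
  have hD := H.D1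
  have hc0 : 0 < c := by linarith
  have hD0 : 0 < D := by linarith
  have hs : ∀ n k, (G' n).slice k = (G n).slice k := by
    intro n k
    ext i
    rw [RCfg.mem_slice, RCfg.mem_slice, e2, e4]
  refine
    { D1 := by nlinarith [one_le_pow₀ (n := 2) hc]
      base := fun n => by rw [e1]; exact H.base n
      sub := fun n => by rw [e2, e3, e4]; exact H.sub n
      nonempty := fun n => by rw [e4]; exact H.nonempty n
      refl := fun n k i hi => e5 n k i (by rwa [e4] at hi)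
      symm := fun p hp ε hε => ?_
      tri := fun p hp ε hε => ?_
      low := fun p hp ε hε => ?_
      up := fun p hp ε hε => ?_ }
  · filter_upwards [h1 p hp ε hε, H.symm _ (hφ p hp) (c * ε) (by positivity),
      h2 p hp (D * (c * ε)) (by positivity)] with n a1 a2 a3 k i l hi hl h
    rw [e4] at hi hl
    have := a3 k l i hl hi (a2 k i l hi hl (a1 k i l hi hl h))
    have e : c * (D * (c * ε)) = c ^ 2 * D * ε := by ring
    rwa [e] at this
  · filter_upwards [h1 p hp ε hε, H.tri _ (hφ p hp) (c * ε) (by positivity),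
      h2 p hp (D * (c * ε)) (by positivity)] with n a1 a2 a3 k i l m hi hl hm h h'
    rw [e4] at hi hl hm
    have := a3 k i m hi hm (a2 k i l m hi hl hm (a1 k i l hi hl h) (a1 k l m hl hm h'))
    have e : c * (D * (c * ε)) = c ^ 2 * D * ε := by ring
    rwa [e] at this
  · filter_upwards [H.low _ (hφ p hp) (ε / c) (by positivity), h2 p hp (ε / c) (by positivity)]
      with n a1 a2 i k hi
    rw [e4] at hi
    have h3 : B.d n ^ (-ν (φ p) + ε) ≤ B.d n ^ (-ν (φ p) + ε / c) := by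
      refine rpow_anti B n ?_
      have : ε / c ≤ ε := div_le_self hε.le hc
      linarith
    refine h3.trans ((a1 i k hi).trans (Nat.cast_le.2 (card_le_card fun l hl => ?_)))
    obtain ⟨b1, b2⟩ := RCfg.mem_box.1 hl
    have hlI := (RCfg.mem_slice.1 b1).2
    refine RCfg.mem_box.2 ⟨by rw [hs]; exact b1, ?_⟩
    have := a2 k i l hi hlI b2
    have e : c * (ε / c) = ε := by field_simp
    rwa [e] at this
  · filter_upwards [H.up _ (hφ p hp) (c * ε) (by positivity), h1 p hp ε hε]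
      with n a1 a2 i k hi
    rw [e4] at hi
    have h3 : B.d n ^ (-ν (φ p) - D * (c * ε)) ≤ B.d n ^ (-ν (φ p) - c ^ 2 * D * ε) := by
      refine rpow_anti B n ?_
      have : D * (c * ε) ≤ c ^ 2 * D * ε := by
        have h4 : c ≤ c ^ 2 := by nlinarith
        have h5 : 0 ≤ D * ε := by positivity
        nlinarith
      linarith
    refine le_trans (Nat.cast_le.2 (card_le_card fun l hl => ?_)) ((a1 i k hi).trans h3)
    obtain ⟨b1, b2⟩ := RCfg.mem_box.1 hl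
    rw [hs] at b1
    have hlI := (RCfg.mem_slice.1 b1).2
    exact RCfg.mem_box.2 ⟨b1, a2 k i l hi hlI b2⟩

/-- **comparable boxes**, models -/
theorem rmodel_conj (H : RModel B G σ R Leg ν D) {c : ℝ} (hc : 1 ≤ c)
    (e1 : ∀ n, (G' n).ρ = (G n).ρ) (e2 : ∀ n, (G' n).L = (G n).L) (e3 : ∀ n, (G' n).Z = (G n).Z)
    (e4 : ∀ n, (G' n).I = (G n).I) (e6 : ∀ n, (G' n).z = (G n).z)
    (e5 : ∀ n k i, (i, k) ∈ (G n).I → ∀ j, (G' n).rel k i i j = 0)
    (hφ : ∀ p ∈ Leg', φ p ∈ Leg)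
    (h1 : ∀ p ∈ Leg', ∀ ε : ℝ, 0 < ε → ∀ᶠ n in (U : Filter ℕ), ∀ k i l, (i, k) ∈ (G n).I →
      (l, k) ∈ (G n).I → (G' n).loose p ε k i l → (G n).loose (φ p) (c * ε) k i l)
    (h2 : ∀ p ∈ Leg', ∀ ε : ℝ, 0 < ε → ∀ᶠ n in (U : Filter ℕ), ∀ k i l, (i, k) ∈ (G n).I →
      (l, k) ∈ (G n).I → (G n).loose (φ p) ε k i l → (G' n).loose p (c * ε) k i l) :
    RModel B G' σ R Leg' (fun p => ν (φ p)) (c ^ 2 * D) := by
  have hs : ∀ n k, (G' n).slice k = (G n).slice k := by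
    intro n k
    ext i
    rw [RCfg.mem_slice, RCfg.mem_slice, e2, e4]
  have ht : ∀ n i, (G' n).hts i = (G n).hts i := by
    intro n i
    ext k
    rw [RCfg.mem_hts, RCfg.mem_hts, e3, e4]
  have hb : ∀ n x k, (G' n).hbox x k = (G n).hbox x k := by
    intro n x k
    unfold RCfg.hbox
    rw [e3, e6, e1]
  refine
    { toRUnif := runif_conj H.toRUnif hc e1 e2 e3 e4 e5 hφ h1 h2
      σ_nonneg := H.σ_nonneg
      σ_le := H.σ_le
      line := fun ε hε => ?_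
      slice := fun ε hε => ?_
      frost := fun x hx hxR ε hε => ?_ }
  · filter_upwards [H.line ε hε] with n h i hi
    rw [e2] at hi
    rw [e3, ht]
    exact h i hi
  · filter_upwards [H.slice ε hε] with n h k hk
    rw [e3] at hk
    rw [e2, hs]
    exact h k hk
  · filter_upwards [H.frost x hx hxR ε hε] with n h k hk
    rw [e3] at hk
    rw [e3, hb]
    exact h k hk

end conj

/-! ### the rotated configuration -/

/-- slots `3`, `5` = twice the components along `(-v, u)`, slots `4`, `6` forgotten -/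
def rot (u v : ℝ) (G : RCfg (Fin 12)) : RCfg (Fin 12) where
  ρ := G.ρ
  L := G.L
  Z := G.Z
  I := G.I
  z := G.z
  rel k i l s :=
    if s = 3 then 2 * (-v * G.rel k i l 3 + u * G.rel k i l 4)
    else if s = 5 then 2 * (-v * G.rel k i l 5 + u * G.rel k i l 6)
    else if s = 4 ∨ s = 6 then 0 else G.rel k i l s

/-- exponents: `4 := 3`, `6 := 5` -/
def dup (p : Fin 12 → ℝ) : Fin 12 → ℝ := fun s => if s = 4 then p 3 else if s = 6 then p 5 else p s

theorem dup3 (p : Fin 12 → ℝ) : dup p 3 = p 3 := by simp [dup]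

theorem dup4 (p : Fin 12 → ℝ) : dup p 4 = p 3 := by simp [dup]

theorem dup5 (p : Fin 12 → ℝ) : dup p 5 = p 5 := by simp [dup]

theorem dup6 (p : Fin 12 → ℝ) : dup p 6 = p 5 := by simp [dup]

theorem dup_of (p : Fin 12 → ℝ) {s : Fin 12} (h4 : s ≠ 4) (h6 : s ≠ 6) : dup p s = p s := by
  simp [dup, h4, h6]

theorem rot3 (u v : ℝ) (G : RCfg (Fin 12)) (k i l : ℕ) : (rot u v G).rel k i l 3 =
    2 * (-v * G.rel k i l 3 + u * G.rel k i l 4) := by simp [rot]

theorem rot5 (u v : ℝ) (G : RCfg (Fin 12)) (k i l : ℕ) : (rot u v G).rel k i l 5 =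
    2 * (-v * G.rel k i l 5 + u * G.rel k i l 6) := by simp [rot]

theorem rot4 (u v : ℝ) (G : RCfg (Fin 12)) (k i l : ℕ) : (rot u v G).rel k i l 4 = 0 := by
  simp [rot]

theorem rot6 (u v : ℝ) (G : RCfg (Fin 12)) (k i l : ℕ) : (rot u v G).rel k i l 6 = 0 := by
  simp [rot]

theorem rot_of (u v : ℝ) (G : RCfg (Fin 12)) (k i l : ℕ) {s : Fin 12} (h3 : s ≠ 3) (h4 : s ≠ 4)
    (h5 : s ≠ 5) (h6 : s ≠ 6) : (rot u v G).rel k i l s = G.rel k i l s := by
  simp [rot, h3, h4, h5, h6]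

/-- from the rotated coordinates back -/
theorem vec2 {u v c d t : ℝ} (huv : u ^ 2 + v ^ 2 = 1) (ht : 0 ≤ t)
    (h1 : |2 * (-v * c + u * d)| ≤ t) (h2 : |u * c + v * d| ≤ t) : |c| ≤ 2 * t ∧ |d| ≤ 2 * t := by
  have hu : |u| ≤ 1 := abs_le.2 ⟨by nlinarith [sq_nonneg v], by nlinarith [sq_nonneg v]⟩
  have hv : |v| ≤ 1 := abs_le.2 ⟨by nlinarith [sq_nonneg u], by nlinarith [sq_nonneg u]⟩
  have e1 : c = u * (u * c + v * d) - v * (-v * c + u * d) := by linear_combination (-c) * huv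
  have e2 : d = v * (u * c + v * d) + u * (-v * c + u * d) := by linear_combination (-d) * huv
  rw [abs_mul, abs_two] at h1
  have h3 : |-v * c + u * d| ≤ t := by linarith [abs_nonneg (-v * c + u * d)]
  have m1 : |u * (u * c + v * d)| ≤ t := by
    rw [abs_mul]
    exact (mul_le_mul hu h2 (abs_nonneg _) zero_le_one).trans_eq (one_mul _)
  have m2 : |v * (-v * c + u * d)| ≤ t := by
    rw [abs_mul]
    exact (mul_le_mul hv h3 (abs_nonneg _) zero_le_one).trans_eq (one_mul _)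
  have m3 : |v * (u * c + v * d)| ≤ t := by
    rw [abs_mul]
    exact (mul_le_mul hv h2 (abs_nonneg _) zero_le_one).trans_eq (one_mul _)
  have m4 : |u * (-v * c + u * d)| ≤ t := by
    rw [abs_mul]
    exact (mul_le_mul hu h3 (abs_nonneg _) zero_le_one).trans_eq (one_mul _)
  constructor
  · rw [e1]
    refine (abs_sub _ _).trans ?_
    linarith
  · rw [e2]
    refine (abs_add_le _ _).trans ?_
    linarith

theorem vec4 {u v c d t : ℝ} (huv : u ^ 2 + v ^ 2 = 1) (h1 : |c| ≤ t) (h2 : |d| ≤ t) :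
    |2 * (-v * c + u * d)| ≤ 4 * t := by
  have hu : |u| ≤ 1 := abs_le.2 ⟨by nlinarith [sq_nonneg v], by nlinarith [sq_nonneg v]⟩
  have hv : |v| ≤ 1 := abs_le.2 ⟨by nlinarith [sq_nonneg u], by nlinarith [sq_nonneg u]⟩
  rw [abs_mul, abs_two]
  have m2 : |v * c| ≤ t := by
    rw [abs_mul]
    exact (mul_le_mul hv h1 (abs_nonneg _) zero_le_one).trans_eq (one_mul _)
  have m4 : |u * d| ≤ t := by
    rw [abs_mul]
    exact (mul_le_mul hu h2 (abs_nonneg _) zero_le_one).trans_eq (one_mul _)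
  have e : -v * c + u * d = u * d - v * c := by ring
  rw [e]
  have := abs_sub (u * d) (v * c)
  linarith

section rot

variable {B : Base} {G : ℕ → RCfg (Fin 12)} {Leg : Set (Fin 12 → ℝ)} {ν : (Fin 12 → ℝ) → ℝ}
  {σ R D x0 : ℝ} {own : ℕ → ℕ → ℕ → ℕ → Fin 12 → ℝ} {u v : ℕ → ℝ}

/-- **the rotated model** -/
theorem rmodel_rot (H : RModel B G σ R Leg ν D) (T : Dir B G own u v x0) :
    RModel B (fun n => rot (u n) (v n) (G n)) σ R
      {p | dup p ∈ Leg ∧ p 3 ≤ x0 ∧ p 5 ≤ x0} (fun p => ν (dup p)) ((2 : ℝ) ^ 2 * D) := by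
  refine rmodel_conj H (c := 2) (by norm_num) (fun _ => rfl) (fun _ => rfl) (fun _ => rfl)
    (fun _ => rfl) (fun _ => rfl) ?_ (fun p hp => hp.1) ?_ ?_
  · intro n k i hi j
    have h := H.refl n k i hi
    by_cases h3 : j = 3
    · subst h3; rw [rot3, h, h]; ring
    by_cases h4 : j = 4
    · subst h4; rw [rot4]
    by_cases h5 : j = 5
    · subst h5; rw [rot5, h, h]; ring
    by_cases h6 : j = 6
    · subst h6; rw [rot6]
    rw [rot_of _ _ _ _ _ _ h3 h4 h5 h6, h]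
  · intro p hp ε hε
    filter_upwards [T.tc ε hε, T.tx ε hε, ev_const_le B hε 2] with n t1 t2 h2 k i l hi hl h s
    have hb : (G n).ρ = B.d n := H.base n
    have huv := T.unit n
    have hd := fun t => rpos B n t
    have up : ∀ t : ℝ, 2 * B.d n ^ (t - ε) ≤ B.d n ^ (t - 2 * ε) := by
      intro t
      have e : B.d n ^ (t - 2 * ε) = B.d n ^ (-ε) * B.d n ^ (t - ε) := by
        rw [← rpow_add']; congr 1; ring
      rw [e]
      exact mul_le_mul_of_nonneg_right h2 (hd _).le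
    have h3 : |2 * (-v n * (G n).rel k i l 3 + u n * (G n).rel k i l 4)| ≤ B.d n ^ (p 3 - ε) := by
      have := h 3
      rw [rot3] at this
      have e : (rot (u n) (v n) (G n)).ρ = B.d n := hb
      rwa [e] at this
    have h5 : |2 * (-v n * (G n).rel k i l 5 + u n * (G n).rel k i l 6)| ≤ B.d n ^ (p 5 - ε) := by
      have := h 5
      rw [rot5] at this
      have e : (rot (u n) (v n) (G n)).ρ = B.d n := hb
      rwa [e] at this
    have g3 := vec2 huv (hd _).le h3 ((t1 k i l hi hl).trans (rpow_anti B n (by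
      have := hp.2.1; linarith)))
    have g5 := vec2 huv (hd _).le h5 ((t2 k i l hi hl).trans (rpow_anti B n (by
      have := hp.2.2; linarith)))
    rw [hb]
    by_cases e3 : s = 3
    · subst e3; rw [dup3]; exact g3.1.trans (up _)
    by_cases e4 : s = 4
    · subst e4; rw [dup4]; exact g3.2.trans (up _)
    by_cases e5 : s = 5
    · subst e5; rw [dup5]; exact g5.1.trans (up _)
    by_cases e6 : s = 6
    · subst e6; rw [dup6]; exact g5.2.trans (up _)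
    have := h s
    rw [rot_of _ _ _ _ _ _ e3 e4 e5 e6] at this
    have e : (rot (u n) (v n) (G n)).ρ = B.d n := hb
    rw [e] at this
    rw [dup_of _ e4 e6]
    exact this.trans (rpow_anti B n (by linarith))
  · intro p hp ε hε
    filter_upwards [ev_const_le B hε 4] with n h2 k i l hi hl h s
    have hb : (G n).ρ = B.d n := H.base n
    have huv := T.unit n
    have hd := fun t => rpos B n t
    have up : ∀ t : ℝ, 4 * B.d n ^ (t - ε) ≤ B.d n ^ (t - 2 * ε) := by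
      intro t
      have e : B.d n ^ (t - 2 * ε) = B.d n ^ (-ε) * B.d n ^ (t - ε) := by
        rw [← rpow_add']; congr 1; ring
      rw [e]
      exact mul_le_mul_of_nonneg_right h2 (hd _).le
    have e : (rot (u n) (v n) (G n)).ρ = B.d n := hb
    have hh : ∀ s, |(G n).rel k i l s| ≤ B.d n ^ (dup p s - ε) := by
      intro s
      have := h s
      rwa [hb] at this
    have h3 := hh 3
    have h4 := hh 4
    have h5 := hh 5
    have h6 := hh 6
    rw [dup3] at h3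
    rw [dup4] at h4
    rw [dup5] at h5
    rw [dup6] at h6
    show |(rot (u n) (v n) (G n)).rel k i l s| ≤ (rot (u n) (v n) (G n)).ρ ^ _
    rw [e]
    by_cases e3 : s = 3
    · subst e3; rw [rot3]; exact (vec4 huv h3 h4).trans (up _)
    by_cases e4 : s = 4
    · subst e4; rw [rot4, abs_zero]; exact (hd _).le
    by_cases e5 : s = 5
    · subst e5; rw [rot5]; exact (vec4 huv h5 h6).trans (up _)
    by_cases e6 : s = 6
    · subst e6; rw [rot6, abs_zero]; exact (hd _).le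
    rw [rot_of _ _ _ _ _ _ e3 e4 e5 e6]
    have := hh s
    rw [dup_of _ e4 e6] at this
    exact this.trans (rpow_anti B n (by linarith))

end rot

/-! ### the movement of the normal slot -/

/-- one pair of lines at two heights -/
theorem alg_e {u v z1 h7 h8 a0 a7 a8 c3 c4 c5 c6 c10 c11 w e β : ℝ} (he : 0 ≤ e) (hβ : 8 ≤ β)
    (huv : u ^ 2 + v ^ 2 = 1) (hz : |z1| ≤ 2) (g7 : |h7| ≤ 2) (g8 : |h8| ≤ 2)
    (b0 : |a0| ≤ β) (b3 : |c3| ≤ β) (b4 : |c4| ≤ β) (b5 : |c5| ≤ β) (b6 : |c6| ≤ β)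
    (b10 : |c10| ≤ β) (d0 : |a0 + z1| ≤ e) (d7 : |a7 + h7| ≤ e) (d8 : |a8 + h8| ≤ e)
    (t3 : |u * c3 + v * c4| ≤ e) (t5 : |u * c5 + v * c6| ≤ e)
    (hE : |w - (c11 - a0 * c10 - a7 * (c5 - a0 * c3) - a8 * (c6 - a0 * c4))| ≤ e) :
    |w - (c11 + z1 * c10 - ((v * h7 - u * h8) / 2) * (2 * (-v * c5 + u * c6) +
      z1 * (2 * (-v * c3 + u * c4))))| ≤ e * β ^ 3 := by
  have hu : |u| ≤ 1 := abs_le.2 ⟨by nlinarith [sq_nonneg v], by nlinarith [sq_nonneg v]⟩
  have hv : |v| ≤ 1 := abs_le.2 ⟨by nlinarith [sq_nonneg u], by nlinarith [sq_nonneg u]⟩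
  have hβ0 : 0 ≤ β := by linarith
  have e1 : w - (c11 + z1 * c10 - ((v * h7 - u * h8) / 2) * (2 * (-v * c5 + u * c6) +
      z1 * (2 * (-v * c3 + u * c4)))) =
      (w - (c11 - a0 * c10 - a7 * (c5 - a0 * c3) - a8 * (c6 - a0 * c4))) -
      (a0 + z1) * c10 - (a7 + h7) * (c5 - a0 * c3) - (a8 + h8) * (c6 - a0 * c4) -
      h7 * ((a0 + z1) * c3) - h8 * ((a0 + z1) * c4) +
      (u * h7 + v * h8) * ((u * c5 + v * c6) + z1 * (u * c3 + v * c4)) := by
    linear_combination (-(h7 * (c5 + z1 * c3)) - h8 * (c6 + z1 * c4)) * huv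
  have m0 : |(a0 + z1) * c10| ≤ e * β := by
    rw [abs_mul]; exact mul_le_mul d0 b10 (abs_nonneg _) he
  have p5 : |c5 - a0 * c3| ≤ β + β * β := by
    refine (abs_sub _ _).trans ?_
    rw [abs_mul]
    exact add_le_add b5 (mul_le_mul b0 b3 (abs_nonneg _) hβ0)
  have p6 : |c6 - a0 * c4| ≤ β + β * β := by
    refine (abs_sub _ _).trans ?_
    rw [abs_mul]
    exact add_le_add b6 (mul_le_mul b0 b4 (abs_nonneg _) hβ0)
  have m1 : |(a7 + h7) * (c5 - a0 * c3)| ≤ e * (β + β * β) := by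
    rw [abs_mul]; exact mul_le_mul d7 p5 (abs_nonneg _) he
  have m2 : |(a8 + h8) * (c6 - a0 * c4)| ≤ e * (β + β * β) := by
    rw [abs_mul]; exact mul_le_mul d8 p6 (abs_nonneg _) he
  have m3 : |h7 * ((a0 + z1) * c3)| ≤ 2 * (e * β) := by
    rw [abs_mul, abs_mul]
    exact mul_le_mul g7 (mul_le_mul d0 b3 (abs_nonneg _) he) (by positivity) (by norm_num)
  have m4 : |h8 * ((a0 + z1) * c4)| ≤ 2 * (e * β) := by
    rw [abs_mul, abs_mul]
    exact mul_le_mul g8 (mul_le_mul d0 b4 (abs_nonneg _) he) (by positivity) (by norm_num)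
  have q1 : |u * h7 + v * h8| ≤ 4 := by
    refine (abs_add_le _ _).trans ?_
    rw [abs_mul, abs_mul]
    have s1 := mul_le_mul hu g7 (abs_nonneg _) zero_le_one
    have s2 := mul_le_mul hv g8 (abs_nonneg _) zero_le_one
    linarith
  have q2 : |(u * c5 + v * c6) + z1 * (u * c3 + v * c4)| ≤ 3 * e := by
    refine (abs_add_le _ _).trans ?_
    rw [abs_mul z1]
    have s1 := mul_le_mul hz t3 (abs_nonneg _) (by norm_num)
    linarith
  have m5 : |(u * h7 + v * h8) * ((u * c5 + v * c6) + z1 * (u * c3 + v * c4))| ≤ 4 * (3 * e) := by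
    rw [abs_mul]; exact mul_le_mul q1 q2 (abs_nonneg _) (by norm_num)
  have k1 : 8 * e ≤ e * β := by nlinarith
  have k2 : 8 * (e * β) ≤ e * (β * β) := by
    have : 0 ≤ e * β := by positivity
    nlinarith
  have k3 : 8 * (e * (β * β)) ≤ e * β ^ 3 := by
    have : 0 ≤ e * (β * β) := by positivity
    have e3 : e * β ^ 3 = (e * (β * β)) * β := by ring
    rw [e3]; nlinarith
  have e2 : e * (β + β * β) = e * β + e * (β * β) := by ring
  rw [e2] at m1 m2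
  rw [e1]
  rw [abs_le] at hE m0 m1 m2 m3 m4 m5 ⊢
  have n1 : 0 ≤ e * β := by positivity
  constructor <;> linarith [hE.1, hE.2, m0.1, m0.2, m1.1, m1.2, m2.1, m2.2, m3.1, m3.2, m4.1,
    m4.2, m5.1, m5.2]

/-- exponents of the boxes -/
def q5 (n p x c : ℝ) : Fin 12 → ℝ := fun s =>
  if s = 11 then n else if s = 10 then p else if s = 5 ∨ s = 6 then x else
  if s = 3 ∨ s = 4 then c else 0

theorem dup_bx (y n p x c : ℝ) :
    dup (Crest.Agent.R136.CD366.bx (∅ : Finset (Fin 12)) 11 10 5 3 y n p x c) = q5 n p x c := by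
  funext s
  fin_cases s <;> simp [dup, Crest.Agent.R136.CD366.bx, q5]

theorem bx3 (y n p x c : ℝ) :
    Crest.Agent.R136.CD366.bx (∅ : Finset (Fin 12)) 11 10 5 3 y n p x c 3 = c := by
  simp [Crest.Agent.R136.CD366.bx]

theorem bx5 (y n p x c : ℝ) :
    Crest.Agent.R136.CD366.bx (∅ : Finset (Fin 12)) 11 10 5 3 y n p x c 5 = x := by
  simp [Crest.Agent.R136.CD366.bx]

theorem bx0 (y : ℝ) (s : Fin 12) :
    Crest.Agent.R136.CD366.bx (∅ : Finset (Fin 12)) 11 10 5 3 y 0 0 0 0 s = 0 := by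
  simp [Crest.Agent.R136.CD366.bx]

section main

variable {B : Base} {G : ℕ → RCfg (Fin 12)} {Leg : Set (Fin 12 → ℝ)} {ν : (Fin 12 → ℝ) → ℝ}
  {σ R D x0 : ℝ} {S : Finset (Fin 12)} {own : ℕ → ℕ → ℕ → ℕ → Fin 12 → ℝ} {u v : ℕ → ℝ}

/-- common heights of the slot `j` -/
structure Hgt (B : Base) (G : ℕ → RCfg (Fin 12)) (own : ℕ → ℕ → ℕ → ℕ → Fin 12 → ℝ) (j : Fin 12)
    (h : ℕ → ℕ → ℝ) (x : ℝ) : Prop where
  bd : ∀ᶠ n in (U : Filter ℕ), ∀ k ∈ (G n).Z, |h n k| ≤ 1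
  ow : ∀ ε : ℝ, 0 < ε → ∀ᶠ n in (U : Filter ℕ), ∀ i k0 k, (i, k0) ∈ (G n).I → (i, k) ∈ (G n).I →
    |own n i k0 k j + (h n k - h n k0)| ≤ B.d n ^ (x - ε)

/-- **366's data of K3core** for the rotated configuration -/
theorem k3_data (H : RModel B G σ R Leg ν D) (L : LLaw B G S own x0) (T : Dir B G own u v x0)
    (m7 : (7 : Fin 12) ∈ S) (m8 : (8 : Fin 12) ∈ S)
    (z1 : (1 : Fin 12) ∉ S ∨ ∀ n i k0 k, own n i k0 k 1 = 0)
    (z2 : (2 : Fin 12) ∉ S ∨ ∀ n i k0 k, own n i k0 k 2 = 0)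
    (zbd : ∀ᶠ n in (U : Filter ℕ), ∀ k ∈ (G n).Z, |(G n).z k| ≤ 1)
    {h7 h8 : ℕ → ℕ → ℝ} (T7 : Hgt B G own 7 h7 x0) (T8 : Hgt B G own 8 h8 x0)
    {R0 a c : ℝ} (hR0 : 0 < R0) (hx : R0 ≤ x0) (hc : 0 < c)
    (leg : ∀ n p x c' : ℝ, 0 ≤ n → n ≤ R0 → 0 ≤ p → p ≤ R0 → 0 ≤ x → x ≤ R0 → 0 ≤ c' →
      c' ≤ R0 → q5 n p x c' ∈ Leg)
    (hN : ∀ y : ℝ, 0 ≤ y → y ≤ R0 → ν (q5 0 0 0 0) - ν (q5 y 0 0 0) ≤ a * y)
    (h1 : ∀ y t : ℝ, 0 ≤ t → t ≤ y → y ≤ R0 →
      (a + c) * t ≤ ν (q5 0 y y 0) - ν (q5 t y y t))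
    (h2 : ∀ t : ℝ, 0 ≤ t → t ≤ R0 → (a + c) * t ≤ ν (q5 0 0 0 0) - ν (q5 t t 0 0))
    (h3 : ∀ t : ℝ, 0 ≤ t → t ≤ R0 → (a + c) * t ≤ ν (q5 R0 0 0 R0) - ν (q5 R0 t t R0)) :
    Crest.Agent.R136.CD366.K3 B (fun n => rot (u n) (v n) (G n))
      {p | dup p ∈ Leg ∧ p 3 ≤ x0 ∧ p 5 ≤ x0} (fun p => ν (dup p)) ∅ 11 10 5 3
      (fun n k => (v n * h7 n k - u n * h8 n k) / 2) R0 4 a c where
  R0_pos := hR0
  C1_one := by norm_num
  c_pos := hc
  NP := by decide
  NX := by decide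
  NC := by decide
  PX := by decide
  PC := by decide
  XC := by decide
  leg := by
    intro y n p x c' hy0 hyR a1 a2 a3 a4 a5 a6 a7 a8
    refine ⟨?_, ?_, ?_⟩
    · rw [dup_bx]
      exact leg n p x c' a1 (a2.trans hyR) a3 (a4.trans hyR) a5 (a6.trans hyR) a7 (a8.trans hyR)
    · rw [bx3]; linarith
    · rw [bx5]; linarith
  bd := by
    filter_upwards [zbd, T7.bd, T8.bd] with n a1 a2 a3 k hk
    refine ⟨a1 k hk, ?_⟩
    have huv := T.unit n
    have hu : |u n| ≤ 1 := abs_le.2 ⟨by nlinarith [sq_nonneg (v n)], by nlinarith [sq_nonneg (v n)]⟩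
    have hv : |v n| ≤ 1 := abs_le.2 ⟨by nlinarith [sq_nonneg (u n)], by nlinarith [sq_nonneg (u n)]⟩
    show |(v n * h7 n k - u n * h8 n k) / 2| ≤ 1
    rw [abs_div, abs_two]
    have b1 := abs_sub (v n * h7 n k) (u n * h8 n k)
    rw [abs_mul, abs_mul] at b1
    have s1 := mul_le_mul hv (a2 k hk) (abs_nonneg _) zero_le_one
    have s2 := mul_le_mul hu (a3 k hk) (abs_nonneg _) zero_le_one
    linarith
  ev := by
    intro y hy0 hyR ε hε
    filter_upwards [zbd, T7.bd, T8.bd, T7.ow ε hε, T8.ow ε hε, L.bd ε hε, L.ownbd ε hε,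
      L.own0 ε hε, L.evo ε hε, T.tc ε hε, T.tx ε hε, ev_const_le B hε 8] with n b1 b2 b3 b4 b5 b6
      b7 b8 b9 b10 b11 b12 k₀ k i l i0 l0 ik lk hl
    have i0' : (i, k₀) ∈ (G n).I := i0
    have l0' : (l, k₀) ∈ (G n).I := l0
    have ik' : (i, k) ∈ (G n).I := ik
    have lk' : (l, k) ∈ (G n).I := lk
    have hk0 : k₀ ∈ (G n).Z := (mem_product.1 (H.sub n i0')).2
    have hk : k ∈ (G n).Z := (mem_product.1 (H.sub n ik')).2
    have huv := T.unit n
    have hd := fun t => rpos B n t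
    set β := B.d n ^ (-ε) with hβ
    have β0 : 0 < β := hd _
    have hρ : (rot (u n) (v n) (G n)).ρ = B.d n := H.base n
    have e8 : ∀ t : ℝ, B.d n ^ (t - 4 * ε) = B.d n ^ (t - ε) * β ^ 3 := by
      intro t
      have : β ^ 3 = B.d n ^ (-(3 * ε)) := by
        rw [hβ, ← Real.rpow_natCast, ← Real.rpow_mul (B.pos n).le]
        congr 1; push_cast; ring
      rw [this, ← rpow_add']; congr 1; ring
    constructor
    · intro s
      rw [hρ, bx0]
      have e9 : B.d n ^ (0 - 4 * ε) = β * β ^ 3 := by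
        rw [e8, zero_sub]
      have g1 : 4 * β ≤ B.d n ^ (0 - 4 * ε) := by
        rw [e9]
        have h3 : (1 : ℝ) ≤ β := by linarith
        have h4 : β ≤ β ^ 3 := by nlinarith [mul_nonneg β0.le β0.le]
        nlinarith
      have g2 : β ≤ B.d n ^ (0 - 4 * ε) := by linarith
      by_cases e3 : s = 3
      · subst e3; rw [rot3]; exact (vec4 huv (b6 k i l ik' lk' 3) (b6 k i l ik' lk' 4)).trans g1
      by_cases e4 : s = 4
      · subst e4; rw [rot4, abs_zero]; exact (hd _).le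
      by_cases e5 : s = 5
      · subst e5; rw [rot5]; exact (vec4 huv (b6 k i l ik' lk' 5) (b6 k i l ik' lk' 6)).trans g1
      by_cases e6 : s = 6
      · subst e6; rw [rot6, abs_zero]; exact (hd _).le
      rw [rot_of _ _ _ _ _ _ e3 e4 e5 e6]
      exact (b6 k i l ik' lk' s).trans g2
    · have hev := b9 k₀ k i l i0' l0' ik' lk' 11 (fun h => by have := L.SSL h; simp [SL] at this)
      rw [evoS_11 _ _ L.SSL L.S0] at hev
      have f7 : LvS S (own n i k₀ k) 7 = own n i k₀ k 7 := by simp [LvS, m7]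
      have f8 : LvS S (own n i k₀ k) 8 = own n i k₀ k 8 := by simp [LvS, m8]
      have f1 : LvS S (own n i k₀ k) 1 = 0 := by
        rcases z1 with z | z
        · simp [LvS, z]
        · simp [LvS, z]
      have f2 : LvS S (own n i k₀ k) 2 = 0 := by
        rcases z2 with z | z
        · simp [LvS, z]
        · simp [LvS, z]
      rw [f7, f8, f1, f2, zero_mul, zero_mul, sub_zero, sub_zero] at hev
      have d2 : ∀ {p q : ℝ}, |p| ≤ 1 → |q| ≤ 1 → |p - q| ≤ 2 := fun {p q} h h' =>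
        (abs_sub _ _).trans (by linarith)
      have key := alg_e (u := u n) (v := v n) (β := β) (e := B.d n ^ (x0 - ε)) (hd _).le b12 huv
        (d2 (b1 k hk) (b1 k₀ hk0)) (d2 (b2 k hk) (b2 k₀ hk0)) (d2 (b3 k hk) (b3 k₀ hk0))
        (b7 i k₀ k i0' ik' 0) (b6 k₀ i l i0' l0' 3) (b6 k₀ i l i0' l0' 4) (b6 k₀ i l i0' l0' 5)
        (b6 k₀ i l i0' l0' 6) (b6 k₀ i l i0' l0' 10) (b8 i k₀ k i0' ik') (b4 i k₀ k i0' ik')
        (b5 i k₀ k i0' ik') (b10 k₀ i l i0' l0') (b11 k₀ i l i0' l0') hev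
      rw [← e8] at key
      rw [rot_of _ _ _ _ _ _ (by decide) (by decide) (by decide) (by decide),
        rot_of _ _ _ _ _ _ (by decide) (by decide) (by decide) (by decide),
        rot_of _ _ _ _ _ _ (by decide) (by decide) (by decide) (by decide), rot5, rot3]
      show |(G n).rel k i l 11 - ((G n).rel k₀ i l 11 + ((G n).z k - (G n).z k₀) *
        (G n).rel k₀ i l 10 - ((v n * h7 n k - u n * h8 n k) / 2 -
          (v n * h7 n k₀ - u n * h8 n k₀) / 2) * (2 * (-v n * (G n).rel k₀ i l 5 +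
            u n * (G n).rel k₀ i l 6) + ((G n).z k - (G n).z k₀) *
            (2 * (-v n * (G n).rel k₀ i l 3 + u n * (G n).rel k₀ i l 4))))| ≤ _
      have e9 : (v n * h7 n k - u n * h8 n k) / 2 - (v n * h7 n k₀ - u n * h8 n k₀) / 2 =
          (v n * (h7 n k - h7 n k₀) - u n * (h8 n k - h8 n k₀)) / 2 := by ring
      rw [e9]
      exact key.trans (rpow_anti B n (by linarith))
  hN := by
    intro y hy0 hyR
    show ν (dup _) - ν (dup _) ≤ _
    rw [dup_bx, dup_bx]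
    exact hN y hy0 hyR
  h1 := by
    intro y t ht hty hyR
    show _ ≤ ν (dup _) - ν (dup _)
    rw [dup_bx, dup_bx]
    exact h1 y t ht hty hyR
  h2 := by
    intro y t ht hty hyR
    show _ ≤ ν (dup _) - ν (dup _)
    rw [dup_bx, dup_bx]
    exact h2 t ht (hty.trans hyR)
  h3 := by
    intro t ht htR
    show _ ≤ ν (dup _) - ν (dup _)
    rw [dup_bx, dup_bx]
    exact h3 t ht htR

/-- **K3core at the e-tie `k = 1`** -/
theorem k3core_e (H : RModel B G σ R Leg ν D) (L : LLaw B G S own x0) (T : Dir B G own u v x0)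
    (m7 : (7 : Fin 12) ∈ S) (m8 : (8 : Fin 12) ∈ S)
    (z1 : (1 : Fin 12) ∉ S ∨ ∀ n i k0 k, own n i k0 k 1 = 0)
    (z2 : (2 : Fin 12) ∉ S ∨ ∀ n i k0 k, own n i k0 k 2 = 0)
    (zbd : ∀ᶠ n in (U : Filter ℕ), ∀ k ∈ (G n).Z, |(G n).z k| ≤ 1)
    {h7 h8 : ℕ → ℕ → ℝ} (T7 : Hgt B G own 7 h7 x0) (T8 : Hgt B G own 8 h8 x0)
    {R0 a c : ℝ} (hR0 : 0 < R0) (hR : R0 ≤ R) (hx : R0 ≤ x0) (hc : 0 < c)
    (leg : ∀ n p x c' : ℝ, 0 ≤ n → n ≤ R0 → 0 ≤ p → p ≤ R0 → 0 ≤ x → x ≤ R0 → 0 ≤ c' →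
      c' ≤ R0 → q5 n p x c' ∈ Leg)
    (hN : ∀ y : ℝ, 0 ≤ y → y ≤ R0 → ν (q5 0 0 0 0) - ν (q5 y 0 0 0) ≤ a * y)
    (h1 : ∀ y t : ℝ, 0 ≤ t → t ≤ y → y ≤ R0 →
      (a + c) * t ≤ ν (q5 0 y y 0) - ν (q5 t y y t))
    (h2 : ∀ t : ℝ, 0 ≤ t → t ≤ R0 → (a + c) * t ≤ ν (q5 0 0 0 0) - ν (q5 t t 0 0))
    (h3 : ∀ t : ℝ, 0 ≤ t → t ≤ R0 → (a + c) * t ≤ ν (q5 R0 0 0 R0) - ν (q5 R0 t t R0)) :
    σ ≤ a :=
  Crest.Agent.R136.CD366.K3core_R (rmodel_rot H T)
    (k3_data H L T m7 m8 z1 z2 zbd T7 T8 hR0 hx hc leg hN h1 h2 h3) hR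

/-- **K3core at the e-tie `k = 1` in rates**: `gN`, `gC` = growths of the slots `11`, `{3, 4}`, `J` = joint
growth of `10` and `{5, 6}`. -/
theorem k3_rates (H : RModel B G σ R Leg ν D) (L : LLaw B G S own x0) (T : Dir B G own u v x0)
    (m7 : (7 : Fin 12) ∈ S) (m8 : (8 : Fin 12) ∈ S)
    (z1 : (1 : Fin 12) ∉ S ∨ ∀ n i k0 k, own n i k0 k 1 = 0)
    (z2 : (2 : Fin 12) ∉ S ∨ ∀ n i k0 k, own n i k0 k 2 = 0)
    (zbd : ∀ᶠ n in (U : Filter ℕ), ∀ k ∈ (G n).Z, |(G n).z k| ≤ 1)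
    {h7 h8 : ℕ → ℕ → ℝ} (T7 : Hgt B G own 7 h7 x0) (T8 : Hgt B G own 8 h8 x0)
    {R0 : ℝ} (hR0 : 0 < R0) (hR : R0 ≤ R) (hx : R0 ≤ x0)
    (leg : ∀ n p x c' : ℝ, 0 ≤ n → n ≤ R0 → 0 ≤ p → p ≤ R0 → 0 ≤ x → x ≤ R0 → 0 ≤ c' →
      c' ≤ R0 → q5 n p x c' ∈ Leg)
    {gN gC r0 : ℝ} {J : ℝ → ℝ → ℝ}
    (hν : ∀ n p x c' : ℝ, 0 ≤ n → n ≤ R0 → 0 ≤ p → p ≤ R0 → 0 ≤ x → x ≤ R0 → 0 ≤ c' →
      c' ≤ R0 → ν (q5 0 0 0 0) - ν (q5 n p x c') = gN * n + gC * c' + J p x)
    (hC : 0 < gC) (hr : 0 < r0) (hJ0 : ∀ t : ℝ, 0 ≤ t → t ≤ R0 → r0 * t ≤ J t 0)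
    (hJ1 : ∀ t : ℝ, 0 ≤ t → t ≤ R0 → σ * t ≤ J t t) : σ ≤ gN := by
  by_contra hcon
  push Not at hcon
  have hc : 0 < min gC (min r0 (σ - gN)) := lt_min hC (lt_min hr (by linarith))
  have c1 : min gC (min r0 (σ - gN)) ≤ gC := min_le_left _ _
  have c2 : min gC (min r0 (σ - gN)) ≤ r0 := (min_le_right _ _).trans (min_le_left _ _)
  have c3 : min gC (min r0 (σ - gN)) ≤ σ - gN := (min_le_right _ _).trans (min_le_right _ _)
  have J00 : J 0 0 = 0 := by
    have := hν 0 0 0 0 le_rfl hR0.le le_rfl hR0.le le_rfl hR0.le le_rfl hR0.le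
    rw [sub_self] at this
    linarith
  have hR00 := hR0.le
  refine absurd (k3core_e H L T m7 m8 z1 z2 zbd T7 T8 (a := gN) hR0 hR hx hc leg ?_ ?_ ?_ ?_)
    (not_le.2 hcon)
  · intro y hy hyR
    have := hν y 0 0 0 hy hyR le_rfl hR00 le_rfl hR00 le_rfl hR00
    rw [this, J00]; linarith
  · intro y t ht hty hyR
    have hy : 0 ≤ y := ht.trans hty
    have e1 := hν 0 y y 0 le_rfl hR00 hy hyR hy hyR le_rfl hR00
    have e2 := hν t y y t ht (hty.trans hyR) hy hyR hy hyR ht (hty.trans hyR)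
    have e3 : ν (q5 0 y y 0) - ν (q5 t y y t) = gN * t + gC * t := by linarith
    rw [e3]
    nlinarith
  · intro t ht htR
    have e1 := hν t t 0 0 ht htR ht htR le_rfl hR00 le_rfl hR00
    rw [e1]
    have := hJ0 t ht htR
    nlinarith
  · intro t ht htR
    have e1 := hν R0 0 0 R0 hR00 le_rfl le_rfl hR00 le_rfl hR00 hR00 le_rfl
    have e2 := hν R0 t t R0 hR00 le_rfl ht htR ht htR hR00 le_rfl
    have e3 : ν (q5 R0 0 0 R0) - ν (q5 R0 t t R0) = J t t := by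
      rw [J00] at e1; linarith
    rw [e3]
    have := hJ1 t ht htR
    nlinarith

end main

end Crest.Agent.R116.K3e160
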