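import Crest.Agent.R116.K3e1_160
import Crest.Agent.R116.EvL7_369

/-!
# R116, e-tie `k = 1` : **K3core**, part 2 (helper160): common heights in a window

* `AddS W s tp C` : the slot `s` is additive on the class up to `C ρ^tp`; `addS7`, `addS8`, `addS2`
  from small couplings; `addS7_nat`, `addS8_nat`, `addS2_nat` from 369's `NatX` (`D`, `E` raised);
* `hgt_of_addS` : common heights `h n k = crd (s₀ n) (zrep n k) s` of a resolved level slot `s`;
* `zbd_win` : `|z k| ≤ 1`.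
-/

set_option autoImplicit false
set_option linter.unusedVariables false
set_option linter.unusedSectionVars false

open Filter Topology Finset

namespace Crest.Agent.R116.K3e160

open Crest.Agent.R138.Ex926 (Base U)
open Crest.Agent.R136.Gf356 Crest.Agent.R136.Net191 Crest.Agent.R136.Qg926
open Crest.Agent.R116.ChL222 Crest.Agent.R116.PL504 Crest.Agent.R116.EvL504

variable {ι : ℕ → Type*} [∀ n, DecidableEq (ι n)] {W : Wnd 12 ι} {K tp : ℝ}

/-- the slot `s` is additive on the class -/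
def AddS (W : Wnd 12 ι) (s : Fin 12) (tp C : ℝ) : Prop :=
  ∀ᶠ n in (U : Filter ℕ), ∀ i ∈ W.Cl n, ∀ j ∈ W.Cl n, ∀ l ∈ W.Cl n,
    |W.crd n i l s - W.crd n i j s - W.crd n j l s| ≤ C * W.B'.d n ^ tp

theorem cpl_bd {p q r a c e : ℝ} (hr : 0 < r) (hp : 0 ≤ p) (hq : 0 ≤ q) (ha : |a| ≤ 1)
    (hc : |c| ≤ 1) (h : p * q ≤ e * r) : |p * a * (q * c) / r| ≤ e := by
  rw [abs_div, abs_of_pos hr, div_le_iff₀ hr]
  have e1 : p * a * (q * c) = (p * q) * (a * c) := by ring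
  rw [e1, abs_mul, abs_of_nonneg (mul_nonneg hp hq), abs_mul]
  have h1 : |a| * |c| ≤ 1 := by
    calc |a| * |c| ≤ 1 * 1 := mul_le_mul ha hc (abs_nonneg _) zero_le_one
      _ = 1 := one_mul _
  calc p * q * (|a| * |c|) ≤ p * q * 1 := mul_le_mul_of_nonneg_left h1 (mul_nonneg hp hq)
    _ ≤ e * r := by rw [mul_one]; exact h

theorem addS7 (h : WL W K tp) (hδ : ∀ᶠ n in (U : Filter ℕ),
    side W n 2 * side W n 3 ≤ W.B'.d n ^ tp * side W n 7 ∧
    side W n 1 * side W n 5 ≤ W.B'.d n ^ tp * side W n 7) : AddS W 7 tp 3 := by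
  filter_upwards [hδ, h.ok.ev_good] with n hd g i hi j hj l hl
  have s7 := h.side_pos' n 7
  have e : W.crd n i l 7 - W.crd n i j 7 - W.crd n j l 7 =
      side W n 2 * W.crd n i j 2 * (side W n 3 * W.crd n j l 3) / side W n 7 +
      2 * (side W n 1 * W.crd n i j 1 * (side W n 5 * W.crd n j l 5) / side W n 7) := by
    rw [h.crd_add i j l 7]
    unfold compW
    have h7 := s7.ne'
    show (side W n 7 * W.crd n i j 7 + side W n 7 * W.crd n j l 7 +
      (side W n 2 * W.crd n i j 2) * (side W n 3 * W.crd n j l 3) +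
      2 * ((side W n 1 * W.crd n i j 1) * (side W n 5 * W.crd n j l 5))) / side W n 7 - _ - _ = _
    field_simp
    ring
  rw [e]
  have a1 := cpl_bd s7 (h.side_pos' n 2).le (h.side_pos' n 3).le (h.crd_le g hi hj 2)
    (h.crd_le g hj hl 3) hd.1
  have a2 := cpl_bd s7 (h.side_pos' n 1).le (h.side_pos' n 5).le (h.crd_le g hi hj 1)
    (h.crd_le g hj hl 5) hd.2
  refine (abs_add_le _ _).trans ?_
  rw [abs_mul, abs_two]
  linarith

theorem addS8 (h : WL W K tp) (hδ : ∀ᶠ n in (U : Filter ℕ),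
    side W n 2 * side W n 4 ≤ W.B'.d n ^ tp * side W n 8 ∧
    side W n 1 * side W n 6 ≤ W.B'.d n ^ tp * side W n 8) : AddS W 8 tp 3 := by
  filter_upwards [hδ, h.ok.ev_good] with n hd g i hi j hj l hl
  have s7 := h.side_pos' n 8
  have e : W.crd n i l 8 - W.crd n i j 8 - W.crd n j l 8 =
      side W n 2 * W.crd n i j 2 * (side W n 4 * W.crd n j l 4) / side W n 8 +
      2 * (side W n 1 * W.crd n i j 1 * (side W n 6 * W.crd n j l 6) / side W n 8) := by
    rw [h.crd_add i j l 8]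
    unfold compW
    have h7 := s7.ne'
    show (side W n 8 * W.crd n i j 8 + side W n 8 * W.crd n j l 8 +
      (side W n 2 * W.crd n i j 2) * (side W n 4 * W.crd n j l 4) +
      2 * ((side W n 1 * W.crd n i j 1) * (side W n 6 * W.crd n j l 6))) / side W n 8 - _ - _ = _
    field_simp
    ring
  rw [e]
  have a1 := cpl_bd s7 (h.side_pos' n 2).le (h.side_pos' n 4).le (h.crd_le g hi hj 2)
    (h.crd_le g hj hl 4) hd.1
  have a2 := cpl_bd s7 (h.side_pos' n 1).le (h.side_pos' n 6).le (h.crd_le g hi hj 1)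
    (h.crd_le g hj hl 6) hd.2
  refine (abs_add_le _ _).trans ?_
  rw [abs_mul, abs_two]
  linarith

theorem addS2 (h : WL W K tp) (hδ : ∀ᶠ n in (U : Filter ℕ),
    side W n 1 * side W n 0 ≤ W.B'.d n ^ tp * side W n 2) : AddS W 2 tp 3 := by
  filter_upwards [hδ, h.ok.ev_good] with n hd g i hi j hj l hl
  have s7 := h.side_pos' n 2
  have e : W.crd n i l 2 - W.crd n i j 2 - W.crd n j l 2 =
      -(2 * (side W n 1 * W.crd n i j 1 * (side W n 0 * W.crd n j l 0) / side W n 2)) := by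
    rw [h.crd_add i j l 2]
    unfold compW
    have h7 := s7.ne'
    show (side W n 2 * W.crd n i j 2 + side W n 2 * W.crd n j l 2 -
      2 * ((side W n 1 * W.crd n i j 1) * (side W n 0 * W.crd n j l 0))) / side W n 2 - _ - _ = _
    field_simp
    ring
  rw [e]
  have a2 := cpl_bd s7 (h.side_pos' n 1).le (h.side_pos' n 0).le (h.crd_le g hi hj 1)
    (h.crd_le g hj hl 0) hd
  rw [abs_neg, abs_mul, abs_two]
  have := h.r0 n
  linarith

variable {E : ∀ n, Finset (ι n)}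

theorem zrep_mem' {n : ℕ} (r : Reg W E n) {k : ℕ} (hk : k ∈ (W.cfg E n).Z) :
    W.zrep n k ∈ W.Cl n := by
  rw [r.cfg_eq] at hk
  obtain ⟨y, hy, rfl⟩ := mem_image.1 hk
  exact (W.zrep_spec (r.sub hy)).1

/-- **common heights of a resolved level slot** -/
theorem hgt_of_addS (h : WL W K tp) (hE : ∀ᶠ n in (U : Filter ℕ), Reg W E n) {s : Fin 12}
    (hs : s ∈ W.S) {C : ℝ} (hA : AddS W s tp C) {G : ℕ → RCfg (Fin 12)}
    (hI : ∀ n, (G n).I = (W.cfg E n).I) (hZ : ∀ n, (G n).Z = (W.cfg E n).Z)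
    {own' : ℕ → ℕ → ℕ → ℕ → Fin 12 → ℝ} (ho : ∀ n i k0 k, own' n i k0 k s = ownL W n i k0 k s) :
    Hgt W.B' G own' s (fun n k => W.crd n (W.s₀ n) (W.zrep n k) s) tp where
  bd := by
    filter_upwards [hE] with n r k hk
    rw [hZ n] at hk
    exact h.crd_le r.good r.good.s0 (zrep_mem' r hk) s
  ow := by
    intro ε hε
    filter_upwards [hE, hA, ev_up W (3 * |C| + 2) tp hε] with n r hA hu i k0 k hi0 hik
    rw [hI n] at hi0 hik
    rw [ho]
    refine le_trans ?_ hu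
    obtain ⟨a1, a2, a3⟩ := r.spec hik
    obtain ⟨b1, b2, b3⟩ := r.spec hi0
    obtain ⟨c1, c3⟩ := r.zspec ⟨i, hik⟩
    obtain ⟨d1, d3⟩ := r.zspec ⟨i, hi0⟩
    have s0 := r.good.s0
    have hd := h.r0 n
    have hC : C * W.B'.d n ^ tp ≤ |C| * W.B'.d n ^ tp :=
      mul_le_mul_of_nonneg_right (le_abs_self C) hd
    have e1 := abs_le.1 (hA _ s0 _ a1 _ c1)
    have e2 := abs_le.1 (hA _ s0 _ b1 _ d1)
    have e3 := abs_le.1 (hA _ s0 _ a1 _ b1)
    have t1 := abs_le.1 (h.crd_z r.good a1 c1 (a3.trans c3.symm) hs)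
    have t2 := abs_le.1 (h.crd_z r.good b1 d1 (b3.trans d3.symm) hs)
    show |W.crd n (W.rep n i k) (W.rep n i k0) s + (W.crd n (W.s₀ n) (W.zrep n k) s -
      W.crd n (W.s₀ n) (W.zrep n k0) s)| ≤ _
    rw [abs_le]
    constructor <;> linarith [e1.1, e1.2, e2.1, e2.2, e3.1, e3.2, t1.1, t1.2, t2.1, t2.2]

theorem zbd_win (h : WL W K tp) (hE : ∀ᶠ n in (U : Filter ℕ), Reg W E n) {G : ℕ → RCfg (Fin 12)}
    (hz : ∀ n, (G n).z = (W.cfg E n).z) (hZ : ∀ n, (G n).Z = (W.cfg E n).Z) :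
    ∀ᶠ n in (U : Filter ℕ), ∀ k ∈ (G n).Z, |(G n).z k| ≤ 1 := by
  filter_upwards [hE] with n r k hk
  rw [hZ n] at hk
  rw [hz n, r.z_eq]
  exact h.crd_le r.good r.good.s0 (zrep_mem' r hk) _

/-! ### 369's windows: `D`, `E` raised -/

section nat

open Crest.Agent.R116.EvD369 (NatX)

theorem natD_mul {K x : ℝ} (hx : 0 < x) (z c p : ℝ) {i j k : Fin 12}
    (hw : wtL i + wtL j = wtL k) (he : eL z c p i + eL z c p j = eL z c p k) :
    natD K x z c p i * natD K x z c p j = natD K x z c p k := by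
  unfold natD
  rw [← hw, ← he, pow_add, Real.rpow_add hx]
  ring

variable {Dr : Finset (Fin 12)}

theorem natX_pair (h : WL W K tp) (h0 : 0 ≤ tp) {n : ℕ} (hX : NatX W K Dr tp n)
    {i j k : Fin 12} (hi : i ∈ Dr) (hj : j ∉ Dr) (hk : k ∉ Dr)
    (hw : wtL i + wtL j = wtL k) (he : ∀ z c p : ℝ, eL z c p i + eL z c p j = eL z c p k) :
    side W n i * side W n j ≤ W.B'.d n ^ tp * side W n k := by
  obtain ⟨z, c, p, -, h2, h3⟩ := hX
  have e := natD_mul (K := K) (W.B.pos n) z c p hw (he z c p)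
  rw [h2 j hj, h2 k hk, ← e, ← mul_assoc]
  refine mul_le_mul_of_nonneg_right (h3 i hi) ?_
  rw [← h2 j hj]
  exact (h.side_pos' n j).le

theorem addS7_nat (h : WL W K tp) (h0 : 0 ≤ tp) (hX : ∀ᶠ n in (U : Filter ℕ), NatX W K Dr tp n)
    (h1 : (1 : Fin 12) ∈ Dr) (h2 : (2 : Fin 12) ∈ Dr) (h3 : (3 : Fin 12) ∉ Dr)
    (h5 : (5 : Fin 12) ∉ Dr) (h7 : (7 : Fin 12) ∉ Dr) : AddS W 7 tp 3 := by
  refine addS7 h ?_
  filter_upwards [hX] with n x
  exact ⟨natX_pair h h0 x h2 h3 h7 rfl (fun z c p => by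
      show p - 2 * c + c = p - c
      ring),
    natX_pair h h0 x h1 h5 h7 rfl (fun z c p => by
      show p - 2 * c - z + (z + c) = p - c
      ring)⟩

theorem addS8_nat (h : WL W K tp) (h0 : 0 ≤ tp) (hX : ∀ᶠ n in (U : Filter ℕ), NatX W K Dr tp n)
    (h1 : (1 : Fin 12) ∈ Dr) (h2 : (2 : Fin 12) ∈ Dr) (h4 : (4 : Fin 12) ∉ Dr)
    (h6 : (6 : Fin 12) ∉ Dr) (h8 : (8 : Fin 12) ∉ Dr) : AddS W 8 tp 3 := by
  refine addS8 h ?_
  filter_upwards [hX] with n x
  exact ⟨natX_pair h h0 x h2 h4 h8 rfl (fun z c p => by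
      show p - 2 * c + c = p - c
      ring),
    natX_pair h h0 x h1 h6 h8 rfl (fun z c p => by
      show p - 2 * c - z + (z + c) = p - c
      ring)⟩

theorem addS2_nat (h : WL W K tp) (h0 : 0 ≤ tp) (hX : ∀ᶠ n in (U : Filter ℕ), NatX W K Dr tp n)
    (h1 : (1 : Fin 12) ∈ Dr) (h00 : (0 : Fin 12) ∉ Dr) (h2 : (2 : Fin 12) ∉ Dr) :
    AddS W 2 tp 3 := by
  refine addS2 h ?_
  filter_upwards [hX] with n x
  exact natX_pair h h0 x h1 h00 h2 rfl (fun z c p => by
      show p - 2 * c - z + z = p - 2 * c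
      ring)

end nat

end Crest.Agent.R116.K3e160
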