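import Crest.Agent.R116.TieW2_369

/-!
# R116, ties (helper369): windows on the tie planes, part 3: the models

* `exists_twin` : `exists_twin0` without the conditions "from the start".
* `ownThin_gen` : 899's `ownThin_of` for an additive slot; `TWin.add7`, `TWin.add2`.
* `TWin.tieM` : the model; `TWin.dir` : `Dir` (`e`-tie).
* **`exists_tieM`**.
-/

set_option autoImplicit false
set_option linter.unusedVariables false
set_option linter.unusedSectionVars false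

open Finset Filter Topology

namespace Crest.Agent.R116.Tw369

open Crest.Agent.R138.Ex926
open Crest.Agent.R138.Mk163 (zc zl rho alive)
open Crest.Agent.R136.Net191 Crest.Agent.R136.Gf356 Crest.Agent.R136.Qg926
open Crest.Agent.R136.MkA627 Crest.Agent.R136.TD627 Crest.Agent.R136.Lq196
open Crest.Agent.R116.LZg725 Crest.Agent.R116.ChL222
open Crest.Agent.R116.EvL504 (WL Reg side natD LnS ownL Sides bd2D)
open Crest.Agent.R116.PL504 (βL eL rL oL Shift nb DN prN wtL)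
open Crest.Agent.R116.Gd222 (TSet sN PDL DT vb)
open Crest.Agent.R116.KI439
open Crest.Agent.R116.KF439 (PL Thin)
open Crest.Agent.R116.Tw468 Crest.Agent.R116.CtxB468
open Crest.Agent.R116.EvD369 Crest.Agent.R116.Kst593
open Crest.Agent.R116.KW420 (OwnThin Dir)
open Crest.Agent.R116.Bd369 (tu DimD dir_of)

section gen

variable {ι : ℕ → Type*} [∀ n, DecidableEq (ι n)] {W : Wnd 12 ι} {K tp : ℝ}
variable {rl : ∀ n, ι n → ℕ} {N : ℕ → ℝ} {κ : Type*} [DecidableEq κ] {cw : ∀ n, ι n → κ}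
  {t : Fin 12} {Sl : Set ℝ} {x γ : ℝ} {E' : ∀ n, Finset (ι n)} {g : ℕ → ℝ}
  {ex : ℕ → ∀ n, ι n → ℕ}

/-- additivity of the slot `t` along fat lines -/
def AddF (W : Wnd 12 ι) (tp : ℝ) (t : Fin 12) : Prop :=
  ∀ᶠ n in (U : Filter ℕ), ∀ x ∈ W.Cl n, ∀ y ∈ W.Cl n, ∀ z ∈ W.Cl n, W.lc n x = W.lc n y →
    W.lc n y = W.lc n z →
    |W.crd n x z t - (W.crd n x y t + W.crd n y z t)| ≤ 3 * W.B'.d n ^ tp

/-- 899's `ownThin_of` (same proof) for an additive slot -/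
theorem ownThin_gen (h : WL W K tp) (R : RLines W rl N) (H : WStrip W rl cw t Sl N x γ)
    (h0 : (0 : ℝ) ∈ Sl) (hP : Wnd.Pruned W W.Cl E' g (exO W rl ex)) (ht : t ∈ W.S)
    (hadd : AddF W tp t) {x1 : ℝ} (hx1 : x1 ≤ x) (hx2 : x1 ≤ tp) :
    OwnThin W.B' (W.cfg E') (ownL W) t γ x1 := by
  intro τ hτ hτx ε hε
  filter_upwards [strip_fat h.ok R H h0 hP hτ (hτx.trans hx1) 11 hε,
    Wnd.ev_cfg h.ok h.ok.eok_class hP, hadd] with n h1 h2 h3
  obtain ⟨hg, hE1, hE2, hcfg⟩ := h2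
  have r : Reg W E' n := ⟨hg, hP.sub n, hE2⟩
  intro i k0 hik T hT hTT
  have hp := fun s => Real.rpow_pos_of_pos (W.B'.pos n) s
  obtain ⟨e1, e2, e3⟩ := r.spec hik
  set e := W.rep n i k0 with he
  have hup : W.B'.d n ^ tp ≤ W.B'.d n ^ τ :=
    Real.rpow_le_rpow_of_exponent_ge (W.B'.pos n) (W.B'.lt n).le (hτx.trans hx2)
  have key := h1 i (fun k => -(W.crd n (W.rep n i k) e t)) (fun p hp1 q hq1 hpl hql hrl => by
      have hIp : (i, W.zc n p) ∈ (W.cfg E' n).I := by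
        rw [r.cfg_eq]; exact Wnd.mem_I.2 ⟨p, hp1, hpl, rfl⟩
      have hIq : (i, W.zc n q) ∈ (W.cfg E' n).I := by
        rw [r.cfg_eq]; exact Wnd.mem_I.2 ⟨q, hq1, hql, rfl⟩
      obtain ⟨a1, a2, a3⟩ := r.spec hIp
      obtain ⟨b1, b2, b3⟩ := r.spec hIq
      set a := W.rep n i (W.zc n p) with ha
      set b := W.rep n i (W.zc n q) with hb
      have p1 := hP.sub n hp1
      have q1 := hP.sub n hq1
      have f1 := h3 a a1 p p1 e e1 (a2.trans hpl.symm) (hpl.trans e2.symm)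
      have f2 := h3 p p1 q q1 e e1 (hpl.trans hql.symm) (hql.trans e2.symm)
      have f3 := h3 b b1 q q1 e e1 (b2.trans hql.symm) (hql.trans e2.symm)
      have f4 := h.crd_z hg a1 p1 a3 ht
      have f5 := h.crd_z hg b1 q1 b3 ht
      have e5 : -(W.crd n b e t) - -(W.crd n a e t) - W.crd n p q t =
          (W.crd n a e t - (W.crd n a p t + W.crd n p e t)) +
          (W.crd n p e t - (W.crd n p q t + W.crd n q e t)) -
          (W.crd n b e t - (W.crd n b q t + W.crd n q e t)) + W.crd n a p t - W.crd n b q t := by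
        ring
      rw [e5]
      rw [abs_le] at f1 f2 f3 f4 f5 ⊢
      constructor <;> linarith [f1.1, f1.2, f2.1, f2.2, f3.1, f3.2, f4.1, f4.2, f5.1, f5.2])
    0 T (fun k hk => by
      have hk1 := (hTT k hk).1
      rw [r.cfg_eq] at hk1 ⊢
      obtain ⟨y, hy, hyl, hyz⟩ := Wnd.mem_I.1 hk1
      exact Wnd.cfg0_hts.2 ⟨y, hy, hyl, hyz⟩)
    (fun k hk => by
      have hk2 := (hTT k hk).2
      rw [sub_zero, abs_neg]
      have : |W.crd n (W.rep n i k) e t| ≤ W.B'.d n ^ τ := hk2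
      linarith [hp τ])
  refine key.trans (mul_le_mul_of_nonneg_left ?_ (hp _).le)
  exact_mod_cast card_le_card (filter_subset _ _)

/-- the same with the slots of `Dr` forgotten -/
theorem ownThin_dropX {Dr : Finset (Fin 12)} {γ x1 : ℝ} (ht : t ∉ Dr)
    (hO : OwnThin W.B' (W.cfg E') (ownL W) t γ x1) :
    OwnThin W.B' (fun n => dropX Dr (W.cfg E' n)) (fun n i k0 k => LnS Dr (ownL W n i k0 k)) t γ
      x1 := by
  intro τ hτ hτx ε hε
  filter_upwards [hO τ hτ hτx ε hε] with n hn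
  intro i k0 hik T hT hTT
  refine hn i k0 hik T hT fun k hk => ?_
  obtain ⟨a, b⟩ := hTT k hk
  refine ⟨a, ?_⟩
  have e : LnS Dr (ownL W n i k0 k) t = ownL W n i k0 k t := if_neg ht
  rwa [e] at b

/-- the slot `2` is additive along fat lines when the wall `E ≤ z + D` is slack -/
theorem addF2 (h : WL W K tp)
    (hs : ∀ᶠ n in (U : Filter ℕ), side W n 0 * side W n 1 ≤ W.B'.d n ^ tp * side W n 2) :
    AddF W tp 2 := by
  filter_upwards [hs, h.ok.ev_good] with n f g x hx y hy z hz l1 l2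
  have sp := h.side_pos' n 2
  have r0 := h.r0 n
  have e : W.co n x z 2 = W.co n x y 2 + W.co n y z 2 - 2 * (W.co n x y 1 * W.co n y z 0) := by
    rw [(h.coc n).add x y z]
    simp [EvL504.comp]
  have t2 := bd2D (h.bd0 g hx hy 1) (h.bd0 g hy hz 0)
  have e2 : W.crd n x z 2 - (W.crd n x y 2 + W.crd n y z 2) =
      -(2 * (W.co n x y 1 * W.co n y z 0)) / side W n 2 := by
    show W.co n x z 2 / side W n 2 - (W.co n x y 2 / side W n 2 + W.co n y z 2 / side W n 2) = _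
    rw [e]; ring
  rw [e2, abs_div, abs_of_pos sp, div_le_iff₀ sp, abs_neg, abs_mul, abs_two]
  have t4 : 0 ≤ W.B'.d n ^ tp * side W n 2 := mul_nonneg r0 sp.le
  nlinarith

/-- the slots `1`, `7`, `8` are additive along fat lines -/
theorem addF7 (h : WL W K tp) {t : Fin 12} (ht : t ∈ W.S) (h7 : t = 1 ∨ t = 7 ∨ t = 8) :
    AddF W tp t := by
  filter_upwards [h.ok.ev_good] with n g x hx y hy z hz l1 l2
  refine Kj899.add_fat h g ⟨ht, ?_⟩ hx hy hz l1 l2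
  rcases h7 with h | h | h
  · exact Or.inl h
  · exact Or.inr (Or.inl h)
  · exact Or.inr (Or.inr (Or.inl h))

end gen

variable {G : Geo TSet (Fin 2)} {L : ℕ → ℕ → LRay} {r : ℕ → ℝ} {g s : ℝ} {θ q : Fin 2 → ℝ}
    {Rg : ℝ} {B : Base} {I : ℕ → Finset (ℕ × ℝ)} {lev : ℕ → ℚ → ℕ} {A : ℕ → ℝ}
    {f : ℕ → ℚ → ℕ → ℤ → ℕ} {b : ℕ → ℚ → ℕ → TSet} {vm : ℕ → ℚ → ℝ} {w : Fin 2 → ℕ → ℚ → ℝ}
    {fr : ℕ → ℚ → ℕ × ℝ → LInc} {fl : ℕ → ℕ × ℝ → LInc} {sc : Fin 12 → ℕ → ℝ}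
    {w0 sa sb δ R : ℝ} {I0 I' : ℕ → Finset (ℕ × ℝ)} {ν own : (Fin 12 → ℝ) → ℝ} {c₀ : ℝ}

/-- **existence of the window** -/
theorem exists_twin (ctx : CtxT G L r g s θ q Rg B I lev A f b vm w fr fl sc w0 sa sb δ R I0 I' ν
      own c₀) {S Dr Ts : Finset (Fin 12)} (hw : WSD S Dr) {X : ℕ → Fin 12 → ℝ} {hh v : ℕ → ℝ}
    {t v0 σ : ℝ} (ht : 0 < t) (hpos : ∀ l, 0 < hh l) (hh0 : Tendsto hh atTop (𝓝 0))
    {D : Set (Fin 12 → ℝ)} {lam : (Fin 12 → ℝ) → ℝ} (htan : IsTan (Leg monL R) D ν X hh lam)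
    (hD : Leg (monX Dr) t ⊆ D) (hb : TBase (θ 0) (θ 1) w0 sa sb v0 S X v)
    (hTs : Ts ⊆ S) (hβ : ∀ j ∈ Ts, 0 < βL (θ 0) (θ 1) j)
    {Sl : Fin 12 → Set ℝ} (hSl : ∀ j ∈ Ts, Sl j = {0} ∨ Sl j = Set.univ)
    (hSt : ∀ j ∈ Ts, StC B I lev fl (sc j) j (βL (θ 0) (θ 1) j) (Sl j))
    (hvis : ∀ k, k ≠ 0 → VisT B I fl sc k → k ∈ S)
    (hden : DensT S Dr t σ lam) :
    ∃ (k : ℕ → ℕ) (W : Wnd 12 (fun _ => ℕ × ℝ)) (N : ℕ → ℝ) (cw : ∀ n : ℕ, ℕ × ℝ → ℤ)
      (E' : ∀ n : ℕ, Finset (ℕ × ℝ)) (g' : ℕ → ℝ),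
      TWin B I0 I' (PL504.coN B lev w w0 sa sb fl) X hh lam S Dr Ts Sl σ t k W N cw E' g'
        (fun _ _ _ => 0) := by
  have h00 : (0 : Fin 12 → ℝ) ∈ Leg (monX Dr) t :=
    ⟨⟨fun _ => le_rfl, fun k e _ => by simp⟩, fun _ => ht.le⟩
  have a1 : ∀ᶠ l in atTop, X l ∈ Leg monL R := by
    filter_upwards [htan ‖(0 : Fin 12 → ℝ)‖ 1 one_pos] with l hl
    have := (hl 0 (hD h00) le_rfl).1
    rwa [smul_zero, add_zero] at this
  have a2 : ∀ᶠ l in atTop, 0 < v l := hb.hv.eventually_const_lt hb.v00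
  have a3 : ∀ᶠ l in atTop, v l < 1 := hb.hv.eventually_lt_const hb.v01
  have a4 : ∀ j : Fin 12, ∀ᶠ l in atTop, v l + hh l * (t / βL (θ 0) (θ 1) j) < 1 := fun j => by
    have h1 : Tendsto (fun l => v l + hh l * (t / βL (θ 0) (θ 1) j)) atTop
        (𝓝 (v0 + 0 * (t / βL (θ 0) (θ 1) j))) := hb.hv.add (hh0.mul_const _)
    exact h1.eventually_lt_const (by rw [zero_mul, add_zero]; exact hb.v01)
  have all := ((a1.and a2).and a3).and (eventually_all.2 a4)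
  obtain ⟨M, hM⟩ := eventually_atTop.1 all
  obtain ⟨k, W, N, cw, E', g', T⟩ := exists_twin0 ctx hw ht (fun l => hpos (l + M))
    (hh0.comp (tendsto_add_atTop_nat M)) (tan_tail htan M) hD (hb.tail M) hTs hβ hSl hSt hvis hden
    (fun l => (hM (l + M) (Nat.le_add_left _ _)).1.1.1)
    (fun l => (hM (l + M) (Nat.le_add_left _ _)).1.1.2)
    (fun l => (hM (l + M) (Nat.le_add_left _ _)).1.2.le)
    (fun j _ l => ((hM (l + M) (Nat.le_add_left _ _)).2 j).le)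
  exact ⟨fun n => k n + M, W, N, cw, E', g',
    { wl := T.wl
      hk := tendsto_atTop_mono (fun n => Nat.le_add_right (k n) M) T.hk
      eB := T.eB
      eI := T.eI
      eJ := T.eJ
      eco := T.eco
      eX := T.eX
      ew := T.ew
      elam := T.elam
      eS := T.eS
      etop := T.etop
      eM := T.eM
      eR := T.eR
      ekap := T.ekap
      base := T.base
      cl := T.cl
      rl := T.rl
      ws := T.ws
      pr := T.pr
      reg := T.reg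
      mod := T.mod }⟩

section model

variable {co : ∀ n : ℕ, ℕ × ℝ → ℕ × ℝ → Fin 12 → ℝ} {X : ℕ → Fin 12 → ℝ} {hh : ℕ → ℝ}
  {lam : (Fin 12 → ℝ) → ℝ} {S Dr Ts : Finset (Fin 12)} {Sl : Fin 12 → Set ℝ} {σ t : ℝ}
  {k : ℕ → ℕ} {W : Wnd 12 (fun _ => ℕ × ℝ)} {N : ℕ → ℝ} {cw : ∀ n : ℕ, ℕ × ℝ → ℤ}
  {E' : ∀ n : ℕ, Finset (ℕ × ℝ)} {g' : ℕ → ℝ} {ex : ℕ → ∀ n : ℕ, ℕ × ℝ → ℕ}

/-- **the model of the window** -/
theorem TWin.tieM (T : TWin B I0 I' co X hh lam S Dr Ts Sl σ t k W N cw E' g' ex)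
    (hw : WSD S Dr) (ht : 0 ≤ t) (hTs : Ts ⊆ S) (hSl : ∀ j ∈ Ts, (0 : ℝ) ∈ Sl j)
    (hadd : ∀ j ∈ Ts, AddF W t j) (hnx : ∀ᶠ n in (U : Filter ℕ), NatX W (cK0 monL 2) Dr t n) :
    TieM S Dr Ts σ t lam W.B' (fun n => dropX Dr (W.cfg E' n))
      (fun n i k0 k => LnS Dr (ownL W n i k0 k)) W.Dc where
  mod := by
    have h1 := model_drop T.mod (fun ε hε => by
      filter_upwards [T.reg] with n r
      intro k i l hi hl s
      exact (r.rel_le T.wl hi hl s).trans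
        (Real.one_le_rpow_of_pos_of_le_one_of_nonpos (W.B'.pos n) (W.B'.lt n).le
          (by linarith))) Dr
    have ecut : ∀ p : Fin 12 → ℝ, cut W.S (LnS Dr p) W.top = cT S Dr t p := by
      intro p
      rw [T.eS, T.etop]
      have := cut_top (t := t) hw 1 (p := LnS Dr p) fun s hs => if_pos hs
      have e : cT S Dr t (LnS Dr p) = cT S Dr t p := by
        funext j
        unfold cT LnS
        split_ifs <;> rfl
      rw [e] at this
      exact this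
    have e1 : (fun p => W.nu (LnS Dr p)) = nuT S Dr t lam := by
      funext p
      show W.lam (cut W.S (LnS Dr p) W.top) - W.lam W.top = _
      rw [ecut, T.elam, T.etop]
      unfold nuT
      congr 2
      exact (top_cT (t := t) hw 1)
    have e2 : {p : Fin 12 → ℝ | LnS Dr p ∈ W.legW} = legT S Dr t := by
      ext p
      constructor
      · intro hp
        have h2 := hp.1
        rw [ecut, T.eM, T.eR] at h2
        exact h2
      · intro hp
        have hp' : cT S Dr t p ∈ Leg (monX Dr) t := hp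
        refine ⟨?_, ?_⟩
        · rw [ecut, T.eM, T.eR]
          exact hp
        · intro s hs
          rw [T.eS] at hs
          rw [T.etop]
          have h3 := hp'.2 s
          unfold cT at h3
          unfold LnS
          by_cases hD : s ∈ Dr
          · simp only [if_pos hD]; exact le_rfl
          · simp only [if_neg hD, if_neg hs] at h3 ⊢
            exact h3
    rw [e1, e2] at h1
    exact h1
  law := by
    refine llawD (G := fun n => dropX Dr (W.cfg E' n))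
      (ow := fun n i k0 k => LnS Dr (ownL W n i k0 k)) T.wl ht hw.hDr ?_ T.reg hnx
      (fun n => rfl) (fun n => rfl) (fun n k i l => rfl) (fun n i k0 k => rfl) ?_
    · intro s hs
      rw [T.etop]
      simp only [if_neg hs]
      exact le_rfl
    · intro s
      rw [T.eS]
      exact Finset.mem_union
  own0 := fun n i k0 k s hs => if_pos hs
  thin := fun j hj => by
    obtain ⟨γ, hγ, hws⟩ := T.ws j hj
    refine ⟨γ, hγ, ownThin_dropX (hw.dis j (hTs hj)) (ownThin_gen T.wl T.rl hws (hSl j hj) T.pr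
      ?_ (hadd j hj) le_rfl le_rfl)⟩
    rw [T.eS]
    exact hTs hj

/-- linear modulus of the own motion of a tied slot -/
theorem TWin.thin (T : TWin B I0 I' co X hh lam S Dr Ts Sl σ t k W N cw E' g' ex)
    (hTs : Ts ⊆ S) (hSl : ∀ j ∈ Ts, (0 : ℝ) ∈ Sl j)
    {j : Fin 12} (hj : j ∈ Ts) (hadd : AddF W t j) :
    ∃ γ : ℝ, 0 < γ ∧ OwnThin W.B' (W.cfg E') (ownL W) j γ t := by
  obtain ⟨γ, hγ, hws⟩ := T.ws j hj
  refine ⟨γ, hγ, ownThin_gen T.wl T.rl hws (hSl j hj) T.pr ?_ hadd le_rfl le_rfl⟩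
  rw [T.eS]
  exact hTs hj

/-- products of units: slack wall -/
theorem TWin.slack (T : TWin B I0 I' co X hh lam S Dr Ts Sl σ t k W N cw E' g' ex)
    {i j m : Fin 12} (hw : wtL i + wtL j = wtL m) {κ : ℝ}
    (h : ∀ᶠ l in atTop, X l m + κ * hh l ≤ X l i + X l j) :
    ∀ᶠ n in (U : Filter ℕ), side W n i * side W n j ≤ W.B'.d n ^ κ * side W n m := by
  filter_upwards [T.hk.eventually h] with n hn
  have hK : 0 < cK0 monL 2 := by
    have := cK0_one (M := monL) (C := 2) (by norm_num)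
    linarith
  have hd := B.pos n
  show W.kap i * W.B.d n ^ W.X n i * (W.kap j * W.B.d n ^ W.X n j) ≤
    W.B'.d n ^ κ * (W.kap m * W.B.d n ^ W.X n m)
  rw [T.ekap, T.eX, T.eB, T.base]
  show cK0 monL 2 ^ wtL i * B.d n ^ X (k n) i * (cK0 monL 2 ^ wtL j * B.d n ^ X (k n) j) ≤
    (B.d n ^ hh (k n)) ^ κ * (cK0 monL 2 ^ wtL m * B.d n ^ X (k n) m)
  rw [← hw, pow_add, ← Real.rpow_mul hd.le]
  have e1 : B.d n ^ (X (k n) i + X (k n) j) ≤ B.d n ^ (X (k n) m + κ * hh (k n)) :=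
    Real.rpow_le_rpow_of_exponent_ge hd (B.lt n).le hn
  rw [Real.rpow_add hd, Real.rpow_add hd] at e1
  have e2 := mul_le_mul_of_nonneg_left e1 (mul_pos (pow_pos hK (wtL i)) (pow_pos hK (wtL j))).le
  rw [mul_comm (hh (k n)) κ]
  calc _ = cK0 monL 2 ^ wtL i * cK0 monL 2 ^ wtL j * (B.d n ^ X (k n) i * B.d n ^ X (k n) j) := by
        ring
    _ ≤ _ := e2
    _ = _ := by ring

/-- products of units: tight wall -/
theorem TWin.tight (T : TWin B I0 I' co X hh lam S Dr Ts Sl σ t k W N cw E' g' ex)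
    {i j m : Fin 12} (hw : wtL i + wtL j = wtL m)
    (h : ∀ᶠ l in atTop, X l m = X l i + X l j) :
    ∀ᶠ n in (U : Filter ℕ), side W n i * side W n j = side W n m := by
  filter_upwards [T.hk.eventually h] with n hn
  have hd := B.pos n
  show W.kap i * W.B.d n ^ W.X n i * (W.kap j * W.B.d n ^ W.X n j) = W.kap m * W.B.d n ^ W.X n m
  rw [T.ekap, T.eX, T.eB]
  show cK0 monL 2 ^ wtL i * B.d n ^ X (k n) i * (cK0 monL 2 ^ wtL j * B.d n ^ X (k n) j) =
    cK0 monL 2 ^ wtL m * B.d n ^ X (k n) m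
  rw [← hw, pow_add, hn, Real.rpow_add hd]
  ring

end model

/-- **`Dir` in the window** (`e`-tie) : base converging to the record point in the slots `≥ 3` -/
theorem TWin.dir (ctx : CtxT G L r g s θ q Rg B I lev A f b vm w fr fl sc w0 sa sb δ R I0 I' ν
      own c₀) {S Dr Ts : Finset (Fin 12)} {X : ℕ → Fin 12 → ℝ} {hh v : ℕ → ℝ}
    {t v0 σ : ℝ} (hh0 : Tendsto hh atTop (𝓝 0)) {lam : (Fin 12 → ℝ) → ℝ}
    (hb : TBase (θ 0) (θ 1) w0 sa sb v0 S X v)
    (hlim : ∀ j : Fin 12, 3 ≤ j → Tendsto (fun l => X l j) atTop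
      (𝓝 (rL (θ 0) (θ 1) w0 sa sb v0 j)))
    (e3 : ∀ᶠ l in atTop, X l 3 = X l 4) (e5 : ∀ᶠ l in atTop, X l 5 = X l 6)
    (e7 : ∀ᶠ l in atTop, X l 7 = X l 8) {Sl : Fin 12 → Set ℝ}
    {k : ℕ → ℕ} {W : Wnd 12 (fun _ => ℕ × ℝ)} {N : ℕ → ℝ} {cw : ∀ n : ℕ, ℕ × ℝ → ℤ}
    {E' : ∀ n : ℕ, Finset (ℕ × ℝ)} {g' : ℕ → ℝ} {ex : ℕ → ∀ n : ℕ, ℕ × ℝ → ℕ}
    (T : TWin B I0 I' (PL504.coN B lev w w0 sa sb fl) X hh lam S Dr Ts Sl σ t k W N cw E' g' ex)
    (hθ0 : 0 < θ 0) (hθ : θ 1 < θ 0) (x : ℝ) :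
    ∃ u u' : ℕ → ℝ, Dir W.B' (W.cfg E') (ownL W) u u' x := by
  obtain ⟨k0, ε, hd⟩ := ctx.dimD_lim hθ0 hθ T.eB T.eco
    (T.cl.mono fun n hn => hn.trans (ctx.sub0 n)) hb.v00 hb.v01 (fun j hj => by
      have h1 := (hlim j hj).comp T.hk
      refine h1.congr fun n => ?_
      rw [T.eX]
      rfl)
    (by filter_upwards [T.hk.eventually e3] with n hn; rw [T.eX]; exact hn)
    (by filter_upwards [T.hk.eventually e5] with n hn; rw [T.eX]; exact hn)
    (by filter_upwards [T.hk.eventually e7] with n hn; rw [T.eX]; exact hn)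
    (by rw [T.ekap]; rfl) (by rw [T.ekap]; rfl) (by rw [T.ekap]; rfl)
    (by rw [T.ew]; exact hh0.comp T.hk)
  exact ⟨_, _, dir_of T.wl.ok T.wl.hS T.reg hd x⟩

/-- `Dir`, the slots of `Dr` forgotten -/
theorem dir_dropX {W : Wnd 12 (fun _ => ℕ × ℝ)} {E' : ∀ n : ℕ, Finset (ℕ × ℝ)} {u u' : ℕ → ℝ}
    {x : ℝ} (hD : Dir W.B' (W.cfg E') (ownL W) u u' x) {Dr : Finset (Fin 12)}
    (hDr : ∀ s ∈ Dr, s = 1 ∨ s = 2) : Dir W.B' (fun n => dropX Dr (W.cfg E' n))
      (fun n i k0 k => LnS Dr (ownL W n i k0 k)) u u' x := by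
  have hn : ∀ j : Fin 12, 3 ≤ j → j ∉ Dr := fun j hj h1 => by
    rcases hDr j h1 with rfl | rfl
    · exact absurd hj (by decide)
    · exact absurd hj (by decide)
  refine ⟨hD.unit, ?_, ?_, ?_⟩
  · intro ε' hε'
    filter_upwards [hD.tc ε' hε'] with n hn' k i l hi hl
    have e3 : (dropX Dr (W.cfg E' n)).rel k i l 3 = (W.cfg E' n).rel k i l 3 :=
      if_neg (hn 3 (by decide))
    have e4 : (dropX Dr (W.cfg E' n)).rel k i l 4 = (W.cfg E' n).rel k i l 4 :=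
      if_neg (hn 4 (by decide))
    rw [e3, e4]
    exact hn' k i l hi hl
  · intro ε' hε'
    filter_upwards [hD.tx ε' hε'] with n hn' k i l hi hl
    have e3 : (dropX Dr (W.cfg E' n)).rel k i l 5 = (W.cfg E' n).rel k i l 5 :=
      if_neg (hn 5 (by decide))
    have e4 : (dropX Dr (W.cfg E' n)).rel k i l 6 = (W.cfg E' n).rel k i l 6 :=
      if_neg (hn 6 (by decide))
    rw [e3, e4]
    exact hn' k i l hi hl
  · intro ε' hε'
    filter_upwards [hD.tow ε' hε'] with n hn' i k0 k hi hl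
    have e3 : LnS Dr (ownL W n i k0 k) 7 = ownL W n i k0 k 7 := if_neg (hn 7 (by decide))
    have e4 : LnS Dr (ownL W n i k0 k) 8 = ownL W n i k0 k 8 := if_neg (hn 8 (by decide))
    rw [e3, e4]
    exact hn' i k0 k hi hl

end Crest.Agent.R116.Tw369
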