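import Crest.Agent.R116.K3e2_160
import Crest.Agent.R116.KW6_420
import Crest.Agent.R116.TieW3_369

/-!
# R116, e-tie `k = 1` : **K3core**, part 3 (helper160): over 369's windows

Level slots `{0, 7, 8}`, dropped slots `{1, 2}`.

* `leg_q5` : the boxes are legal; `TWin.natX` : 369's `NatX` from the base point;
* `k3_tie` : over `TieM`, `Dir`, common heights; (W3) inside: `0 < gC`, `σ y ≤ J 0 y`
  (increment of `{5, 6}` with `10` coarse) ⊢ `σ ≤ gN`;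
* **`k3_ctx`** : over `CtxT`, at a natural base with `1`, `2` raised.
-/

set_option autoImplicit false
set_option linter.unusedVariables false
set_option linter.unusedSectionVars false

open Filter Topology Finset

namespace Crest.Agent.R116.K3e160

open Crest.Agent.R138.Ex926 (Base U IsTan)
open Crest.Agent.R136.Gf356 Crest.Agent.R136.Net191 Crest.Agent.R136.Qg926
open Crest.Agent.R116.ChL222 Crest.Agent.R116.PL504 Crest.Agent.R116.EvL504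
open Crest.Agent.R116.EvD369 (NatX)
open Crest.Agent.R116.Tw369
open Crest.Agent.R116.KW420 (Dir OwnThin)

/-! ### legality -/

theorem lev_mem : ∀ k : Fin 12, k ≠ 9 → k ≠ 1 → k ≠ 2 → ∀ e ∈ monL.mon k,
    (∀ s ∈ ({1, 2} : Finset (Fin 12)), e s = 0) → ∃ s ∈ ({0, 7, 8} : Finset (Fin 12)), e s ≠ 0 := by
  decide +kernel

theorem leg_q5 {t n p x c : ℝ} (ht : 0 ≤ t) (n0 : 0 ≤ n) (n1 : n ≤ t) (p0 : 0 ≤ p) (p1 : p ≤ t)
    (x0 : 0 ≤ x) (x1 : x ≤ t) (c0 : 0 ≤ c) (c1 : c ≤ t) :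
    q5 n p x c ∈ legT {0, 7, 8} {1, 2} t := by
  show cT {0, 7, 8} {1, 2} t (q5 n p x c) ∈ Leg (monX {1, 2}) t
  have hq : ∀ k, 0 ≤ q5 n p x c k ∧ q5 n p x c k ≤ t := by
    intro k
    unfold q5
    split_ifs
    · exact ⟨n0, n1⟩
    · exact ⟨p0, p1⟩
    · exact ⟨x0, x1⟩
    · exact ⟨c0, c1⟩
    · exact ⟨le_rfl, ht⟩
  have hb : ∀ k, 0 ≤ cT {0, 7, 8} {1, 2} t (q5 n p x c) k ∧
      cT {0, 7, 8} {1, 2} t (q5 n p x c) k ≤ t := by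
    intro k
    unfold cT
    split_ifs
    · exact ⟨le_rfl, ht⟩
    · exact ⟨ht, le_rfl⟩
    · exact hq k
  refine legX hb fun k e he hD => ?_
  by_cases h9 : k = 9
  · left
    subst h9
    simp [cT, q5]
  by_cases h1 : k = 1
  · left
    subst h1
    simp [cT]
  by_cases h2 : k = 2
  · left
    subst h2
    simp [cT]
  right
  obtain ⟨s, hs, hs2⟩ := lev_mem k h9 h1 h2 e he hD
  refine ⟨(hb k).2, s, hs2, ?_⟩
  have hs3 : s ∉ ({1, 2} : Finset (Fin 12)) := fun h => hs2 (hD s h)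
  unfold cT
  rw [if_neg hs3, if_pos hs]

/-! ### over `TieM` -/

theorem nu_mono {B : Base} {G : ℕ → RCfg (Fin 12)} {Leg : Set (Fin 12 → ℝ)}
    {ν : (Fin 12 → ℝ) → ℝ} {D : ℝ} (H : RUnif B G Leg ν D) {p q : Fin 12 → ℝ} (hp : p ∈ Leg)
    (hq : q ∈ Leg) (h : ∀ s, p s ≤ q s) : ν q ≤ ν p := by
  have hD := H.D1
  by_contra hcon
  push Not at hcon
  have hε : 0 < (ν q - ν p) / (D + 2) := div_pos (by linarith) (by linarith)
  set ε := (ν q - ν p) / (D + 2) with hεd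
  have he : (D + 2) * ε = ν q - ν p := by rw [hεd]; field_simp
  obtain ⟨n, h1, h2⟩ := ((H.low q hq ε hε).and (H.up p hp ε hε)).exists
  obtain ⟨⟨i, k⟩, hik⟩ := H.nonempty n
  have a1 := h1 i k hik
  have a2 := h2 i k hik
  have a3 : (((G n).box q ε i k).card : ℝ) ≤ (((G n).box p ε i k).card : ℝ) := by
    refine Nat.cast_le.2 (card_le_card fun l hl => ?_)
    obtain ⟨b1, b2⟩ := RCfg.mem_box.1 hl
    exact RCfg.mem_box.2 ⟨b1, H.loose_mono h le_rfl b2⟩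
  have a4 := a1.trans (a3.trans a2)
  have a5 : B.d n ^ (-ν p - D * ε) < B.d n ^ (-ν q + ε) :=
    Real.rpow_lt_rpow_of_exponent_gt (B.pos n) (B.lt n) (by nlinarith)
  linarith

/-- **K3core over `TieM`**, (W3) inside -/
theorem k3_tie {σ t : ℝ} {lam : (Fin 12 → ℝ) → ℝ} {B' : Base} {G : ℕ → RCfg (Fin 12)}
    {own : ℕ → ℕ → ℕ → ℕ → Fin 12 → ℝ} {D : ℝ} {Ts : Finset (Fin 12)}
    (M : TieM {0, 7, 8} {1, 2} Ts σ t lam B' G own D) (ht : 0 < t) {j : Fin 12} (hj : j ∈ Ts)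
    (h78 : j = 7 ∨ j = 8) {u v : ℕ → ℝ} (T : Dir B' G own u v t)
    (zbd : ∀ᶠ n in (U : Filter ℕ), ∀ k ∈ (G n).Z, |(G n).z k| ≤ 1) {h7 h8 : ℕ → ℕ → ℝ}
    (T7 : Hgt B' G own 7 h7 t) (T8 : Hgt B' G own 8 h8 t) {gN gC : ℝ} {J : ℝ → ℝ → ℝ}
    (hlam : ∀ n p x c' : ℝ, 0 ≤ n → n ≤ t → 0 ≤ p → p ≤ t → 0 ≤ x → x ≤ t → 0 ≤ c' → c' ≤ t →
      lam (cT {0, 7, 8} {1, 2} t (q5 0 0 0 0)) - lam (cT {0, 7, 8} {1, 2} t (q5 n p x c')) =
        gN * n + gC * c' + J p x)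
    (hC : 0 < gC) (hK1 : ∀ y : ℝ, 0 ≤ y → y ≤ t → σ * y ≤ J 0 y) : σ ≤ gN := by
  have hSD : ∀ s : Fin 12, s ∈ ({0, 7, 8} : Finset (Fin 12)) ∪ {1, 2} ↔
      s = 0 ∨ s = 7 ∨ s = 8 ∨ s = 1 ∨ s = 2 := by decide
  have m7 : (7 : Fin 12) ∈ ({0, 7, 8} : Finset (Fin 12)) ∪ {1, 2} := by decide
  have m8 : (8 : Fin 12) ∈ ({0, 7, 8} : Finset (Fin 12)) ∪ {1, 2} := by decide
  have m1 : (1 : Fin 12) ∈ ({0, 7, 8} : Finset (Fin 12)) ∪ {1, 2} := by decide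
  have m2 : (2 : Fin 12) ∈ ({0, 7, 8} : Finset (Fin 12)) ∪ {1, 2} := by decide
  have z1 : ∀ n i k0 k, own n i k0 k 1 = 0 := fun n i k0 k => M.own0 n i k0 k 1 (by decide)
  have z2 : ∀ n i k0 k, own n i k0 k 2 = 0 := fun n i k0 k => M.own0 n i k0 k 2 (by decide)
  have leg : ∀ n p x c' : ℝ, 0 ≤ n → n ≤ t → 0 ≤ p → p ≤ t → 0 ≤ x → x ≤ t → 0 ≤ c' → c' ≤ t →
      q5 n p x c' ∈ legT {0, 7, 8} {1, 2} t := fun n p x c' a1 a2 a3 a4 a5 a6 a7 a8 =>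
    leg_q5 ht.le a1 a2 a3 a4 a5 a6 a7 a8
  have hν : ∀ n p x c' : ℝ, 0 ≤ n → n ≤ t → 0 ≤ p → p ≤ t → 0 ≤ x → x ≤ t → 0 ≤ c' → c' ≤ t →
      nuT {0, 7, 8} {1, 2} t lam (q5 0 0 0 0) - nuT {0, 7, 8} {1, 2} t lam (q5 n p x c') =
        gN * n + gC * c' + J p x := by
    intro n p x c' a1 a2 a3 a4 a5 a6 a7 a8
    unfold nuT
    rw [← hlam n p x c' a1 a2 a3 a4 a5 a6 a7 a8]
    ring
  obtain ⟨γ, hγ, hO⟩ := M.thin j hj
  have t0 := ht.le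
  -- (W3) at the natural base
  have hJ0 : ∀ y : ℝ, 0 ≤ y → y ≤ t → gC * y ≤ J y 0 := by
    intro y hy0 hyt
    have l1 := leg 0 y 0 0 le_rfl t0 hy0 hyt le_rfl t0 le_rfl t0
    have l2 := leg 0 y 0 y le_rfl t0 hy0 hyt le_rfl t0 hy0 hyt
    have l3 := leg 0 0 0 0 le_rfl t0 le_rfl t0 le_rfl t0 le_rfl t0
    have w3 := Crest.Agent.R116.KW420.w3_e00 M.mod M.law ht T m7 m8 m1 m2 z1 z2 h78 hγ ht hO
      (q5 0 y 0 0) (q5 0 y 0 y) (q5 0 0 0 0) (q5 0 y 0 0) l1 l2 l3 l1 (y := y)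
      (fun s => by unfold q5; split_ifs <;> first | exact le_rfl | exact hy0)
      (fun s => Or.inr (by unfold q5; split_ifs <;> exact le_rfl)) hyt
      (by simp [q5]) (by simp [q5]) (by simp [q5]) (by simp [q5])
      (fun s h3 h4 => by unfold q5; simp [h3, h4])
    have e1 := hν 0 y 0 0 le_rfl t0 hy0 hyt le_rfl t0 le_rfl t0
    have e2 := hν 0 y 0 y le_rfl t0 hy0 hyt le_rfl t0 hy0 hyt
    linarith
  -- monotone in the slot `10`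
  have hJ1 : ∀ y : ℝ, 0 ≤ y → y ≤ t → σ * y ≤ J y y := by
    intro y hy0 hyt
    have l1 := leg 0 0 y 0 le_rfl t0 le_rfl t0 hy0 hyt le_rfl t0
    have l2 := leg 0 y y 0 le_rfl t0 hy0 hyt hy0 hyt le_rfl t0
    have e := nu_mono M.mod.toRUnif l1 l2 fun s => by
      unfold q5; split_ifs <;> first | exact le_rfl | exact hy0
    have e1 := hν 0 0 y 0 le_rfl t0 le_rfl t0 hy0 hyt le_rfl t0
    have e2 := hν 0 y y 0 le_rfl t0 hy0 hyt hy0 hyt le_rfl t0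
    have := hK1 y hy0 hyt
    linarith
  exact k3_rates M.mod M.law T m7 m8 (Or.inr z1) (Or.inr z2) zbd T7 T8 ht le_rfl le_rfl leg hν hC
    hC hJ0 hJ1

end Crest.Agent.R116.K3e160
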