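import Crest.Agent.R116.K3e3_160

/-!
# R116, e-tie `k = 1` : **K3core**, part 4 (helper160): over `CtxT`

* `NatB Dr t X hh` : the base is natural off `Dr`, raised by `t * hh` on `Dr`; `TWin.natX`;
* `k3_win` : over 369's `TWin`;
* **`k3_ctx`** : over `CtxT`, at a natural base with the slots `1`, `2` raised.
-/

set_option autoImplicit false
set_option linter.unusedVariables false
set_option linter.unusedSectionVars false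

open Filter Topology Finset

namespace Crest.Agent.R116.K3e160

open Crest.Agent.R138.Ex926
open Crest.Agent.R138.Mk163 (zc zl rho alive)
open Crest.Agent.R136.Net191 Crest.Agent.R136.Gf356 Crest.Agent.R136.Qg926
open Crest.Agent.R136.MkA627 Crest.Agent.R136.TD627 Crest.Agent.R136.Lq196
open Crest.Agent.R116.LZg725 Crest.Agent.R116.ChL222
open Crest.Agent.R116.EvL504 (WL Reg side natD LnS ownL Sides bd2D)
open Crest.Agent.R116.PL504 (βL eL rL oL Shift nb DN prN wtL)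
open Crest.Agent.R116.Gd222 (TSet sN PDL DT vb)
open Crest.Agent.R116.KI439
open Crest.Agent.R116.KF439 (PL Thin)
open Crest.Agent.R116.Tw468 Crest.Agent.R116.CtxB468
open Crest.Agent.R116.EvD369 Crest.Agent.R116.Kst593
open Crest.Agent.R116.KW420 (OwnThin Dir)
open Crest.Agent.R116.Tw369

/-- **bases of the windows**: natural off `Dr`, raised by `t * hh` on `Dr` -/
def NatB (Dr : Finset (Fin 12)) (t : ℝ) (X : ℕ → Fin 12 → ℝ) (hh : ℕ → ℝ) : Prop :=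
  ∀ᶠ l in (atTop : Filter ℕ), ∃ z c p : ℝ, Legal monL (eL z c p) ∧
    (∀ s, s ∉ Dr → X l s = eL z c p s) ∧ ∀ s ∈ Dr, eL z c p s + t * hh l ≤ X l s

theorem NatB.mono {Dr : Finset (Fin 12)} {t t' : ℝ} {X : ℕ → Fin 12 → ℝ} {hh : ℕ → ℝ}
    (h : NatB Dr t X hh) (ht : t' ≤ t) (hpos : ∀ l, 0 ≤ hh l) : NatB Dr t' X hh :=
  Filter.Eventually.mono h fun l ⟨z, c, p, h1, h2, h3⟩ => ⟨z, c, p, h1, h2, fun s hs => by
    have := h3 s hs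
    have := mul_le_mul_of_nonneg_right ht (hpos l)
    linarith⟩

/-- natural slots `3 .. 8` agree in pairs -/
theorem NatB.pair {Dr : Finset (Fin 12)} {t : ℝ} {X : ℕ → Fin 12 → ℝ} {hh : ℕ → ℝ}
    (h : NatB Dr t X hh) {i j : Fin 12} (hi : i ∉ Dr) (hj : j ∉ Dr)
    (he : ∀ z c p : ℝ, eL z c p i = eL z c p j) : ∀ᶠ l in (atTop : Filter ℕ), X l i = X l j :=
  Filter.Eventually.mono h fun l ⟨z, c, p, h1, h2, h3⟩ => by rw [h2 i hi, h2 j hj, he]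

section win

variable {B : Base} {I0 I' : ℕ → Finset (ℕ × ℝ)}
  {co : ∀ n : ℕ, ℕ × ℝ → ℕ × ℝ → Fin 12 → ℝ} {X : ℕ → Fin 12 → ℝ} {hh : ℕ → ℝ}
  {lam : (Fin 12 → ℝ) → ℝ} {S Dr Ts : Finset (Fin 12)} {Sl : Fin 12 → Set ℝ} {σ t : ℝ}
  {k : ℕ → ℕ} {W : Wnd 12 (fun _ => ℕ × ℝ)} {N : ℕ → ℝ} {cw : ∀ n : ℕ, ℕ × ℝ → ℤ}
  {E' : ∀ n : ℕ, Finset (ℕ × ℝ)} {g' : ℕ → ℝ} {ex : ℕ → ∀ n : ℕ, ℕ × ℝ → ℕ}

/-- **the units of the window** -/
theorem natX_of (T : TWin B I0 I' co X hh lam S Dr Ts Sl σ t k W N cw E' g' ex)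
    (h : NatB Dr t X hh) : ∀ᶠ n in (U : Filter ℕ), NatX W (cK0 monL 2) Dr t n := by
  filter_upwards [T.hk.eventually h] with n hn
  obtain ⟨z, c, p, h1, h2, h3⟩ := hn
  have hK : 0 < cK0 monL 2 := by
    have := cK0_one (M := monL) (C := 2) (by norm_num)
    linarith
  have hd := B.pos n
  have e : ∀ s, side W n s = cK0 monL 2 ^ wtL s * B.d n ^ X (k n) s := fun s => by
    show W.kap s * W.B.d n ^ W.X n s = _
    rw [T.ekap, T.eX, T.eB]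
  refine ⟨z, c, p, h1, fun s hs => ?_, fun s hs => ?_⟩
  · rw [e, h2 s hs, T.eB]
    rfl
  · rw [e, T.eB, T.base]
    have e1 : B.d n ^ X (k n) s ≤ B.d n ^ (eL z c p s + t * hh (k n)) :=
      Real.rpow_le_rpow_of_exponent_ge hd (B.lt n).le (h3 s hs)
    rw [Real.rpow_add hd, mul_comm t, Real.rpow_mul hd.le] at e1
    have e2 := mul_le_mul_of_nonneg_left e1 (pow_pos hK (wtL s)).le
    calc _ ≤ _ := e2
      _ = _ := by
        show _ = (B.d n ^ hh (k n)) ^ t * (cK0 monL 2 ^ wtL s * B.d n ^ eL z c p s)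
        ring

end win

variable {G : Geo TSet (Fin 2)} {L : ℕ → ℕ → LRay} {r : ℕ → ℝ} {g s : ℝ} {θ q : Fin 2 → ℝ}
    {Rg : ℝ} {B : Base} {I : ℕ → Finset (ℕ × ℝ)} {lev : ℕ → ℚ → ℕ} {A : ℕ → ℝ}
    {f : ℕ → ℚ → ℕ → ℤ → ℕ} {b : ℕ → ℚ → ℕ → TSet} {vm : ℕ → ℚ → ℝ} {w : Fin 2 → ℕ → ℚ → ℝ}
    {fr : ℕ → ℚ → ℕ × ℝ → LInc} {fl : ℕ → ℕ × ℝ → LInc} {sc : Fin 12 → ℕ → ℝ}
    {w0 sa sb δ R : ℝ} {I0 I' : ℕ → Finset (ℕ × ℝ)} {ν own : (Fin 12 → ℝ) → ℝ} {c₀ : ℝ}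

/-- **K3core over 369's windows** -/
theorem k3_win (ctx : CtxT G L r g s θ q Rg B I lev A f b vm w fr fl sc w0 sa sb δ R I0 I' ν
      own c₀) {X : ℕ → Fin 12 → ℝ} {hh v : ℕ → ℝ} {t v0 σ : ℝ} (ht : 0 < t)
    (hh0 : Tendsto hh atTop (𝓝 0)) {lam : (Fin 12 → ℝ) → ℝ}
    (hb : TBase (θ 0) (θ 1) w0 sa sb v0 {0, 7, 8} X v)
    (hlim : ∀ j : Fin 12, 3 ≤ j → Tendsto (fun l => X l j) atTop
      (𝓝 (rL (θ 0) (θ 1) w0 sa sb v0 j)))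
    (hnat : NatB {1, 2} t X hh) {Ts : Finset (Fin 12)} {Sl : Fin 12 → Set ℝ}
    {k : ℕ → ℕ} {W : Wnd 12 (fun _ => ℕ × ℝ)} {N : ℕ → ℝ} {cw : ∀ n : ℕ, ℕ × ℝ → ℤ}
    {E' : ∀ n : ℕ, Finset (ℕ × ℝ)} {g' : ℕ → ℝ} {ex : ℕ → ∀ n : ℕ, ℕ × ℝ → ℕ}
    (T : TWin B I0 I' (PL504.coN B lev w w0 sa sb fl) X hh lam {0, 7, 8} {1, 2} Ts Sl σ t k W N
      cw E' g' ex)
    (hTs : ∀ j ∈ Ts, j = 7 ∨ j = 8) (hne : Ts.Nonempty) (hSl : ∀ j ∈ Ts, (0 : ℝ) ∈ Sl j)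
    (hθ0 : 0 < θ 0) (hθ : θ 1 < θ 0) {gN gC : ℝ} {J : ℝ → ℝ → ℝ}
    (hlam : ∀ n p x c' : ℝ, 0 ≤ n → n ≤ t → 0 ≤ p → p ≤ t → 0 ≤ x → x ≤ t → 0 ≤ c' → c' ≤ t →
      lam (cT {0, 7, 8} {1, 2} t (q5 0 0 0 0)) - lam (cT {0, 7, 8} {1, 2} t (q5 n p x c')) =
        gN * n + gC * c' + J p x)
    (hC : 0 < gC) (hK1 : ∀ y : ℝ, 0 ≤ y → y ≤ t → σ * y ≤ J 0 y) : σ ≤ gN := by
  obtain ⟨j, hj⟩ := hne
  have hTs' : Ts ⊆ ({0, 7, 8} : Finset (Fin 12)) := fun s hs => by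
    rcases hTs s hs with rfl | rfl <;> decide
  have hS : ∀ s ∈ ({0, 7, 8} : Finset (Fin 12)), s ∈ W.S := fun s hs => by rw [T.eS]; exact hs
  have hnx := natX_of T hnat
  have M := T.tieM wsd_e ht.le hTs' hSl (fun j hj => addF7 T.wl (hS j (hTs' hj)) (Or.inr (hTs j hj)))
    hnx
  obtain ⟨u, u', hd⟩ := TWin.dir ctx hh0 hb hlim
    (hnat.pair (by decide) (by decide) fun z c p => rfl)
    (hnat.pair (by decide) (by decide) fun z c p => rfl)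
    (hnat.pair (by decide) (by decide) fun z c p => rfl) T hθ0 hθ t
  have hd' := dir_dropX hd (Dr := {1, 2}) (by decide)
  have n7 : (7 : Fin 12) ∉ ({1, 2} : Finset (Fin 12)) := by decide
  have n8 : (8 : Fin 12) ∉ ({1, 2} : Finset (Fin 12)) := by decide
  have T7 := hgt_of_addS T.wl T.reg (hS 7 (by decide))
    (addS7_nat T.wl ht.le hnx (by decide) (by decide) (by decide) (by decide) n7)
    (G := fun n => dropX {1, 2} (W.cfg E' n)) (fun n => rfl) (fun n => rfl)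
    (own' := fun n i k0 k => LnS {1, 2} (ownL W n i k0 k)) (fun n i k0 k => if_neg n7)
  have T8 := hgt_of_addS T.wl T.reg (hS 8 (by decide))
    (addS8_nat T.wl ht.le hnx (by decide) (by decide) (by decide) (by decide) n8)
    (G := fun n => dropX {1, 2} (W.cfg E' n)) (fun n => rfl) (fun n => rfl)
    (own' := fun n i k0 k => LnS {1, 2} (ownL W n i k0 k)) (fun n i k0 k => if_neg n8)
  exact k3_tie M ht hj (hTs j hj) hd' (zbd_win T.wl T.reg (fun n => rfl) fun n => rfl) T7 T8 hlam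
    hC hK1

/-- **K3core** (`e`-tie, `k = 1`) over `CtxT`, at a natural base with `1`, `2` raised -/
theorem k3_ctx (ctx : CtxT G L r g s θ q Rg B I lev A f b vm w fr fl sc w0 sa sb δ R I0 I' ν
      own c₀) {X : ℕ → Fin 12 → ℝ} {hh v : ℕ → ℝ} {t v0 σ : ℝ} (ht : 0 < t)
    (hpos : ∀ l, 0 < hh l) (hh0 : Tendsto hh atTop (𝓝 0))
    {D : Set (Fin 12 → ℝ)} {lam : (Fin 12 → ℝ) → ℝ} (htan : IsTan (Leg monL R) D ν X hh lam)
    (hD : Leg (monX {1, 2}) t ⊆ D) (hb : TBase (θ 0) (θ 1) w0 sa sb v0 {0, 7, 8} X v)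
    (hlim : ∀ j : Fin 12, 3 ≤ j → Tendsto (fun l => X l j) atTop
      (𝓝 (rL (θ 0) (θ 1) w0 sa sb v0 j)))
    (hnat : NatB {1, 2} t X hh) {Ts : Finset (Fin 12)} (hTs : ∀ j ∈ Ts, j = 7 ∨ j = 8)
    (hne : Ts.Nonempty) (hβ : ∀ j ∈ Ts, 0 < βL (θ 0) (θ 1) j)
    {Sl : Fin 12 → Set ℝ} (hSl : ∀ j ∈ Ts, Sl j = {0} ∨ Sl j = Set.univ)
    (hSt : ∀ j ∈ Ts, StC B I lev fl (sc j) j (βL (θ 0) (θ 1) j) (Sl j))
    (hvis : ∀ k, k ≠ 0 → VisT B I fl sc k → k ∈ ({0, 7, 8} : Finset (Fin 12)))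
    (hden : DensT {0, 7, 8} {1, 2} t σ lam)
    (hθ0 : 0 < θ 0) (hθ : θ 1 < θ 0) {gN gC : ℝ} {J : ℝ → ℝ → ℝ}
    (hlam : ∀ n p x c' : ℝ, 0 ≤ n → n ≤ t → 0 ≤ p → p ≤ t → 0 ≤ x → x ≤ t → 0 ≤ c' → c' ≤ t →
      lam (cT {0, 7, 8} {1, 2} t (q5 0 0 0 0)) - lam (cT {0, 7, 8} {1, 2} t (q5 n p x c')) =
        gN * n + gC * c' + J p x)
    (hC : 0 < gC) (hK1 : ∀ y : ℝ, 0 ≤ y → y ≤ t → σ * y ≤ J 0 y) : σ ≤ gN := by
  have hTs' : Ts ⊆ ({0, 7, 8} : Finset (Fin 12)) := fun s hs => by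
    rcases hTs s hs with rfl | rfl <;> decide
  obtain ⟨k, W, N, cw, E', g', T⟩ := exists_twin ctx wsd_e ht hpos hh0 htan hD hb hTs' hβ hSl hSt
    hvis hden
  exact k3_win ctx ht hh0 hb hlim hnat T hTs hne (fun j hj => by
    rcases hSl j hj with h | h <;> rw [h]
    · rfl
    · trivial) hθ0 hθ hlam hC hK1

end Crest.Agent.R116.K3e160
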