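import Crest.Agent.R116.K3e6_160
import Crest.Agent.R116.TwF4_369

/-!
# R116, e-tie `k = 1` : **K3core**, part 7 (helper160): class layer, general position

* `wG z G D` : positions with `C_b = X = 0`, natural off `G`, `D`;
* `K3P` : the bases (natural off `D`, `E`; tied in `B`);
* **`k3c_gen`** : `⊢ K3C c s φ ρ` over `CtxT`; `D` frozen (`E8`, `LM0`) or live (`E9`, `LM`); `E`, `D`
  invisible or strictly coarser than their own level at the position.
-/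

set_option autoImplicit false
set_option linter.unusedVariables false
set_option linter.unusedSectionVars false

open Filter Topology Finset

namespace Crest.Agent.R116.K3e160

open Crest.Agent.R138.Ex926
open Crest.Agent.R138.Mk163 (zc zl rho alive)
open Crest.Agent.R136.Net191 Crest.Agent.R136.Gf356 Crest.Agent.R136.Qg926
open Crest.Agent.R136.MkA627 Crest.Agent.R136.TD627 Crest.Agent.R136.Lq196
open Crest.Agent.R116.LZg725 Crest.Agent.R116.ChL222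
open Crest.Agent.R116.EvL504 (WL Reg side natD LnS ownL Sides bd2D)
open Crest.Agent.R116.PL504 (βL eL rL oL Shift nb DN prN wtL)
open Crest.Agent.R116.Gd222 (TSet sN PDL DT vb)
open Crest.Agent.R116.KI439
open Crest.Agent.R116.KF439 (PL Thin)
open Crest.Agent.R116.Tw468 Crest.Agent.R116.CtxB468
open Crest.Agent.R116.EvD369 Crest.Agent.R116.Kst593
open Crest.Agent.R116.Rcx363 (fo_lip)
open Crest.Agent.R116.Tw369
open Crest.Agent.R116.Tq741
open Crest.Agent.R116.Sg337 (bx9)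
open Crest.Agent.R116.SgF665 (wl LM0 bx9_mem)
open Crest.Agent.R116.WinG954 (LM)
open Crest.Agent.R116.Tq794 (E8 E9)

theorem q9_q5 (n p x c : ℝ) : cT {0, 7, 8} {1, 2} 1 (q5 n p x c) = E9 (uq n p x c) := by
  funext i
  fin_cases i <;> simp [cT, q5, E9, bx9, uq]

theorem q9_top : (cT {0, 7, 8} {1, 2} 1 fun _ => 1) = E9 uT := by
  funext i
  fin_cases i <;> simp [cT, E9, bx9, uT]

theorem q9_lin : (cL {0, 7, 8} {1, 2} fun _ => 1) = E9 uL := by
  funext i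
  fin_cases i <;> simp [cL, E9, bx9, uL]

theorem q9_lev : cT {0, 7, 8} {1, 2} 1 0 = E9 uV := by
  funext i
  fin_cases i <;> simp [cT, E9, bx9, uV]

theorem q9_z (y : ℝ) : Pi.single 0 y = E9 (uz y) := by
  funext i
  fin_cases i <;> simp [E9, bx9, uz]

/-- directions of use -/
def AE (u : V9) : Prop := LegM 0 (u + dE)

theorem ae_iff {u : V9} : AE u ↔ LegM 0 ![u 0, u 1, u 2, u 3, u 4, u 5, u 6, u 7 + 1, u 8 + 2] := by
  have e : u + dE = ![u 0, u 1, u 2, u 3, u 4, u 5, u 6, u 7 + 1, u 8 + 2] := by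
    funext i
    fin_cases i <;> simp [dE]
  unfold AE
  rw [e]

theorem ae_q {n p x c' : ℝ} (a1 : 0 ≤ n) (a2 : n ≤ 1) (a3 : 0 ≤ p) (a4 : p ≤ 1) (a5 : 0 ≤ x)
    (a6 : x ≤ 1) (a7 : 0 ≤ c') (a8 : c' ≤ 1) : AE (uq n p x c') := by
  rw [ae_iff]
  constructor <;> simp [uq] <;> linarith

theorem ae_T : AE uT := by rw [ae_iff]; constructor <;> simp [uT]

theorem ae_L : AE uL := by rw [ae_iff]; constructor <;> simp [uL]; linarith

theorem ae_V : AE uV := by rw [ae_iff]; constructor <;> simp [uV]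

theorem ae_0 : AE 0 := by rw [ae_iff]; constructor <;> simp

theorem ae_z {y : ℝ} (a1 : 0 ≤ y) (a2 : y ≤ 1) : AE (uz y) := by
  rw [ae_iff]
  constructor <;> simp [uz] <;> linarith

/-- the slot `3` finer, the slot `2` at rest, class `{2, 3}` -/
theorem LimV.incr3' {c : Fin 9 → Fin 9} {dl : V9} {s : ℝ} {Λ : V9 → ℝ} {φ : Fin 9 → V9 → ℝ}
    {ρ : V9} {w e' : V9} {k : ℕ → ℝ} {A : V9 → Prop} {F : V9 → ℝ} (H : LimV Λ w e' k A F)
    (C : Cl9 c dl s Λ φ ρ) (hc : ∀ t, c t = c 3 → t = 2 ∨ t = 3) (w2 : w 2 = 0) (w3 : w 3 = 0)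
    (e2 : e' 2 = 0) (e3 : e' 3 = 0) {σ : ℝ}
    (hX : ∀ y : ℝ, 0 ≤ y → σ * y ≤ φ (c 3) 0 - φ (c 3) (y • e9 3)) {u u' : V9} (hu : A u)
    (hu' : A u') (u2 : u 2 = 0) (u3 : u 3 = 0) (he : ∀ i, i ≠ 3 → u' i = u i)
    (hy : 0 ≤ u' 3) : σ * u' 3 ≤ F u - F u' := by
  refine H.ge hu hu' ?_
  filter_upwards [H.leg u hu, H.leg u' hu'] with m h1 h2
  rw [← C.incr h1 h2 (c 3) fun i hi => ?_]
  · have a1 : φ (c 3) (w + k m • (u + e')) = φ (c 3) 0 := by
      refine C.loc (c 3) _ _ fun t ht => ?_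
      rcases hc t ht with rfl | rfl <;>
        simp only [Pi.add_apply, Pi.smul_apply, smul_eq_mul, Pi.zero_apply, w2, w3, e2, e3,
          u2, u3] <;> ring
    have a2 : φ (c 3) (w + k m • (u' + e')) = φ (c 3) ((k m * u' 3) • e9 3) := by
      refine C.loc (c 3) _ _ fun t ht => ?_
      have u2' : u' 2 = 0 := by rw [he 2 (by decide), u2]
      rcases hc t ht with rfl | rfl
      · simp only [Pi.add_apply, Pi.smul_apply, smul_eq_mul, w2, e2, u2',
          e9_ne (show (2 : Fin 9) ≠ 3 by decide)]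
        ring
      · simp only [Pi.add_apply, Pi.smul_apply, smul_eq_mul, w3, e3, e9_same]
        ring
    rw [a1, a2]
    have := hX (k m * u' 3) (mul_nonneg (H.kpos m).le hy)
    linarith
  · have : i ≠ 3 := fun h => hi (by rw [h])
    simp only [Pi.add_apply, Pi.smul_apply, smul_eq_mul]
    rw [he i this]

/-- position of use: `C_b = X = 0`, natural off `G`, `D` -/
def wG (z G D : ℝ) : V9 := fun i =>
  if i = 0 ∨ i = 4 ∨ i = 6 then z else if i = 1 ∨ i = 5 then -z else if i = 7 then G else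
    if i = 8 then D else 0

theorem wG_leg {z G D : ℝ} (g0 : G ≤ z + D) (g2 : 2 * z ≤ G) (g3 : z ≤ D) :
    LegM 0 (wG z G D) := by
  constructor <;> simp [wG] <;> linarith

theorem wG_E (z G D : ℝ) : E9 (wG z G D) 0 = z ∧ E9 (wG z G D) 2 = G ∧ E9 (wG z G D) 3 = -z ∧
    E9 (wG z G D) 4 = -z ∧ E9 (wG z G D) 5 = 0 ∧ E9 (wG z G D) 6 = 0 ∧ E9 (wG z G D) 7 = z ∧
    E9 (wG z G D) 8 = z ∧ E9 (wG z G D) 9 = -z ∧ E9 (wG z G D) 10 = 0 ∧ E9 (wG z G D) 11 = z := by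
  refine ⟨?_, ?_, ?_, ?_, ?_, ?_, ?_, ?_, ?_, ?_, ?_⟩ <;> simp [E9, bx9, wG]

/-- the bases of (K3) -/
structure K3P (θ0 θ1 w0 sa sb v0 : ℝ) (X : ℕ → Fin 12 → ℝ) (v : ℕ → ℝ) : Prop where
  tb : TBase θ0 θ1 w0 sa sb v0 {0, 7, 8} X v
  lim : ∀ j : Fin 12, 3 ≤ j → Tendsto (fun l => X l j) atTop (𝓝 (rL θ0 θ1 w0 sa sb v0 j))
  x4 : ∀ l, X l 4 = X l 3
  x5 : ∀ l, X l 5 = X l 0 + X l 3
  x6 : ∀ l, X l 6 = X l 0 + X l 3
  x8 : ∀ l, X l 8 = X l 7
  x9 : ∀ l, X l 9 = X l 3 + X l 5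
  x10 : ∀ l, X l 10 = X l 7 + X l 3
  x11 : ∀ l, X l 11 = X l 0 + X l 10

/-- two walls from legality -/
theorem leg_walls {R : ℝ} {x : Fin 12 → ℝ} (h : x ∈ Leg monL R) :
    x 7 ≤ x 2 + x 3 ∧ x 10 ≤ x 1 + x 9 := by
  have g : ∀ (k : Fin 12) (e : Fin 12 → ℕ), e ∈ mfL k → x k ≤ wl e x := fun k e he =>
    h.1.wall k e he
  constructor
  · have := g 7 ![0, 0, 1, 1, 0, 0, 0, 0, 0, 0, 0, 0] (by decide)
    rw [Tq794.wl12] at this; simpa using this
  · have := g 10 ![0, 1, 0, 0, 0, 0, 0, 0, 0, 1, 0, 0] (by decide)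
    rw [Tq794.wl12] at this; simpa using this

/-- `D` is raised at the position -/
theorem x1_of {R : ℝ} {E : V9 → Fin 12 → ℝ} {M : Set (Fin 12 → ℝ)}
    (hEM : (E = E8 ∧ M = LM0) ∨ (E = E9 ∧ M = LM)) {ν lam2 : (Fin 12 → ℝ) → ℝ}
    {X : ℕ → Fin 12 → ℝ} {H : ℕ → ℝ} (hpos : ∀ l, 0 < H l)
    (ht : IsTan (Leg monL R) M ν X H lam2) {z G D : ℝ} (g3 : z < D) :
    ∃ η : ℝ, 0 < η ∧ ∀ᶠ l in (atTop : Filter ℕ),
      X l 10 - X l 9 + H l * (z + η) ≤ X l 1 + H l * E (wG z G D) 1 := by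
  rcases hEM with ⟨rfl, rfl⟩ | ⟨rfl, rfl⟩
  · refine ⟨1, one_pos, ?_⟩
    set K : ℝ := |z| + 1 with hK
    have hK0 : 0 ≤ K := by positivity
    set c : Fin 12 → ℝ := bx9 0 0 0 K 0 0 0 K 0 with hc
    have hcM : c ∈ LM0 := bx9_mem.2 ⟨by linarith, by linarith, by linarith, by linarith,
      by linarith, by linarith, by linarith⟩
    filter_upwards [ht ‖c‖ 1 one_pos] with l hl
    have h1 := (leg_walls (hl c hcM le_rfl).1).2
    have c10 : c 10 = K := rfl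
    have c1 : c 1 = 0 := rfl
    have c9 : c 9 = 0 := rfl
    simp only [Pi.add_apply, Pi.smul_apply, smul_eq_mul, c10, c1, c9] at h1
    have e1 : E8 (wG z G D) 1 = 0 := rfl
    rw [e1]
    have h2 : H l * (z + 1) ≤ H l * K :=
      mul_le_mul_of_nonneg_left (by linarith [le_abs_self z]) (hpos l).le
    linarith
  · refine ⟨D - z, by linarith, ?_⟩
    have h0M : (0 : Fin 12 → ℝ) ∈ LM := em9.z
    filter_upwards [ht ‖(0 : Fin 12 → ℝ)‖ 1 one_pos] with l hl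
    have h1 := (leg_walls (hl 0 h0M le_rfl).1).2
    rw [smul_zero, add_zero] at h1
    have e1 : E9 (wG z G D) 1 = D := by simp [E9, bx9, wG]
    rw [e1]
    have : H l * (z + (D - z)) = H l * D := by ring
    linarith

variable {G : Geo TSet (Fin 2)} {L : ℕ → ℕ → LRay} {r : ℕ → ℝ} {g s : ℝ} {θ q : Fin 2 → ℝ}
    {Rg : ℝ} {B : Base} {I : ℕ → Finset (ℕ × ℝ)} {lev : ℕ → ℚ → ℕ} {A : ℕ → ℝ}
    {f : ℕ → ℚ → ℕ → ℤ → ℕ} {b : ℕ → ℚ → ℕ → TSet} {vm : ℕ → ℚ → ℝ} {w : Fin 2 → ℕ → ℚ → ℝ}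
    {fr : ℕ → ℚ → ℕ × ℝ → LInc} {fl : ℕ → ℕ × ℝ → LInc} {sc : Fin 12 → ℕ → ℝ}
    {w0 sa sb δ R : ℝ} {I0 I' : ℕ → Finset (ℕ × ℝ)} {ν own : (Fin 12 → ℝ) → ℝ} {c₀ : ℝ}

/-- natural bases -/
theorem K3P.nat (sh : Shift (θ 0) (θ 1) w0 sa sb δ R) {v0 : ℝ} {X : ℕ → Fin 12 → ℝ}
    {H v : ℕ → ℝ} (hP : K3P (θ 0) (θ 1) w0 sa sb v0 X v) (hpos : ∀ l, 0 < H l)
    (h0 : Tendsto H atTop (𝓝 0)) {E : V9 → Fin 12 → ℝ} {M : Set (Fin 12 → ℝ)}
    (hEM : (E = E8 ∧ M = LM0) ∨ (E = E9 ∧ M = LM)) {lam2 : (Fin 12 → ℝ) → ℝ}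
    (ht : IsTan (Leg monL R) M ν X H lam2) {z G' D' : ℝ} (g2 : 2 * z < G') (g3 : z < D')
    {ψ : ℕ → ℕ} (hψ : StrictMono ψ) {k : ℕ → ℝ} (kpos : ∀ m, 0 < k m)
    (k0 : Tendsto k atTop (𝓝 0)) :
    NatB {1, 2} 1 (Xs X H (E (wG z G' D')) ((1 : ℝ) • E dE) ψ k) (fun m => H (ψ m) * k m) := by
  have em : EMd E M := by
    rcases hEM with ⟨rfl, rfl⟩ | ⟨rfl, rfl⟩
    · exact em8
    · exact em9
  have d1 : 0 ≤ E dE 1 := by
    rcases hEM with ⟨rfl, rfl⟩ | ⟨rfl, rfl⟩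
    · rw [E8_dE]; simp [cc]
    · rw [E9_dE]; simp [cc]
  have d2 : E dE 2 = 1 := by rw [em.off _ _ (by decide), E9_dE]; rfl
  obtain ⟨η, hη, x1⟩ := x1_of hEM hpos ht (G := G') g3
  have l0 : Tendsto (fun l => X l 0) atTop (𝓝 (w0 + v0)) :=
    (hP.tb.hv.const_add w0).congr fun l => (hP.tb.z l).symm
  have l3 := hP.lim 3 (by decide)
  have l10 := hP.lim 10 (by decide)
  have hz0 : Tendsto (fun l => H l * z) atTop (𝓝 0) := by simpa using h0.mul_const z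
  have hd := sh.d0
  have v0' := hP.tb.v00
  have v1' := hP.tb.v01
  have z1 : ∀ᶠ l in atTop, 0 < X l 0 + H l * z := by
    have h1 := l0.add hz0
    rw [add_zero] at h1
    exact h1.eventually_const_lt (by have := sh.bz v0'.le; linarith)
  have z2 : ∀ᶠ l in atTop, 0 < X l 3 - H l * z := by
    have h1 := l3.sub hz0
    rw [sub_zero] at h1
    exact h1.eventually_const_lt (by have := sh.rL_pos v0'.le v1'.le 3; linarith)
  have z3 : ∀ᶠ l in atTop, 0 < X l 10 - 2 * (X l 3 - H l * z) - (X l 0 + H l * z) := by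
    have h1 := (l10.sub ((l3.sub hz0).const_mul 2)).sub (l0.add hz0)
    rw [sub_zero, add_zero] at h1
    refine h1.eventually_const_lt ?_
    have := sh.rL_pos v0'.le v1'.le 1
    have e : rL (θ 0) (θ 1) w0 sa sb v0 10 - 2 * rL (θ 0) (θ 1) w0 sa sb v0 3 - (w0 + v0) =
        rL (θ 0) (θ 1) w0 sa sb v0 1 := rfl
    rw [e]
    linarith
  have z4 : ∀ᶠ l in atTop, X l 7 ≤ X l 2 + X l 3 := by
    filter_upwards [ht ‖(0 : Fin 12 → ℝ)‖ 1 one_pos] with l hl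
    have h1 := (leg_walls (hl 0 em.z le_rfl).1).1
    rwa [smul_zero, add_zero] at h1
  have k1 : ∀ᶠ m in atTop, k m < η := k0.eventually_lt_const hη
  have hψ' := hψ.tendsto_atTop
  filter_upwards [hψ'.eventually z1, hψ'.eventually z2, hψ'.eventually z3,
    hψ'.eventually z4, hψ'.eventually x1, k1] with m m1 m2 m3 m4 m5 m6
  set l := ψ m with hl
  have hH := hpos l
  have hk := kpos m
  obtain ⟨w0', w2', w3', w4', w5', w6', w7', w8', w9', w10', w11'⟩ := wG_E z G' D'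
  have val : ∀ i : Fin 12, i ≠ 1 → i ≠ 2 →
      Xs X H (E (wG z G' D')) ((1 : ℝ) • E dE) ψ k m i = X l i + H l * E9 (wG z G' D') i := by
    intro i h1 h2
    rw [Xs_apply, em.off _ _ h1, Pi.smul_apply, E_dE_off em h1 h2, smul_zero, mul_zero, add_zero]
  have x4 := hP.x4 l
  have x5 := hP.x5 l
  have x6 := hP.x6 l
  have x8 := hP.x8 l
  have x9 := hP.x9 l
  have x10 := hP.x10 l
  have x11 := hP.x11 l
  refine ⟨X l 0 + H l * z, X l 3 - H l * z, X l 10, PL504.eL_legal m1.le m2.le m3.le,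
    fun i hi => ?_, fun i hi => ?_⟩
  · have hi2 : i ≠ 2 := fun h => hi (by rw [h]; decide)
    have hi1 : i ≠ 1 := fun h => hi (by rw [h]; decide)
    rw [val i hi1 hi2]
    fin_cases i
    · show X l 0 + H l * E9 (wG z G' D') 0 = X l 0 + H l * z
      rw [w0']
    · exact absurd rfl hi1
    · exact absurd rfl hi2
    · show X l 3 + H l * E9 (wG z G' D') 3 = X l 3 - H l * z
      rw [w3']; ring
    · show X l 4 + H l * E9 (wG z G' D') 4 = X l 3 - H l * z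
      rw [w4', x4]; ring
    · show X l 5 + H l * E9 (wG z G' D') 5 = (X l 0 + H l * z) + (X l 3 - H l * z)
      rw [w5', x5]; ring
    · show X l 6 + H l * E9 (wG z G' D') 6 = (X l 0 + H l * z) + (X l 3 - H l * z)
      rw [w6', x6]; ring
    · show X l 7 + H l * E9 (wG z G' D') 7 = X l 10 - (X l 3 - H l * z)
      rw [w7', x10]; ring
    · show X l 8 + H l * E9 (wG z G' D') 8 = X l 10 - (X l 3 - H l * z)
      rw [w8', x8, x10]; ring
    · show X l 9 + H l * E9 (wG z G' D') 9 = (X l 0 + H l * z) + 2 * (X l 3 - H l * z)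
      rw [w9', x9, x5]; ring
    · show X l 10 + H l * E9 (wG z G' D') 10 = X l 10
      rw [w10']; ring
    · show X l 11 + H l * E9 (wG z G' D') 11 = (X l 0 + H l * z) + X l 10
      rw [w11', x11]; ring
  · rcases Finset.mem_insert.1 hi with rfl | hi
    · show X l 10 - 2 * (X l 3 - H l * z) - (X l 0 + H l * z) + 1 * (H l * k m) ≤
        Xs X H (E (wG z G' D')) ((1 : ℝ) • E dE) ψ k m 1
      rw [Xs_apply, Pi.smul_apply, one_smul, ← hl]
      have h1 : H l * k m ≤ H l * η := mul_le_mul_of_nonneg_left m6.le hH.le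
      have h2 : 0 ≤ H l * k m * E dE 1 := mul_nonneg (mul_pos hH hk).le d1
      have h3 : H l * (z + η) = H l * z + H l * η := by ring
      rw [h3] at m5
      linarith
    · rw [Finset.mem_singleton.1 hi]
      show X l 10 - 2 * (X l 3 - H l * z) + 1 * (H l * k m) ≤
        Xs X H (E (wG z G' D')) ((1 : ℝ) • E dE) ψ k m 2
      rw [Xs_apply, Pi.smul_apply, one_smul, ← hl, d2, em.off _ _ (by decide), w2']
      have h1 : H l * (2 * z) ≤ H l * G' := mul_le_mul_of_nonneg_left g2.le hH.le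
      linarith

/-- **(K3) in the class layer, general position** -/
theorem k3c_gen (ctx : CtxT G L r g s θ q Rg B I lev A f b vm w fr fl sc w0 sa sb δ R I0 I' ν
      own c₀) {E : V9 → Fin 12 → ℝ} {M : Set (Fin 12 → ℝ)}
    (hEM : (E = E8 ∧ M = LM0) ∨ (E = E9 ∧ M = LM)) {X : ℕ → Fin 12 → ℝ} {H v : ℕ → ℝ} {v0 : ℝ}
    {lam2 : (Fin 12 → ℝ) → ℝ} (hpos : ∀ l, 0 < H l) (h0 : Tendsto H atTop (𝓝 0))
    (ht : IsTan (Leg monL R) M ν X H lam2) (hP : K3P (θ 0) (θ 1) w0 sa sb v0 X v)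
    (hθ0 : 0 < θ 0) (hk : θ 0 - θ 1 = 1) {j : Fin 12} (hj : j = 7 ∨ j = 8)
    (hB : TieT θ B I lev fl sc j) {z G' D' : ℝ} (g0 : G' ≤ z + D') (g2 : 2 * z < G') (g3 : z < D')
    (hvX : ∀ k, k ≠ 0 → VisT B I fl sc k → k = 7 ∨ k = 8 ∨
      Vw (θ 0) (θ 1) w0 sa sb X H v (E (wG z G' D')) z k)
    {c : Fin 9 → Fin 9} {dl : V9} {φ : Fin 9 → V9 → ℝ} {ρ : V9}
    (C : Cl9 c dl s (fun w => lam2 (E w)) φ ρ)
    (hfr : ∀ᶠ x in 𝓝[>] (0 : ℝ), ∀ y : ℝ, 0 < y → (1 - s) * y ≤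
      lam2 (E (wG z G' D' + x • dE)) - lam2 (E (wG z G' D' + x • dE + y • e9 0)))
    (h1 : ∀ t, c t = c 1 → t = 1) (h4 : ∀ t, c t = c 4 → t = 4)
    (h3 : ∀ t, c t = c 3 → t = 2 ∨ t = 3)
    (hz : ∀ t t', c t = c t' → (t = 0 ∨ t = 6) → t' = 0 ∨ t' = 6 ∨ t' = 7 ∨ t' = 8) :
    K3C c s φ ρ := by
  intro hC hX
  have em : EMd E M := by
    rcases hEM with ⟨rfl, rfl⟩ | ⟨rfl, rfl⟩
    · exact em8
    · exact em9
  have rz : Rz M {1, 2} (E dE) := by
    rcases hEM with ⟨rfl, rfl⟩ | ⟨rfl, rfl⟩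
    · exact rz8E
    · exact rz9E
  set w' : V9 := wG z G' D' with hw'
  have hwl : LegM 0 w' := wG_leg g0 g2.le g3.le
  have hlip : ∃ K : ℝ, 0 ≤ K ∧ ∀ p ∈ M, ∀ q ∈ M, |lam2 p - lam2 q| ≤ K * ‖p - q‖ := by
    refine ⟨12, by norm_num, fun p hp' q hq' => ?_⟩
    have := SgO219.tan_lip hpos ht (K := 12) (fo_lip ctx 0) p hp' q hq'
    rwa [dist_eq_norm] at this
  obtain ⟨ψ, k, lam3, hψ, kpos, k0, hT, hlim⟩ := exists_shift em.cl em.ad em.sm hpos ht hlip
    (em.mem hwl) (em.mem leg_dE) (K := 1) zero_le_one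
  have kz : Tendsto k atTop (𝓝[>] (0 : ℝ)) :=
    tendsto_nhdsWithin_iff.2 ⟨k0, Eventually.of_forall kpos⟩
  have eE : ∀ (m : ℕ) (u : V9), E w' + k m • (E u + (1 : ℝ) • E dE) =
      E (w' + k m • (u + dE)) := fun m u => by
    have e2 := em.lin u dE 1
    rw [one_smul] at e2
    rw [em.lin, e2]
  have eE0 : ∀ m : ℕ, E w' + k m • ((1 : ℝ) • E dE) = E (w' + k m • dE) := fun m => by
    rw [em.lin, one_smul]
  have mem : ∀ u : V9, AE u → E u + (1 : ℝ) • E dE ∈ M := fun u hu => by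
    have e2 := em.lin u dE 1
    rw [one_smul] at e2
    rw [← e2]
    exact em.mem hu
  have LV : LimV (fun w => lam2 (E w)) w' dE k AE (fun u => lam3 (E u)) :=
    { kpos := kpos
      leg := fun u hu => Eventually.of_forall fun m => hwl.add_smul hu (kpos m).le
      zero := ae_0
      lim := fun u hu => by
        refine (hlim (E u) (mem u hu)).congr fun m => ?_
        rw [eE, eE0] }
  have s0 := ctx.ext.s0
  have s1 := ctx.ext.s1
  have u8 : uT 8 = 0 ∧ uL 8 = 0 ∧ uV 8 = 0 ∧ (∀ y, uz y 8 = 0) ∧ ∀ n p x c', uq n p x c' 8 = 0 := by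
    refine ⟨rfl, rfl, rfl, fun _ => rfl, fun _ _ _ _ => rfl⟩
  have hden : DensT {0, 7, 8} {1, 2} 1 (1 - s) lam3 :=
    { dens := by
        rw [q9_top, q9_lin, q9_lev, ← em.eq9 u8.1, ← em.eq9 u8.2.1, ← em.eq9 u8.2.2.1]
        refine (LV.dens C ae_T ae_L ae_V fun j => ?_).le
        by_cases hj : ∃ t, c t = j ∧ (t = 0 ∨ t = 6)
        · right
          obtain ⟨t0, ht0, ht1⟩ := hj
          intro t ht
          exact u_in t (hz t0 t (by rw [ht0, ht]) ht1)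
        · left
          intro t ht
          have h0 : t ≠ 0 := fun h => hj ⟨t, ht, Or.inl h⟩
          have h6 : t ≠ 6 := fun h => hj ⟨t, ht, Or.inr h⟩
          exact u_out t h0 h6
      σ0 := by linarith
      σ1 := by linarith
      frost := fun y hy hy1 => by
        rw [q9_z, ← em.eq9 (u8.2.2.2.1 y)]
        rcases hy.eq_or_lt with rfl | hy
        · rw [uz_zero, LV.F0]
          simp
        have h5 := LV.ge LV.zero (ae_z hy.le hy1) (r := (1 - s) * y) (by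
          filter_upwards [kz.eventually hfr] with m hm
          have h6 := hm (k m * y) (mul_pos (kpos m) hy)
          have e1 : w' + k m • (0 + dE) = w' + k m • dE := by rw [zero_add]
          have e2 : w' + k m • (uz y + dE) = w' + k m • dE + (k m * y) • e9 0 := by
            rw [uz_eq, smul_add, smul_smul]
            abel
          rw [e1, e2]
          linarith)
        rw [LV.F0] at h5
        linarith }
  have hYe : (fun m => X (ψ m) + H (ψ m) • (E w' + (1 * k m) • E dE)) =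
      Xs X H (E w') ((1 : ℝ) • E dE) ψ k := by
    funext m
    show X (ψ m) + H (ψ m) • (E w' + (1 * k m) • E dE) =
      (X (ψ m) + H (ψ m) • E w') + (H (ψ m) * k m) • ((1 : ℝ) • E dE)
    rw [one_mul, one_smul, smul_add, smul_smul, add_assoc]
  rw [hYe] at hT
  have hwz : E w' 0 = z := by rw [em.off _ _ (by decide)]; exact (wG_E z G' D').1
  have hb7 : βL (θ 0) (θ 1) 7 = 1 := by rw [βL7, hk]
  have hb8 : βL (θ 0) (θ 1) 8 = 1 := by rw [βL8, hk]
  have hwS : ∀ i ∈ ({0, 7, 8} : Finset (Fin 12)), E w' i = βL (θ 0) (θ 1) i * z := by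
    intro i hi
    have h3 : i = 0 ∨ i = 7 ∨ i = 8 := by simpa using hi
    rcases h3 with rfl | rfl | rfl
    · rw [hwz, βL0, one_mul]
    · rw [hb7, one_mul, em.off _ _ (by decide)]; exact (wG_E z G' D').2.2.2.2.2.2.1
    · rw [hb8, one_mul, em.off _ _ (by decide)]; exact (wG_E z G' D').2.2.2.2.2.2.2.1
  have hdS : ∀ i ∈ ({0, 7, 8} : Finset (Fin 12)), ((1 : ℝ) • E dE) i = 0 := by
    intro i hi
    rw [Pi.smul_apply, E_dE_off em, smul_zero]
    · rintro rfl; revert hi; decide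
    · rintro rfl; revert hi; decide
  have hbase := Xs_base (ew := E w') (c0 := (1 : ℝ) • E dE) (h' := k) hP.tb h0 hψ hwz hwS
    (hdS 0 (by decide)) hdS
  have hjS : ({j} : Finset (Fin 12)) ⊆ {0, 7, 8} := by
    rcases hj with rfl | rfl <;> decide
  have hnat := hP.nat ctx.sh hpos h0 hEM ht g2 g3 hψ kpos k0
  obtain ⟨k', W, N, cw, E', g', T⟩ := exists_twinV ctx wsd_e one_pos
    (fun m => mul_pos (hpos _) (kpos m)) (tend_hh h0 hψ k0) hT
    (D := {d | d + (1 : ℝ) • E dE ∈ M}) (fun d hd => by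
      show d + (1 : ℝ) • E dE ∈ M
      rw [add_comm]
      exact rz 1 zero_le_one d hd) hbase hjS
    (fun i hi => by
      rw [Finset.mem_singleton.1 hi]
      exact hB.2.1) (Sl := fun _ => {0}) (fun _ _ => Or.inl rfl)
    (fun i hi => by
      rw [Finset.mem_singleton.1 hi]
      exact stC_of_TwP (fun _ _ _ _ => rfl) hB.2.2.2)
    (fun i hi hV => by
      rcases hvX i hi hV with rfl | rfl | h
      · exact Or.inl (by decide)
      · exact Or.inl (by decide)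
      · exact Or.inr (Xs_vw hpos hψ kpos k0 h 1)) hden
  set J : ℝ → ℝ → ℝ := fun p x => lam3 (E (uq 0 0 0 0)) - lam3 (E (uq 0 p x 0)) with hJ
  refine k3_win ctx one_pos (tend_hh h0 hψ k0) hbase
    (fun j hj => Xs_lim h0 hψ k0 (hP.lim j hj)) hnat T
    (fun i hi => by rw [Finset.mem_singleton.1 hi]; exact hj) (Finset.singleton_nonempty j)
    (fun _ _ => rfl) hθ0 (by linarith) (gN := ρ 4) (gC := ρ 1) (J := J) ?_ hC ?_
  · intro n p x c' a1 a2 a3 a4 a5 a6 a7 a8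
    rw [q9_q5, q9_q5, ← em.eq9 (u8.2.2.2.2 0 0 0 0), ← em.eq9 (u8.2.2.2.2 n p x c')]
    have b1 := ae_q a1 a2 a3 a4 a5 a6 a7 a8
    have b2 := ae_q le_rfl zero_le_one a3 a4 a5 a6 a7 a8
    have b3 := ae_q le_rfl zero_le_one a3 a4 a5 a6 le_rfl zero_le_one
    have r4 := LV.rate1 C h4 b2 b1 (uq_off4 n p x c')
    have r1 := LV.rate1 C h1 b3 b2 (uq_off1 0 p x c')
    have c4 : uq n p x c' 4 = n := rfl
    have c4' : uq 0 p x c' 4 = 0 := rfl
    have c1 : uq 0 p x c' 1 = c' := rfl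
    have c1' : uq 0 p x 0 1 = 0 := rfl
    rw [c4, c4'] at r4
    rw [c1, c1'] at r1
    simp only [hJ]
    linarith
  · intro y hy hy1
    have := LV.incr3' C h3 (w2 := rfl) (w3 := rfl) (e2 := rfl) (e3 := rfl) hX
      (ae_q le_rfl zero_le_one le_rfl zero_le_one le_rfl zero_le_one le_rfl zero_le_one)
      (ae_q le_rfl zero_le_one le_rfl zero_le_one hy hy1 le_rfl zero_le_one) rfl rfl
      (uq_off3 0 0 y 0) hy
    exact this

end Crest.Agent.R116.K3e160
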