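import Crest.Agent.R116.K3e7_160
import Crest.Agent.R116.Pe0_794
import Crest.Agent.R116.Tq4_126

/-!
# R116, e-tie `k = 1` : **K3core**, part 8 (helper160): one-call plugs over 363's plane data

* `NB8`, `NB9`  : offsets natural off `D`, `E`, tied in `B` (`k = 1`)
* `k3_pd8`, `k3_pd9` : `Pd8` / `Pd9` at any such offset `⊢ K3C`
* **`k3_eD`**  : `eD 1` (`E`, `D` invisible), `T⁻`
* **`k3_oS`**  : `oS` (`E`, `D` invisible), `T⁺`, `D` frozen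
* **`k3_oS9`** : `oS9` (`E`, `D` visible or not, `θ 0 < 1`), `T⁺`, `D` live
-/

set_option autoImplicit false
set_option linter.unusedVariables false
set_option linter.unusedSectionVars false

open Filter Topology Finset

namespace Crest.Agent.R116.K3e160

open Crest.Agent.R138.Ex926
open Crest.Agent.R138.Mk163 (zc zl rho alive)
open Crest.Agent.R136.Net191 Crest.Agent.R136.Gf356 Crest.Agent.R136.Qg926
open Crest.Agent.R136.MkA627 Crest.Agent.R136.TD627 Crest.Agent.R136.Lq196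
open Crest.Agent.R136
open Crest.Agent.R116.LZg725 Crest.Agent.R116.ChL222
open Crest.Agent.R116.EvL504 (WL Reg side natD LnS ownL Sides bd2D)
open Crest.Agent.R116.PL504 (βL eL rL oL Shift nb DN prN wtL rL_lin)
open Crest.Agent.R116.Gd222 (TSet sN PDL DT vb)
open Crest.Agent.R116.KI439
open Crest.Agent.R116.KF439 (PL Thin)
open Crest.Agent.R116.Tw468 Crest.Agent.R116.CtxB468
open Crest.Agent.R116.EvD369 Crest.Agent.R116.Kst593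
open Crest.Agent.R116.Rcx363 (fo_lip fo)
open Crest.Agent.R116.Tw369
open Crest.Agent.R116.Tq741
open Crest.Agent.R116.Tq126 (cE cS cS9 sn8 cE0 cE1 cE2 cE3 cE4 cE5 cE6 cE7 cE8 cS0 cS1 cS2 cS3 cS4
  cS5 cS6 cS7 cS8 cT0 cT1 cT2 cT3 cT4 cT5 cT6 cT7 cT8)
open Crest.Agent.R116.Sg337 (bx9)
open Crest.Agent.R116.SgF665 (wl LM0 bx9_mem)
open Crest.Agent.R116.WinG954 (LM)
open Crest.Agent.R116.Tq794
open Crest.Agent.R116.RbM219
open Crest.Agent.R116.RbK219 (RS SOk Par)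
open Crest.Agent.R116.Kz647 (L8B L9B)
open Crest.Agent.R116.Pd363
open Crest.Agent.R116.Tp139 (eD oS oS9)
open Sl741 (slice xt rs)

/-! ### the own law near the position -/

theorem fr_of {E : V9 → Fin 12 → ℝ} {M : Set (Fin 12 → ℝ)} (em : EMd E M) {s : ℝ} {a b : Fin 2}
    {Vis' : Fin 12 → Prop} {β : Fin 12 → ℝ} {g : (Fin 12 → ℝ) → ℝ}
    (Hp : Rcx363.Prf M s a b Vis' β g) (h1 : 0 ≤ E (e9 0)) {z G' D' : ℝ}
    (hwl : LegM 0 (wG z G' D'))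
    (hV : ∀ k, Vis' k → E (wG z G' D') k < z * β k ∨
      (k ≠ 1 ∧ k ≠ 2 ∧ E (wG z G' D') k ≤ z * β k)) :
    ∀ᶠ x in 𝓝[>] (0 : ℝ), ∀ y : ℝ, 0 < y → (1 - s) * y ≤
      g (E (wG z G' D' + x • dE)) - g (E (wG z G' D' + x • dE + y • e9 0)) := by
  have hx0 : Tendsto (fun x : ℝ => x) (𝓝[>] (0 : ℝ)) (𝓝 0) := tendsto_nhdsWithin_of_tendsto_nhds
    tendsto_id
  have hk : ∀ k : Fin 12, ∀ᶠ x in 𝓝[>] (0 : ℝ), Vis' k →
      E (wG z G' D') k + x * E dE k ≤ z * β k := by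
    intro k
    by_cases hVk : Vis' k
    · rcases hV k hVk with h2 | ⟨h2, h3, h4⟩
      · have h5 : Tendsto (fun x : ℝ => E (wG z G' D') k + x * E dE k) (𝓝[>] (0 : ℝ))
            (𝓝 (E (wG z G' D') k)) := by
          have := (hx0.mul_const (E dE k)).const_add (E (wG z G' D') k)
          rwa [zero_mul, add_zero] at this
        filter_upwards [h5.eventually_lt_const h2] with x hx _
        exact hx.le
      · refine Eventually.of_forall fun x _ => ?_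
        rw [E_dE_off em h2 h3, mul_zero, add_zero]
        exact h4
    · exact Eventually.of_forall fun x h => absurd h hVk
  filter_upwards [eventually_all.2 hk, self_mem_nhdsWithin] with x hx hxp y hy
  have hxp' : (0 : ℝ) < x := hxp
  refine own_prf Hp (fun d hd => em.mem hd) em.lin (fun w => ?_) h1
    (hwl.add_smul leg_dE hxp'.le) (fun k hVk => ?_) hy
  · rw [em.off _ _ (by decide)]; rfl
  · have e0 : (wG z G' D' + x • dE) 0 = z := by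
      have a1 : wG z G' D' 0 = z := by simp [wG]
      have a2 : dE 0 = 0 := rfl
      rw [Pi.add_apply, Pi.smul_apply, a1, a2, smul_zero, add_zero]
    rw [e0, em.lin]
    simpa only [Pi.add_apply, Pi.smul_apply, smul_eq_mul] using hx k hVk

/-! ### bases -/

/-- offsets natural off `D`, `E`, tied in `B` at `k = 1` -/
structure NB8 (B : Fin 8 → ℝ) : Prop where
  h2 : B 2 = B 6 + B 1
  h3 : B 3 = B 0 + B 1
  h4 : B 4 = B 0 + B 2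
  h5 : B 5 = B 1 + B 3
  h6 : B 6 = B 0

/-- offsets natural off `D`, `E`, tied in `B` at `k = 1` -/
structure NB9 (B : Fin 9 → ℝ) : Prop where
  h2 : B 2 = B 6 + B 1
  h3 : B 3 = B 0 + B 1
  h4 : B 4 = B 0 + B 2
  h5 : B 5 = B 1 + B 3
  h6 : B 6 = B 0

theorem k3p_of {θ0 θ1 w0 sa sb v0 : ℝ} (hk : θ0 - θ1 = 1) (hv0 : 0 < v0) (hv1 : v0 < 1)
    {X : ℕ → Fin 12 → ℝ} (hlim : Tendsto X atTop (𝓝 (rL θ0 θ1 w0 sa sb v0)))
    {V E : ℕ → ℝ} (hV0 : Tendsto V atTop (𝓝 0)) (hE0 : Tendsto E atTop (𝓝 0)) {β : Fin 12 → ℝ}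
    (hb : ∀ m, ∀ k, k ≠ 1 → X m k = rL θ0 θ1 w0 sa sb (v0 + V m) k + E m * β k)
    (b4 : β 4 = β 3) (b5 : β 5 = β 0 + β 3) (b6 : β 6 = β 0 + β 3) (b7 : β 7 = β 0)
    (b8 : β 8 = β 0) (b9 : β 9 = β 3 + β 5) (b10 : β 10 = β 7 + β 3) (b11 : β 11 = β 0 + β 10) :
    K3P θ0 θ1 w0 sa sb v0 X (fun m => v0 + V m + E m * β 0) := by
  have r0 : ∀ v, rL θ0 θ1 w0 sa sb v 0 = w0 + v := fun v => rfl
  have r4 : ∀ v, rL θ0 θ1 w0 sa sb v 4 = rL θ0 θ1 w0 sa sb v 3 := fun v => rfl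
  have r5 : ∀ v, rL θ0 θ1 w0 sa sb v 5 = rL θ0 θ1 w0 sa sb v 0 + rL θ0 θ1 w0 sa sb v 3 :=
    fun v => rfl
  have r6 : ∀ v, rL θ0 θ1 w0 sa sb v 6 = rL θ0 θ1 w0 sa sb v 0 + rL θ0 θ1 w0 sa sb v 3 :=
    fun v => rfl
  have r8 : ∀ v, rL θ0 θ1 w0 sa sb v 8 = rL θ0 θ1 w0 sa sb v 7 := fun v => rfl
  have r9 : ∀ v, rL θ0 θ1 w0 sa sb v 9 = rL θ0 θ1 w0 sa sb v 3 + rL θ0 θ1 w0 sa sb v 5 := by
    intro v; simp [rL, eL]; ring
  have r10 : ∀ v, rL θ0 θ1 w0 sa sb v 10 = rL θ0 θ1 w0 sa sb v 7 + rL θ0 θ1 w0 sa sb v 3 := by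
    intro v; simp [rL, eL]
  have r11 : ∀ v, rL θ0 θ1 w0 sa sb v 11 = rL θ0 θ1 w0 sa sb v 0 + rL θ0 θ1 w0 sa sb v 10 := by
    intro v; simp [rL, eL]
  have hb7 : βL θ0 θ1 7 = 1 := by rw [βL7, hk]
  have hb8 : βL θ0 θ1 8 = 1 := by rw [βL8, hk]
  have hb0 : βL θ0 θ1 0 = 1 := βL0 _ _
  refine ⟨⟨hv0, hv1, ?_, fun m => ?_, fun m k hkS => ?_⟩, fun j _ => ?_, fun m => ?_, fun m => ?_,
    fun m => ?_, fun m => ?_, fun m => ?_, fun m => ?_, fun m => ?_⟩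
  · have h1 := (hV0.const_add v0).add (hE0.mul_const (β 0))
    simp only [zero_mul, add_zero] at h1
    exact h1
  · rw [hb m 0 (by decide), r0]; ring
  · have h3 : k = 0 ∨ k = 7 ∨ k = 8 := by simpa using hkS
    have hk1 : k ≠ 1 := by rcases h3 with rfl | rfl | rfl <;> decide
    rw [hb m k hk1]
    have e1 := rL_lin θ0 θ1 w0 sa sb (v0 + V m) k
    have e2 := rL_lin θ0 θ1 w0 sa sb (v0 + V m + E m * β 0) k
    have e3 : β k = β 0 ∧ βL θ0 θ1 k = 1 := by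
      rcases h3 with rfl | rfl | rfl
      · exact ⟨rfl, hb0⟩
      · exact ⟨b7, hb7⟩
      · exact ⟨b8, hb8⟩
    rw [e1, e2, e3.1, e3.2]
    ring
  · exact (tendsto_pi_nhds.1 hlim) j
  · rw [hb m 4 (by decide), hb m 3 (by decide), r4, b4]
  · rw [hb m 5 (by decide), hb m 3 (by decide), hb m 0 (by decide), r5, b5]; ring
  · rw [hb m 6 (by decide), hb m 3 (by decide), hb m 0 (by decide), r6, b6]; ring
  · rw [hb m 8 (by decide), hb m 7 (by decide), r8, b8, b7]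
  · rw [hb m 9 (by decide), hb m 3 (by decide), hb m 5 (by decide), r9, b9]; ring
  · rw [hb m 10 (by decide), hb m 7 (by decide), hb m 3 (by decide), r10, b10]; ring
  · rw [hb m 11 (by decide), hb m 0 (by decide), hb m 10 (by decide), r11, b11]; ring

/-- a slot at most on its own level -/
theorem le_own {θ0 θ1 w0 sa sb v0 V E β0 βk : ℝ} (hE : 0 ≤ E) {k : Fin 12} {x : ℝ}
    (hx : x = rL θ0 θ1 w0 sa sb (v0 + V) k + E * βk) (hβ : βk ≤ β0 * βL θ0 θ1 k) :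
    x ≤ rL θ0 θ1 w0 sa sb (v0 + V + E * β0) k := by
  rw [hx, rL_lin θ0 θ1 w0 sa sb (v0 + V), rL_lin θ0 θ1 w0 sa sb (v0 + V + E * β0)]
  have := mul_le_mul_of_nonneg_left hβ hE
  linarith

variable {G : Geo TSet (Fin 2)} {L : ℕ → ℕ → LRay} {r : ℕ → ℝ} {g s : ℝ} {θ q : Fin 2 → ℝ}
    {Rg : ℝ} {B : Base} {I : ℕ → Finset (ℕ × ℝ)} {lev : ℕ → ℚ → ℕ} {A : ℕ → ℝ}
    {f : ℕ → ℚ → ℕ → ℤ → ℕ} {b : ℕ → ℚ → ℕ → TSet} {vm : ℕ → ℚ → ℝ} {w : Fin 2 → ℕ → ℚ → ℝ}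
    {fr : ℕ → ℚ → ℕ × ℝ → LInc} {fl : ℕ → ℕ × ℝ → LInc} {sc : Fin 12 → ℕ → ℝ}
    {w0 sa sb δ R : ℝ} {I0 I' : ℕ → Finset (ℕ × ℝ)} {ν own : (Fin 12 → ℝ) → ℝ} {c₀ : ℝ}
    {v0 t κ sg l α : ℝ} {a b' : Fin 2} {Vis' : Fin 12 → Prop} {X : ℕ → Fin 12 → ℝ}
    {h' H : ℕ → ℝ} {lam lam2 : Fin 2 → (Fin 12 → ℝ) → ℝ}

/-- **(K3) at 363's plane data, `D` frozen** -/
theorem k3_pd8 (ctx : CtxT G L r g s θ q Rg B I lev A f b vm w fr fl sc w0 sa sb δ R I0 I' ν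
      own c₀) {B8 : Fin 8 → ℝ} {ρ1 ρ2 : Fin 8 → ℝ}
    (P : Pd8 R s a b' Vis' (θ 0) (θ 1) w0 sa sb v0 t κ B8 sg (fo ν own) lam ρ1 l α h' X H lam2 ρ2)
    (ht : t ≠ 0) (hv0 : 0 < v0) (hv1 : v0 < 1) (N : NB8 B8) (hθ0 : 0 < θ 0)
    (hk : θ 0 - θ 1 = 1) {j : Fin 12} (hj : j = 7 ∨ j = 8) (hT : TieT θ B I lev fl sc j)
    {z G' D' : ℝ} (g0 : G' ≤ z + D') (g2 : 2 * z < G') (g3 : z < D')
    (hvX : ∀ k, k ≠ 0 → VisT B I fl sc k → k = 7 ∨ k = 8 ∨ (k ≠ 1 ∧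
      B8 (cl8 k) ≤ B8 0 * βL (θ 0) (θ 1) k ∧ E8 (wG z G' D') k < βL (θ 0) (θ 1) k * z))
    (hV' : ∀ k, Vis' k → E8 (wG z G' D') k < z * βL (θ 0) (θ 1) k ∨
      (k ≠ 1 ∧ k ≠ 2 ∧ E8 (wG z G' D') k ≤ z * βL (θ 0) (θ 1) k))
    {c : Fin 9 → Fin 9} {dl : V9} {φ : Fin 9 → V9 → ℝ} {ρ : V9}
    (C : Cl9 c dl s (fun w => lam2 0 (xt kp 0 (RL8.vec (fun i : Fin 8 => w i.castSucc)))) φ ρ)
    (h1 : ∀ t, c t = c 1 → t = 1) (h4 : ∀ t, c t = c 4 → t = 4)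
    (h3 : ∀ t, c t = c 3 → t = 2 ∨ t = 3)
    (hz : ∀ t t', c t = c t' → (t = 0 ∨ t = 6) → t' = 0 ∨ t' = 6 ∨ t' = 7 ∨ t' = 8) :
    K3C c s φ ρ := by
  obtain ⟨V, E, hV0, hE0, hEp, hb⟩ := P.base
  have htan : IsTan (Leg monL R) LM0 ν X H (lam2 0) :=
    Rc683.tan_mono (P.tan 0) Set.Subset.rfl (LM0_L8B ht)
  have Hp := P.prf.mono (LM0_L8B (θa := θ 0) (θb := θ 1) (B := B8) (sg := sg) ht)
  have hwl : LegM 0 (wG z G' D') := wG_leg g0 g2.le g3.le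
  have hP := k3p_of hk hv0 hv1 P.xlim hV0 hE0 (β := fun k => B8 (cl8 k)) hb rfl N.h3 N.h3 N.h6
    N.h6 N.h5 N.h2 N.h4
  have C' : Cl9 c dl s (fun w => lam2 0 (E8 w)) φ ρ := by
    have e : (fun w : V9 => lam2 0 (xt kp 0 (RL8.vec (fun i : Fin 8 => w i.castSucc)))) =
        fun w => lam2 0 (E8 w) := by
      funext w
      rw [E8_eq]
    rwa [e] at C
  refine k3c_gen ctx (Or.inl ⟨rfl, rfl⟩) P.pos P.lim htan hP hθ0 hk hj hT g0 g2 g3 ?_ C'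
    (fr_of em8 Hp e9_nonneg8 hwl hV') h1 h4 h3 hz
  intro k hk0 hVk
  rcases hvX k hk0 hVk with h | h | ⟨n1, n2, n3⟩
  · exact Or.inl h
  · exact Or.inr (Or.inl h)
  · refine Or.inr (Or.inr (Or.inl ⟨Eventually.of_forall fun m => ?_, n3⟩))
    exact le_own (hEp m).le (hb m k n1) n2

/-- **(K3) at 363's plane data, `D` live** -/
theorem k3_pd9 (ctx : CtxT G L r g s θ q Rg B I lev A f b vm w fr fl sc w0 sa sb δ R I0 I' ν
      own c₀) {B9 : Fin 9 → ℝ} {ρ1 ρ2 : Fin 9 → ℝ}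
    (P : Pd9 R s a b' Vis' (θ 0) (θ 1) w0 sa sb v0 κ B9 sg (fo ν own) lam ρ1 l α h' X H lam2 ρ2)
    (hv0 : 0 < v0) (hv1 : v0 < 1) (N : NB9 B9) (hθ0 : 0 < θ 0)
    (hk : θ 0 - θ 1 = 1) {j : Fin 12} (hj : j = 7 ∨ j = 8) (hT : TieT θ B I lev fl sc j)
    {z G' D' : ℝ} (g0 : G' ≤ z + D') (g2 : 2 * z < G') (g3 : z < D')
    (hvX : ∀ k, k ≠ 0 → VisT B I fl sc k → k = 7 ∨ k = 8 ∨
      (B9 (cl9 k) ≤ B9 0 * βL (θ 0) (θ 1) k ∧ E9 (wG z G' D') k < βL (θ 0) (θ 1) k * z))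
    (hV' : ∀ k, Vis' k → E9 (wG z G' D') k < z * βL (θ 0) (θ 1) k ∨
      (k ≠ 1 ∧ k ≠ 2 ∧ E9 (wG z G' D') k ≤ z * βL (θ 0) (θ 1) k))
    {c : Fin 9 → Fin 9} {dl : V9} {φ : Fin 9 → V9 → ℝ} {ρ : V9}
    (C : Cl9 c dl s (fun w => lam2 0 (RL9.vec w)) φ ρ)
    (h1 : ∀ t, c t = c 1 → t = 1) (h4 : ∀ t, c t = c 4 → t = 4)
    (h3 : ∀ t, c t = c 3 → t = 2 ∨ t = 3)
    (hz : ∀ t t', c t = c t' → (t = 0 ∨ t = 6) → t' = 0 ∨ t' = 6 ∨ t' = 7 ∨ t' = 8) :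
    K3C c s φ ρ := by
  obtain ⟨V, E, hV0, hE0, hEp, hb⟩ := P.base
  have htan : IsTan (Leg monL R) LM ν X H (lam2 0) :=
    Rc683.tan_mono (P.tan 0) Set.Subset.rfl LM_L9B
  have Hp := P.prf.mono (LM_L9B (θa := θ 0) (θb := θ 1) (B := B9) (sg := sg))
  have hwl : LegM 0 (wG z G' D') := wG_leg g0 g2.le g3.le
  have hP := k3p_of hk hv0 hv1 P.xlim hV0 hE0 (β := fun k => B9 (cl9 k)) (fun m k _ => hb m k)
    rfl N.h3 N.h3 N.h6 N.h6 N.h5 N.h2 N.h4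
  have C' : Cl9 c dl s (fun w => lam2 0 (E9 w)) φ ρ := by
    have e : (fun w : V9 => lam2 0 (RL9.vec w)) = fun w => lam2 0 (E9 w) := by
      funext w
      rw [E9_eq]
    rwa [e] at C
  refine k3c_gen ctx (Or.inr ⟨rfl, rfl⟩) P.pos P.lim htan hP hθ0 hk hj hT g0 g2 g3 ?_ C'
    (fr_of em9 Hp e9_nonneg9 hwl hV') h1 h4 h3 hz
  intro k hk0 hVk
  rcases hvX k hk0 hVk with h | h | ⟨n2, n3⟩
  · exact Or.inl h
  · exact Or.inr (Or.inl h)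
  · refine Or.inr (Or.inr (Or.inl ⟨Eventually.of_forall fun m => ?_, n3⟩))
    exact le_own (hEp m).le (hb m k) n2

/-! ### the class functions at `k = 1` -/

/-- the class conditions of `k3c_gen` -/
structure CC (c : Fin 9 → Fin 9) : Prop where
  h1 : ∀ t, c t = c 1 → t = 1
  h4 : ∀ t, c t = c 4 → t = 4
  h3 : ∀ t, c t = c 3 → t = 2 ∨ t = 3
  hz : ∀ t t', c t = c t' → (t = 0 ∨ t = 6) → t' = 0 ∨ t' = 6 ∨ t' = 7 ∨ t' = 8

theorem cE_one : cE 1 = ![0, 1, 2, 2, 4, 5, 0, 7, 8] := by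
  funext t
  fin_cases t <;> simp [cE]

theorem cS_one : cS 1 = ![0, 1, 2, 2, 4, 5, 0, 0, 8] := by
  funext t
  fin_cases t <;> simp [cS]

theorem cS9_one : cS9 1 = ![0, 1, 2, 2, 4, 5, 0, 0, 0] := by
  funext t
  fin_cases t <;> simp [cS9]

theorem cc_E : CC (cE 1) := by
  rw [cE_one]
  constructor <;> decide

theorem cc_S : CC (cS 1) := by
  rw [cS_one]
  constructor <;> decide

theorem cc_S9 : CC (cS9 1) := by
  rw [cS9_one]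
  constructor <;> decide

/-! ### the offsets -/

theorem nb_eD : NB8 (eD 1) := by
  constructor <;> simp [eD, nat8] <;> norm_num

theorem nb_oS : NB8 oS := by
  constructor <;> simp [oS] <;> norm_num

theorem nb_oS9 : NB9 oS9 := by
  constructor <;> simp [oS9] <;> norm_num

theorem βL1 (a b : ℝ) : βL a b 1 = 2 * a - b - 1 := by
  show -b - 2 * -a - 1 = _
  ring

/-! ### the plugs -/

/-- **(K3) at `eD 1`, `E`, `D` invisible** -/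
theorem k3_eD (ctx : CtxT G L r g s θ q Rg B I lev A f b vm w fr fl sc w0 sa sb δ R I0 I' ν
      own c₀) {k : ℝ} {ρ1 ρ2 : Fin 8 → ℝ}
    (P : Pd8 R s a b' Vis' (θ 0) (θ 1) w0 sa sb v0 t κ (eD k) sg (fo ν own) lam ρ1 l α h' X H
      lam2 ρ2)
    (ht : t ≠ 0) (hv0 : 0 < v0) (hv1 : v0 < 1) (hθ0 : 0 < θ 0) (hk : θ 0 - θ 1 = k) (hk1 : k = 1)
    (hT : TieT θ B I lev fl sc 7 ∨ TieT θ B I lev fl sc 8)
    (hVis : ∀ k, VisT B I fl sc k → k = 0 ∨ k = 7 ∨ k = 8)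
    (hVis' : ∀ k, Vis' k → k = 0 ∨ k = 7 ∨ k = 8) {dl : V9} {φ : Fin 9 → V9 → ℝ} {ρ : V9}
    (C : Cl9 (cE k) dl s (fun w => lam2 0 (xt kp 0 (RL8.vec (fun i : Fin 8 => w i.castSucc)))) φ
      ρ) : K3C (cE k) s φ ρ := by
  subst hk1
  obtain ⟨j, hj, hTj⟩ : ∃ j : Fin 12, (j = 7 ∨ j = 8) ∧ TieT θ B I lev fl sc j := by
    rcases hT with h | h
    · exact ⟨7, Or.inl rfl, h⟩
    · exact ⟨8, Or.inr rfl, h⟩
  have hb7 : βL (θ 0) (θ 1) 7 = 1 := by rw [βL7, hk]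
  have hb8 : βL (θ 0) (θ 1) 8 = 1 := by rw [βL8, hk]
  obtain ⟨l0, l2, l3, l4, l5, l6, l7, l8, -⟩ := em8.lt (wG 0 1 100)
  have w6 : wG 0 1 100 6 = 0 := by simp [wG]
  have w0' : wG 0 1 100 0 = 0 := by simp [wG]
  refine k3_pd8 ctx P ht hv0 hv1 nb_eD hθ0 hk hj hTj (z := 0) (G' := 1) (D' := 100)
    (by norm_num) (by norm_num) (by norm_num) (fun i h0 hV => ?_) (fun i hV => ?_) C cc_E.h1
    cc_E.h4 cc_E.h3 cc_E.hz
  · rcases hVis i hV with h | h | h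
    · exact absurd h h0
    · exact Or.inl h
    · exact Or.inr (Or.inl h)
  · right
    rcases hVis' i hV with rfl | rfl | rfl
    · refine ⟨by decide, by decide, ?_⟩
      rw [l0, w0', zero_mul]
    · refine ⟨by decide, by decide, ?_⟩
      rw [l7, w6, zero_mul]
    · refine ⟨by decide, by decide, ?_⟩
      rw [l8, w6, zero_mul]

/-- **(K3) at `oS`, `E`, `D` invisible** -/
theorem k3_oS (ctx : CtxT G L r g s θ q Rg B I lev A f b vm w fr fl sc w0 sa sb δ R I0 I' ν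
      own c₀) {k : ℝ} {ρ1 ρ2 : Fin 8 → ℝ}
    (P : Pd8 R s a b' Vis' (θ 0) (θ 1) w0 sa sb v0 t κ oS sg (fo ν own) lam ρ1 l α h' X H
      lam2 ρ2)
    (ht : t ≠ 0) (hv0 : 0 < v0) (hv1 : v0 < 1) (hθ0 : 0 < θ 0) (hk : θ 0 - θ 1 = k) (hk1 : k = 1)
    (hT : TieT θ B I lev fl sc 7 ∨ TieT θ B I lev fl sc 8)
    (hVis : ∀ k, VisT B I fl sc k → k = 0 ∨ k = 7 ∨ k = 8)
    (hVis' : ∀ k, Vis' k → k = 0 ∨ k = 7 ∨ k = 8) {dl : V9} {φ : Fin 9 → V9 → ℝ} {ρ : V9}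
    (C : Cl9 (cS k) dl s (fun w => lam2 0 (xt kp 0 (RL8.vec (fun i : Fin 8 => w i.castSucc)))) φ
      ρ) : K3C (cS k) s φ ρ := by
  subst hk1
  obtain ⟨j, hj, hTj⟩ : ∃ j : Fin 12, (j = 7 ∨ j = 8) ∧ TieT θ B I lev fl sc j := by
    rcases hT with h | h
    · exact ⟨7, Or.inl rfl, h⟩
    · exact ⟨8, Or.inr rfl, h⟩
  obtain ⟨l0, l2, l3, l4, l5, l6, l7, l8, -⟩ := em8.lt (wG 0 1 100)
  have w6 : wG 0 1 100 6 = 0 := by simp [wG]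
  have w0' : wG 0 1 100 0 = 0 := by simp [wG]
  refine k3_pd8 ctx P ht hv0 hv1 nb_oS hθ0 hk hj hTj (z := 0) (G' := 1) (D' := 100)
    (by norm_num) (by norm_num) (by norm_num) (fun i h0 hV => ?_) (fun i hV => ?_) C cc_S.h1
    cc_S.h4 cc_S.h3 cc_S.hz
  · rcases hVis i hV with h | h | h
    · exact absurd h h0
    · exact Or.inl h
    · exact Or.inr (Or.inl h)
  · right
    rcases hVis' i hV with rfl | rfl | rfl
    · refine ⟨by decide, by decide, ?_⟩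
      rw [l0, w0', zero_mul]
    · refine ⟨by decide, by decide, ?_⟩
      rw [l7, w6, zero_mul]
    · refine ⟨by decide, by decide, ?_⟩
      rw [l8, w6, zero_mul]

/-- **(K3) at `oS9`, `θ 0 < 1`; `E`, `D` visible or not** -/
theorem k3_oS9 (ctx : CtxT G L r g s θ q Rg B I lev A f b vm w fr fl sc w0 sa sb δ R I0 I' ν
      own c₀) {k : ℝ} {ρ1 ρ2 : Fin 9 → ℝ}
    (P : Pd9 R s a b' Vis' (θ 0) (θ 1) w0 sa sb v0 κ oS9 sg (fo ν own) lam ρ1 l α h' X H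
      lam2 ρ2)
    (hv0 : 0 < v0) (hv1 : v0 < 1) (hθ0 : 0 < θ 0) (hk : θ 0 - θ 1 = k) (hk1 : k = 1)
    (hθk : θ 0 < k)
    (hT : TieT θ B I lev fl sc 7 ∨ TieT θ B I lev fl sc 8)
    (hVis : ∀ k, VisT B I fl sc k → k = 0 ∨ k = 1 ∨ k = 2 ∨ k = 7 ∨ k = 8)
    (hVis' : ∀ k, Vis' k → k = 0 ∨ k = 1 ∨ k = 2 ∨ k = 7 ∨ k = 8) {dl : V9}
    {φ : Fin 9 → V9 → ℝ} {ρ : V9} (C : Cl9 (cS9 k) dl s (fun w => lam2 0 (RL9.vec w)) φ ρ) :
    K3C (cS9 k) s φ ρ := by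
  subst hk1
  obtain ⟨j, hj, hTj⟩ : ∃ j : Fin 12, (j = 7 ∨ j = 8) ∧ TieT θ B I lev fl sc j := by
    rcases hT with h | h
    · exact ⟨7, Or.inl rfl, h⟩
    · exact ⟨8, Or.inr rfl, h⟩
  have hb7 : βL (θ 0) (θ 1) 7 = 1 := by rw [βL7, hk]
  have hb8 : βL (θ 0) (θ 1) 8 = 1 := by rw [βL8, hk]
  have hb1 : βL (θ 0) (θ 1) 1 = θ 0 := by rw [βL1]; linarith
  have hb2 : βL (θ 0) (θ 1) 2 = 1 + θ 0 := by rw [βL2]; linarith
  set G1 : ℝ := -(7 + θ 0) / 4 with hG1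
  set D1 : ℝ := -(1 + θ 0) / 2 with hD1
  obtain ⟨l0, l2, l3, l4, l5, l6, l7, l8, -⟩ := em9.lt (wG (-1) G1 D1)
  have l1 : E9 (wG (-1) G1 D1) 1 = D1 := by simp [E9, bx9, wG]
  have w6 : wG (-1) G1 D1 6 = -1 := by simp [wG]
  have w0' : wG (-1) G1 D1 0 = -1 := by simp [wG]
  have w7 : wG (-1) G1 D1 7 = G1 := by simp [wG]
  have o0 : oS9 0 = 0 := rfl
  have o7 : oS9 7 = 0 := rfl
  have o8 : oS9 8 = 0 := rfl
  refine k3_pd9 ctx P hv0 hv1 nb_oS9 hθ0 hk hj hTj (z := -1) (G' := G1) (D' := D1)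
    (by rw [hG1, hD1]; linarith) (by rw [hG1]; linarith) (by rw [hD1]; linarith)
    (fun i h0 hV => ?_) (fun i hV => ?_) C cc_S9.h1 cc_S9.h4 cc_S9.h3 cc_S9.hz
  · rcases hVis i hV with h | rfl | rfl | h | h
    · exact absurd h h0
    · refine Or.inr (Or.inr ⟨?_, ?_⟩)
      · show oS9 8 ≤ oS9 0 * _
        rw [o8, o0, zero_mul]
      · rw [l1, hb1, hD1]; linarith
    · refine Or.inr (Or.inr ⟨?_, ?_⟩)
      · show oS9 7 ≤ oS9 0 * _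
        rw [o7, o0, zero_mul]
      · rw [l2, w7, hb2, hG1]; linarith
    · exact Or.inl h
    · exact Or.inr (Or.inl h)
  · rcases hVis' i hV with rfl | rfl | rfl | rfl | rfl
    · refine Or.inr ⟨by decide, by decide, ?_⟩
      rw [l0, w0', βL0, mul_one]
    · left
      rw [l1, hb1, hD1]; linarith
    · left
      rw [l2, w7, hb2, hG1]; linarith
    · refine Or.inr ⟨by decide, by decide, ?_⟩
      rw [l7, w6, hb7, mul_one]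
    · refine Or.inr ⟨by decide, by decide, ?_⟩
      rw [l8, w6, hb8, mul_one]

end Crest.Agent.R116.K3e160
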