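import Crest.Agent.R116.KW3_420
import Crest.Agent.R116.Kst4_593
import Crest.Agent.R116.Kst3_593
import Crest.Agent.R116.EvL6_504

/-!
# R116, (W2) / (W3): own strips on a fat line give the linear modulus of the own motion (helper899)

`ownThin_of` : 593's strips of the slot `t` on single real lines (`WStrip`, `RLines`) give
420's `OwnThin W.B' (W.cfg E') (ownL W) t γ x1` for the level slots `t = 1, 7, 8` and `t = 2`
(the last one if the slot `1` is a resolved line slot).  `ownThin_drop` : the same with the slot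
`D` forgotten.
-/

set_option autoImplicit false
set_option linter.unusedVariables false
set_option linter.unusedSectionVars false

open Filter Topology Finset

namespace Crest.Agent.R116.Kj899

open Crest.Agent.R138.Ex926 (Base U)
open Crest.Agent.R136.Net191 Crest.Agent.R136.Qg926 Crest.Agent.R136.Gf356
open Crest.Agent.R116.ChL222 Crest.Agent.R116.PL504 Crest.Agent.R116.EvL504
open Crest.Agent.R116.Kst593 Crest.Agent.R116.KW420

variable {ι : ℕ → Type*} [∀ n, DecidableEq (ι n)] {W : Wnd 12 ι} {K tp : ℝ}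

/-- level slots whose own motion is additive along a fat line -/
structure AddS (W : Wnd 12 ι) (tp : ℝ) (t : Fin 12) : Prop where
  mem : t ∈ W.S
  slot : t = 1 ∨ t = 7 ∨ t = 8 ∨ (t = 2 ∧ (1 : Fin 12) ∉ W.S ∧ tp ≤ W.top 1)

/-- **additivity along a fat line** -/
theorem add_fat (h : WL W K tp) {n : ℕ} (g : W.Good n) {t : Fin 12} (ht : AddS W tp t)
    {x y z : ι n} (hx : x ∈ W.Cl n) (hy : y ∈ W.Cl n) (hz : z ∈ W.Cl n)
    (l1 : W.lc n x = W.lc n y) (l2 : W.lc n y = W.lc n z) :
    |W.crd n x z t - (W.crd n x y t + W.crd n y z t)| ≤ 3 * W.B'.d n ^ tp := by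
  have hS := h.sides g
  have r0 := h.r0 n
  have sp := h.side_pos' n t
  have key : |W.co n x z t - (W.co n x y t + W.co n y z t)| ≤
      3 * (W.B'.d n ^ tp * side W n t) := by
    have a := (h.coc n).add x y z
    have b1 := fun k => h.bd0 g hx hy k
    have b2 := fun k => h.bd0 g hy hz k
    have s3 := h.bdl g hy hz l2 (h.notS (s := 3) (by decide)) (h.topL 3 (by decide))
    have s4 := h.bdl g hy hz l2 (h.notS (s := 4) (by decide)) (h.topL 4 (by decide))
    have s5 := h.bdl g hy hz l2 (h.notS (s := 5) (by decide)) (h.topL 5 (by decide))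
    have s6 := h.bdl g hy hz l2 (h.notS (s := 6) (by decide)) (h.topL 6 (by decide))
    have nn := mul_nonneg r0 sp.le
    rcases ht.slot with rfl | rfl | rfl | ⟨rfl, c1, c2⟩
    · have e : W.co n x z 1 = W.co n x y 1 + W.co n y z 1 := by rw [a]; simp [comp]
      rw [e, sub_self, abs_zero]
      linarith
    · have e : W.co n x z 7 - (W.co n x y 7 + W.co n y z 7) =
          W.co n x y 2 * W.co n y z 3 + 2 * (W.co n x y 1 * W.co n y z 5) := by
        rw [a]; simp [comp]; ring
      rw [e]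
      have t1 := bd2D (b1 2) s3
      have t2 := bd2D (b1 1) s5
      have w1 : side W n 2 * (W.B'.d n ^ tp * side W n 3) ≤ W.B'.d n ^ tp * side W n 7 := by
        have := mul_le_mul_of_nonneg_left hS.w7 r0
        linarith [mul_comm (side W n 2) (W.B'.d n ^ tp * side W n 3),
          mul_left_comm (side W n 2) (W.B'.d n ^ tp) (side W n 3)]
      have w2 : side W n 1 * (W.B'.d n ^ tp * side W n 5) ≤ W.B'.d n ^ tp * side W n 7 := by
        have := mul_le_mul_of_nonneg_left hS.w7' r0
        linarith [mul_left_comm (side W n 1) (W.B'.d n ^ tp) (side W n 5)]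
      refine (abs_add_le _ _).trans ?_
      rw [abs_mul 2, abs_two]
      linarith
    · have e : W.co n x z 8 - (W.co n x y 8 + W.co n y z 8) =
          W.co n x y 2 * W.co n y z 4 + 2 * (W.co n x y 1 * W.co n y z 6) := by
        rw [a]; simp [comp]; ring
      rw [e]
      have t1 := bd2D (b1 2) s4
      have t2 := bd2D (b1 1) s6
      have w1 : side W n 2 * (W.B'.d n ^ tp * side W n 4) ≤ W.B'.d n ^ tp * side W n 8 := by
        have := mul_le_mul_of_nonneg_left hS.w8 r0
        linarith [mul_left_comm (side W n 2) (W.B'.d n ^ tp) (side W n 4)]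
      have w2 : side W n 1 * (W.B'.d n ^ tp * side W n 6) ≤ W.B'.d n ^ tp * side W n 8 := by
        have := mul_le_mul_of_nonneg_left hS.w8' r0
        linarith [mul_left_comm (side W n 1) (W.B'.d n ^ tp) (side W n 6)]
      refine (abs_add_le _ _).trans ?_
      rw [abs_mul 2, abs_two]
      linarith
    · have e : W.co n x z 2 - (W.co n x y 2 + W.co n y z 2) =
          -(2 * (W.co n x y 1 * W.co n y z 0)) := by
        rw [a]; simp [comp]
      rw [e, abs_neg]
      have s1 := h.bdl g hx hy l1 c1 c2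
      have t1 := bd2D s1 (b2 0)
      have w1 : W.B'.d n ^ tp * side W n 1 * side W n 0 ≤ W.B'.d n ^ tp * side W n 2 := by
        have := mul_le_mul_of_nonneg_left hS.w2 r0
        linarith [mul_comm (side W n 0) (side W n 1),
          mul_assoc (W.B'.d n ^ tp) (side W n 1) (side W n 0)]
      rw [abs_mul 2, abs_two]
      linarith
  have e2 : W.crd n x z t - (W.crd n x y t + W.crd n y z t) =
      (W.co n x z t - (W.co n x y t + W.co n y z t)) / side W n t := by
    show W.co n x z t / side W n t - (W.co n x y t / side W n t + W.co n y z t / side W n t) = _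
    rw [← add_div, ← sub_div]
  rw [e2, abs_div, abs_of_pos sp, div_le_iff₀ sp]
  linarith

/-- same fat line and same height: the level slot is small -/
theorem crd_pt (h : WL W K tp) {n : ℕ} (g : W.Good n) {t : Fin 12} (ht : t ∈ W.S) {x y : ι n}
    (hx : x ∈ W.Cl n) (hy : y ∈ W.Cl n) (z1 : W.zc n x = W.zc n y) :
    |W.crd n x y t| ≤ W.B'.d n ^ tp := h.crd_z g hx hy z1 ht

variable {rl : ∀ n, ι n → ℕ} {N : ℕ → ℝ} {κ : Type*} [DecidableEq κ] {cw : ∀ n, ι n → κ}
  {t : Fin 12} {Sl : Set ℝ} {x γ : ℝ} {E' : ∀ n, Finset (ι n)} {g : ℕ → ℝ}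
  {ex : ℕ → ∀ n, ι n → ℕ}

/-- **own strips of the real lines ⟹ linear modulus of the own motion of the fat lines** -/
theorem ownThin_of (h : WL W K tp) (R : RLines W rl N) (H : WStrip W rl cw t Sl N x γ)
    (h0 : (0 : ℝ) ∈ Sl) (hP : Wnd.Pruned W W.Cl E' g (exO W rl ex)) (ht : AddS W tp t)
    {x1 : ℝ} (hx1 : x1 ≤ x) (hx2 : x1 ≤ tp) :
    OwnThin W.B' (W.cfg E') (ownL W) t γ x1 := by
  intro τ hτ hτx ε hε
  filter_upwards [strip_fat h.ok R H h0 hP hτ (hτx.trans hx1) 11 hε,
    Wnd.ev_cfg h.ok h.ok.eok_class hP] with n h1 h2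
  obtain ⟨hg, hE1, hE2, hcfg⟩ := h2
  have r : Reg W E' n := ⟨hg, hP.sub n, hE2⟩
  intro i k0 hik T hT hTT
  have hp := fun s => Real.rpow_pos_of_pos (W.B'.pos n) s
  obtain ⟨e1, e2, e3⟩ := r.spec hik
  set e := W.rep n i k0 with he
  have hup : W.B'.d n ^ tp ≤ W.B'.d n ^ τ :=
    Real.rpow_le_rpow_of_exponent_ge (W.B'.pos n) (W.B'.lt n).le (hτx.trans hx2)
  have key := h1 i (fun k => -(W.crd n (W.rep n i k) e t)) (fun p hp1 q hq1 hpl hql hrl => by
      have hCl : ∀ {y}, y ∈ E' n → y ∈ W.Cl n := fun hy => hP.sub n hy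
      have hIp : (i, W.zc n p) ∈ (W.cfg E' n).I := by
        rw [r.cfg_eq]; exact Wnd.mem_I.2 ⟨p, hp1, hpl, rfl⟩
      have hIq : (i, W.zc n q) ∈ (W.cfg E' n).I := by
        rw [r.cfg_eq]; exact Wnd.mem_I.2 ⟨q, hq1, hql, rfl⟩
      obtain ⟨a1, a2, a3⟩ := r.spec hIp
      obtain ⟨b1, b2, b3⟩ := r.spec hIq
      set a := W.rep n i (W.zc n p) with ha
      set b := W.rep n i (W.zc n q) with hb
      have p1 := hCl hp1
      have q1 := hCl hq1
      have f1 := add_fat h hg ht a1 p1 e1 (a2.trans hpl.symm) (hpl.trans e2.symm)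
      have f2 := add_fat h hg ht p1 q1 e1 (hpl.trans hql.symm) (hql.trans e2.symm)
      have f3 := add_fat h hg ht b1 q1 e1 (b2.trans hql.symm) (hql.trans e2.symm)
      have f4 := crd_pt h hg ht.mem a1 p1 a3
      have f5 := crd_pt h hg ht.mem b1 q1 b3
      have e5 : -(W.crd n b e t) - -(W.crd n a e t) - W.crd n p q t =
          (W.crd n a e t - (W.crd n a p t + W.crd n p e t)) +
          (W.crd n p e t - (W.crd n p q t + W.crd n q e t)) -
          (W.crd n b e t - (W.crd n b q t + W.crd n q e t)) + W.crd n a p t - W.crd n b q t := by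
        ring
      rw [e5]
      rw [abs_le] at f1 f2 f3 f4 f5 ⊢
      constructor <;> linarith [f1.1, f1.2, f2.1, f2.2, f3.1, f3.2, f4.1, f4.2, f5.1, f5.2])
    0 T (fun k hk => by
      have hk1 := (hTT k hk).1
      rw [r.cfg_eq] at hk1 ⊢
      obtain ⟨y, hy, hyl, hyz⟩ := Wnd.mem_I.1 hk1
      exact Wnd.cfg0_hts.2 ⟨y, hy, hyl, hyz⟩)
    (fun k hk => by
      have hk2 := (hTT k hk).2
      rw [sub_zero, abs_neg]
      have : |W.crd n (W.rep n i k) e t| ≤ W.B'.d n ^ τ := hk2
      linarith [hp τ])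
  refine key.trans (mul_le_mul_of_nonneg_left ?_ (hp _).le)
  exact_mod_cast card_le_card (filter_subset _ _)

/-- the same with the slot `D` forgotten -/
theorem ownThin_drop {γ x1 : ℝ} (ht : t ≠ 1) (hO : OwnThin W.B' (W.cfg E') (ownL W) t γ x1) :
    OwnThin W.B' (fun n => EvL504.drop 1 (W.cfg E' n)) (ownL0 W) t γ x1 := by
  intro τ hτ hτx ε hε
  filter_upwards [hO τ hτ hτx ε hε] with n hn
  intro i k0 hik T hT hTT
  refine hn i k0 hik T hT fun k hk => ?_
  obtain ⟨a, b⟩ := hTT k hk
  refine ⟨a, ?_⟩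
  have e : ownL0 W n i k0 k t = ownL W n i k0 k t := if_neg ht
  rwa [e] at b

end Crest.Agent.R116.Kj899
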