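import Crest.Agent.R116.Pe1_794
import Crest.Agent.R116.TwF5_369

/-!
# R116, ties: own-strip facts of the natural planes at an `e`-tie (helper794)

* `pbase8`, `pbase9` : 369's `PBase` of 363's `Pd8`, `Pd9` at a natural offset on the tie plane
* `fctE8`, `fctE9`   : `FctE (θ 0 - θ 1)`, `B` tied, `D`, `E` invisible
-/

set_option autoImplicit false
set_option linter.unusedVariables false
set_option linter.unusedSectionVars false

open Set Filter Topology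

namespace Crest.Agent.R116.Tq794

open Crest.Agent.R138
open Crest.Agent.R138.Ex926 (Base U IsTan)
open Crest.Agent.R136
open Crest.Agent.R136.MkA627
open Crest.Agent.R136.TD627
open Crest.Agent.R136.Net191
open Crest.Agent.R136.Lq196
open Crest.Agent.R116.EvL504
open Crest.Agent.R116.ChL222
open Crest.Agent.R116.PL504 (nb rL DN eL βL oL Shift eL_wall)
open Crest.Agent.R116.Sg337 (bx9)
open Crest.Agent.R116.Gd222 (TSet sN PDL DT)
open Crest.Agent.R116.KI439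
open Crest.Agent.R116.KF439 (PL)
open Crest.Agent.R116.CtxB468
open Crest.Agent.R116.Rcx363 (fo fo_lip Prf)
open Crest.Agent.R116.RbM219
open Crest.Agent.R116.RbK219
open Crest.Agent.R116.SgF665 (wl wl_add wl_smul LM0)
open Crest.Agent.R116.WinG954 (LM)
open Crest.Agent.R116.Tq741
open Crest.Agent.R116.Pd363
open Crest.Agent.R116.Tw369
open Sl741 (slice xt rs)

section ctx

variable {G : Geo TSet (Fin 2)} {L : ℕ → ℕ → LRay} {r : ℕ → ℝ} {g s : ℝ} {θ q : Fin 2 → ℝ}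
    {Rg : ℝ} {B : Base} {I : ℕ → Finset (ℕ × ℝ)} {lev : ℕ → ℚ → ℕ} {A : ℕ → ℝ}
    {f : ℕ → ℚ → ℕ → ℤ → ℕ} {b : ℕ → ℚ → ℕ → TSet} {vm : ℕ → ℚ → ℝ} {wt : Fin 2 → ℕ → ℚ → ℝ}
    {fr : ℕ → ℚ → ℕ × ℝ → LInc} {fl : ℕ → ℕ × ℝ → LInc} {sc : Fin 12 → ℕ → ℝ}
    {w0 sa sb δ R : ℝ} {I0 I' : ℕ → Finset (ℕ × ℝ)} {ν own : (Fin 12 → ℝ) → ℝ} {c₀ : ℝ}
    {a b' : Fin 2} {Vis' : Fin 12 → Prop} {v0 t κ sg l α v c p : ℝ}
    {lam lam2 : Fin 2 → (Fin 12 → ℝ) → ℝ} {h' H : ℕ → ℝ} {X : ℕ → Fin 12 → ℝ}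

/-- **`PBase` of a natural plane, `D` frozen** -/
theorem pbase8 {ρ ρ2 : Fin 8 → ℝ}
    (P : Pd8 R s a b' Vis' (θ 0) (θ 1) w0 sa sb v0 t κ (nat8 v c p) sg (fo ν own) lam ρ l α h' X H
      lam2 ρ2)
    (ht : t ≠ 0) (hv0 : 0 < v0) (hv1 : v0 < 1) {S : Finset (Fin 12)}
    (hS : ∀ k ∈ S, k ≠ 1 ∧ nat8 v c p (cl8 k) = v * βL (θ 0) (θ 1) k) :
    ∃ vv : ℕ → ℝ, PBase (θ 0) (θ 1) w0 sa sb v0 R S E8 LM0 ν X H vv (lam2 0) := by
  obtain ⟨zz, cc, pp, dd, hXn⟩ := pd8_natural P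
  have ht' : IsTan (Leg monL R) LM0 ν X H (lam2 0) :=
    Rc683.tan_mono (P.tan 0) Subset.rfl (LM0_L8B ht)
  obtain ⟨V, E, hV, hE, hE0, hb⟩ := P.base
  have key : ∀ m, ∀ k, k ≠ 1 → nat8 v c p (cl8 k) = v * βL (θ 0) (θ 1) k →
      X m k = rL (θ 0) (θ 1) w0 sa sb (v0 + V m + E m * v) k := by
    intro m k hk h1
    rw [hb m k hk, PL504.rL_lin _ _ _ _ _ (v0 + V m), PL504.rL_lin _ _ _ _ _ (v0 + V m + E m * v),
      h1]
    ring
  refine ⟨fun m => v0 + V m + E m * v, P.pos, P.lim, ht', fun p hp q hq hpq => ?_,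
    nbase8 hXn (slack_of_tan P.pos ht' hXn), ⟨hv0, hv1, ?_, fun m => ?_, fun m k hk => ?_⟩,
    fun j hj => ?_⟩
  · have := ((P.prf.mono (LM0_L8B ht)).anti p hp q hq hpq).1
    linarith
  · have h1 := (hV.const_add v0).add (hE.mul_const v)
    simpa using h1
  · have h1 := key m 0 (by decide) (by
      show v = v * 1
      ring)
    rw [h1]
    simp [rL, eL]
  · exact key m k (hS k hk).1 (hS k hk).2
  · exact (tendsto_pi_nhds.1 P.xlim) j

/-- **`PBase` of a natural plane, `D` live** -/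
theorem pbase9 {ρ ρ2 : Fin 9 → ℝ}
    (P : Pd9 R s a b' Vis' (θ 0) (θ 1) w0 sa sb v0 κ (nat9 v c p) sg (fo ν own) lam ρ l α h' X H
      lam2 ρ2)
    (hv0 : 0 < v0) (hv1 : v0 < 1) {S : Finset (Fin 12)}
    (hS : ∀ k ∈ S, nat9 v c p (cl9 k) = v * βL (θ 0) (θ 1) k) :
    ∃ vv : ℕ → ℝ, PBase (θ 0) (θ 1) w0 sa sb v0 R S E9 LM ν X H vv (lam2 0) := by
  obtain ⟨zz, cc, pp, hXn⟩ := pd9_natural P
  have ht' : IsTan (Leg monL R) LM ν X H (lam2 0) :=
    Rc683.tan_mono (P.tan 0) Subset.rfl LM_L9B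
  obtain ⟨V, E, hV, hE, hE0, hb⟩ := P.base
  have key : ∀ m, ∀ k, nat9 v c p (cl9 k) = v * βL (θ 0) (θ 1) k →
      X m k = rL (θ 0) (θ 1) w0 sa sb (v0 + V m + E m * v) k := by
    intro m k h1
    rw [hb m k, PL504.rL_lin _ _ _ _ _ (v0 + V m), PL504.rL_lin _ _ _ _ _ (v0 + V m + E m * v),
      h1]
    ring
  refine ⟨fun m => v0 + V m + E m * v, P.pos, P.lim, ht', fun p hp q hq hpq => ?_,
    nbase9 hXn, ⟨hv0, hv1, ?_, fun m => ?_, fun m k hk => ?_⟩,
    fun j hj => ?_⟩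
  · have := ((P.prf.mono LM_L9B).anti p hp q hq hpq).1
    linarith
  · have h1 := (hV.const_add v0).add (hE.mul_const v)
    simpa using h1
  · have h1 := key m 0 (by
      show v = v * 1
      ring)
    rw [h1]
    simp [rL, eL]
  · exact key m k (hS k hk)
  · exact (tendsto_pi_nhds.1 P.xlim) j

/-- **(W3), (W2) on the natural `e`-plane, `D` frozen** -/
theorem fctE8 {ρ ρ2 : Fin 8 → ℝ}
    (P : Pd8 R s a b' Vis' (θ 0) (θ 1) w0 sa sb v0 t κ (nat8 v c p) sg (fo ν own) lam ρ l α h' X H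
      lam2 ρ2)
    (C : CtxT G L r g s θ q Rg B I lev A f b vm wt fr fl sc w0 sa sb δ R I0 I' ν own c₀)
    (hθ : 0 < θ 0) (ht : t ≠ 0) (hv0 : 0 < v0) (hv1 : v0 < 1)
    (hB : TieT θ B I lev fl sc 7 ∨ TieT θ B I lev fl sc 8)
    (hvis : ∀ i, VisT B I fl sc i → i = 0 ∨ i = 7 ∨ i = 8)
    (hp : p = c + (θ 0 - θ 1) * v) :
    FctE (θ 0 - θ 1) (fun w => lam2 0 (xt kp 0 (RL8.vec (fun i : Fin 8 => w i.castSucc)))) := by
  obtain ⟨vv, pb⟩ := pbase8 P ht hv0 hv1 (S := {0, 7, 8}) (by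
    intro k hk
    simp only [Finset.mem_insert, Finset.mem_singleton] at hk
    rcases hk with rfl | rfl | rfl
    · exact ⟨by decide, by show v = v * 1; ring⟩
    · refine ⟨by decide, ?_⟩
      rw [βL7]
      show p - c = _
      rw [hp]; ring
    · refine ⟨by decide, ?_⟩
      rw [βL8]
      show p - c = _
      rw [hp]; ring)
  have key : FctE (θ 0 - θ 1) (fun w => lam2 0 (E8 w)) := by
    rcases hB with hB | hB
    · exact ⟨fun w R' h1 h2 h3 => u3 C hθ (Or.inl rfl) hB em8 rz8E pb (fun k hk hV =>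
          (hvis k hV).elim (fun h => absurd h hk) fun h => h.elim Or.inl fun h => Or.inr (Or.inl h)) h1 h2
        (linS_mono (by decide) h3), fun w R' h1 h2 h3 => u2 C hθ (Or.inl rfl) hB em8 rz8E pb
          (fun k hk hV =>
          (hvis k hV).elim (fun h => absurd h hk) fun h => h.elim Or.inl fun h => Or.inr (Or.inl h)) h1 h2 (linS_mono (by decide) h3)⟩
    · exact ⟨fun w R' h1 h2 h3 => u3 C hθ (Or.inr rfl) hB em8 rz8E pb (fun k hk hV =>
          (hvis k hV).elim (fun h => absurd h hk) fun h => h.elim Or.inl fun h => Or.inr (Or.inl h)) h1 h2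
        (linS_mono (by decide) h3), fun w R' h1 h2 h3 => u2 C hθ (Or.inr rfl) hB em8 rz8E pb
          (fun k hk hV =>
          (hvis k hV).elim (fun h => absurd h hk) fun h => h.elim Or.inl fun h => Or.inr (Or.inl h)) h1 h2 (linS_mono (by decide) h3)⟩
  simpa only [E8_eq] using key

/-- **(W3), (W2) on the natural `e`-plane, `D` live** -/
theorem fctE9 {ρ ρ2 : Fin 9 → ℝ}
    (P : Pd9 R s a b' Vis' (θ 0) (θ 1) w0 sa sb v0 κ (nat9 v c p) sg (fo ν own) lam ρ l α h' X H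
      lam2 ρ2)
    (C : CtxT G L r g s θ q Rg B I lev A f b vm wt fr fl sc w0 sa sb δ R I0 I' ν own c₀)
    (hθ : 0 < θ 0) (hv0 : 0 < v0) (hv1 : v0 < 1)
    (hB : TieT θ B I lev fl sc 7 ∨ TieT θ B I lev fl sc 8)
    (hvis : ∀ i, VisT B I fl sc i → i = 0 ∨ i = 7 ∨ i = 8)
    (hp : p = c + (θ 0 - θ 1) * v) :
    FctE (θ 0 - θ 1) (fun w => lam2 0 (RL9.vec w)) := by
  obtain ⟨vv, pb⟩ := pbase9 P hv0 hv1 (S := {0, 7, 8}) (by
    intro k hk
    simp only [Finset.mem_insert, Finset.mem_singleton] at hk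
    rcases hk with rfl | rfl | rfl
    · show v = v * 1; ring
    · rw [βL7]
      show p - c = _
      rw [hp]; ring
    · rw [βL8]
      show p - c = _
      rw [hp]; ring)
  have key : FctE (θ 0 - θ 1) (fun w => lam2 0 (E9 w)) := by
    rcases hB with hB | hB
    · exact ⟨fun w R' h1 h2 h3 => u3 C hθ (Or.inl rfl) hB em9 rz9E pb (fun k hk hV =>
          (hvis k hV).elim (fun h => absurd h hk) fun h => h.elim Or.inl fun h => Or.inr (Or.inl h)) h1 h2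
        (linS_mono (by decide) h3), fun w R' h1 h2 h3 => u2 C hθ (Or.inl rfl) hB em9 rz9E pb
          (fun k hk hV =>
          (hvis k hV).elim (fun h => absurd h hk) fun h => h.elim Or.inl fun h => Or.inr (Or.inl h)) h1 h2 (linS_mono (by decide) h3)⟩
    · exact ⟨fun w R' h1 h2 h3 => u3 C hθ (Or.inr rfl) hB em9 rz9E pb (fun k hk hV =>
          (hvis k hV).elim (fun h => absurd h hk) fun h => h.elim Or.inl fun h => Or.inr (Or.inl h)) h1 h2
        (linS_mono (by decide) h3), fun w R' h1 h2 h3 => u2 C hθ (Or.inr rfl) hB em9 rz9E pb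
          (fun k hk hV =>
          (hvis k hV).elim (fun h => absurd h hk) fun h => h.elim Or.inl fun h => Or.inr (Or.inl h)) h1 h2 (linS_mono (by decide) h3)⟩
  simpa only [E9_eq] using key

end ctx

end Crest.Agent.R116.Tq794
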