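import Crest.Agent.R116.Pe3_794
import Crest.Agent.R116.TwF7_369

/-!
# R116, ties: own-strip facts of a plane with `E` raised, `D` frozen (helper794)

* `bo_tight`, `pbaseG8` : 369's `PBaseG` of 363's `Pd8` at any offset with the five equalities
* `fctU8`               : 139's `FctU (θ 0 - θ 1) Sg`, `B` tied, `D`, `E` invisible
-/

set_option autoImplicit false
set_option linter.unusedVariables false
set_option linter.unusedSectionVars false

open Set Filter Topology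

namespace Crest.Agent.R116.Tq794

open Crest.Agent.R138
open Crest.Agent.R138.Ex926 (Base U IsTan)
open Crest.Agent.R136
open Crest.Agent.R136.MkA627
open Crest.Agent.R136.TD627
open Crest.Agent.R136.Net191
open Crest.Agent.R136.Lq196
open Crest.Agent.R116.EvL504
open Crest.Agent.R116.ChL222
open Crest.Agent.R116.PL504 (nb rL DN eL βL oL Shift eL_wall)
open Crest.Agent.R116.Sg337 (bx9)
open Crest.Agent.R116.Gd222 (TSet sN PDL DT)
open Crest.Agent.R116.KI439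
open Crest.Agent.R116.KF439 (PL)
open Crest.Agent.R116.CtxB468
open Crest.Agent.R116.Kst593
open Crest.Agent.R116.Rcx363 (fo fo_lip Prf)
open Crest.Agent.R116.RbM219
open Crest.Agent.R116.RbK219
open Crest.Agent.R116.SgF665 (wl wl_add wl_smul LM0)
open Crest.Agent.R116.WinG954 (LM)
open Crest.Agent.R116.Tq741
open Crest.Agent.R116.Pd363
open Crest.Agent.R116.Tw369
open Crest.Agent.R116.Tp139 (PlU FctU)
open Sl741 (slice xt rs)

/-- the walls without `D`, `E` are tight on the offset -/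
theorem bo_tight {B : Fin 8 → ℝ} {β : Fin 12 → ℝ} (hβ : ∀ k, k ≠ 1 → β k = B (cl8 k))
    (b1 : B 3 = B 0 + B 1) (b2 : B 5 = B 1 + B 3) (b3 : B 4 = B 0 + B 2) (b4 : B 4 = B 3 + B 6)
    (b5 : B 2 = B 1 + B 6) :
    ∀ k, ∀ e ∈ monL.mon k, e 1 = 0 → e 2 = 0 → wl e β = β k := by
  have q0 := hβ 0 (by decide)
  have q3 := hβ 3 (by decide)
  have q4 := hβ 4 (by decide)
  have q5 := hβ 5 (by decide)
  have q6 := hβ 6 (by decide)
  have q7 := hβ 7 (by decide)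
  have q8 := hβ 8 (by decide)
  have q9 := hβ 9 (by decide)
  have q10 := hβ 10 (by decide)
  have q11 := hβ 11 (by decide)
  change β 0 = B 0 at q0
  change β 3 = B 1 at q3
  change β 4 = B 1 at q4
  change β 5 = B 3 at q5
  change β 6 = B 3 at q6
  change β 7 = B 6 at q7
  change β 8 = B 6 at q8
  change β 9 = B 5 at q9
  change β 10 = B 2 at q10
  change β 11 = B 4 at q11
  intro k e he h1 h2
  rw [wl12]
  fin_cases k <;> simp only [monL, mfL, Fin.zero_eta, Fin.mk_one, Fin.reduceFinMk,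
    Matrix.cons_val, Finset.notMem_empty, Finset.mem_singleton, Finset.mem_insert] at he ⊢
  · subst he; simp at h1
  · subst he; simp [q0, q3, q5]; linarith
  · subst he; simp [q0, q4, q6]; linarith
  · rcases he with rfl | rfl <;> simp at h1 h2
  · rcases he with rfl | rfl <;> simp at h1 h2
  · rcases he with rfl | rfl | rfl | rfl <;> simp [q0, q3, q4, q5, q6, q9] <;> linarith
  · rcases he with rfl | rfl | rfl | rfl | rfl | rfl | rfl <;> first
      | (exfalso; simp at h1; done)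
      | (exfalso; simp at h2; done)
      | (simp [q3, q4, q7, q8, q10] <;> linarith)
  · rcases he with rfl | rfl | rfl | rfl | rfl | rfl | rfl | rfl | rfl | rfl | rfl | rfl | rfl <;>
      first
      | (exfalso; simp at h1; done)
      | (exfalso; simp at h2; done)
      | (simp [q0, q3, q4, q5, q6, q7, q8, q10, q11] <;> linarith)

section ctx

variable {G : Geo TSet (Fin 2)} {L : ℕ → ℕ → LRay} {r : ℕ → ℝ} {g s : ℝ} {θ q : Fin 2 → ℝ}
    {Rg : ℝ} {B : Base} {I : ℕ → Finset (ℕ × ℝ)} {lev : ℕ → ℚ → ℕ} {A : ℕ → ℝ}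
    {f : ℕ → ℚ → ℕ → ℤ → ℕ} {b : ℕ → ℚ → ℕ → TSet} {vm : ℕ → ℚ → ℝ} {wt : Fin 2 → ℕ → ℚ → ℝ}
    {fr : ℕ → ℚ → ℕ × ℝ → LInc} {fl : ℕ → ℕ × ℝ → LInc} {sc : Fin 12 → ℕ → ℝ}
    {w0 sa sb δ R : ℝ} {I0 I' : ℕ → Finset (ℕ × ℝ)} {ν own : (Fin 12 → ℝ) → ℝ} {c₀ : ℝ}
    {a b' : Fin 2} {Vis' : Fin 12 → Prop} {v0 t κ sg l α v c p : ℝ}
    {lam lam2 : Fin 2 → (Fin 12 → ℝ) → ℝ} {h' H : ℕ → ℝ} {X : ℕ → Fin 12 → ℝ}

/-- **`PBaseG` of a plane, `D` frozen, `E` may be raised** -/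
theorem pbaseG8 {Bo ρ ρ2 : Fin 8 → ℝ}
    (P : Pd8 R s a b' Vis' (θ 0) (θ 1) w0 sa sb v0 t κ Bo sg (fo ν own) lam ρ l α h' X H
      lam2 ρ2)
    (ht : t ≠ 0) (hL : Leg8 Bo) (hv0 : 0 < v0) (hv1 : v0 < 1) (b1 : Bo 3 = Bo 0 + Bo 1)
    (b2 : Bo 5 = Bo 1 + Bo 3) (b3 : Bo 4 = Bo 0 + Bo 2) (b4 : Bo 4 = Bo 3 + Bo 6)
    (b5 : Bo 2 = Bo 1 + Bo 6) {S : Finset (Fin 12)}
    (hS : ∀ k ∈ S, k ≠ 1 ∧ Bo (cl8 k) = Bo 0 * βL (θ 0) (θ 1) k) :
    ∃ vv : ℕ → ℝ, PBaseG (θ 0) (θ 1) w0 sa sb v0 R S E8 LM0 ν X H vv (lam2 0) := by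
  have ht' : IsTan (Leg monL R) LM0 ν X H (lam2 0) :=
    Rc683.tan_mono (P.tan 0) Subset.rfl (LM0_L8B ht)
  have hD := slD_of_tan (leg_wall (R := R)) P.pos ht'
  have hpair := P.pairs
  obtain ⟨V, E, hV, hE, hE0, hb⟩ := P.base
  set β : Fin 12 → ℝ := xt kp 0 (RL8.vec Bo) with hβ
  have hβk : ∀ k, k ≠ 1 → β k = Bo (cl8 k) := fun k hk => by
    rw [hβ, Sl741.xt_in (p := kp) _ _ hk]; simp [RS.vec, RL8]
  have hgap : ∀ m k (e : Fin 12 → ℕ), e ∈ monL.mon k → e 1 = 0 →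
      wl e (X m) - X m k = E m * (wl e β - β k) := by
    intro m k e he h1
    have e1 : wl e (X m) = wl e (rL (θ 0) (θ 1) w0 sa sb (v0 + V m) + E m • β) :=
      wl_congr h1 fun i hi => by
        rw [hb m i hi, Pi.add_apply, Pi.smul_apply, smul_eq_mul, hβk i hi]
    rw [e1, wl_add, wl_smul, rL_wl _ _ he, hb m k (mon_one he), hβk k (mon_one he)]
    ring
  have key : ∀ m, ∀ k, k ≠ 1 → Bo (cl8 k) = Bo 0 * βL (θ 0) (θ 1) k →
      X m k = rL (θ 0) (θ 1) w0 sa sb (v0 + V m + E m * Bo 0) k := by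
    intro m k hk h1
    rw [hb m k hk, PL504.rL_lin _ _ _ _ _ (v0 + V m),
      PL504.rL_lin _ _ _ _ _ (v0 + V m + E m * Bo 0), h1]
    ring
  refine ⟨fun m => v0 + V m + E m * Bo 0, P.pos, P.lim, ht', fun p hp q hq hpq => ?_,
    ⟨fun m k e he h1 h2 => ?_, fun m k e he h1 h2 => ?_, Or.inl hD, fun m => (hpair m).1.symm,
      fun m => (hpair m).2.1.symm, fun m => (hpair m).2.2.symm⟩,
    ⟨hv0, hv1, ?_, fun m => ?_, fun m k hk => ?_⟩, fun j hj => ?_⟩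
  · have := ((P.prf.mono (LM0_L8B ht)).anti p hp q hq hpq).1
    linarith
  · have h3 := hgap m k e he h1
    rw [bo_tight hβk b1 b2 b3 b4 b5 k e he h1 h2, sub_self, mul_zero] at h3
    linarith
  · have h3 := hgap m k e he h1
    have h4 := leg8_LM0 hL k e he h1
    have h5 := mul_nonneg (hE0 m).le (sub_nonneg.2 h4)
    rw [← hβ] at h5
    linarith
  · have h1 := (hV.const_add v0).add (hE.mul_const (Bo 0))
    simpa using h1
  · have h1 := key m 0 (by decide) (by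
      show Bo 0 = Bo 0 * 1
      ring)
    rw [h1]
    simp [rL, eL]
  · exact key m k (hS k hk).1 (hS k hk).2
  · exact (tendsto_pi_nhds.1 P.xlim) j

/-- **(W3), (W2) on a plane of the `e`-type, `D` frozen, `E` may be raised** -/
theorem fctU8 {Bo ρ ρ2 : Fin 8 → ℝ} {Sg : V9 → Prop}
    (P : Pd8 R s a b' Vis' (θ 0) (θ 1) w0 sa sb v0 t κ Bo sg (fo ν own) lam ρ l α h' X H
      lam2 ρ2)
    (C : CtxT G L r g s θ q Rg B I lev A f b vm wt fr fl sc w0 sa sb δ R I0 I' ν own c₀)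
    (hθ : 0 < θ 0) (ht : t ≠ 0) (hL : Leg8 Bo) (hv0 : 0 < v0) (hv1 : v0 < 1)
    (b1 : Bo 3 = Bo 0 + Bo 1) (b2 : Bo 5 = Bo 1 + Bo 3) (b3 : Bo 4 = Bo 0 + Bo 2)
    (b4 : Bo 4 = Bo 3 + Bo 6) (b5 : Bo 2 = Bo 1 + Bo 6) (b6 : Bo 6 = Bo 0 * (θ 0 - θ 1))
    (hB : TieT θ B I lev fl sc 7 ∨ TieT θ B I lev fl sc 8)
    (hvis : ∀ i, VisT B I fl sc i → i = 0 ∨ i = 7 ∨ i = 8) :
    FctU (θ 0 - θ 1) Sg
      (fun w => lam2 0 (xt kp 0 (RL8.vec (fun i : Fin 8 => w i.castSucc)))) := by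
  obtain ⟨vv, pb⟩ := pbaseG8 P ht hL hv0 hv1 b1 b2 b3 b4 b5 (S := {0, 7, 8}) (by
    intro k hk
    simp only [Finset.mem_insert, Finset.mem_singleton] at hk
    rcases hk with rfl | rfl | rfl
    · exact ⟨by decide, by show Bo 0 = Bo 0 * 1; ring⟩
    · exact ⟨by decide, by rw [βL7]; exact b6⟩
    · exact ⟨by decide, by rw [βL8]; exact b6⟩)
  have key : FctU (θ 0 - θ 1) Sg (fun w => lam2 0 (E8 w)) := by
    rcases hB with hB | hB
    · exact ⟨fun w R' h1 h2 _ h3 => u3G C hθ (Or.inl rfl) hB em8 rz8E pb (fun k hk hV =>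
          (hvis k hV).elim (fun h => absurd h hk) fun h => h.elim Or.inl fun h => Or.inr (Or.inl h))
          h1 h2 h3, fun w R' h1 h2 _ h3 => u2G C hθ (Or.inl rfl) hB em8 rz8E pb (fun k hk hV =>
          (hvis k hV).elim (fun h => absurd h hk) fun h => h.elim Or.inl fun h => Or.inr (Or.inl h))
          h1 h2 h3⟩
    · exact ⟨fun w R' h1 h2 _ h3 => u3G C hθ (Or.inr rfl) hB em8 rz8E pb (fun k hk hV =>
          (hvis k hV).elim (fun h => absurd h hk) fun h => h.elim Or.inl fun h => Or.inr (Or.inl h))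
          h1 h2 h3, fun w R' h1 h2 _ h3 => u2G C hθ (Or.inr rfl) hB em8 rz8E pb (fun k hk hV =>
          (hvis k hV).elim (fun h => absurd h hk) fun h => h.elim Or.inl fun h => Or.inr (Or.inl h))
          h1 h2 h3⟩
  simpa only [E8_eq] using key

end ctx

end Crest.Agent.R116.Tq794
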