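import Crest.Agent.R116.Pk9_388
import Crest.Agent.R116.Pdx_658
import Crest.Agent.R116.TwM_420

/-!
# R116 (K side, TIES), the `κ`-plane BELOW the record, `k > 1`, over `Out9` and `CtxT` (helper388)

* `kdat9x` : 348's `kdat9` together with 658's `Co9` (all slots coarser than their own levels)
* **`kM9`** : `Out9`, rates of `kD9`, `E` or `D` tied, `B` invisible or tied ⊢ the numbers of `T⁻`
-/

set_option autoImplicit false
set_option linter.unusedSectionVars false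
set_option linter.unusedVariables false

open Set Filter Topology MeasureTheory

namespace Crest.Agent.R116.Pk388

open Crest.Agent.R138
open Crest.Agent.R138.Ex926 (Base U IsTan)
open Crest.Agent.R136
open Crest.Agent.R136.MkA627
open Crest.Agent.R136.TD627
open Crest.Agent.R136.Net191
open Crest.Agent.R136.Lq196
open Crest.Agent.R116.ChL222
open Crest.Agent.R116.PL504 (nb rL DN eL βL oL Shift)
open Crest.Agent.R116.Sg337 (bx9 coneL DL natB)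
open Crest.Agent.R116.Gd222 (TSet sN PDL DT)
open Crest.Agent.R116.KI439 hiding kD
open Crest.Agent.R116.KF439 (PL)
open Crest.Agent.R116.CtxB468
open Crest.Agent.R116.Rcx363
open Crest.Agent.R116.RbM219
open Crest.Agent.R116.RbK219 (RS SOk Par dl Aln)
open Crest.Agent.R116.SgO219 (PP)
open Crest.Agent.R116.Kz647
open Crest.Agent.R116.Pd363
open Crest.Agent.R116.SgF665 (LM0)
open Crest.Agent.R116.WinG954 (LM)
open Crest.Agent.R116.Tq741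
open Crest.Agent.R116.Tq794
open Crest.Agent.R116.Tq126
open Crest.Agent.R116.Tp139 hiding cl8
open Crest.Agent.R116.PosA348
open Crest.Agent.R116.Tie460 (Pl KF')
open Crest.Agent.R116.Pk348 (KDat9 VisK)
open Dg219 (mw Walls)
open Sl741 (slice xt rs)

section ctx

variable {G : Geo TSet (Fin 2)} {L : ℕ → ℕ → LRay} {r : ℕ → ℝ} {g s : ℝ} {θ q : Fin 2 → ℝ}
    {Rg : ℝ} {B : Base} {I : ℕ → Finset (ℕ × ℝ)} {lev : ℕ → ℚ → ℕ} {A : ℕ → ℝ}
    {f : ℕ → ℚ → ℕ → ℤ → ℕ} {b : ℕ → ℚ → ℕ → TSet} {vm : ℕ → ℚ → ℝ} {w : Fin 2 → ℕ → ℚ → ℝ}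
    {fr : ℕ → ℚ → ℕ × ℝ → LInc} {fl : ℕ → ℕ × ℝ → LInc} {sc : Fin 12 → ℕ → ℝ}
    {w0 sa sb δ R : ℝ} {I0 I' : ℕ → Finset (ℕ × ℝ)} {ν own : (Fin 12 → ℝ) → ℝ} {c₀ : ℝ}
    {v0 t k c0 : ℝ} {a b' : Fin 2} {x : ℕ → Fin 12 → ℝ} {hh : ℕ → ℝ}
    {lam : Fin 2 → (Fin 12 → ℝ) → ℝ} {T : Type*}

/-- 348's `kdat9` with 658's `Co9` -/
theorem kdat9x
    (C : CtxT G L r g s θ q Rg B I lev A f b vm w fr fl sc w0 sa sb δ R I0 I' ν own c₀)
    (hs0 : 0 ≤ s) (hs1 : s ≤ 1) (hθ : 0 < θ 0) (hk : 1 < k) (hb : θ 1 = 2 * θ 0 - k)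
    (hv0 : 0 < v0) (hv1 : v0 < 1) {Bs : T → Fin 9 → ℝ} {sgs : T → ℝ}
    (O : Out9 R s a b' (VisT B I fl sc) (θ 0) (θ 1) g (q 0) (q 1) Bs sgs
      (rL (θ 0) (θ 1) w0 sa sb v0) (fo ν own) x hh lam) (hc0 : 0 < c0)
    (hM : (srf9 (θ 0) (θ 1) kD9 (-1)).LW (mw monL) c0 ⊆ PP (mw monL)) {ρ : Fin 9 → ℝ}
    (hR : Rates9 (θ 0) (θ 1) kD9 (-1) c0 (lam 0) ρ) :
    ∃ (l α : ℝ) (h' : ℕ → ℝ) (X : ℕ → Fin 12 → ℝ) (H : ℕ → ℝ)
      (lam2 : Fin 2 → (Fin 12 → ℝ) → ℝ) (ρ2 : Fin 9 → ℝ) (φ : Fin 9 → V9 → ℝ),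
      KDat9 R s a b' (VisT B I fl sc) θ q g w0 sa sb v0 k (fo ν own) lam ρ l α h' X H lam2 ρ2
        φ ∧ Co9 (θ 0) (θ 1) w0 sa sb kD9 X H := by
  have hS := sok_kD9 (θ := θ 0) hk hb
  have hvis : ∀ i, VisT B I fl sc i → i = 0 ∨ i = 1 ∨ i = 2 ∨ i = 7 ∨ i = 8 :=
    fun i hi => Fk647.vis_flag C.out i hi
  obtain ⟨l, α, h', X, H, lam2, ρ2, hl, -, -, P, co⟩ := plane9x (Vis' := VisK (VisT B I fl sc)) O
    hS leg_kD9 hc0 hR (v := 0) (c := -1) (p := -2) le_rfl (fun i hi => by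
      have e6 : kD9 6 = -1 := by ev9; norm_num
      have e7 : kD9 7 = 0 := by ev9; norm_num
      have e8 : kD9 8 = 0 := by ev9; norm_num
      have e0 : kD9 0 = 0 := by ev9
      rcases hvis i hi with rfl | rfl | rfl | rfl | rfl
      · left
        refine ⟨⟨hi, by decide, by decide⟩, ?_⟩
        change kD9 0 ≤ kD9 0 * βL (θ 0) (θ 1) 0
        rw [e0, zero_mul]
      · left
        refine ⟨⟨hi, by decide, by decide⟩, ?_⟩
        change kD9 8 ≤ kD9 0 * βL (θ 0) (θ 1) 1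
        rw [e0, zero_mul, e8]
      · left
        refine ⟨⟨hi, by decide, by decide⟩, ?_⟩
        change kD9 7 ≤ kD9 0 * βL (θ 0) (θ 1) 2
        rw [e0, zero_mul, e7]
      · right
        change kD9 6 < kD9 0 * βL (θ 0) (θ 1) 7
        rw [e0, zero_mul, e6]; norm_num
      · right
        change kD9 6 < kD9 0 * βL (θ 0) (θ 1) 8
        rw [e0, zero_mul, e6]; norm_num)
    (N := univ) (Eventually.of_forall fun _ => mem_univ _) one_pos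
  obtain ⟨φ, hcl⟩ := P.cls hS (fun i hi => hvis i hi.1) (hc_kD9 hθ hk hb)
    (hz_kD9 hθ hk hb) (hG_kD9 hθ hk hb)
  refine ⟨l, α, h', X, H, lam2, ρ2, φ, ⟨P, hcl, ?_, ?_, ?_, ?_, ?_, ?_⟩, co⟩
  · refine pd9_fct P C hs0 hs1 (Kt710.flagZ_any C (fun n => Subset.rfl)
      (θ 1 * (1 - v0) + 1)) hθ hv0 hv1 (by
        have := mul_pos hθ (by linarith : (0:ℝ) < 1 - v0)
        linarith) ?_
    intro w hw hSk i hi
    rcases hvis i hi.1 with rfl | rfl | rfl | rfl | rfl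
    · change w 0 ≤ w 0 * βL (θ 0) (θ 1) 0
      have : βL (θ 0) (θ 1) 0 = 1 := rfl
      rw [this, mul_one]
    · change w 8 ≤ w 0 * βL (θ 0) (θ 1) 1
      have e2 : βL (θ 0) (θ 1) 1 = -(θ 1) - 2 * -(θ 0) - 1 := rfl
      have e3 : βL (θ 0) (θ 1) 1 = k - 1 := by rw [e2, hb]; ring
      rw [e3, mul_comm]
      exact hSk.2
    · change w 7 ≤ w 0 * βL (θ 0) (θ 1) 2
      have e2 : βL (θ 0) (θ 1) 2 = -(θ 1) - 2 * -(θ 0) := rfl
      have e3 : βL (θ 0) (θ 1) 2 = k := by rw [e2, hb]; ring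
      rw [e3, mul_comm]
      exact hSk.1
    · exact absurd rfl hi.2.1
    · exact absurd rfl hi.2.2
  · have h1 := P.half.rcd 1
    have h2 := O.rx.rcd 1
    show lam2 0 (RL9.vec (nat9 1 (-(θ 0)) (-(θ 1)))) = _
    rw [one_smul] at h1
    rw [mul_one, mul_one] at h2
    rw [h1, O.zero 0, sub_zero, RL9_nat]
    exact h2
  · exact P.half.row
  · exact P.half.eq 0 (by simp [nat9])
  · exact P.half.eq 1 (by simp [nat9]; exact hθ.ne')
  · exact posA_kD9 hc0 hθ hk hb hR O.rx.prf (O.zero 0) O.rx.dmax hM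

/-- **the numbers of `T⁻`, `k > 1`** : `E` or `D` tied, `B` arbitrary -/
theorem kM9
    (C : CtxT G L r g s θ q Rg B I lev A f b vm w fr fl sc w0 sa sb δ R I0 I' ν own c₀)
    (hs0 : 0 ≤ s) (hs1 : s < 1) (hθ : 0 < θ 0) (hk : 1 < k) (hb : θ 1 = 2 * θ 0 - k)
    (hv0 : 0 < v0) (hv1 : v0 < 1)
    (hT : InvT PL B I 1 fl (sc 1) ∧ TieT θ B I lev fl sc 2 ∨ TieT θ B I lev fl sc 1)
    {Bs : T → Fin 9 → ℝ} {sgs : T → ℝ}
    (O : Out9 R s a b' (VisT B I fl sc) (θ 0) (θ 1) g (q 0) (q 1) Bs sgs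
      (rL (θ 0) (θ 1) w0 sa sb v0) (fo ν own) x hh lam) (hc0 : 0 < c0)
    (hM : (srf9 (θ 0) (θ 1) kD9 (-1)).LW (mw monL) c0 ⊆ PP (mw monL)) {ρ : Fin 9 → ℝ}
    (hR : Rates9 (θ 0) (θ 1) kD9 (-1) c0 (lam 0) ρ) : ∃ A : Pl, AK9 k s g θ q ρ A := by
  obtain ⟨l, α, h', X, H, lam2, ρ2, φ, K, co⟩ := kdat9x C hs0 hs1.le hθ hk hb hv0 hv1 O hc0 hM hR
  have hvis : ∀ i, VisT B I fl sc i → i = 0 ∨ i = 1 ∨ i = 2 ∨ i = 7 ∨ i = 8 :=
    fun i hi => Fk647.vis_flag C.out i hi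
  have e6 : kD9 6 = -1 := by ev9; norm_num
  have e0 : kD9 0 = 0 := by ev9
  have W := KW420.fctK9_pd C hs0 hs1 K.pd (by norm_num) hv0 hv1
    (fun j hj => Or.inr fun K' => by
      refine co j ?_ K'
      rcases hj with rfl | rfl
      · change kD9 6 < kD9 0 * βL (θ 0) (θ 1) 7
        rw [e0, zero_mul, e6]; norm_num
      · change kD9 6 < kD9 0 * βL (θ 0) (θ 1) 8
        rw [e0, zero_mul, e6]; norm_num)
    (fun j hj => by
      rcases hvis j hj.1 with h | h | h | h | h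
      · exact Or.inl h
      · exact Or.inr (Or.inl h)
      · exact Or.inr (Or.inr h)
      · exact absurd h hj.2.1
      · exact absurd h hj.2.2) hT
  have e : 2 * θ 0 - θ 1 = k := by rw [hb]; ring
  rw [e] at W
  exact ⟨_, K.fin hs0 hs1.le hk hb W⟩

end ctx

end Crest.Agent.R116.Pk388
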