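import Crest.Agent.R116.RTf_850
import Crest.Agent.R116.FlE9_330

/-!
# R116, ROW TIE (helper850): the `e`-tie, assembly of the table

* `fillE9` : 330's cell `1 < k` as a fill
* `tabE_of` : 794's cell (`s < 1/2`, `k ≤ 1`) ⊢ the table
* `falseE_of2` : 794's cell and (H4) ⊢ `FalseE η`
-/

set_option autoImplicit false
set_option linter.unusedVariables false

namespace Crest.Agent.R116.FlH850

open Crest.Agent.R116.KTop387
open Crest.Agent.R116.CtxB468
open Crest.Agent.R116.Tie460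
open Crest.Agent.R116.KTie794

variable {η : ℝ}

/-- 330's cell -/
theorem fillE9 (hη : η < 1) : Fill η VE fun g s θ q => 1 < θ 0 - θ 1 →
    ETie' (θ 0 - θ 1) (θ 0) s (g + 2 * s) (q 0) (q 1) := by
  refine fill_of ?_
  intro G L r g s θ q Rg B I lev A f b vm w fr fl sc w0 sa sb δ R I0 I' ν own c₀ C hN hR0 hR1 hRg
    hV hk
  exact FlE330.eTie9 hη C hN hR0 hR1 hRg hV.1 hV.2 hk

/-- the table of the `e`-tie from 794's cell -/
theorem tabE_of (hη : η < 1)
    (h8 : Fill η VE fun g s θ q => s < 1 / 2 → θ 0 - θ 1 ≤ 1 →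
      ETie' (θ 0 - θ 1) (θ 0) s (g + 2 * s) (q 0) (q 1)) :
    Fill η VE fun g s θ q => (s < 1 / 2 ∨ 1 < θ 0 - θ 1) →
      ETie' (θ 0 - θ 1) (θ 0) s (g + 2 * s) (q 0) (q 1) := by
  refine ((fillE9 hη).and h8).mono fun g s θ q _ h h' => ?_
  rcases lt_or_ge 1 (θ 0 - θ 1) with hk | hk
  · exact h.1 hk
  · rcases h' with h' | h'
    · exact h.2 h' hk
    · exact absurd h' (not_lt.2 hk)

/-- **`e`-tie** from 794's cell and (H4) -/
theorem falseE_of2 (hη : η < 1)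
    (h8 : Fill η VE fun g s θ q => s < 1 / 2 → θ 0 - θ 1 ≤ 1 →
      ETie' (θ 0 - θ 1) (θ 0) s (g + 2 * s) (q 0) (q 1))
    (h4 : Fill η VE fun g s θ q => 1 / 2 ≤ s → θ 0 - θ 1 = 1 → False) : FalseE η :=
  falseE_tab hη (tabE_of hη h8) h4

end Crest.Agent.R116.FlH850
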