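import Crest.Agent.R116.FlH_850
import Crest.Agent.R116.ApW_954
import Crest.Agent.R116.Tk7_538
import Crest.Agent.R116.Hm4_621
import Crest.Agent.R116.Th5k_363
import Crest.Agent.R116.Th2c_899

/-!
# R116, ROW TIE (helper850, finished by helper858): the assembly with all landed cells of `1/2 ≤ s`

* **`falseE_tab`, `falseK_tab`, `falseD_tab`** : from the tables (794, 363, 348) and the line
  `k = 1` (120); the cells of 171 / 899, 621, 954, 538, 658 / 363 are plugged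
* **`rowTie_of_tabs`**
-/

set_option autoImplicit false
set_option linter.unusedVariables false

open Finset Filter Topology MeasureTheory Set

namespace Crest.Agent.R116.FlH850

open Crest.Agent.R116.KTop387
open Crest.Agent.R116.CtxB468
open Crest.Agent.R116.Tie460
open Crest.Agent.R116.KTie794

variable {η : ℝ}

/-- 621's cell -/
theorem fillE_lo (hη : η < 1) : Fill η VE fun g s θ q =>
    1 / 2 ≤ s → θ 0 - θ 1 < 1 → 1 + (θ 0 - θ 1) ≤ 2 * θ 0 → False :=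
  Hm621.fillE_lo4 hη

/-- 954's cell -/
theorem fillK_A : Fill η VK fun g s θ q => 1 / 2 ≤ s → 2 * θ 0 - θ 1 ≤ 1 / 2 → False :=
  ApV954.fillHk fun _ _ _ _ _ _ h => h.1

/-- 538's cell -/
theorem fillK_P : Fill η VK fun g s θ q =>
    1 / 2 ≤ s → 1 / 2 < 2 * θ 0 - θ 1 → 2 * θ 0 - θ 1 < 1 →
      θ 0 ≤ (1 + (2 * θ 0 - θ 1)) / 3 → False :=
  Tk538.fillH2

/-- **`e`-tie** from 794's table and the line `k = 1` -/
theorem falseE_tab (hη : η < 1)
    (hT : Fill η VE fun g s θ q => (s < 1 / 2 ∨ 1 < θ 0 - θ 1) →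
      ETie' (θ 0 - θ 1) (θ 0) s (g + 2 * s) (q 0) (q 1))
    (h1 : Fill η VE fun g s θ q => 1 / 2 ≤ s → θ 0 - θ 1 = 1 → False) : FalseE η :=
  falseE_cells hη (fun _ => False)
    (hT.mono fun g s θ q _ h h' => h (by
      rcases h' with h' | h' | h'
      · exact Or.inl h'
      · exact Or.inr h'
      · exact h'.2.elim))
    (h1.mono fun g s θ q _ h a b _ => h a b) (Th899.fillE_up η) (fillE_lo hη)

/-- **`κ`-tie, `D`-tie** from 363's table -/
theorem falseK_tab (hη : η < 1)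
    (hT : Fill η VK fun g s θ q => (s < 1 / 2 ∨ 1 ≤ 2 * θ 0 - θ 1) →
      KTie' (2 * θ 0 - θ 1) (θ 0) s (g + 2 * s) (q 0) (q 1)) : FalseK η :=
  falseK_cells hη hT fillK_A fillK_P (Th5k363.fillH5_k hη)

/-- **double tie** from 348's table -/
theorem falseD_tab (hη : η < 1)
    (hT : Fill η VD fun g s θ q => (s < 1 / 2 ∨ 1 ≤ 2 * θ 0 - θ 1) →
      DTie' (θ 0 - θ 1) (2 * θ 0 - θ 1) (θ 0) s (g + 2 * s) (q 0) (q 1)) : FalseD η :=
  falseD_cells hη hT (Th899.fillD_up η) (Th5k363.fillH5_d hη)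

/-- **THE ROW OF THE TIES** from the tables and the line `k = 1` -/
theorem rowTie_of_tabs (hη : η < 1)
    (hE : Fill η VE fun g s θ q => (s < 1 / 2 ∨ 1 < θ 0 - θ 1) →
      ETie' (θ 0 - θ 1) (θ 0) s (g + 2 * s) (q 0) (q 1))
    (h1 : Fill η VE fun g s θ q => 1 / 2 ≤ s → θ 0 - θ 1 = 1 → False)
    (hK : Fill η VK fun g s θ q => (s < 1 / 2 ∨ 1 ≤ 2 * θ 0 - θ 1) →
      KTie' (2 * θ 0 - θ 1) (θ 0) s (g + 2 * s) (q 0) (q 1))
    (hD : Fill η VD fun g s θ q => (s < 1 / 2 ∨ 1 ≤ 2 * θ 0 - θ 1) →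
      DTie' (θ 0 - θ 1) (2 * θ 0 - θ 1) (θ 0) s (g + 2 * s) (q 0) (q 1)) : RowTie η :=
  rowTie_of3 (falseE_tab hη hE h1) (falseK_tab hη hK) (falseD_tab hη hD)

end Crest.Agent.R116.FlH850
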