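import Crest.Agent.R116.RTy_850
import Crest.Agent.R116.FlE_794
import Crest.Agent.R116.D0p_878
import Crest.Agent.R116.D0y5_219
import Crest.Agent.R116.D0z2_899

/-!
# R116, ROW TIE (helper850): `RowTie` from (H4) alone

* `d0E_lo` : D0 with `E` invisible, `s < 1/2` (878, 219, 899)
* `fillE8` : 794's cell
* **`rowTie_of_h4`** : (H4) ⊢ `RowTie η`
-/

set_option autoImplicit false
set_option linter.unusedVariables false

namespace Crest.Agent.R116.FlH850

open Crest.Agent.R116.KTop387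
open Crest.Agent.R116.CtxB468
open Crest.Agent.R116.Tie460
open Crest.Agent.R116.KTie794

variable {η : ℝ}

/-- D0 with `E` invisible, `s < 1/2` -/
theorem d0E_lo (hη : η < 1) : D0E η fun s _ => s < 1 / 2 :=
  D0E.of3 (X := fun s _ => s < 1 / 2) (D0E.of (D0p878.D0pos hη)) (D0E.of (D0y219.D0neg hη.le))
    (D0z899.d0zero hη.le)

/-- 794's cell -/
theorem fillE8 (hη : η < 1) : Fill η VE fun g s θ q => s < 1 / 2 → θ 0 - θ 1 ≤ 1 →
    ETie' (θ 0 - θ 1) (θ 0) s (g + 2 * s) (q 0) (q 1) := by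
  refine fill_of ?_
  intro G L r g s θ q Rg B I lev A f b vm w fr fl sc w0 sa sb δ R I0 I' ν own c₀ C hN hR0 hR1 hRg
    hV hs hk
  exact FlE794.eTie8 C hN hη hR0 hR1 hRg
    (d0E_lo hη C hN hs hR0 hR1 hRg hV.2.2 hV.2.1 fun _ => hk) hV.1 hV.2 hk

/-- **the row of the ties from (H4)** -/
theorem rowTie_of_h4 (hη : η < 1)
    (h4 : Fill η VE fun g s θ q => 1 / 2 ≤ s → θ 0 - θ 1 = 1 → False) : RowTie η :=
  rowTie_of_e hη (fillE8 hη) h4

end Crest.Agent.R116.FlH850
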