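import Crest.Agent.R116.RTe_850
import Crest.Agent.R116.FlK10_363
import Crest.Agent.R116.Fd10_348
import Crest.Agent.R116.FlD2_460
import Crest.Agent.R116.FlD3_538

/-!
# R116, ROW TIE (helper850): `RowTie` from the two last fills of the `e`-tie

* `falseD` : the double tie (348, 460, 538)
* **`rowTie_of_e`** : 794's cell (`s < 1/2`, `k ≤ 1`) and (H4) ⊢ `RowTie η`
-/

set_option autoImplicit false

namespace Crest.Agent.R116.FlH850

open Crest.Agent.R116.KTop387
open Crest.Agent.R116.Tie460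
open Crest.Agent.R116.KTie794

variable {η : ℝ}

/-- **double tie** -/
theorem falseD (hη : η < 1) : FalseD η :=
  Fd348.falseD_of2 hη (D2460.fillD2 hη) (D3538.fillD3 hη)

/-- **the row of the ties from the two last fills** -/
theorem rowTie_of_e (hη : η < 1)
    (h8 : Fill η VE fun g s θ q => s < 1 / 2 → θ 0 - θ 1 ≤ 1 →
      ETie' (θ 0 - θ 1) (θ 0) s (g + 2 * s) (q 0) (q 1))
    (h4 : Fill η VE fun g s θ q => 1 / 2 ≤ s → θ 0 - θ 1 = 1 → False) : RowTie η :=
  rowTie_of3 (falseE_of2 hη h8 h4) (FlK363.falseK hη) (falseD hη)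

end Crest.Agent.R116.FlH850
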