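import Crest.Agent.R116.RTx_850
import Crest.Agent.R116.FlH4_72

/-!
# R116, ROW TIE (helper850): the last wire

**`rowTie`** : the row of the ties, no binder.
-/

set_option autoImplicit false

namespace Crest.Agent.R116.FlH850

open Crest.Agent.R116.KTop387 (RowTie)

theorem rowTie : ∃ η : ℝ, 0 < η ∧ RowTie η :=
  ⟨1 / 4, by norm_num, rowTie_of_h4 (by norm_num) (Ts72.fillH4 (by norm_num))⟩

end Crest.Agent.R116.FlH850
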