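import Crest.Agent.R116.RowU3_194
import Crest.Agent.R116.Sg3d2_332
import Crest.Agent.R116.Kg1_330

/-!
# R116, row U (helper194), part 4: the case `σ = 1`

* `Bs0`      : the base sequences at which the facts are asked
* `sigP_false1` : `SigP` + facts + A1 at `θb = θa` ⊢ `False`
-/

set_option autoImplicit false
set_option linter.unusedVariables false

open Set Filter Topology MeasureTheory
open scoped NNReal

namespace Crest.Agent.R116.RowU194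

open Crest.Agent.R138.Ex926 (Base U IsTan)
open Crest.Agent.R136
open Crest.Agent.R136.Net191
open Crest.Agent.R136.Lq196
open Crest.Agent.R116.ChL222
open Crest.Agent.R116.PL504 (βL eL rL Shift)
open Crest.Agent.R116.Sg337 (coneL ProfL DL natB natB_smul bx9 uC uP uCP SL frz frz_single)
open Dg262 (X SupOn)
open Dg219 (Walls mw gset mem_gset OutS gC dhC nC gC_zero gC_eq)
open Sg635 (xS aS bS X_eq PP_eq L_eq LMd mem_bx SL_nat1 Nat1 no_one ne_one sum_congr' coneL_sub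
  eq_of_nat)
open SgF665 (wl wl_add wl_smul LinFacts)
open LF388 (LinFacts4)

/-- the base sequences of the facts -/
def Bs0 (θa θb w0 sa sb v0 lam0 : ℝ) (z : ℝ × ℝ) (u k : ℕ → ℝ) (X : ℕ → Fin 12 → ℝ)
    (h : ℕ → ℝ) : Prop :=
  ∃ c0 ∈ LMd, c0 3 = c0 4 ∧ c0 5 = c0 6 ∧ c0 7 = c0 8 ∧
    ∃ ψ θ : ℕ → ℕ, StrictMono ψ ∧ StrictMono θ ∧
      X = (fun m => xB θa θb w0 sa sb v0 lam0 z u (ψ m) + (u (ψ m) * k (ψ m)) • c0) ∧
      h = fun m => u (ψ m) * k (ψ m) * (1 / ((θ m : ℝ) + 1))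

variable {J : Type*} [Finite J] {R w0 sa sb θa θb s c q0 q1 δ : ℝ} {f : J → (Fin 12 → ℝ) → ℝ} {j0 : J}
    {v0 lam0 : ℝ} {z : ℝ × ℝ} {u k : ℕ → ℝ} {lam : J → (Fin 12 → ℝ) → ℝ} {A : ℝ × ℝ}
    {φ : ℕ → (Fin 12 → ℝ) → ℝ} {r : ℕ → ℝ}

theorem Bs0.mk' {c0 : Fin 12 → ℝ} (hc : c0 ∈ LMd) (h3 : c0 3 = c0 4) (h5 : c0 5 = c0 6)
    (h7 : c0 7 = c0 8) {ψ θ : ℕ → ℕ} (hψ : StrictMono ψ) (hθ : StrictMono θ) :
    Bs0 θa θb w0 sa sb v0 lam0 z u k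
      (fun m => xB θa θb w0 sa sb v0 lam0 z u (ψ m) + (u (ψ m) * k (ψ m)) • c0)
      (fun m => u (ψ m) * k (ψ m) * (1 / ((θ m : ℝ) + 1))) :=
  ⟨c0, hc, h3, h5, h7, ψ, θ, hψ, hθ, rfl, rfl⟩

/-- **the resonance `σ = 1`** -/
theorem sigP_false1 (H : SigP R w0 sa sb θa θb s c q0 q1 δ f j0 v0 lam0 z u k lam A φ r)
    (ha : θa ≠ 0) (hσ : θb = θa) (hs : 0 ≤ s) (hc : 2 * s < c) (hq0 : 0 < q0) (hq1 : 0 < q1)
    (hδ : δ ≤ (c - 2 * s) / 2)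
    (HL : LinFacts4 (Leg monL R) f j0 (Bs0 θa θb w0 sa sb v0 lam0 z u k) s)
    (A1 : (∀ y : ℝ, 0 < y → lam j0 (bx9 0 0 y 0 0 0 0 0 0) = 0) →
      2 * (1 - s) ≤ lam j0 (bx9 1 0 1 0 0 0 0 0 0) - lam j0 (bx9 1 0 1 0 1 0 0 0 1)) : False :=
  Sg332.sig1_false4 (K := 12) (x := xB θa θb w0 sa sb v0 lam0 z u) (h := fun m => u m * k m)
    (sc := fun n => 1 / ((n : ℝ) + 1)) (by norm_num) H.hpos H.h0 H.hl0 ha hσ H.hx H.hxD H.tan H.lip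
    H.out (fun n => by positivity) tendsto_one_div_add_atTop_nhds_zero_nat
    (fun c0 hc0 h3 h5 h7 ψ θ hψ hθ => Bs0.mk' hc0 h3 h5 h7 hψ hθ) HL hs hc hq0 hq1 hδ H.sum H.own
    H.iC H.iCP A1

end Crest.Agent.R116.RowU194
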