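import Crest.Agent.R116.Sc5a_803
import Crest.Agent.R116.Sc8_905

/-!
# R116, SIG2 (sigma = 2), plug, part 4: no binder left (helper803)

* `sig2M'` : helper905's `sig2M` as `Sig2M`; **`sig2_winF`** : `sig2_win` without `hM`.
-/

set_option autoImplicit false
set_option linter.unusedVariables false
set_option linter.unusedSectionVars false

open Filter Topology Finset

namespace Crest.Agent.R116.Sc5803

open Crest.Agent.R138.Ex926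
open Crest.Agent.R136.Net191 Crest.Agent.R136.Qg926 Crest.Agent.R136.Gf356
open Crest.Agent.R116.ChL222 Crest.Agent.R116.PL504 Crest.Agent.R116.EvL504
open Crest.Agent.R116.WinU954 Crest.Agent.R116.WinG954 Crest.Agent.R116.ThinD954
open Crest.Agent.R116.Sg337 (bx9)

theorem sig2M' : Sig2M := Crest.Agent.R116.Sc905.sig2M

/-- **`SIG2`, the windows**: a tangent at a natural moving base point, slot `D` frozen. -/
theorem sig2_winF {B : Base} {I J : ℕ → Finset (ℕ × ℝ)} {lev : ℕ → ℚ → ℕ}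
    {inc : ℕ → ℕ × ℝ → Crest.Agent.R116.ChL222.LInc} {σs : Fin 2 → ℕ → ℝ} {w0 sa sb C R : ℝ}
    {ν : (Fin 12 → ℝ) → ℝ}
    (hN : NProf B I J (Gd222.coN B lev inc σs w0 sa sb) monL C R ν)
    (hcoc : ∀ n, Coc (Gd222.coN B lev inc σs w0 sa sb n))
    {X : ℕ → Fin 12 → ℝ} {h : ℕ → ℝ} (hpos : ∀ l, 0 < h l) (hh : Tendsto h atTop (𝓝 0))
    {D : Set (Fin 12 → ℝ)} {lam : (Fin 12 → ℝ) → ℝ} (htan : IsTan (Leg monL R) D ν X h lam)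
    (hD : LMd ⊆ D) {t : ℝ} (ht : 0 < t) {σ : ℝ} (hσ0 : 0 ≤ σ) (hσ1 : σ ≤ 1)
    (dens : lam (bx9 t 0 t t t t t t t) ≤
      lam (bx9 0 0 t t t t t t t) + lam (bx9 t 0 0 0 0 0 0 0 0))
    (frost : ∀ y, 0 ≤ y → y ≤ t → lam (bx9 y 0 0 0 0 0 0 0 0) ≤ -(σ * y))
    (plat : lam (bx9 t 0 0 0 0 0 0 0 0) - lam (bx9 t 0 0 t 0 t 0 0 0) ≤
      lam (bx9 t 0 0 0 t 0 t 0 t) - lam (bx9 t 0 0 t t t t 0 t))
    (prod : ∀ y, 0 < y → y ≤ t →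
      lam (bx9 t 0 0 0 0 0 0 0 0) - lam (bx9 t 0 0 y 0 0 0 y 0) ≤
        lam (bx9 t 0 0 0 t 0 t 0 t) - lam (bx9 t 0 0 y t 0 t y t))
    (fro : ∀ᶠ l in atTop, ∃ z c p q : ℝ, X l = Function.update (eL z c p) 1 q ∧
      p - 2 * c - z + t * h l ≤ q)
    {k0 ϑ ζ v tt yy δ : ℝ} (hF : Kz710.FlagDz B J lev inc σs k0 ϑ ζ)
    (hm : Xd954.Mrg k0 ϑ v tt yy δ) (hty : 3 * δ ≤ ζ + tt - yy)
    (hX : ∀ s, 3 ≤ s → Tendsto (fun l => X l s) atTop (𝓝 (PL504.nb w0 sa sb v tt yy s)))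
    {a b : Fin 2} (hab : a ≠ b)
    (hbd : ∀ᶠ n in (U : Filter ℕ), ∀ x ∈ J n, |Xd954.bb (inc n x) a| ≤ 2)
    (hbig : ∀ᶠ n in (U : Filter ℕ), ∀ x ∈ J n, 1 / 2 ≤ |Xd954.bb (inc n x) b|)
    {q R0 : ℝ} (hq : 0 < q) (hR0 : 0 < R0)
    (hns : Nar192.NsTc B I J (Gd222.coN B lev inc σs w0 sa sb) C ν X h (Xd954.cs a) 10 q R0) :
    σ * t ≤ 2 * (lam (bx9 t 0 0 t 0 t 0 0 0) - lam (bx9 t 0 0 t 0 t t 0 t)) -
      (lam (bx9 t 0 0 0 0 0 0 0 0) - lam (bx9 t 0 0 0 t 0 t 0 t)) :=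
  sig2_win sig2M' hN hcoc hpos hh htan hD ht hσ0 hσ1 dens frost plat prod fro hF hm hty hX hab hbd
    hbig hq hR0 hns

end Crest.Agent.R116.Sc5803
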