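import Crest.Agent.R116.Te1_741
import Crest.Agent.R116.Pe2_794
import Crest.Agent.R116.Kt3_387

/-!
# R116 (K side, ties): `T⁻` of an `e`-tie over `CtxT` (helper741)

* **`eA8`** : `CtxT`, `Out8`, `Pd8 .. (eD k) (-1)`, `k = θ 0 - θ 1`, `B` tied, `D`, `E` invisible
  ⊢ the fields of `ETie` on `T⁻` (`A := plE s (cE k) φ (sn8 ρ2 0)`); (K3) is asked for at `k = 1`
* **`eA9`** : the same with `D` live, `1 < k`
-/

set_option autoImplicit false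
set_option linter.unusedVariables false
set_option linter.unusedSectionVars false

open Set Filter Topology

namespace Crest.Agent.R116.Te741

open Crest.Agent.R138
open Crest.Agent.R138.Ex926 (Base U IsTan)
open Crest.Agent.R136
open Crest.Agent.R136.MkA627
open Crest.Agent.R136.TD627
open Crest.Agent.R136.Net191
open Crest.Agent.R136.Lq196
open Crest.Agent.R116.EvL504
open Crest.Agent.R116.ChL222
open Crest.Agent.R116.PL504 (nb rL DN eL βL oL Shift eL_wall)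
open Crest.Agent.R116.Sg337 (bx9 DL coneL)
open Crest.Agent.R116.Gd222 (TSet sN PDL DT)
open Crest.Agent.R116.KI439
open Crest.Agent.R116.KF439 (PL)
open Crest.Agent.R116.CtxB468
open Crest.Agent.R116.Rcx363
open Crest.Agent.R116.RbM219
open Crest.Agent.R116.RbK219
open Crest.Agent.R116.SgF665 (wl wl_add wl_smul LM0)
open Crest.Agent.R116.WinG954 (LM)
open Crest.Agent.R116.Tq741
open Crest.Agent.R116.Tq126
open Crest.Agent.R116.Tp139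
open Crest.Agent.R116.Pd363
open Crest.Agent.R116.Tw369
open Crest.Agent.R116.Tq794 (E8 E9 fctE8 fctE9)
open Crest.Agent.R116.Kt387 (pd8_fct' pd9_fct')
open Crest.Agent.R116.Tie460 (Pl EF')
open Crest.Agent.R116.Pu171 (FctP)
open Sl741 (slice xt rs)

section ctx

variable {G : Geo TSet (Fin 2)} {L : ℕ → ℕ → LRay} {r : ℕ → ℝ} {g s : ℝ} {θ q : Fin 2 → ℝ}
    {Rg : ℝ} {B : Base} {I : ℕ → Finset (ℕ × ℝ)} {lev : ℕ → ℚ → ℕ} {A : ℕ → ℝ}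
    {f : ℕ → ℚ → ℕ → ℤ → ℕ} {b : ℕ → ℚ → ℕ → TSet} {vm : ℕ → ℚ → ℝ} {wt : Fin 2 → ℕ → ℚ → ℝ}
    {fr : ℕ → ℚ → ℕ × ℝ → LInc} {fl : ℕ → ℕ × ℝ → LInc} {sc : Fin 12 → ℕ → ℝ}
    {w0 sa sb δ R : ℝ} {I0 I' : ℕ → Finset (ℕ × ℝ)} {ν own : (Fin 12 → ℝ) → ℝ} {c₀ : ℝ}
    {a b' : Fin 2} {Vis Vis' : Fin 12 → Prop} {v0 t l α k gc qa qb : ℝ} {T : Type*}
    {lam lam2 : Fin 2 → (Fin 12 → ℝ) → ℝ} {hh h' H : ℕ → ℝ} {x X : ℕ → Fin 12 → ℝ}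
    {x0 : Fin 12 → ℝ}

/-- the tied flag `B` strictly coarser than its level: the visible slots are coarser -/
theorem sk_e {E : V9 → Fin 12 → ℝ} (h0 : ∀ w, E w 0 = w 0) (h7 : ∀ w, E w 7 = w 6)
    (h8 : ∀ w, E w 8 = w 6) (hk : k = θ 0 - θ 1)
    (hV' : ∀ i, Vis' i → i = 0 ∨ i = 7 ∨ i = 8) (w : V9) (hw : w 6 < k * w 0) (i : Fin 12)
    (hi : Vis' i) : E w i ≤ w 0 * βL (θ 0) (θ 1) i := by
  rcases hV' i hi with rfl | rfl | rfl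
  · rw [h0]
    show w 0 ≤ w 0 * 1
    linarith
  · rw [h7, βL7, ← hk]; linarith
  · rw [h8, βL8, ← hk]; linarith

/-- **`T⁻` of an `e`-tie, `D` frozen** -/
theorem eA8 {Bs : T → Fin 8 → ℝ} {sgs : T → ℝ} {ρ ρ2 : Fin 8 → ℝ}
    (C : CtxT G L r g s θ q Rg B I lev A f b vm wt fr fl sc w0 sa sb δ R I0 I' ν own c₀)
    (O : Out8 R s a b' Vis (θ 0) (θ 1) gc qa qb t Bs sgs x0 (fo ν own) x hh lam)
    (P : Pd8 R s a b' Vis' (θ 0) (θ 1) w0 sa sb v0 t (DL gc s qa qb (-1) (-k) (-2 * k)) (eD k)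
      (-1) (fo ν own) lam ρ l α h' X H lam2 ρ2)
    (hk : k = θ 0 - θ 1) (hk0 : 0 < k) (hs0 : 0 ≤ s) (hs1 : s ≤ 1) (ht : 0 < t) (hθ : 0 < θ 0)
    (hv0 : 0 < v0) (hv1 : v0 < 1) (hV' : ∀ i, Vis' i → i = 0 ∨ i = 7 ∨ i = 8)
    (hB : TieT θ B I lev fl sc 7 ∨ TieT θ B I lev fl sc 8)
    (hvis : ∀ i, VisT B I fl sc i → i = 0 ∨ i = 7 ∨ i = 8)
    (K3 : k = 1 → ∀ φ, Cl9 (cE k) (sn8 (dl (nat8 1 (-(θ 0)) (-(θ 1))) (eD k) (-1)) 1) s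
      (fun w => lam2 0 (xt kp 0 (RL8.vec (fun i => w i.castSucc)))) φ (sn8 ρ2 0) →
      0 < ρ2 1 → (∀ y : ℝ, 0 ≤ y → (1 - s) * y ≤ φ (cE k 3) 0 - φ (cE k 3) (y • e9 3)) →
      1 - s ≤ ρ2 4) :
    ∃ φ, Cl9 (cE k) (sn8 (dl (nat8 1 (-(θ 0)) (-(θ 1))) (eD k) (-1)) 1) s
        (fun w => lam2 0 (xt kp 0 (RL8.vec (fun i => w i.castSucc)))) φ (sn8 ρ2 0) ∧
      EF' s k (plE s (cE k) φ (sn8 ρ2 0)) ∧ (plE s (cE k) φ (sn8 ρ2 0)).FanA s ∧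
      (plE s (cE k) φ (sn8 ρ2 0)).FanB s ∧ (plE s (cE k) φ (sn8 ρ2 0)).d = 0 ∧
      (plE s (cE k) φ (sn8 ρ2 0)).Tan gc (θ 0) (θ 0 - k) qa qb ∧
      0 ≤ (plE s (cE k) φ (sn8 ρ2 0)).Fa qa + (plE s (cE k) φ (sn8 ρ2 0)).Fb qb ∧
      (plE s (cE k) φ (sn8 ρ2 0)).m = ρ2 1 ∧
      (FctP (fun w => w 6 < k * w 0)
          (fun w => lam2 0 (xt kp 0 (RL8.vec (fun i => w i.castSucc)))) →
        (plE s (cE k) φ (sn8 ρ2 0)).m + (plE s (cE k) φ (sn8 ρ2 0)).x ≤ 1 ∧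
        (plE s (cE k) φ (sn8 ρ2 0)).r + (plE s (cE k) φ (sn8 ρ2 0)).n ≤ 1) := by
  have hb : θ 1 = θ 0 - k := by rw [hk]; ring
  have F : Fct9 (fun w => w 6 < k * w 0) s
      (fun w => lam2 0 (xt kp 0 (RL8.vec (fun i : Fin 8 => w i.castSucc)))) :=
    pd8_fct' P C hs0 hs1 ht.ne' hθ hv0 hv1 fun w _ hw i hi =>
      sk_e (fun _ => rfl) (fun _ => rfl) (fun _ => rfl) hk hV' w hw i hi
  have FE : FctE k (fun w => lam2 0 (xt kp 0 (RL8.vec (fun i : Fin 8 => w i.castSucc)))) := by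
    have h1 := fctE8 P C hθ ht.ne' hv0 hv1 hB hvis (by rw [← hk]; ring)
    rwa [← hk] at h1
  rw [hb] at O P K3
  obtain ⟨φ, HC, -, hT, hv, hd, hm, hF, hP⟩ := eLow8 hθ hk0 hs0 ht P O fun i hi => by
    rcases hV' i hi with h | h | h
    · exact Or.inl h
    · exact Or.inr (Or.inr (Or.inr (Or.inl h)))
    · exact Or.inr (Or.inr (Or.inr (Or.inr h)))
  obtain ⟨hA, hB', hE⟩ := hF F
  rw [hb]
  exact ⟨φ, HC, hE FE fun h1 h2 h3 => K3 h1 φ HC h2 h3, hA, hB', hd, hT, hv, hm, hP⟩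

/-- **`T⁻` of an `e`-tie, `D` live** -/
theorem eA9 {Bs : T → Fin 9 → ℝ} {sgs : T → ℝ} {ρ ρ2 : Fin 9 → ℝ}
    (C : CtxT G L r g s θ q Rg B I lev A f b vm wt fr fl sc w0 sa sb δ R I0 I' ν own c₀)
    (O : Out9 R s a b' Vis (θ 0) (θ 1) gc qa qb Bs sgs x0 (fo ν own) x hh lam)
    (P : Pd9 R s a b' Vis' (θ 0) (θ 1) w0 sa sb v0
      (DL gc s qa qb (-1) (-(k - 1)) (-(2 * k - 1))) (eD9 k)
      (-1) (fo ν own) lam ρ l α h' X H lam2 ρ2)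
    (hk : k = θ 0 - θ 1) (hk1 : 1 < k) (hs0 : 0 ≤ s) (hs1 : s ≤ 1) (hθ : 0 < θ 0)
    (hv0 : 0 < v0) (hv1 : v0 < 1) (hV' : ∀ i, Vis' i → i = 0 ∨ i = 7 ∨ i = 8)
    (hB : TieT θ B I lev fl sc 7 ∨ TieT θ B I lev fl sc 8)
    (hvis : ∀ i, VisT B I fl sc i → i = 0 ∨ i = 7 ∨ i = 8) :
    ∃ φ, Cl9 (cE k) (dl (nat9 1 (-(θ 0)) (-(θ 1))) (eD9 k) (-1)) s
        (fun w => lam2 0 (RL9.vec w)) φ ρ2 ∧
      EF' s k (plE s (cE k) φ ρ2) ∧ (plE s (cE k) φ ρ2).FanA s ∧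
      (plE s (cE k) φ ρ2).FanB s ∧
      (plE s (cE k) φ ρ2).Tan gc (θ 0) (θ 0 - k) qa qb ∧
      0 ≤ (plE s (cE k) φ ρ2).Fa qa + (plE s (cE k) φ ρ2).Fb qb ∧
      (plE s (cE k) φ ρ2).m = ρ2 1 ∧
      (FctP (fun w => w 6 < k * w 0) (fun w => lam2 0 (RL9.vec w)) →
        (plE s (cE k) φ ρ2).m + (plE s (cE k) φ ρ2).x ≤ 1 ∧
        (plE s (cE k) φ ρ2).r + (plE s (cE k) φ ρ2).n ≤ 1) := by
  have hb : θ 1 = θ 0 - k := by rw [hk]; ring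
  have F : Fct9 (fun w => w 6 < k * w 0) s (fun w => lam2 0 (RL9.vec w)) :=
    pd9_fct' P C hs0 hs1 hθ hv0 hv1 fun w _ hw i hi =>
      sk_e (fun _ => rfl) (fun _ => rfl) (fun _ => rfl) hk hV' w hw i hi
  have FE : FctE k (fun w => lam2 0 (RL9.vec w)) := by
    have h1 := fctE9 P C hθ hv0 hv1 hB hvis (by rw [← hk]; ring)
    rwa [← hk] at h1
  rw [hb] at O P
  obtain ⟨φ, HC, -, hT, hv, hm, hF, hP⟩ := eLow9 hθ hk1 hs0 P O fun i hi => by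
    rcases hV' i hi with h | h | h
    · exact Or.inl h
    · exact Or.inr (Or.inr (Or.inr (Or.inl h)))
    · exact Or.inr (Or.inr (Or.inr (Or.inr h)))
  obtain ⟨hA, hB', hE⟩ := hF F
  rw [hb]
  exact ⟨φ, HC, hE FE, hA, hB', hT, hv, hm, hP⟩

end ctx

end Crest.Agent.R116.Te741
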