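import Crest.Agent.R116.TwU1_369

/-!
# R116, ties (helper369): W3, W2, W3k in a tie window (`TWin`), any legal base

Only the wall of the fact is tight, the other walls used are slack by `t` units:
* `TWin.w3` (`S = {0, 7, 8}`, `Dr = {1, 2}`): `lam (P y) - lam (C y, P y) ≤ lam 0 - lam (P y)`;
* `TWin.w2` : the same for `(F, X)`;  `TWin.w3k` (`S = {0, 2}`, `Dr = {1}`) : for `(B, C)`.
-/

set_option autoImplicit false
set_option linter.unusedVariables false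
set_option linter.unusedSectionVars false

open Filter Topology Finset

namespace Crest.Agent.R116.Tw369

open Crest.Agent.R138.Ex926 (Base U)
open Crest.Agent.R136.Gf356 Crest.Agent.R136.Net191 Crest.Agent.R136.Qg926
open Crest.Agent.R116.ChL222 Crest.Agent.R116.PL504 Crest.Agent.R116.EvL504
open Crest.Agent.R116.KW420


variable {B : Base} {I0 I' : ℕ → Finset (ℕ × ℝ)}
  {co : ∀ n : ℕ, ℕ × ℝ → ℕ × ℝ → Fin 12 → ℝ} {X : ℕ → Fin 12 → ℝ} {hh : ℕ → ℝ}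
  {lam : (Fin 12 → ℝ) → ℝ} {S Dr Ts : Finset (Fin 12)} {Sl : Fin 12 → Set ℝ} {σ t : ℝ}
  {k : ℕ → ℕ} {W : Wnd 12 (fun _ => ℕ × ℝ)} {N : ℕ → ℝ} {cw : ∀ n : ℕ, ℕ × ℝ → ℤ}
  {E' : ∀ n : ℕ, Finset (ℕ × ℝ)} {g' : ℕ → ℝ} {ex : ℕ → ∀ n : ℕ, ℕ × ℝ → ℕ}

theorem TWin.relB (T : TWin B I0 I' co X hh lam S Dr Ts Sl σ t k W N cw E' g' ex) :
    RelB W.B' (W.cfg E') := by
  intro ε hε
  filter_upwards [T.reg] with n r
  intro k i l hi hl s
  exact (r.rel_le T.wl hi hl s).trans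
    (Real.one_le_rpow_of_pos_of_le_one_of_nonpos (W.B'.pos n) (W.B'.lt n).le (by linarith))

theorem TWin.ownB (T : TWin B I0 I' co X hh lam S Dr Ts Sl σ t k W N cw E' g' ex) :
    OwnB W.B' (W.cfg E') (ownL W) := by
  intro ε hε
  filter_upwards [T.reg] with n r
  intro i k0 k hi hi' s
  exact (r.own_le T.wl hi hi' s).trans
    (Real.one_le_rpow_of_pos_of_le_one_of_nonpos (W.B'.pos n) (W.B'.lt n).le (by linarith))

theorem TWin.ecut (T : TWin B I0 I' co X hh lam S Dr Ts Sl σ t k W N cw E' g' ex)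
    (hw : WSD S Dr) {p : Fin 12 → ℝ} (hp : ∀ s ∈ Dr, p s = 0) :
    cut W.S p W.top = cT S Dr t p := by
  rw [T.eS, T.etop]
  exact cut_top (t := t) hw 1 hp

theorem TWin.nu_eq (T : TWin B I0 I' co X hh lam S Dr Ts Sl σ t k W N cw E' g' ex)
    (hw : WSD S Dr) {p : Fin 12 → ℝ} (hp : ∀ s ∈ Dr, p s = 0) :
    W.nu p = lam (cT S Dr t p) - lam (cT S Dr t fun _ => t) := by
  show W.lam (cut W.S p W.top) - W.lam W.top = _
  rw [T.ecut hw hp, T.elam, T.etop]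
  congr 2
  exact (top_cT (t := t) hw 1)

theorem TWin.leg_of (T : TWin B I0 I' co X hh lam S Dr Ts Sl σ t k W N cw E' g' ex)
    (hw : WSD S Dr) {p : Fin 12 → ℝ} (hp : ∀ s ∈ Dr, p s = 0)
    (h : cT S Dr t p ∈ Leg (monX Dr) t) : p ∈ W.legW := by
  refine ⟨?_, ?_⟩
  · rw [T.ecut hw hp, T.eM, T.eR]
    exact h
  · intro s hs
    rw [T.eS] at hs
    rw [T.etop]
    have h3 := h.2 s
    unfold cT at h3
    by_cases hD : s ∈ Dr
    · simp only [if_pos hD]; exact (hp s hD).le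
    · simp only [if_neg hD, if_neg hs] at h3 ⊢
      exact h3

/-- legality of the boxes with value `y` on `A`, level slots at `t` -/
theorem leg_mk {R : ℝ} {Dr : Finset (Fin 12)} {p : Fin 12 → ℝ} (h0 : ∀ k, 0 ≤ p k) (h1 : ∀ k, p k ≤ R)
    (hw : ∀ k, ∀ e ∈ monL.mon k, (∀ s ∈ Dr, e s = 0) → ∃ s, e s ≠ 0 ∧ p k ≤ p s) :
    p ∈ Leg (monX Dr) R := by
  refine ⟨⟨h0, fun k e he => ?_⟩, h1⟩
  obtain ⟨h2, h3⟩ := mem_monX.1 he
  obtain ⟨s, h4, h5⟩ := hw k e h2 h3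
  exact h5.trans (sum_ge h0 h4)

/-- the box `y` on `A`, `0` elsewhere -/
def bA (y : ℝ) (A : Finset (Fin 12)) : Fin 12 → ℝ := fun s => if s ∈ A then y else 0

theorem bA_of {y : ℝ} {A : Finset (Fin 12)} {s : Fin 12} (h : s ∈ A) : bA y A s = y := if_pos h

theorem bA_off {y : ℝ} {A : Finset (Fin 12)} {s : Fin 12} (h : s ∉ A) : bA y A s = 0 := if_neg h

theorem cT_bA {t y : ℝ} {A : Finset (Fin 12)} (k : Fin 12) :
    cT S Dr t (bA y A) k = if k ∈ Dr then 0 else if k ∈ S then t else if k ∈ A then y else 0 := rfl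

/-- legality, combinatorial form: `A` off `S ∪ Dr`, every wall of a slot of `A` has a slot of `S ∪ A`,
every wall of a slot of `S` has a slot of `S` -/
theorem leg_bA (hw : WSD S Dr) {y : ℝ} (hy : 0 ≤ y) (hyt : y ≤ t) {A : Finset (Fin 12)}
    (hA : ∀ k, k ∈ A → k ∉ S → k ∉ Dr → ∀ e ∈ monL.mon k, (∀ s ∈ Dr, e s = 0) →
      ∃ s, e s ≠ 0 ∧ s ∉ Dr ∧ (s ∈ S ∨ s ∈ A)) : cT S Dr t (bA y A) ∈ Leg (monX Dr) t := by
  have ht : 0 ≤ t := hy.trans hyt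
  have h0 : ∀ k, 0 ≤ cT S Dr t (bA y A) k := fun k => by
    rw [cT_bA]; split_ifs <;> first | exact le_rfl | assumption
  refine leg_mk h0 (fun k => ?_) fun k e he hD => ?_
  · rw [cT_bA]; split_ifs <;> first | exact le_rfl | assumption
  · by_cases h1 : k ∈ Dr
    · obtain ⟨s, hs⟩ := monL.ne k e he
      refine ⟨s, hs, ?_⟩
      rw [cT_bA k, if_pos h1]
      exact h0 s
    by_cases h2 : k ∈ S
    · obtain ⟨s, s1, s2⟩ := hw.lev k h2 e he hD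
      refine ⟨s, s2, ?_⟩
      rw [cT_bA, cT_bA, if_neg (hw.dis k h2), if_pos h2, if_neg (hw.dis s s1), if_pos s1]
    by_cases h3 : k ∈ A
    · obtain ⟨s, s1, s2, s3⟩ := hA k h3 h2 h1 e he hD
      refine ⟨s, s1, ?_⟩
      rw [cT_bA, cT_bA, if_neg h1, if_neg h2, if_pos h3, if_neg s2]
      by_cases s4 : s ∈ S
      · rw [if_pos s4]; exact hyt
      · rw [if_neg s4, if_pos (s3.resolve_left s4)]
    · obtain ⟨s, hs⟩ := monL.ne k e he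
      refine ⟨s, hs, ?_⟩
      rw [cT_bA k, if_neg h1, if_neg h2, if_neg h3]
      exact h0 s

/-- **e-tie facts**, common part: `(P, C, C')` -/
theorem TWin.w_e (T : TWin B I0 I' co X hh lam S Dr Ts Sl σ t k W N cw E' g' ex) (hw : WSD S Dr)
    (ht : 0 < t) (hTs : Ts ⊆ S) (hSl : ∀ j ∈ Ts, (0 : ℝ) ∈ Sl j)
    {j : Fin 12} (hj : j = 7 ∨ j = 8) (hjT : j ∈ Ts) {u v : ℕ → ℝ} {P C C' : Fin 12}
    (unit : ∀ n, u n ^ 2 + v n ^ 2 = 1)
    (tc : ∀ ε : ℝ, 0 < ε → ∀ᶠ n in (U : Filter ℕ), ∀ k i l, (i, k) ∈ (W.cfg E' n).I →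
      (l, k) ∈ (W.cfg E' n).I →
      |u n * (W.cfg E' n).rel k i l C + v n * (W.cfg E' n).rel k i l C'| ≤ W.B'.d n ^ (t - ε))
    (tow : ∀ ε : ℝ, 0 < ε → ∀ᶠ n in (U : Filter ℕ), ∀ i k0 k, (i, k0) ∈ (W.cfg E' n).I →
      (i, k) ∈ (W.cfg E' n).I →
      |u n * ownL W n i k0 k 7 + v n * ownL W n i k0 k 8| ≤ W.B'.d n ^ (t - ε))
    (law : ∀ ε : ℝ, 0 < ε → ∀ᶠ n in (U : Filter ℕ), ∀ k0 k i l, (i, k0) ∈ (W.cfg E' n).I →
      (l, k0) ∈ (W.cfg E' n).I → (i, k) ∈ (W.cfg E' n).I → (l, k) ∈ (W.cfg E' n).I →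
      |(W.cfg E' n).rel k i l P - ((W.cfg E' n).rel k0 i l P -
        ownL W n i k0 k 7 * (W.cfg E' n).rel k0 i l C -
        ownL W n i k0 k 8 * (W.cfg E' n).rel k0 i l C')| ≤ W.B'.d n ^ (t - ε))
    {A A' : Finset (Fin 12)} (hAD : ∀ s ∈ Dr, s ∉ A') (hAA : A ⊆ A') (hPA : P ∈ A)
    (hA' : ∀ s, s ∈ A' → s ≠ C → s ≠ C' → s ∈ A)
    (hA : ∀ k, k ∈ A → k ∉ S → k ∉ Dr → ∀ e ∈ monL.mon k, (∀ s ∈ Dr, e s = 0) →
      ∃ s, e s ≠ 0 ∧ s ∉ Dr ∧ (s ∈ S ∨ s ∈ A))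
    (hA1 : ∀ k, k ∈ A' → k ∉ S → k ∉ Dr → ∀ e ∈ monL.mon k, (∀ s ∈ Dr, e s = 0) →
      ∃ s, e s ≠ 0 ∧ s ∉ Dr ∧ (s ∈ S ∨ s ∈ A')) {y : ℝ} (hy : 0 ≤ y) (hyt : y ≤ t) :
    lam (cT S Dr t (bA y A)) - lam (cT S Dr t (bA y A')) ≤
      lam (cT S Dr t 0) - lam (cT S Dr t (bA y A)) := by
  obtain ⟨γ, hγ, hO⟩ := T.thin hTs hSl hjT (addF7 T.wl (by rw [T.eS]; exact hTs hjT)
    (by rcases hj with rfl | rfl <;> decide))
  have z1 : ∀ s ∈ Dr, bA y A s = 0 := fun s hs => bA_off fun h => hAD s hs (hAA h)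
  have z2 : ∀ s ∈ Dr, bA y A' s = 0 := fun s hs => bA_off (hAD s hs)
  have z3 : ∀ s ∈ Dr, (0 : Fin 12 → ℝ) s = 0 := fun s hs => rfl
  have l1 := T.leg_of hw z1 (leg_bA hw hy hyt hA)
  have l2 := T.leg_of hw z2 (leg_bA hw hy hyt hA1)
  have l3 : (0 : Fin 12 → ℝ) ∈ W.legW := T.leg_of hw z3 (lev_leg hw ht.le)
  have key := Tw369.w_e T.mod ht T.relB T.ownB (fun n k i l s hs => cfg_rel_S E' n k i l hs)
    unit tc tow law hj hγ ht hO (bA y A) (bA y A') 0 (bA y A) l1 l2 l3 l1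
    (fun s => by
      show (0 : ℝ) ≤ bA y A s
      unfold bA; split_ifs <;> first | exact le_rfl | assumption)
    (fun s => Or.inr le_rfl) hyt (bA_of hPA).ge (bA_of hPA).ge
    (by unfold bA; split_ifs <;> first | exact le_rfl | assumption)
    (by unfold bA; split_ifs <;> first | exact le_rfl | assumption)
    (fun s h3 h4 => by
      by_cases hs : s ∈ A'
      · rw [bA_of hs, bA_of (hA' s hs h3 h4)]
      · rw [bA_off hs]
        unfold bA; split_ifs <;> first | exact le_rfl | assumption)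
  rw [T.nu_eq hw z1, T.nu_eq hw z2, T.nu_eq hw z3] at key
  linarith

/-- slack walls of `W3` -/
structure Sl3 (X : ℕ → Fin 12 → ℝ) (hh : ℕ → ℝ) (t : ℝ) : Prop where
  a : ∀ᶠ l in atTop, X l 7 + t * hh l ≤ X l 2 + X l 3
  b : ∀ᶠ l in atTop, X l 8 + t * hh l ≤ X l 2 + X l 4
  c : ∀ᶠ l in atTop, X l 7 + t * hh l ≤ X l 1 + X l 5
  d : ∀ᶠ l in atTop, X l 8 + t * hh l ≤ X l 1 + X l 6
  e : ∀ᶠ l in atTop, X l 10 + t * hh l ≤ X l 1 + X l 9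

/-- **(W3) in a window**: `C_b` against `C_a`, only `C_b = C_a + B` is tight -/
theorem TWin.w3 (T : TWin B I0 I' co X hh lam {0, 7, 8} {1, 2} Ts Sl σ t k W N cw E' g' ex)
    (ht : 0 < t) (hTs : Ts ⊆ {0, 7, 8}) (hSl : ∀ j ∈ Ts, (0 : ℝ) ∈ Sl j)
    {j : Fin 12} (hj : j = 7 ∨ j = 8) (hjT : j ∈ Ts) {u v : ℕ → ℝ}
    (hd : Dir W.B' (W.cfg E') (ownL W) u v t) (x3 : ∀ᶠ l in atTop, X l 10 = X l 3 + X l 7)
    (x4 : ∀ᶠ l in atTop, X l 10 = X l 4 + X l 8) (sl : Sl3 X hh t) {y : ℝ} (hy : 0 ≤ y)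
    (hyt : y ≤ t) :
    lam (cT {0, 7, 8} {1, 2} t (bA y {10})) - lam (cT {0, 7, 8} {1, 2} t (bA y {3, 4, 10})) ≤
      lam (cT {0, 7, 8} {1, 2} t 0) - lam (cT {0, 7, 8} {1, 2} t (bA y {10})) := by
  refine T.w_e wsd_e ht hTs hSl hj hjT (P := 10) (C := 3) (C' := 4) hd.unit hd.tc hd.tow ?_
    (by decide) (by decide) (by decide) (by decide) (by decide +kernel) (by decide +kernel) hy hyt
  intro ε hε
  filter_upwards [T.reg, T.tight (i := 3) (j := 7) (m := 10) (by decide) x3,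
    T.tight (i := 4) (j := 8) (m := 10) (by decide) x4,
    T.slack (i := 2) (j := 3) (m := 7) (by decide) sl.a,
    T.slack (i := 2) (j := 4) (m := 8) (by decide) sl.b,
    T.slack (i := 1) (j := 5) (m := 7) (by decide) sl.c,
    T.slack (i := 1) (j := 6) (m := 8) (by decide) sl.d,
    T.slack (i := 1) (j := 9) (m := 10) (by decide) sl.e, ev_up W 103 t hε] with
    n r h1 h2 h3 h4 h5 h6 h7 h8 k0 k1 i l a1 a2 a3 a4
  have r0 := T.wl.r0 n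
  refine (law10 T.wl r r0 h1 h2 h3 h4 h5 h6 h7 a1 a2 a3 a4).trans (le_trans (le_of_eq ?_) h8)
  ring

/-- slack walls of `W2` -/
structure Sl2 (X : ℕ → Fin 12 → ℝ) (hh : ℕ → ℝ) (t : ℝ) : Prop where
  a : ∀ᶠ l in atTop, X l 5 + t * hh l ≤ X l 0 + X l 3
  b : ∀ᶠ l in atTop, X l 6 + t * hh l ≤ X l 0 + X l 4
  c : ∀ᶠ l in atTop, X l 7 + t * hh l ≤ X l 1 + X l 5
  d : ∀ᶠ l in atTop, X l 8 + t * hh l ≤ X l 1 + X l 6
  e : ∀ᶠ l in atTop, X l 11 + t * hh l ≤ X l 0 + X l 10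
  f : ∀ᶠ l in atTop, X l 11 + t * hh l ≤ X l 2 + X l 9

/-- **(W2) in a window**: `N` against `X`, only `N = X + B` is tight -/
theorem TWin.w2 (T : TWin B I0 I' co X hh lam {0, 7, 8} {1, 2} Ts Sl σ t k W N cw E' g' ex)
    (ht : 0 < t) (hTs : Ts ⊆ {0, 7, 8}) (hSl : ∀ j ∈ Ts, (0 : ℝ) ∈ Sl j)
    {j : Fin 12} (hj : j = 7 ∨ j = 8) (hjT : j ∈ Ts) {u v : ℕ → ℝ}
    (hd : Dir W.B' (W.cfg E') (ownL W) u v t) (x3 : ∀ᶠ l in atTop, X l 11 = X l 5 + X l 7)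
    (x4 : ∀ᶠ l in atTop, X l 11 = X l 6 + X l 8) (sl : Sl2 X hh t) {y : ℝ} (hy : 0 ≤ y)
    (hyt : y ≤ t) :
    lam (cT {0, 7, 8} {1, 2} t (bA y {11})) - lam (cT {0, 7, 8} {1, 2} t (bA y {5, 6, 11})) ≤
      lam (cT {0, 7, 8} {1, 2} t 0) - lam (cT {0, 7, 8} {1, 2} t (bA y {11})) := by
  refine T.w_e wsd_e ht hTs hSl hj hjT (P := 11) (C := 5) (C' := 6) hd.unit hd.tx hd.tow ?_
    (by decide) (by decide) (by decide) (by decide) (by decide +kernel) (by decide +kernel) hy hyt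
  intro ε hε
  filter_upwards [T.reg, T.tight (i := 5) (j := 7) (m := 11) (by decide) x3,
    T.tight (i := 6) (j := 8) (m := 11) (by decide) x4,
    T.slack (i := 0) (j := 3) (m := 5) (by decide) sl.a,
    T.slack (i := 0) (j := 4) (m := 6) (by decide) sl.b,
    T.slack (i := 1) (j := 5) (m := 7) (by decide) sl.c,
    T.slack (i := 1) (j := 6) (m := 8) (by decide) sl.d,
    T.slack (i := 0) (j := 10) (m := 11) (by decide) sl.e,
    T.slack (i := 2) (j := 9) (m := 11) (by decide) sl.f, ev_up W 110 t hε] with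
    n r h1 h2 h3 h4 h5 h6 h7 h7' h8 k0 k1 i l a1 a2 a3 a4
  have r0 := T.wl.r0 n
  refine (law11 T.wl r r0 h1 h2 h3 h4 h5 h6 h7 h7' a1 a2 a3 a4).trans (le_trans (le_of_eq ?_) h8)
  ring

/-- **(W3k) in a window**: `B` against `C_a`, only `B = G + C_a` is tight -/
theorem TWin.w3k (T : TWin B I0 I' co X hh lam {0, 2} {1} Ts Sl σ t k W N cw E' g' ex)
    (ht : 0 < t) (hTs : Ts ⊆ {0, 2}) (hSl : ∀ j ∈ Ts, (0 : ℝ) ∈ Sl j) (hjT : (2 : Fin 12) ∈ Ts)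
    (x3 : ∀ᶠ l in atTop, X l 7 = X l 2 + X l 3) (x4 : ∀ᶠ l in atTop, X l 8 = X l 2 + X l 4)
    (sE : ∀ᶠ l in atTop, X l 2 + t * hh l ≤ X l 0 + X l 1)
    (s7 : ∀ᶠ l in atTop, X l 7 + t * hh l ≤ X l 1 + X l 5)
    (s8 : ∀ᶠ l in atTop, X l 8 + t * hh l ≤ X l 1 + X l 6) {y : ℝ} (hy : 0 ≤ y) (hyt : y ≤ t) :
    lam (cT {0, 2} {1} t (bA y {7, 8})) - lam (cT {0, 2} {1} t (bA y {3, 4, 7, 8})) ≤
      lam (cT {0, 2} {1} t 0) - lam (cT {0, 2} {1} t (bA y {7, 8})) := by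
  have hw := wsd_k
  have eS := T.eS
  have n7 : (7 : Fin 12) ∉ W.S := by rw [eS]; decide
  have n8 : (8 : Fin 12) ∉ W.S := by rw [eS]; decide
  have t7 : t ≤ W.top 7 := by rw [T.etop]; exact le_of_eq (if_neg (by decide)).symm
  have t8 : t ≤ W.top 8 := by rw [T.etop]; exact le_of_eq (if_neg (by decide)).symm
  obtain ⟨γ, hγ, hO⟩ := T.thin hTs hSl hjT (addF2 T.wl
    (T.slack (i := 0) (j := 1) (m := 2) (by decide) sE))
  have hA : ∀ k, k ∈ ({7, 8} : Finset (Fin 12)) → k ∉ ({0, 2} : Finset (Fin 12)) →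
      k ∉ ({1} : Finset (Fin 12)) → ∀ e ∈ monL.mon k, (∀ s ∈ ({1} : Finset (Fin 12)), e s = 0) →
      ∃ s, e s ≠ 0 ∧ s ∉ ({1} : Finset (Fin 12)) ∧
        (s ∈ ({0, 2} : Finset (Fin 12)) ∨ s ∈ ({7, 8} : Finset (Fin 12))) := by decide +kernel
  have hA1 : ∀ k, k ∈ ({3, 4, 7, 8} : Finset (Fin 12)) → k ∉ ({0, 2} : Finset (Fin 12)) →
      k ∉ ({1} : Finset (Fin 12)) → ∀ e ∈ monL.mon k, (∀ s ∈ ({1} : Finset (Fin 12)), e s = 0) →
      ∃ s, e s ≠ 0 ∧ s ∉ ({1} : Finset (Fin 12)) ∧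
        (s ∈ ({0, 2} : Finset (Fin 12)) ∨ s ∈ ({3, 4, 7, 8} : Finset (Fin 12))) := by
    decide +kernel
  have z1 : ∀ s ∈ ({1} : Finset (Fin 12)), bA y {7, 8} s = 0 := fun s hs => by
    rw [Finset.mem_singleton.1 hs]; exact bA_off (by decide)
  have z2 : ∀ s ∈ ({1} : Finset (Fin 12)), bA y {3, 4, 7, 8} s = 0 := fun s hs => by
    rw [Finset.mem_singleton.1 hs]; exact bA_off (by decide)
  have z3 : ∀ s ∈ ({1} : Finset (Fin 12)), (0 : Fin 12 → ℝ) s = 0 := fun s hs => rfl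
  have l1 := T.leg_of hw z1 (leg_bA hw hy hyt hA)
  have l2 := T.leg_of hw z2 (leg_bA hw hy hyt hA1)
  have l3 : (0 : Fin 12 → ℝ) ∈ W.legW := T.leg_of hw z3 (lev_leg hw ht.le)
  have key := Tw369.w_k T.mod ht T.relB T.ownB (fun n k i l s hs => cfg_rel_S E' n k i l hs)
    (by
      intro ε hε
      filter_upwards [T.reg, T.tight (i := 2) (j := 3) (m := 7) (by decide) x3,
        T.tight (i := 2) (j := 4) (m := 8) (by decide) x4,
        T.slack (i := 1) (j := 5) (m := 7) (by decide) s7,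
        T.slack (i := 1) (j := 6) (m := 8) (by decide) s8, ev_up W 7 t hε] with
        n r h1 h2 h3 h4 h8 k0 k1 i l a1 a2 a3 a4
      have r0 := T.wl.r0 n
      have e7 : 4 * W.B'.d n ^ t + 3 * W.B'.d n ^ t = 7 * W.B'.d n ^ t := by ring
      exact ⟨(law7 T.wl r r0 (Or.inl ⟨rfl, rfl, rfl⟩) n7 t7 h1 h3 a1 a2 a3 a4).trans
          (e7.le.trans h8),
        (law7 T.wl r r0 (Or.inr ⟨rfl, rfl, rfl⟩) n8 t8 h2 h4 a1 a2 a3 a4).trans
          (e7.le.trans h8)⟩) hγ ht hO (bA y {7, 8}) (bA y {3, 4, 7, 8}) 0 (bA y {7, 8}) l1 l2 l3 l1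
    (fun s => by
      show (0 : ℝ) ≤ bA y {7, 8} s
      unfold bA; split_ifs <;> first | exact le_rfl | assumption)
    (fun s => Or.inr le_rfl) hyt (bA_of (by decide)).ge (bA_of (by decide)).ge
    (bA_of (by decide)).ge (bA_of (by decide)).ge (bA_of (by decide)).le (bA_of (by decide)).le
    (fun s h3 h4 => by
      by_cases hs : s ∈ ({3, 4, 7, 8} : Finset (Fin 12))
      · rw [bA_of hs, bA_of]
        have : ∀ s : Fin 12, s ≠ 3 → s ≠ 4 → s ∈ ({3, 4, 7, 8} : Finset (Fin 12)) →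
            s ∈ ({7, 8} : Finset (Fin 12)) := by decide
        exact this s h3 h4 hs
      · rw [bA_off hs]
        unfold bA; split_ifs <;> first | exact le_rfl | assumption)
  rw [T.nu_eq hw z1, T.nu_eq hw z2, T.nu_eq hw z3] at key
  linarith

end Crest.Agent.R116.Tw369
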