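import Crest.Agent.R116.TieW4_369
import Crest.Agent.R116.TwU2_369
import Crest.Agent.R116.Tq3_794
import Crest.Agent.R116.Tq4_741

/-!
# R116, ties (helper369): from `LinS Z` to the windows

* `tan_Z`     : `LinS Z Λ w R` gives a tangent `lam3` of `f` at the moving base
                `X (ψ m) + H (ψ m) • E w`, with `lam3 (E d) = -(Ψ d + Σ R t d t)`
* `EMd E M`   : the two boxes of a class vector (`em8 : EMd E8 LM0`, `em9 : EMd E9 LM`)
* `Rs`        : the base raised in `G`, `D` (`dE`) or in `D` (`dK`), formula `Rs.lam`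
* `slk`       : slack walls at the raised base
-/

set_option autoImplicit false
set_option linter.unusedVariables false
set_option linter.unusedSectionVars false

open Set Filter Topology

namespace Crest.Agent.R116.Tw369

open Crest.Agent.R138
open Crest.Agent.R138.Ex926 (Base IsTan)
open Crest.Agent.R136
open Crest.Agent.R136.Net191
open Crest.Agent.R136.Qg926 Crest.Agent.R136.Gf356 Crest.Agent.R116.EvL504
open Crest.Agent.R116.ChL222
open Crest.Agent.R116.Sg337 (bx9)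
open Crest.Agent.R116.RbM219
open Crest.Agent.R116.SgF665 (wl wl_add wl_smul LM0)
open Crest.Agent.R116.WinG954 (LM)
open Crest.Agent.R116.Tq741 Crest.Agent.R116.Tq794
open Crest.Agent.R116.PL504 (rL βL)

section adapter

variable {P M : Set (Fin 12 → ℝ)} {f lam2 : (Fin 12 → ℝ) → ℝ} {X : ℕ → Fin 12 → ℝ} {H : ℕ → ℝ}
  {E : V9 → Fin 12 → ℝ} {w R : V9} {Z : Finset (Fin 9)}

/-- **from `LinS Z` to a tangent at the moving base** -/
theorem tan_Z (hMc : IsClosed M) (hM0 : (0 : Fin 12 → ℝ) ∈ M)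
    (hMa : ∀ p ∈ M, ∀ q ∈ M, p + q ∈ M) (hMs : ∀ t : ℝ, 0 ≤ t → ∀ p ∈ M, t • p ∈ M)
    (hpos : ∀ l, 0 < H l) (ht : IsTan P M f X H lam2)
    (hlip : ∃ K : ℝ, 0 ≤ K ∧ ∀ p ∈ M, ∀ q ∈ M, |lam2 p - lam2 q| ≤ K * ‖p - q‖)
    (hanti : ∀ p ∈ M, ∀ q ∈ M, p ≤ q → lam2 q ≤ lam2 p)
    (hE : ∀ (w d : V9) (t : ℝ), E (w + t • d) = E w + t • E d) (hw : E w ∈ M)
    (hL : LinS Z (fun w => lam2 (E w)) w R)
    {Pr : ℕ → ℕ → Prop} (hPr : ∀ m, ∀ᶠ l in atTop, Pr m l) :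
    ∃ (ψ : ℕ → ℕ) (h' : ℕ → ℝ) (lam3 : (Fin 12 → ℝ) → ℝ) (Ψ : V9 → ℝ), StrictMono ψ ∧
      (∀ m, Pr m (ψ m)) ∧ (∀ m, 0 < h' m) ∧ Tendsto h' atTop (𝓝 0) ∧
      IsTan P M f (fun m => X (ψ m) + H (ψ m) • E w) (fun m => H (ψ m) * h' m) lam3 ∧
      (∀ p ∈ M, ∀ q ∈ M, p ≤ q → lam3 q ≤ lam3 p) ∧
      (∀ d d', (∀ t ∈ Z, d t = d' t) → LegM 0 d → LegM 0 d' → Ψ d = Ψ d') ∧
      ∀ d, LegM 0 d → E d ∈ M → lam3 (E d) = -(Ψ d + ∑ t ∈ Zᶜ, R t * d t) := by
  obtain ⟨h, Ψ, hp, h0, hΨ, hd⟩ := hL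
  obtain ⟨K, hK, hlip⟩ := hlip
  obtain ⟨φ, hφ, lam3, hT⟩ := Rc683.exists_tan (J := Unit) (P := fun _ => M) (D := fun _ => M)
    (fun _ => hMc) (ν := fun _ => lam2) hK (fun _ => hlip) (x := fun _ => E w) (h := h) hp
    (fun _ C => Eventually.of_forall fun l c hc _ => hMa _ hw _ (hMs _ (hp l).le _ hc))
    (fun _ => hM0)
  have hT := hT ()
  have hp' : ∀ m, 0 < h (φ m) := fun m => hp _
  obtain ⟨ψ, hψ, hPψ, hTT⟩ := Rc683.diag hpos ht hw hp' hT hPr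
  have z := tan_zero hp' hT hM0
  have lim : ∀ c ∈ M, Tendsto (fun m => (lam2 (E w + h (φ m) • c) - lam2 (E w)) / h (φ m)) atTop
      (𝓝 (lam3 () c)) := by
    intro c hc
    have h1 := SgO219.tan_lim hp' hT hc hM0
    rw [z, sub_zero] at h1
    refine h1.congr fun m => ?_
    rw [smul_zero, add_zero]
  refine ⟨ψ, fun m => h (φ m), lam3 (), Ψ, hψ, hPψ, hp', h0.comp hφ.tendsto_atTop, hTT, ?_, hΨ,
    fun d hdl hdM => ?_⟩
  · intro p hpM q hqM hpq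
    refine le_of_tendsto_of_tendsto' (lim q hqM) (lim p hpM) fun m => ?_
    refine div_le_div_of_nonneg_right ?_ (hp' m).le
    have := hanti (E w + h (φ m) • p) (hMa _ hw _ (hMs _ (hp' m).le _ hpM))
      (E w + h (φ m) • q) (hMa _ hw _ (hMs _ (hp' m).le _ hqM)) (by
        intro i
        have := mul_le_mul_of_nonneg_left (hpq i) (hp' m).le
        simp only [Pi.add_apply, Pi.smul_apply, smul_eq_mul]
        linarith)
    linarith
  · refine tendsto_nhds_unique (lim _ hdM) (((hd d hdl).comp hφ.tendsto_atTop).congr fun m => ?_)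
    simp only [Function.comp]
    rw [hE]

end adapter

/-- the box of a class vector: `E8`, `LM0` (`D` frozen) or `E9`, `LM` (`D` live) -/
structure EMd (E : V9 → Fin 12 → ℝ) (M : Set (Fin 12 → ℝ)) : Prop where
  cl : IsClosed M
  z : (0 : Fin 12 → ℝ) ∈ M
  ad : ∀ p ∈ M, ∀ q ∈ M, p + q ∈ M
  sm : ∀ t : ℝ, 0 ≤ t → ∀ p ∈ M, t • p ∈ M
  lin : ∀ (w d : V9) (t : ℝ), E (w + t • d) = E w + t • E d
  mem : ∀ {w : V9}, LegM 0 w → E w ∈ M
  eq9 : ∀ {w : V9}, w 8 = 0 → E w = E9 w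
  off : ∀ (w : V9) (k : Fin 12), k ≠ 1 → E w k = E9 w k

theorem em8 : EMd E8 LM0 where
  cl := LM0_closed
  z := by rw [← E8_zero]; exact E8_mem leg_zero
  ad := fun p hp q hq => LM0_add hp hq
  sm := fun t ht p hp => LM0_smul ht hp
  lin := E8_add
  mem := fun h => E8_mem h
  eq9 := by
    intro w hw
    unfold E8 E9
    rw [hw]
  off := by
    intro w k hk
    fin_cases k <;> first | rfl | exact absurd rfl hk

theorem em9 : EMd E9 LM where
  cl := LM_closed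
  z := by rw [← E9_zero]; exact E9_mem leg_zero
  ad := fun p hp q hq => LM_add hp hq
  sm := fun t ht p hp => LM_smul ht hp
  lin := E9_add
  mem := fun h => E9_mem h
  eq9 := fun _ => rfl
  off := fun _ _ _ => rfl

theorem EMd.zero {E : V9 → Fin 12 → ℝ} {M : Set (Fin 12 → ℝ)} (em : EMd E M) : E 0 = 0 := by
  rw [em.eq9 rfl, E9_zero]

/-! ### the raised cone -/

/-- raise `G` and `D` -/
def dE : V9 := ![0, 0, 0, 0, 0, 0, 0, 1, 2]

/-- raise `D` -/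
def dK : V9 := ![0, 0, 0, 0, 0, 0, 0, 0, 2]

/-- `a` in slot `1`, `b` in slot `2` -/
def cc (a b : ℝ) : Fin 12 → ℝ := fun k => if k = 1 then a else if k = 2 then b else 0

theorem E8_dE : E8 dE = cc 0 1 := by
  funext k; fin_cases k <;> simp [E8, bx9, dE, cc]

theorem E9_dE : E9 dE = cc 2 1 := by
  funext k; fin_cases k <;> simp [E9, bx9, dE, cc]

theorem E8_dK : E8 dK = cc 0 0 := by
  funext k; fin_cases k <;> simp [E8, bx9, dK, cc]

theorem E9_dK : E9 dK = cc 2 0 := by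
  funext k; fin_cases k <;> simp [E9, bx9, dK, cc]

theorem wl_nn {e : Fin 12 → ℕ} {p : Fin 12 → ℝ} (hp : ∀ s, 0 ≤ p s) {s : Fin 12} (hs : e s ≠ 0) :
    p s ≤ wl e p := by
  have := sum_ge hp hs
  exact this

/-- one wall of the raised cone -/
theorem rz_wall {Dr : Finset (Fin 12)} {t : ℝ} {c c0 : Fin 12 → ℝ} (hc : c ∈ Leg (monX Dr) t)
    (h0 : ∀ k, 0 ≤ c0 k) {k : Fin 12} {e : Fin 12 → ℕ} (he : e ∈ monL.mon k)
    (h : ((∀ s ∈ Dr, e s = 0) ∧ c0 k = 0) ∨ ∃ s, e s ≠ 0 ∧ c0 k + t ≤ c0 s) :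
    (c0 + c) k ≤ wl e (c0 + c) := by
  have hc0 : ∀ s, 0 ≤ c s := fun s => hc.1.nonneg s
  rw [wl_add, Pi.add_apply]
  rcases h with ⟨h1, h2⟩ | ⟨s, h1, h2⟩
  · have h3 : c k ≤ wl e c := hc.1.2 k e (mem_monX.2 ⟨he, h1⟩)
    have h4 : 0 ≤ wl e c0 := Finset.sum_nonneg fun s _ => mul_nonneg (Nat.cast_nonneg _) (h0 s)
    rw [h2]
    linarith
  · have h3 := wl_nn h0 h1
    have h4 : 0 ≤ wl e c := Finset.sum_nonneg fun s _ => mul_nonneg (Nat.cast_nonneg _) (hc0 s)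
    have h5 := hc.2 k
    linarith

theorem mon1 : ∀ k : Fin 12, ∀ e ∈ monL.mon k, k ≠ 0 ∧ k ≠ 1 := by decide +kernel

theorem mon2 : ∀ k : Fin 12, ∀ e ∈ monL.mon k, e 1 = 0 → k ≠ 2 := by decide +kernel

/-- the raised cone is inside `M` -/
def Rz (M : Set (Fin 12 → ℝ)) (Dr : Finset (Fin 12)) (e0 : Fin 12 → ℝ) : Prop :=
  ∀ t : ℝ, 0 ≤ t → ∀ c ∈ Leg (monX Dr) t, t • e0 + c ∈ M

theorem cc_nn {a b t : ℝ} (ha : 0 ≤ a) (hb : 0 ≤ b) (ht : 0 ≤ t) (k : Fin 12) :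
    0 ≤ (t • cc a b) k := by
  simp only [Pi.smul_apply, smul_eq_mul]
  unfold cc
  split_ifs <;> positivity

theorem cc_off {a b t : ℝ} {k : Fin 12} (h1 : k ≠ 1) (h2 : k ≠ 2) : (t • cc a b) k = 0 := by
  simp only [Pi.smul_apply, smul_eq_mul]
  unfold cc
  rw [if_neg h1, if_neg h2, mul_zero]

theorem cc1 {a b t : ℝ} : (t • cc a b) 1 = t * a := rfl

theorem cc2 {a b t : ℝ} : (t • cc a b) 2 = t * b := rfl

theorem rz8E : Rz LM0 {1, 2} (E8 dE) := by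
  intro t ht c hc
  rw [E8_dE]
  intro k e he h1
  obtain ⟨k0, k1⟩ := mon1 k e he
  have k2 := mon2 k e he h1
  refine rz_wall hc (fun k => cc_nn le_rfl zero_le_one ht k) he ?_
  rw [cc_off k1 k2]
  by_cases h2 : e 2 = 0
  · exact Or.inl ⟨fun s hs => by
      rcases Finset.mem_insert.1 hs with rfl | hs
      · exact h1
      · rw [Finset.mem_singleton.1 hs]; exact h2, rfl⟩
  · exact Or.inr ⟨2, h2, by rw [cc2]; linarith⟩

theorem rz9E : Rz LM {1, 2} (E9 dE) := by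
  intro t ht c hc
  rw [E9_dE]
  intro k e he
  obtain ⟨k0, k1⟩ := mon1 k e he
  refine rz_wall hc (fun k => cc_nn (by norm_num) zero_le_one ht k) he ?_
  by_cases h1 : e 1 = 0
  · have k2 := mon2 k e he h1
    rw [cc_off k1 k2]
    by_cases h2 : e 2 = 0
    · exact Or.inl ⟨fun s hs => by
        rcases Finset.mem_insert.1 hs with rfl | hs
        · exact h1
        · rw [Finset.mem_singleton.1 hs]; exact h2, rfl⟩
    · exact Or.inr ⟨2, h2, by rw [cc2]; linarith⟩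
  · refine Or.inr ⟨1, h1, ?_⟩
    by_cases k2 : k = 2
    · rw [k2, cc2, cc1]; linarith
    · rw [cc_off k1 k2, cc1]; linarith

theorem rz8K : Rz LM0 {1} (E8 dK) := by
  intro t ht c hc
  rw [E8_dK]
  intro k e he h1
  obtain ⟨k0, k1⟩ := mon1 k e he
  have k2 := mon2 k e he h1
  refine rz_wall hc (fun k => cc_nn le_rfl le_rfl ht k) he ?_
  rw [cc_off k1 k2]
  exact Or.inl ⟨fun s hs => by rw [Finset.mem_singleton.1 hs]; exact h1, rfl⟩

theorem rz9K : Rz LM {1} (E9 dK) := by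
  intro t ht c hc
  rw [E9_dK]
  intro k e he
  obtain ⟨k0, k1⟩ := mon1 k e he
  refine rz_wall hc (fun k => cc_nn (by norm_num) le_rfl ht k) he ?_
  by_cases h1 : e 1 = 0
  · have k2 := mon2 k e he h1
    rw [cc_off k1 k2]
    exact Or.inl ⟨fun s hs => by rw [Finset.mem_singleton.1 hs]; exact h1, rfl⟩
  · refine Or.inr ⟨1, h1, ?_⟩
    by_cases k2 : k = 2
    · rw [k2, cc2, cc1]; linarith
    · rw [cc_off k1 k2, cc1]; linarith

/-- the formula of the raised tangent -/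
theorem lam_eq {E : V9 → Fin 12 → ℝ} {M : Set (Fin 12 → ℝ)} (em : EMd E M)
    {lam3 : (Fin 12 → ℝ) → ℝ} {Ψ : V9 → ℝ} {R : V9} {Z : Finset (Fin 9)}
    (hf : ∀ d, LegM 0 d → E d ∈ M → lam3 (E d) = -(Ψ d + ∑ t ∈ Zᶜ, R t * d t)) {d d0 : V9}
    {t : ℝ} (h0 : LegM 0 (t • d0)) (h : LegM 0 (d + t • d0)) :
    lam3 (t • E d0 + E d) - lam3 (t • E d0) =
      -(Ψ (d + t • d0) - Ψ (t • d0) + ∑ u ∈ Zᶜ, R u * d u) := by
  have e1 : t • E d0 = E (t • d0) := by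
    have := em.lin 0 d0 t
    rw [em.zero, zero_add, zero_add] at this
    exact this.symm
  have e2 : t • E d0 + E d = E (d + t • d0) := by rw [em.lin, add_comm]
  rw [e2, e1, hf _ h (em.mem h), hf _ h0 (em.mem h0)]
  have e3 : ∑ u ∈ Zᶜ, R u * (d + t • d0) u =
      ∑ u ∈ Zᶜ, R u * d u + ∑ u ∈ Zᶜ, R u * (t • d0) u := by
    rw [← Finset.sum_add_distrib]
    exact Finset.sum_congr rfl fun u _ => by rw [Pi.add_apply]; ring
  rw [e3]
  ring

/-! ### the raised base -/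

section base

variable {X : ℕ → Fin 12 → ℝ} {H : ℕ → ℝ} {ew c0 : Fin 12 → ℝ} {ψ : ℕ → ℕ} {h' : ℕ → ℝ}

/-- the raised base -/
def Xs (X : ℕ → Fin 12 → ℝ) (H : ℕ → ℝ) (ew c0 : Fin 12 → ℝ) (ψ : ℕ → ℕ) (h' : ℕ → ℝ) (m : ℕ) :
    Fin 12 → ℝ := (X (ψ m) + H (ψ m) • ew) + (H (ψ m) * h' m) • c0

theorem Xs_apply (m : ℕ) (k : Fin 12) :
    Xs X H ew c0 ψ h' m k = X (ψ m) k + H (ψ m) * ew k + H (ψ m) * h' m * c0 k := rfl

/-- a tight wall -/
theorem Xs_tight {i j k : Fin 12} (hX : ∀ l, X l k = X l i + X l j) (hw : ew k = ew i + ew j)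
    (hc : c0 k = c0 i + c0 j) (m : ℕ) :
    Xs X H ew c0 ψ h' m k = Xs X H ew c0 ψ h' m i + Xs X H ew c0 ψ h' m j := by
  rw [Xs_apply, Xs_apply, Xs_apply, hX, hw, hc]
  ring

/-- how a wall is slack -/
def Slw (X : ℕ → Fin 12 → ℝ) (H : ℕ → ℝ) (ew : Fin 12 → ℝ) (i j k : Fin 12) : Prop :=
  ((∀ᶠ l in atTop, X l k ≤ X l i + X l j) ∧ ew k < ew i + ew j) ∨
    ∀ K : ℝ, ∀ᶠ l in atTop, X l k + K * H l ≤ X l i + X l j

/-- **a slack wall** -/
theorem Xs_slack (hpos : ∀ l, 0 < H l) (hψ : StrictMono ψ) (hp' : ∀ m, 0 < h' m)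
    (h0' : Tendsto h' atTop (𝓝 0)) {i j k : Fin 12} (hs : Slw X H ew i j k) (t : ℝ) :
    ∀ᶠ m in atTop, Xs X H ew c0 ψ h' m k + t * (H (ψ m) * h' m) ≤
      Xs X H ew c0 ψ h' m i + Xs X H ew c0 ψ h' m j := by
  set C : ℝ := |t| + |c0 i + c0 j - c0 k| with hC
  have hC0 : 0 ≤ C := by positivity
  have e : t - (c0 i + c0 j - c0 k) ≤ C := by
    have h1 := le_abs_self t
    have h2 := neg_abs_le (c0 i + c0 j - c0 k)
    rw [hC]; linarith
  have hlim : Tendsto (fun m => h' m * C) atTop (𝓝 0) := by simpa using h0'.mul_const C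
  rcases hs with ⟨h1, h2⟩ | h1
  · have h3 : ∀ᶠ m in atTop, h' m * C < ew i + ew j - ew k :=
      hlim.eventually_lt_const (by linarith)
    filter_upwards [hψ.tendsto_atTop.eventually h1, h3] with m m1 m2
    rw [Xs_apply, Xs_apply, Xs_apply]
    have p := hpos (ψ m)
    have q1 := mul_le_mul_of_nonneg_left m2.le p.le
    have q2 := mul_le_mul_of_nonneg_left e (mul_pos p (hp' m)).le
    nlinarith
  · have h3 : ∀ᶠ m in atTop, h' m * C < 1 := hlim.eventually_lt_const one_pos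
    filter_upwards [hψ.tendsto_atTop.eventually (h1 (1 + |ew i + ew j - ew k|)), h3] with m m1 m2
    rw [Xs_apply, Xs_apply, Xs_apply]
    have p := hpos (ψ m)
    have q1 := mul_le_mul_of_nonneg_left m2.le p.le
    have q2 := mul_le_mul_of_nonneg_left e (mul_pos p (hp' m)).le
    have q3 := mul_le_mul_of_nonneg_left (neg_abs_le (ew i + ew j - ew k)) p.le
    nlinarith

theorem tend_hh (h0 : Tendsto H atTop (𝓝 0)) (hψ : StrictMono ψ)
    (h0' : Tendsto h' atTop (𝓝 0)) : Tendsto (fun m => H (ψ m) * h' m) atTop (𝓝 0) := by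
  have := (h0.comp hψ.tendsto_atTop).mul h0'
  simpa using this

/-- the limit of the raised base -/
theorem Xs_lim (h0 : Tendsto H atTop (𝓝 0)) (hψ : StrictMono ψ)
    (h0' : Tendsto h' atTop (𝓝 0)) {k : Fin 12} {x : ℝ} (hX : Tendsto (fun l => X l k) atTop (𝓝 x)) :
    Tendsto (fun m => Xs X H ew c0 ψ h' m k) atTop (𝓝 x) := by
  have h1 := (hX.comp hψ.tendsto_atTop).add ((h0.comp hψ.tendsto_atTop).mul_const (ew k))
  have h2 := h1.add ((tend_hh h0 hψ h0').mul_const (c0 k))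
  simpa [Xs, Function.comp_def] using h2

/-- **the raised base is a base point of a tie window** -/
theorem Xs_base {θ0 θ1 w0 sa sb v0 : ℝ} {S : Finset (Fin 12)} {v : ℕ → ℝ}
    (hb : TBase θ0 θ1 w0 sa sb v0 S X v) (h0 : Tendsto H atTop (𝓝 0)) (hψ : StrictMono ψ) {u : ℝ}
    (hu : ew 0 = u) (hS : ∀ k ∈ S, ew k = βL θ0 θ1 k * u) (hc0 : c0 0 = 0)
    (hc : ∀ k ∈ S, c0 k = 0) :
    TBase θ0 θ1 w0 sa sb v0 S (Xs X H ew c0 ψ h') (fun m => v (ψ m) + H (ψ m) * u) where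
  v00 := hb.v00
  v01 := hb.v01
  hv := by
    have := (hb.hv.comp hψ.tendsto_atTop).add ((h0.comp hψ.tendsto_atTop).mul_const u)
    simpa [Function.comp_def] using this
  z := by
    intro m
    rw [Xs_apply, hb.z, hu, hc0]
    ring
  tie := by
    intro m k hk
    rw [Xs_apply, hb.tie _ k hk, hS k hk, hc k hk, PL504.rL_lin θ0 θ1 w0 sa sb (v (ψ m)) k,
      PL504.rL_lin θ0 θ1 w0 sa sb (v (ψ m) + H (ψ m) * u) k]
    ring

end base

end Crest.Agent.R116.Tw369
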