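import Crest.Agent.R116.Th1_171
import Crest.Agent.R116.Pe1_794
import Crest.Agent.R116.Pu4_171
import Crest.Agent.R116.Tq4_126
import Crest.Agent.R116.Sd3_538
import Crest.Agent.R116.KTie_794
import Crest.Agent.R116.TwF1_369

/-!
# R116, ties, `1/2 ≤ s`: the half plane above the record over the context (helper171)

* `pd9_fctP`  : P1, P2 at the plane data `Pd9` of any offset with the five class equalities
* `eUp_pd`    : `Pd9` of `oSe e` + W3 ⊢ `False`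
* **`eUp_ctx`** : `CtxT`, `D` invisible, `1/2 ≤ s`, `0 < k < 1`, `θ ≤ (1+k)/2` ⊢ `False`
-/

set_option autoImplicit false
set_option linter.unusedSectionVars false
set_option linter.unusedVariables false

open Set Filter Topology MeasureTheory

namespace Crest.Agent.R116.Th171

open Crest.Agent.R138
open Crest.Agent.R138.Ex926 (Base U IsTan)
open Crest.Agent.R136
open Crest.Agent.R136.MkA627
open Crest.Agent.R136.TD627
open Crest.Agent.R136.Net191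
open Crest.Agent.R136.Lq196
open Crest.Agent.R136.Qg926 Crest.Agent.R136.Gf356 Crest.Agent.R116.EvL504
open Crest.Agent.R116.ChL222
open Crest.Agent.R116.PL504 (nb rL DN eL βL oL Shift)
open Crest.Agent.R116.Sg337 (bx9 DL)
open Crest.Agent.R116.Gd222 (TSet sN PDL DT)
open Crest.Agent.R116.KI439
open Crest.Agent.R116.KF439 (PL)
open Crest.Agent.R116.KTop387
open Crest.Agent.R116.CtxB468
open Crest.Agent.R116.Rcx363
open Crest.Agent.R116.RbM219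
open Crest.Agent.R116.RbK219
open Crest.Agent.R116.Kz647
open Crest.Agent.R116.Pd363
open Crest.Agent.R116.WinG954 (LM)
open Crest.Agent.R116.Tq741
open Crest.Agent.R116.Tq794 (E9 E9_eq E9_mem E9_add LM_closed LM_L9B tw9 own_R own_prf e9_nonneg9)
open Crest.Agent.R116.Tq126
open Crest.Agent.R116.Tp139 (oSe DAl exists_DAl sok_oSe leg_oSe TVe tve tve_h tve_d)
open Crest.Agent.R116.Pu171 (FctP fctP9)
open Crest.Agent.R116.Sd538 (rD_oSe)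
open Crest.Agent.R116.KTie794 (Fill VisB VisE InvB InvE)

section pd

variable {G : Geo TSet (Fin 2)} {L : ℕ → ℕ → LRay} {r : ℕ → ℝ} {g s : ℝ} {θ q : Fin 2 → ℝ}
    {Rg : ℝ} {B : Base} {I : ℕ → Finset (ℕ × ℝ)} {lev : ℕ → ℚ → ℕ} {A : ℕ → ℝ}
    {f : ℕ → ℚ → ℕ → ℤ → ℕ} {b : ℕ → ℚ → ℕ → TSet} {vm : ℕ → ℚ → ℝ} {w : Fin 2 → ℕ → ℚ → ℝ}
    {fr : ℕ → ℚ → ℕ × ℝ → LInc} {fl : ℕ → ℕ × ℝ → LInc} {sc : Fin 12 → ℕ → ℝ}
    {w0 sa sb δ R : ℝ} {I0 I' : ℕ → Finset (ℕ × ℝ)} {ν own : (Fin 12 → ℝ) → ℝ} {c₀ : ℝ}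
    {a b' : Fin 2} {Vis' : Fin 12 → Prop} {v0 κ sg l α : ℝ} {lam lam2 : Fin 2 → (Fin 12 → ℝ) → ℝ}
    {h' H : ℕ → ℝ} {X : ℕ → Fin 12 → ℝ} {Sk : V9 → Prop}

/-- **P1, P2 at the plane data** -/
theorem pd9_fctP {Bo ρ ρ2 : Fin 9 → ℝ}
    (P : Pd9 R s a b' Vis' (θ 0) (θ 1) w0 sa sb v0 κ Bo sg (fo ν own) lam ρ l α h' X H
      lam2 ρ2)
    (C : CtxT G L r g s θ q Rg B I lev A f b vm w fr fl sc w0 sa sb δ R I0 I' ν own c₀)
    (hs1 : s < 1)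
    (b1 : Bo 3 = Bo 0 + Bo 1) (b2 : Bo 5 = Bo 1 + Bo 3) (b3 : Bo 4 = Bo 0 + Bo 2)
    (b4 : Bo 4 = Bo 3 + Bo 6) (b5 : Bo 2 = Bo 1 + Bo 6)
    (hSk : ∀ w, LegM 0 w → Sk w → ∀ k, Vis' k → E9 w k ≤ w 0 * βL (θ 0) (θ 1) k) :
    FctP Sk (fun w => lam2 0 (RL9.vec w)) := by
  have ht : ∀ j, IsTan (Leg monL R) LM (fo ν own j) X H (lam2 j) := fun j =>
    Rc683.tan_mono (P.tan j) Subset.rfl LM_L9B
  have Hp := P.prf.mono (LM_L9B (θa := θ 0) (θb := θ 1) (B := Bo) (sg := sg))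
  have hN := RowU388.nprof_T C
  have hcoc : ∀ n, Coc (PL504.coN B lev w w0 sa sb fl n) :=
    fun n => Sd369.coc_N B lev w w0 sa sb fl n
  have hlip : ∃ K : ℝ, 0 ≤ K ∧ ∀ j, ∀ p ∈ LM, ∀ q ∈ LM,
      |lam2 j p - lam2 j q| ≤ K * ‖p - q‖ := by
    refine ⟨12, by norm_num, fun j p hp' q hq' => ?_⟩
    have := SgO219.tan_lip P.pos (ht j) (K := 12) (fo_lip C j) p hp' q hq'
    rwa [dist_eq_norm] at this
  have hW := tw9 P b1 b2 b3 b4 b5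
  have key : FctP Sk (fun w => lam2 0 (E9 w)) := by
    refine fctP9 (ν := ν) (f := fo ν own) (j0 := (0 : Fin 2)) hN hcoc (fun _ => (0, 0))
      Tw369.em9.cl Tw369.em9.z Tw369.em9.ad Tw369.em9.sm Subset.rfl P.pos P.lim ht rfl hlip
      (Eventually.of_forall hW.x1) (Eventually.of_forall hW.x2) (Eventually.of_forall hW.x5)
      (σ := 1 - s) (by linarith) (fun w R' hw hS hL => ?_)
    exact own_R (s := s) (M := LM) (fun d hd => E9_mem hd) E9_add hw hL fun t ht' =>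
        own_prf Hp (fun d hd => E9_mem hd) E9_add (fun _ => rfl) e9_nonneg9 hw
          (hSk w hw hS) ht'
  simpa only [E9_eq] using key

end pd

/-! ### the class tables -/

section tab

variable {k : ℝ}

theorem al_cS (hk1 : k ≠ 1) : Al (cS k) 1 ∧ Al (cS k) 3 ∧ Al (cS k) 4 ∧ Al (cS k) 8 := by
  refine ⟨?_, ?_, ?_, ?_⟩ <;> refine Tp139.all9 ?_ ?_ ?_ ?_ ?_ ?_ ?_ ?_ ?_ <;> intro h <;>
    revert h <;> simp only [cS0, cS1, cS2, cS3, cS4, cS5, cS6, cS7, cS8, if_neg hk1] <;>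
    (try split_ifs) <;> decide

theorem al_cS' (hk1 : k ≠ 1) (hk2 : k ≠ 1 / 2) : Al (cS k) 2 ∧ Al (cS k) 5 := by
  refine ⟨?_, ?_⟩ <;> refine Tp139.all9 ?_ ?_ ?_ ?_ ?_ ?_ ?_ ?_ ?_ <;> intro h <;>
    revert h <;> simp only [cS0, cS1, cS2, cS3, cS4, cS5, cS6, cS7, cS8, if_neg hk1, if_neg hk2] <;>
    decide

theorem z_cS' (hk1 : k ≠ 1) : ∀ t, cS k t = cS k 0 ↔ t = 0 ∨ t = 6 ∨ t = 7 := by
  refine Tp139.all9 ?_ ?_ ?_ ?_ ?_ ?_ ?_ ?_ ?_ <;>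
    simp only [cS0, cS1, cS2, cS3, cS4, cS5, cS6, cS7, cS8, if_neg hk1] <;>
    (try split_ifs) <;> decide

theorem al_cSd : Al cSd 1 ∧ Al cSd 3 ∧ Al cSd 4 := by
  refine ⟨?_, ?_, ?_⟩ <;> unfold Al <;> decide

theorem z_cSd' : ∀ t, cSd t = cSd 0 ↔ t = 0 ∨ t = 6 ∨ t = 7 := by decide

end tab

/-! ### the joint increment -/

section joint

variable {c : Fin 9 → Fin 9} {dl : V9} {s : ℝ} {Λ : V9 → ℝ} {φ : Fin 9 → V9 → ℝ} {ρ : V9}

theorem uD_off {e : ℝ} : ∀ t : Fin 9, t ≠ 2 → t ≠ 5 → t ≠ 8 → uD e t = 0 := by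
  refine Tp139.all9 ?_ ?_ ?_ ?_ ?_ ?_ ?_ ?_ ?_ <;> intro h2 h5 h8 <;>
    first | rfl | exact absurd rfl h2 | exact absurd rfl h5 | exact absurd rfl h8

theorem incrJ (H : Cl9 c dl s Λ φ ρ) {v u : V9} (hv : LegM 0 v) (hvu : LegM 0 (v + u))
    {S : Finset (Fin 9)} (hS : ∀ k, k ∉ S → ∀ t, c t = k → u t = 0) :
    Λ v - Λ (v + u) = ∑ k ∈ S, (φ k v - φ k (v + u)) := by
  rw [H.sum v hv, H.sum _ hvu, ← Finset.sum_sub_distrib]
  refine (Finset.sum_subset (Finset.subset_univ S) fun k _ hk => ?_).symm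
  rw [H.loc k v (v + u) fun t ht => by rw [Pi.add_apply, hS k hk t ht, add_zero], sub_self]

/-- one slot alone -/
theorem inc1 (H : Cl9 c dl s Λ φ ρ) {t : Fin 9} (ht : Al c t) (v u : V9) :
    φ (c t) v - φ (c t) (v + u) = u t * ρ t := by
  rw [H.rate t v fun t' ht' => by rw [ht t' ht'],
    H.rate t (v + u) fun t' ht' => by rw [ht t' ht'], Pi.add_apply]
  ring

/-- the class of `H` -/
theorem inc5 (H : Cl9 c dl s Λ φ ρ) {e : ℝ} {v : V9}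
    (hM : ∀ t', c t' = c 5 → v t' = 0) (hd : ∀ t', c t' = c 5 → uD e t' * dl 5 = 2 * dl t') :
    φ (c 5) v - φ (c 5) (v + uD e) = 2 * ρ 5 := by
  have u5 : uD e 5 = 2 := rfl
  rw [H.zero_of 5 hM, H.rate 5 (v + uD e) fun t' ht' => by
    rw [Pi.add_apply, Pi.add_apply, hM t' ht', hM 5 rfl, zero_add, zero_add, u5]
    exact hd t' ht', Pi.add_apply, hM 5 rfl, u5]
  ring

theorem J_A (H : Cl9 c dl s Λ φ ρ) (h2 : Al c 2) (h5 : Al c 5) (h8 : Al c 8) {e : ℝ} {v : V9}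
    (hv : LegM 0 v) (hvu : LegM 0 (v + uD e)) :
    Λ v - Λ (v + uD e) = ρ 2 + 2 * ρ 5 + e * ρ 8 := by
  have n25 : c 2 ≠ c 5 := fun h => absurd (h5 2 h) (by decide)
  have n28 : c 2 ≠ c 8 := fun h => absurd (h8 2 h) (by decide)
  have n58 : c 5 ≠ c 8 := fun h => absurd (h8 5 h) (by decide)
  rw [incrJ H hv hvu (S := {c 2, c 5, c 8}) ?_]
  · rw [Finset.sum_insert (by simp [n25, n28]), Finset.sum_insert (by simp [n58]),
      Finset.sum_singleton, inc1 H h2, inc1 H h5, inc1 H h8]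
    show (1:ℝ) * ρ 2 + (2 * ρ 5 + e * ρ 8) = _
    ring
  · intro k hk t ht
    simp only [Finset.mem_insert, Finset.mem_singleton, not_or] at hk
    refine uD_off t ?_ ?_ ?_
    · rintro rfl; exact hk.1 ht.symm
    · rintro rfl; exact hk.2.1 ht.symm
    · rintro rfl; exact hk.2.2 ht.symm

theorem J_B (H : Cl9 c dl s Λ φ ρ) (h25 : c 2 = c 5) (h8 : Al c 8)
    (hc : ∀ t', c t' = c 5 → t' = 2 ∨ t' = 5) (hd : dl 5 = 2 * dl 2) {e : ℝ} {v : V9}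
    (hv : LegM 0 v) (v2 : v 2 = 0) (v5 : v 5 = 0) (hvu : LegM 0 (v + uD e)) :
    Λ v - Λ (v + uD e) = 2 * ρ 5 + e * ρ 8 := by
  have n58 : c 5 ≠ c 8 := fun h => absurd (h8 5 h) (by decide)
  rw [incrJ H hv hvu (S := {c 5, c 8}) ?_]
  · rw [Finset.sum_insert (by simp [n58]), Finset.sum_singleton, inc1 H h8, inc5 H
      (fun t' ht' => by rcases hc t' ht' with rfl | rfl <;> assumption) (fun t' ht' => by
        rcases hc t' ht' with rfl | rfl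
        · show 1 * dl 5 = _
          rw [hd, one_mul]
        · rfl)]
    rfl
  · intro k hk t ht
    simp only [Finset.mem_insert, Finset.mem_singleton, not_or] at hk
    refine uD_off t ?_ ?_ ?_
    · rintro rfl; exact hk.1 (ht.symm.trans h25)
    · rintro rfl; exact hk.1 ht.symm
    · rintro rfl; exact hk.2 ht.symm

theorem J_C (H : Cl9 c dl s Λ φ ρ) (h25 : c 2 = c 5) (h85 : c 8 = c 5)
    (hc : ∀ t', c t' = c 5 → t' = 2 ∨ t' = 5 ∨ t' = 8) (hd : dl 5 = 2 * dl 2) {e : ℝ}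
    (hd8 : e * dl 5 = 2 * dl 8) {v : V9}
    (hv : LegM 0 v) (v2 : v 2 = 0) (v5 : v 5 = 0) (v8 : v 8 = 0) (hvu : LegM 0 (v + uD e)) :
    Λ v - Λ (v + uD e) = 2 * ρ 5 := by
  rw [incrJ H hv hvu (S := {c 5}) ?_]
  · rw [Finset.sum_singleton, inc5 H
      (fun t' ht' => by rcases hc t' ht' with rfl | rfl | rfl <;> assumption) (fun t' ht' => by
        rcases hc t' ht' with rfl | rfl | rfl
        · show 1 * dl 5 = _
          rw [hd, one_mul]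
        · rfl
        · exact hd8)]
  · intro k hk t ht
    simp only [Finset.mem_singleton] at hk
    refine uD_off t ?_ ?_ ?_
    · rintro rfl; exact hk (ht.symm.trans h25)
    · rintro rfl; exact hk ht.symm
    · rintro rfl; exact hk (ht.symm.trans h85)

end joint

/-! ### the plane -/

/-- slots which may be visible -/
def V3 (k : Fin 12) : Prop := k = 0 ∨ k = 2 ∨ k = 7 ∨ k = 8

/-- position condition -/
def Sk3 (θa θb : ℝ) (w : V9) : Prop := w 6 < (θa - θb) * w 0 ∧ w 7 < (2 * θa - θb) * w 0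

theorem sk3_vis {θa θb : ℝ} {w : V9} (h : Sk3 θa θb w) :
    ∀ k, V3 k → E9 w k ≤ w 0 * βL θa θb k := by
  rintro k (rfl | rfl | rfl | rfl)
  · show w 0 ≤ w 0 * 1
    linarith
  · show w 7 ≤ w 0 * (-θb - 2 * -θa)
    have := h.2
    linarith
  · show w 6 ≤ w 0 * (-θb - -θa)
    have := h.1
    linarith
  · show w 6 ≤ w 0 * (-θb - -θa)
    have := h.1
    linarith

section pd

variable {G : Geo TSet (Fin 2)} {L : ℕ → ℕ → LRay} {r : ℕ → ℝ} {g s : ℝ} {θ q : Fin 2 → ℝ}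
    {Rg : ℝ} {B : Base} {I : ℕ → Finset (ℕ × ℝ)} {lev : ℕ → ℚ → ℕ} {A : ℕ → ℝ}
    {f : ℕ → ℚ → ℕ → ℤ → ℕ} {b : ℕ → ℚ → ℕ → TSet} {vm : ℕ → ℚ → ℝ} {w : Fin 2 → ℕ → ℚ → ℝ}
    {fr : ℕ → ℚ → ℕ × ℝ → LInc} {fl : ℕ → ℕ × ℝ → LInc} {sc : Fin 12 → ℕ → ℝ}
    {w0 sa sb δ R : ℝ} {I0 I' : ℕ → Finset (ℕ × ℝ)} {ν own : (Fin 12 → ℝ) → ℝ} {c₀ : ℝ}
    {a b' : Fin 2} {v0 l α : ℝ} {lam lam2 : Fin 2 → (Fin 12 → ℝ) → ℝ}
    {h' H : ℕ → ℝ} {X : ℕ → Fin 12 → ℝ} {ρ ρ2 : Fin 9 → ℝ} {e : ℝ}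

/-- the own-strip fact (W3) at a position with natural `z`, `B`, `G` -/
def W3At (Λ : V9 → ℝ) : Prop :=
  ∀ w R, One 5 w → w 0 = 0 → w 6 = 0 → w 7 < 0 → LinS {0, 6, 7, 8} Λ w R → R 1 ≤ R 2

/-- **one plane, contradiction** -/
theorem eUp_pd
    (P : Pd9 R s a b' V3 (θ 0) (θ 1) w0 sa sb v0 (DL g s (q 0) (q 1) 0 1 1) (oSe e) 1 (fo ν own)
      lam ρ l α h' X H lam2 ρ2)
    (C : CtxT G L r g s θ q Rg B I lev A f b vm w fr fl sc w0 sa sb δ R I0 I' ν own c₀)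
    (hs : 1 / 2 ≤ s) (hs1 : s < 1) (he : 0 < e) (hc : 2 * s + e ≤ g) (hqa : 0 ≤ q 0)
    (hqb : 0 ≤ q 1) (hθ : 0 < θ 0) (hk : 0 < θ 0 - θ 1) (hk1 : θ 0 - θ 1 < 1)
    (hθ1 : θ 0 ≤ (1 + (θ 0 - θ 1)) / 2)
    (hd : DAl (θ 0) (θ 1) e ∨ (θ 0 = 1 / 2 ∧ θ 1 = 0)) (h0 : lam 0 0 = 0)
    (hrec : lam 0 (RL9.vec (nat9 1 (-(θ 0)) (-(θ 1)))) =
      DL g s (q 0) (q 1) 1 (-(θ 0)) (-(θ 1)))
    (hβ : 0 ≤ 2 * θ 0 - θ 1 - 1 ∨ (2 * θ 0 - θ 1 - 1 < 0 ∧ ρ 8 = 0))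
    (hW3 : W3At (fun w => lam2 0 (RL9.vec w))) : False := by
  have hb : θ 1 < θ 0 := by linarith
  have hb2 : θ 1 < 2 * θ 0 := by linarith
  have hS := sok_oSe (θ := θ 0) (θb := θ 1) he hb hb2
  have hF : FctP (Sk3 (θ 0) (θ 1)) (fun w => lam2 0 (RL9.vec w)) :=
    pd9_fctP P C hs1 (by change (1:ℝ) = 0 + 1; norm_num) (by change (2:ℝ) = 1 + 1; norm_num)
      (by change (1:ℝ) = 0 + 1; norm_num) (by change (1:ℝ) = 1 + 0; norm_num)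
      (by change (1:ℝ) = 1 + 0; norm_num) fun w _ hw => sk3_vis hw
  have hκ : DL g s (q 0) (q 1) 0 1 1 = -(4 + q 0 + q 1) := by unfold DL; ring
  have hH : Half9 (θ 0) (θ 1) (oSe e) 1 lam 0 ρ (-(4 + q 0 + q 1)) l α h' lam2 ρ2 := by
    rw [← hκ]; exact P.half
  have hb' : θ 1 = θ 0 - (θ 0 - θ 1) := by ring
  have dl5 : dl (nat9 1 (-(θ 0)) (-(θ 1))) (oSe e) 1 5 = 2 := by
    unfold dl
    rw [if_neg (by change (2:ℝ) ≠ 0; norm_num)]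
    change (1:ℝ) * 2 = 2
    norm_num
  have dl2 : dl (nat9 1 (-(θ 0)) (-(θ 1))) (oSe e) 1 2 = 1 := by
    unfold dl
    rw [if_neg (by change (1:ℝ) ≠ 0; norm_num)]
    change (1:ℝ) * 1 = 1
    norm_num
  have dl8 : dl (nat9 1 (-(θ 0)) (-(θ 1))) (oSe e) 1 8 = e := by
    unfold dl
    rw [if_neg (by change e ≠ 0; exact he.ne')]
    change (1:ℝ) * e = e
    ring
  have hk' : 0 < 2 * θ 0 - θ 1 := by linarith
  rcases hd with hd | ⟨hθh, hθ0⟩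
  · -- `D` is alone
    have hk1' : θ 0 - θ 1 ≠ 1 := hk1.ne
    obtain ⟨φ, hC⟩ := cl9_of9i hS P.half (PZi.of_prf P.prf fun k hk => hk)
      (hc_oSe he hθ hk hb' hd) (hz_oSe he hθ hk hb' hd)
    obtain ⟨al1, al3, al4, al8⟩ := al_cS hk1'
    have hβ' : 0 ≤ 2 * θ 0 - θ 1 - 1 ∨ (Al (cS (θ 0 - θ 1)) 8 ∧ ρ2 8 = 0) := by
      rcases hβ with h | ⟨h, h8⟩
      · exact Or.inl h
      · refine Or.inr ⟨al8, ?_⟩
        rw [hH.eq 8 (by
          change -(θ 1) - 2 * -(θ 0) - 1 ≠ 0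
          intro h1; linarith), h8]
    by_cases hkh : θ 0 - θ 1 = 1 / 2
    · refine eUp_false hC al1 al3 al4 (z_cS' hk1') hk hk1.le hk' he hb' hθ hθ1 hs hc hqa hqb hW3
        (Sk := Sk3 (θ 0) (θ 1)) (fun w _ h6 h7 => ⟨h6, h7⟩) hF
        (J := 2 * ρ2 5 + e * ρ2 8) (fun v hv v2 v5 v8 hvu => (J_B hC ?_ al8 ?_ ?_ hv v2 v5 hvu).ge)
        (fun r h d hJ _ h8 => ?_) hβ'
      · simp only [cS2, cS5, if_pos hkh]
      · rw [hkh]
        refine Tp139.all9 ?_ ?_ ?_ ?_ ?_ ?_ ?_ ?_ ?_ <;>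
          simp only [cS0, cS1, cS2, cS3, cS4, cS5, cS6, cS7, cS8] <;> norm_num <;> decide
      · rw [dl5, dl2]; norm_num
      · have h8' := h8 al8
        subst h8'
        exact tve_h hH h0 hrec he hθ hb2 hd hkh (by linarith)
    · obtain ⟨al2, al5⟩ := al_cS' hk1' hkh
      refine eUp_false hC al1 al3 al4 (z_cS' hk1') hk hk1.le hk' he hb' hθ hθ1 hs hc hqa hqb hW3
        (Sk := Sk3 (θ 0) (θ 1)) (fun w _ h6 h7 => ⟨h6, h7⟩) hF
        (J := ρ2 2 + 2 * ρ2 5 + e * ρ2 8)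
        (fun v hv v2 v5 v8 hvu => (J_A hC al2 al5 al8 hv hvu).ge)
        (fun r h d hJ h2 h8 => ?_) hβ'
      have h2' := h2 al2
      have h8' := h8 al8
      subst h2' h8'
      have hh : h = ρ2 5 := by linarith
      subst hh
      exact tve hH h0 hrec he hθ hb hb2 hd hk1' hkh
  · -- class `{C_b, H, D}`
    obtain ⟨φ, hC⟩ := cl9_of9i hS P.half (PZi.of_prf P.prf fun k hk => hk)
      (hc_oSd he hθh hθ0) (hz_oSd he hθh hθ0)
    obtain ⟨al1, al3, al4⟩ := al_cSd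
    refine eUp_false hC al1 al3 al4 z_cSd' hk hk1.le hk' he hb' hθ hθ1 hs hc hqa hqb hW3
      (Sk := Sk3 (θ 0) (θ 1)) (fun w _ h6 h7 => ⟨h6, h7⟩) hF
      (J := 2 * ρ2 5) (fun v hv v2 v5 v8 hvu => (J_C hC (by decide) (by decide) (by decide)
        (by rw [dl5, dl2]; norm_num) (by rw [dl5, dl8]; ring) hv v2 v5 v8 hvu).ge)
      (fun r h d hJ _ _ => ?_) (Or.inl (by rw [hθh, hθ0]; norm_num))
    exact tve_d hH h0 hrec he hθh hθ0 (by linarith)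

end pd

end Crest.Agent.R116.Th171
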