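import Crest.Agent.R116.TwF5_369

/-!
# R116, ties (helper171, after helper369's TwF4 / TwF5): (W3), (W2) at a base whose flags stand above
their natural values (planes `oS`, `oS9`, `oSe`)

* `NBaseU`, `PBaseU` : the walls with `G` are only `≤` at the base
* `u3U`, `u2U`       : (W3), (W2)
-/

set_option autoImplicit false
set_option linter.unusedVariables false
set_option linter.unusedSectionVars false

open Set Filter Topology

namespace Crest.Agent.R116.Th171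

open Crest.Agent.R138
open Crest.Agent.R138.Ex926 (Base U IsTan)
open Crest.Agent.R136
open Crest.Agent.R136.MkA627
open Crest.Agent.R136.TD627
open Crest.Agent.R136.Net191
open Crest.Agent.R136.Lq196
open Crest.Agent.R136.Qg926 Crest.Agent.R136.Gf356 Crest.Agent.R116.EvL504
open Crest.Agent.R116.ChL222
open Crest.Agent.R116.PL504 (nb rL DN eL βL oL Shift eL_wall)
open Crest.Agent.R116.Sg337 (bx9)
open Crest.Agent.R116.Gd222 (TSet sN PDL DT)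
open Crest.Agent.R116.KI439
open Crest.Agent.R116.KF439 (PL)
open Crest.Agent.R116.CtxB468
open Crest.Agent.R116.Kst593 Crest.Agent.R116.KW420
open Crest.Agent.R116.Rcx363 (fo fo_lip Prf)
open Crest.Agent.R116.RbM219
open Crest.Agent.R116.SgF665 (wl wl_add wl_smul LM0)
open Crest.Agent.R116.WinG954 (LM)
open Crest.Agent.R116.Tq741 Crest.Agent.R116.Tq794 Crest.Agent.R116.Tw369

variable {G : Geo TSet (Fin 2)} {L : ℕ → ℕ → LRay} {r : ℕ → ℝ} {g s : ℝ} {θ q : Fin 2 → ℝ}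
    {Rg : ℝ} {B : Base} {I : ℕ → Finset (ℕ × ℝ)} {lev : ℕ → ℚ → ℕ} {A : ℕ → ℝ}
    {f : ℕ → ℚ → ℕ → ℤ → ℕ} {b : ℕ → ℚ → ℕ → TSet} {vm : ℕ → ℚ → ℝ} {wt : Fin 2 → ℕ → ℚ → ℝ}
    {fr : ℕ → ℚ → ℕ × ℝ → LInc} {fl : ℕ → ℕ × ℝ → LInc} {sc : Fin 12 → ℕ → ℝ}
    {w0 sa sb δ R : ℝ} {I0 I' : ℕ → Finset (ℕ × ℝ)} {ν own : (Fin 12 → ℝ) → ℝ} {c₀ : ℝ}

/-- base on a plane above the record -/
structure NBaseU (E : V9 → Fin 12 → ℝ) (X : ℕ → Fin 12 → ℝ) (H : ℕ → ℝ) : Prop where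
  x5 : ∀ n, X n 5 = X n 0 + X n 3
  x6 : ∀ n, X n 6 = X n 0 + X n 4
  x7 : ∀ n, X n 7 ≤ X n 2 + X n 3
  x8 : ∀ n, X n 8 ≤ X n 2 + X n 4
  x11 : ∀ n, X n 11 = X n 0 + X n 10
  x11a : ∀ n, X n 11 = X n 5 + X n 7
  x11b : ∀ n, X n 11 = X n 6 + X n 8
  x10 : ∀ n, X n 10 = X n 3 + X n 7
  x10b : ∀ n, X n 10 = X n 4 + X n 8
  x9 : ∀ n, X n 11 ≤ X n 2 + X n 9
  sD : ∀ w : V9, (w 6 < w 8 + w 3 → Slw X H (E w) 1 5 7) ∧
    (w 6 < w 8 + w 3 → Slw X H (E w) 1 6 8) ∧ (w 2 < w 8 + w 5 → Slw X H (E w) 1 9 10)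
  p3 : ∀ l, X l 3 = X l 4
  p5 : ∀ l, X l 5 = X l 6
  p7 : ∀ l, X l 7 = X l 8

/-- **plane data at a tie**, flags above their natural values -/
structure PBaseU (θ0 θ1 w0 sa sb v0 R : ℝ) (S : Finset (Fin 12)) (E : V9 → Fin 12 → ℝ)
    (M : Set (Fin 12 → ℝ)) (ν : (Fin 12 → ℝ) → ℝ) (X : ℕ → Fin 12 → ℝ) (H v : ℕ → ℝ)
    (lam2 : (Fin 12 → ℝ) → ℝ) : Prop where
  pos : ∀ l, 0 < H l
  h0 : Tendsto H atTop (𝓝 0)
  tan : IsTan (Leg monL R) M ν X H lam2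
  anti : ∀ p ∈ M, ∀ q ∈ M, p ≤ q → lam2 q ≤ lam2 p
  nb : NBaseU E X H
  base : TBase θ0 θ1 w0 sa sb v0 S X v
  lim : ∀ j : Fin 12, 3 ≤ j → Tendsto (fun l => X l j) atTop (𝓝 (rL θ0 θ1 w0 sa sb v0 j))

section etie

variable {E : V9 → Fin 12 → ℝ} {M : Set (Fin 12 → ℝ)} {X : ℕ → Fin 12 → ℝ} {H v : ℕ → ℝ} {v0 : ℝ}
  {lam2 : (Fin 12 → ℝ) → ℝ} {w Rw : V9}

/-- the window at an `e`-tied linear position, with the direction of the slab -/
theorem winU (ctx : CtxT G L r g s θ q Rg B I lev A f b vm wt fr fl sc w0 sa sb δ R I0 I' ν own c₀)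
    (hθ0 : 0 < θ 0) {j : Fin 12} (hj : j = 7 ∨ j = 8) (hB : TieT θ B I lev fl sc j)
    (em : EMd E M) (rz : Rz M {1, 2} (E dE))
    (pb : PBaseU (θ 0) (θ 1) w0 sa sb v0 R {0, 7, 8} E M ν X H v lam2)
    (hvX : ∀ k, k ≠ 0 → VisT B I fl sc k → k = 7 ∨ k = 8 ∨
      ((∀ᶠ l in atTop, X l k ≤ rL (θ 0) (θ 1) w0 sa sb (v l) k) ∧
        E w k < βL (θ 0) (θ 1) k * w 0))
    (hwl : LegM 0 w) (h6 : w 6 = (θ 0 - θ 1) * w 0)
    (hL : LinS {0, 6, 7, 8} (fun w => lam2 (E w)) w Rw) :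
    ∃ (ψ : ℕ → ℕ) (h' : ℕ → ℝ) (Q : (Fin 12 → ℝ) → ℝ) (Φ : V9 → ℝ), StrictMono ψ ∧
      (∀ m, 0 < h' m) ∧ Tendsto h' atTop (𝓝 0) ∧
      (∀ d d' : V9, (∀ u ∈ ({0, 6, 7, 8} : Finset (Fin 9)), d u = d' u) →
        LegM 0 (d + (1:ℝ) • dE) → LegM 0 (d' + (1:ℝ) • dE) → Φ d = Φ d') ∧
      (∀ d, LegM 0 (d + (1:ℝ) • dE) → Q (E d) =
        -(Φ d + ∑ u ∈ ({0, 6, 7, 8} : Finset (Fin 9))ᶜ, Rw u * d u)) ∧
      ∃ (k : ℕ → ℕ) (W : Wnd 12 (fun _ => ℕ × ℝ)) (N : ℕ → ℝ) (cw : ∀ n : ℕ, ℕ × ℝ → ℤ)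
        (E' : ∀ n : ℕ, Finset (ℕ × ℝ)) (g' : ℕ → ℝ),
        TWin B I0 I' (PL504.coN B lev wt w0 sa sb fl) (Xs X H (E w) ((1:ℝ) • E dE) ψ h')
          (fun m => H (ψ m) * h' m) Q {0, 7, 8} {1, 2} {j} (fun _ => {0}) 0 1 k W N cw E' g'
          (fun _ _ _ => 0) ∧
        ∃ u u' : ℕ → ℝ, Dir W.B' (W.cfg E') (ownL W) u u' 1 := by
  obtain ⟨l0, l2, l3, l4, l5, l6, l7, l8, l9, l10, l11⟩ := em.lt w
  have hjS : ({j} : Finset (Fin 12)) ⊆ {0, 7, 8} := by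
    rcases hj with rfl | rfl <;> decide
  have hk : 0 < θ 0 - θ 1 := by
    have h1 := hB.2.1
    rcases hj with rfl | rfl
    · rwa [βL7] at h1
    · rwa [βL8] at h1
  have eq1 : cT {0, 7, 8} {1, 2} 1 (fun _ => 1) = E ![1, 1, 1, 1, 1, 1, 1, 0, 0] := by
    rw [em.eq9 rfl]
    funext k
    fin_cases k <;> simp [cT, E9, bx9]
  have eq2 : cL {0, 7, 8} {1, 2} (fun _ => 1) = E ![0, 1, 1, 1, 1, 1, 0, 0, 0] := by
    rw [em.eq9 rfl]
    funext k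
    fin_cases k <;> simp [cL, E9, bx9]
  have eq3 : cT {0, 7, 8} {1, 2} 1 0 = E ![1, 0, 0, 0, 0, 0, 1, 0, 0] := by
    rw [em.eq9 rfl]
    funext k
    fin_cases k <;> simp [cT, E9, bx9]
  obtain ⟨ψ, h', Q, Φ, hψ, hp', h0', hΦ, hQ, hbase, k, W, N, cw, E', g', T⟩ :=
    core ctx em wsd_e rz leg_dE
      (fun k hk => by
        refine E_dE_off em ?_ ?_
        · rintro rfl; revert hk; decide
        · rintro rfl; revert hk; decide) pb.pos pb.h0 pb.tan pb.anti pb.base hjS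
      (fun i hi => by rw [Finset.mem_singleton.1 hi]; exact hB.2.1) (Sl := fun _ => {0})
      (fun _ _ => Or.inl rfl)
      (fun i hi => by
        rw [Finset.mem_singleton.1 hi]
        exact stC_of_TwP (fun _ _ _ _ => rfl) hB.2.2.2) hwl
      (fun k hk => by
        have h3 : k = 0 ∨ k = 7 ∨ k = 8 := by simpa using hk
        rcases h3 with rfl | rfl | rfl
        · rw [l0, βL0, one_mul]
        · rw [l7, βL7, h6]
        · rw [l8, βL8, h6])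
      (fun k hk hV => by
        rcases hvX k hk hV with rfl | rfl | h
        · exact Or.inl (by decide)
        · exact Or.inl (by decide)
        · exact Or.inr (Or.inl h)) hL eq1 eq2 eq3
      (by constructor <;> simp [dE] <;> norm_num) (by constructor <;> simp [dE] <;> norm_num)
      (by constructor <;> simp [dE] <;> norm_num) (by intro u hu; fin_cases u <;> simp at hu ⊢)
      (by intro u hu; fin_cases u <;> simp at hu ⊢) (by intro u hu; fin_cases u <;> simp at hu ⊢)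
  have e3 : ∀ m, Xs X H (E w) ((1:ℝ) • E dE) ψ h' m 3 = Xs X H (E w) ((1:ℝ) • E dE) ψ h' m 4 := by
    intro m
    rw [Xs_apply, Xs_apply, pb.nb.p3, l3, l4, Pi.smul_apply, Pi.smul_apply,
      E_dE_off em (by decide) (by decide), E_dE_off em (by decide) (by decide)]
  have e5 : ∀ m, Xs X H (E w) ((1:ℝ) • E dE) ψ h' m 5 = Xs X H (E w) ((1:ℝ) • E dE) ψ h' m 6 := by
    intro m
    rw [Xs_apply, Xs_apply, pb.nb.p5, l5, l6, Pi.smul_apply, Pi.smul_apply,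
      E_dE_off em (by decide) (by decide), E_dE_off em (by decide) (by decide)]
  have e7 : ∀ m, Xs X H (E w) ((1:ℝ) • E dE) ψ h' m 7 = Xs X H (E w) ((1:ℝ) • E dE) ψ h' m 8 := by
    intro m
    rw [Xs_apply, Xs_apply, pb.nb.p7, l7, l8, Pi.smul_apply, Pi.smul_apply,
      E_dE_off em (by decide) (by decide), E_dE_off em (by decide) (by decide)]
  obtain ⟨u, u', hd⟩ := TWin.dir ctx (tend_hh pb.h0 hψ h0') hbase
    (fun j hj => Xs_lim pb.h0 hψ h0' (pb.lim j hj)) (Eventually.of_forall e3)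
    (Eventually.of_forall e5) (Eventually.of_forall e7) T hθ0 (by linarith) 1
  exact ⟨ψ, h', Q, Φ, hψ, hp', h0', hΦ, hQ, k, W, N, cw, E', g', T, u, u', hd⟩

/-- **(W3) at an `e`-tie** -/
theorem u3U (ctx : CtxT G L r g s θ q Rg B I lev A f b vm wt fr fl sc w0 sa sb δ R I0 I' ν own c₀)
    (hθ0 : 0 < θ 0) {j : Fin 12} (hj : j = 7 ∨ j = 8) (hB : TieT θ B I lev fl sc j)
    (em : EMd E M) (rz : Rz M {1, 2} (E dE))
    (pb : PBaseU (θ 0) (θ 1) w0 sa sb v0 R {0, 7, 8} E M ν X H v lam2)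
    (hvX : ∀ k, k ≠ 0 → VisT B I fl sc k → k = 7 ∨ k = 8 ∨
      ((∀ᶠ l in atTop, X l k ≤ rL (θ 0) (θ 1) w0 sa sb (v l) k) ∧
        E w k < βL (θ 0) (θ 1) k * w 0))
    (ho : One 5 w) (h6 : w 6 = (θ 0 - θ 1) * w 0)
    (hL : LinS {0, 6, 7, 8} (fun w => lam2 (E w)) w Rw) : Rw 1 ≤ Rw 2 := by
  obtain ⟨ψ, h', Q, Φ, hψ, hp', h0', hΦ, hQ, k, W, N, cw, E', g', T, u, u', hd⟩ :=
    winU ctx hθ0 hj hB em rz pb hvX (Tw369.One.leg ho) h6 hL
  obtain ⟨l0, l2, l3, l4, l5, l6, l7, l8, l9, l10, l11⟩ := em.lt w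
  obtain ⟨X5, X6, X7, X8, X11, X11', X11'', X10, X10', X9, sD, -, -, -⟩ := pb.nb
  have g0 : gap w 5 = 0 := ho.1
  change w 1 + w 6 - w 2 = 0 at g0
  have z : ∀ {k : Fin 12}, k ≠ 1 → k ≠ 2 → ((1:ℝ) • E dE) k = 0 := fun h1 h2 => by
    rw [Pi.smul_apply, E_dE_off em h1 h2, smul_zero]
  have t1 := Xs_tight (H := H) (ψ := ψ) (h' := h') (ew := E w) (c0 := (1:ℝ) • E dE) X10
    (by rw [l10, l3, l7]; linarith)
    (by rw [z (by decide) (by decide), z (by decide) (by decide), z (by decide) (by decide)]; ring)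
  have t2 := Xs_tight (H := H) (ψ := ψ) (h' := h') (ew := E w) (c0 := (1:ℝ) • E dE) X10'
    (by rw [l10, l4, l8]; linarith)
    (by rw [z (by decide) (by decide), z (by decide) (by decide), z (by decide) (by decide)]; ring)
  have sl : Sl3 (Xs X H (E w) ((1:ℝ) • E dE) ψ h') (fun m => H (ψ m) * h' m) 1 := by
    constructor
    · exact Xs_slack pb.pos hψ hp' h0' (Or.inl ⟨Eventually.of_forall fun l => X7 l,
        by rw [l7, l2, l3]; exact Tw369.One.g2 ho (by decide)⟩) 1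
    · exact Xs_slack pb.pos hψ hp' h0' (Or.inl ⟨Eventually.of_forall fun l => X8 l,
        by rw [l8, l2, l4]; exact Tw369.One.g2 ho (by decide)⟩) 1
    · exact Xs_slack pb.pos hψ hp' h0' ((sD w).1 (Tw369.One.g3 ho (by decide))) 1
    · exact Xs_slack pb.pos hψ hp' h0' ((sD w).2.1 (Tw369.One.g3 ho (by decide))) 1
    · exact Xs_slack pb.pos hψ hp' h0' ((sD w).2.2 (Tw369.One.g6 ho (by decide))) 1
  have key := T.w3 one_pos (by rcases hj with rfl | rfl <;> decide) (fun _ _ => rfl) hj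
    (Finset.mem_singleton_self j) hd (Eventually.of_forall t1) (Eventually.of_forall t2) sl
    zero_le_one le_rfl
  have b1 : cT {0, 7, 8} {1, 2} 1 (bA 1 {10}) = E ![1, 0, 1, 0, 0, 0, 1, 0, 0] := by
    rw [em.eq9 rfl]
    funext k
    fin_cases k <;> simp [cT, E9, bx9, bA]
  have b2 : cT {0, 7, 8} {1, 2} 1 (bA 1 {3, 4, 10}) = E ![1, 1, 1, 0, 0, 0, 1, 0, 0] := by
    rw [em.eq9 rfl]
    funext k
    fin_cases k <;> simp [cT, E9, bx9, bA]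
  have b3 : cT {0, 7, 8} {1, 2} 1 0 = E ![1, 0, 0, 0, 0, 0, 1, 0, 0] := by
    rw [em.eq9 rfl]
    funext k
    fin_cases k <;> simp [cT, E9, bx9]
  have lg1 : LegM 0 (![1, 0, 1, 0, 0, 0, 1, 0, 0] + (1:ℝ) • dE) := by
    constructor <;> simp [dE] <;> norm_num
  have lg2 : LegM 0 (![1, 1, 1, 0, 0, 0, 1, 0, 0] + (1:ℝ) • dE) := by
    constructor <;> simp [dE] <;> norm_num
  have lg3 : LegM 0 (![1, 0, 0, 0, 0, 0, 1, 0, 0] + (1:ℝ) • dE) := by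
    constructor <;> simp [dE] <;> norm_num
  have f1 : Φ ![1, 0, 1, 0, 0, 0, 1, 0, 0] = Φ ![1, 0, 0, 0, 0, 0, 1, 0, 0] :=
    hΦ _ _ (by intro u hu; fin_cases u <;> simp at hu ⊢) lg1 lg3
  have f2 : Φ ![1, 1, 1, 0, 0, 0, 1, 0, 0] = Φ ![1, 0, 0, 0, 0, 0, 1, 0, 0] :=
    hΦ _ _ (by intro u hu; fin_cases u <;> simp at hu ⊢) lg2 lg3
  rw [b1, b2, b3, hQ _ lg1, hQ _ lg2, hQ _ lg3, f1, f2, sumE, sumE, sumE] at key
  simp at key
  linarith

/-- **(W2) at an `e`-tie** -/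
theorem u2U (ctx : CtxT G L r g s θ q Rg B I lev A f b vm wt fr fl sc w0 sa sb δ R I0 I' ν own c₀)
    (hθ0 : 0 < θ 0) {j : Fin 12} (hj : j = 7 ∨ j = 8) (hB : TieT θ B I lev fl sc j)
    (em : EMd E M) (rz : Rz M {1, 2} (E dE))
    (pb : PBaseU (θ 0) (θ 1) w0 sa sb v0 R {0, 7, 8} E M ν X H v lam2)
    (hvX : ∀ k, k ≠ 0 → VisT B I fl sc k → k = 7 ∨ k = 8 ∨
      ((∀ᶠ l in atTop, X l k ≤ rL (θ 0) (θ 1) w0 sa sb (v l) k) ∧
        E w k < βL (θ 0) (θ 1) k * w 0))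
    (ho : One 8 w) (h6 : w 6 = (θ 0 - θ 1) * w 0)
    (hL : LinS {0, 6, 7, 8} (fun w => lam2 (E w)) w Rw) : Rw 3 ≤ Rw 4 := by
  obtain ⟨ψ, h', Q, Φ, hψ, hp', h0', hΦ, hQ, k, W, N, cw, E', g', T, u, u', hd⟩ :=
    winU ctx hθ0 hj hB em rz pb hvX (Tw369.One.leg ho) h6 hL
  obtain ⟨l0, l2, l3, l4, l5, l6, l7, l8, l9, l10, l11⟩ := em.lt w
  obtain ⟨X5, X6, X7, X8, X11, X11', X11'', X10, X10', X9, sD, -, -, -⟩ := pb.nb
  have g0 : gap w 8 = 0 := ho.1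
  change w 3 + w 6 - w 4 = 0 at g0
  have z : ∀ {k : Fin 12}, k ≠ 1 → k ≠ 2 → ((1:ℝ) • E dE) k = 0 := fun h1 h2 => by
    rw [Pi.smul_apply, E_dE_off em h1 h2, smul_zero]
  have t1 := Xs_tight (H := H) (ψ := ψ) (h' := h') (ew := E w) (c0 := (1:ℝ) • E dE) X11'
    (by rw [l11, l5, l7]; linarith)
    (by rw [z (by decide) (by decide), z (by decide) (by decide), z (by decide) (by decide)]; ring)
  have t2 := Xs_tight (H := H) (ψ := ψ) (h' := h') (ew := E w) (c0 := (1:ℝ) • E dE) X11''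
    (by rw [l11, l6, l8]; linarith)
    (by rw [z (by decide) (by decide), z (by decide) (by decide), z (by decide) (by decide)]; ring)
  have sl : Sl2 (Xs X H (E w) ((1:ℝ) • E dE) ψ h') (fun m => H (ψ m) * h' m) 1 := by
    constructor
    · exact Xs_slack pb.pos hψ hp' h0' (Or.inl ⟨Eventually.of_forall fun l => (X5 l).le,
        by rw [l5, l0, l3]; exact Tw369.One.g1 ho (by decide)⟩) 1
    · exact Xs_slack pb.pos hψ hp' h0' (Or.inl ⟨Eventually.of_forall fun l => (X6 l).le,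
        by rw [l6, l0, l4]; exact Tw369.One.g1 ho (by decide)⟩) 1
    · exact Xs_slack pb.pos hψ hp' h0' ((sD w).1 (Tw369.One.g3 ho (by decide))) 1
    · exact Xs_slack pb.pos hψ hp' h0' ((sD w).2.1 (Tw369.One.g3 ho (by decide))) 1
    · exact Xs_slack pb.pos hψ hp' h0' (Or.inl ⟨Eventually.of_forall fun l => (X11 l).le,
        by rw [l11, l0, l10]; exact Tw369.One.g7 ho (by decide)⟩) 1
    · exact Xs_slack pb.pos hψ hp' h0' (Or.inl ⟨Eventually.of_forall fun l => X9 l,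
        by rw [l11, l2, l9]; exact Tw369.One.g9 ho (by decide)⟩) 1
  have key := T.w2 one_pos (by rcases hj with rfl | rfl <;> decide) (fun _ _ => rfl) hj
    (Finset.mem_singleton_self j) hd (Eventually.of_forall t1) (Eventually.of_forall t2) sl
    zero_le_one le_rfl
  have b1 : cT {0, 7, 8} {1, 2} 1 (bA 1 {11}) = E ![1, 0, 0, 0, 1, 0, 1, 0, 0] := by
    rw [em.eq9 rfl]
    funext k
    fin_cases k <;> simp [cT, E9, bx9, bA]
  have b2 : cT {0, 7, 8} {1, 2} 1 (bA 1 {5, 6, 11}) = E ![1, 0, 0, 1, 1, 0, 1, 0, 0] := by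
    rw [em.eq9 rfl]
    funext k
    fin_cases k <;> simp [cT, E9, bx9, bA]
  have b3 : cT {0, 7, 8} {1, 2} 1 0 = E ![1, 0, 0, 0, 0, 0, 1, 0, 0] := by
    rw [em.eq9 rfl]
    funext k
    fin_cases k <;> simp [cT, E9, bx9]
  have lg1 : LegM 0 (![1, 0, 0, 0, 1, 0, 1, 0, 0] + (1:ℝ) • dE) := by
    constructor <;> simp [dE] <;> norm_num
  have lg2 : LegM 0 (![1, 0, 0, 1, 1, 0, 1, 0, 0] + (1:ℝ) • dE) := by
    constructor <;> simp [dE] <;> norm_num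
  have lg3 : LegM 0 (![1, 0, 0, 0, 0, 0, 1, 0, 0] + (1:ℝ) • dE) := by
    constructor <;> simp [dE] <;> norm_num
  have f1 : Φ ![1, 0, 0, 0, 1, 0, 1, 0, 0] = Φ ![1, 0, 0, 0, 0, 0, 1, 0, 0] :=
    hΦ _ _ (by intro u hu; fin_cases u <;> simp at hu ⊢) lg1 lg3
  have f2 : Φ ![1, 0, 0, 1, 1, 0, 1, 0, 0] = Φ ![1, 0, 0, 0, 0, 0, 1, 0, 0] :=
    hΦ _ _ (by intro u hu; fin_cases u <;> simp at hu ⊢) lg2 lg3
  rw [b1, b2, b3, hQ _ lg1, hQ _ lg2, hQ _ lg3, f1, f2, sumE, sumE, sumE] at key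
  simp at key
  linarith

end etie

end Crest.Agent.R116.Th171
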