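import Crest.Agent.R116.Th2_171
import Crest.Agent.R116.Th4_171
import Crest.Agent.R116.FlH_850

/-!
# R116, ties, `1/2 ≤ s` : the half plane above the record over the context (helper171)

* **`eUp_ctx`**  : `CtxT`, `B` tied, `D` invisible, `1/2 ≤ s`, `0 < k < 1`, `θ ≤ (1+k)/2` ⊢ `False`
* **`fillE_up`** : the `e`-tie as a `Fill`
* **`fillD_up`** : the double tie with `k' < 1` as a `Fill`
-/

set_option autoImplicit false
set_option linter.unusedSectionVars false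
set_option linter.unusedVariables false

open Set Filter Topology MeasureTheory

namespace Crest.Agent.R116.Th171

open Crest.Agent.R138
open Crest.Agent.R138.Ex926 (Base U IsTan)
open Crest.Agent.R136
open Crest.Agent.R136.MkA627
open Crest.Agent.R136.TD627
open Crest.Agent.R136.Net191
open Crest.Agent.R136.Lq196
open Crest.Agent.R136.Qg926 Crest.Agent.R136.Gf356 Crest.Agent.R116.EvL504
open Crest.Agent.R116.ChL222
open Crest.Agent.R116.PL504 (nb rL DN eL βL oL Shift)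
open Crest.Agent.R116.Sg337 (bx9 DL)
open Crest.Agent.R116.Gd222 (TSet sN PDL DT)
open Crest.Agent.R116.KI439
open Crest.Agent.R116.KF439 (PL)
open Crest.Agent.R116.KTop387
open Crest.Agent.R116.CtxB468
open Crest.Agent.R116.Rcx363
open Crest.Agent.R116.RbM219
open Crest.Agent.R116.RbK219
open Crest.Agent.R116.Kz647
open Crest.Agent.R116.Pd363
open Crest.Agent.R116.WinG954 (LM)
open Crest.Agent.R116.Tq741
open Crest.Agent.R116.Tq794 (E9 E9_eq E9_mem E9_add LM_closed LM_L9B tw9 own_R own_prf e9_nonneg9)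
open Crest.Agent.R116.Tq126
open Crest.Agent.R116.Tp139 (oSe DAl exists_DAl sok_oSe leg_oSe TVe tve tve_h tve_d FctU)
open Crest.Agent.R116.Pu171 (FctP fctP9)
open Crest.Agent.R116.Sd538 (rD_oSe)
open Crest.Agent.R116.KTie794 (Fill VisB VisE InvB InvE)
open Crest.Agent.R116.FlH850 (VE VK VD SFill fill_of)

section ctx

variable {G : Geo TSet (Fin 2)} {L : ℕ → ℕ → LRay} {r : ℕ → ℝ} {g s : ℝ} {θ q : Fin 2 → ℝ}
    {Rg : ℝ} {B : Base} {I : ℕ → Finset (ℕ × ℝ)} {lev : ℕ → ℚ → ℕ} {A : ℕ → ℝ}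
    {f : ℕ → ℚ → ℕ → ℤ → ℕ} {b : ℕ → ℚ → ℕ → TSet} {vm : ℕ → ℚ → ℝ} {w : Fin 2 → ℕ → ℚ → ℝ}
    {fr : ℕ → ℚ → ℕ × ℝ → LInc} {fl : ℕ → ℕ × ℝ → LInc} {sc : Fin 12 → ℕ → ℝ}
    {w0 sa sb δ R : ℝ} {I0 I' : ℕ → Finset (ℕ × ℝ)} {ν own : (Fin 12 → ℝ) → ℝ} {c₀ : ℝ}

theorem nat_le_oSe {e : ℝ} (he : 0 < e) : nat9 0 1 1 ≤ oSe e := by
  refine Tp139.all9 ?_ ?_ ?_ ?_ ?_ ?_ ?_ ?_ ?_
  · change (0:ℝ) ≤ 0; norm_num
  · change (1:ℝ) ≤ 1; norm_num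
  · change (1:ℝ) ≤ 1; norm_num
  · change (0:ℝ) + 1 ≤ 1; norm_num
  · change (0:ℝ) + 1 ≤ 1; norm_num
  · change (0:ℝ) + 2 * 1 ≤ 2; norm_num
  · change (1:ℝ) - 1 ≤ 0; norm_num
  · change (1:ℝ) - 2 * 1 ≤ 0; norm_num
  · change (1:ℝ) - 2 * 1 - 0 ≤ e; linarith

/-- **the half plane above the record, `1/2 ≤ s`, `B` tied, `D` invisible** -/
theorem eUp_ctx
    (C : CtxT G L r g s θ q Rg B I lev A f b vm w fr fl sc w0 sa sb δ R I0 I' ν own c₀)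
    (hR0 : w0 + (θ 1 + sb) < R) (hR1 : w0 + 1 + sb < R) (hθ : 0 < θ 0)
    (hRg : θ 0 + |θ 1| < Rg) (hs : 1 / 2 ≤ s) (hs1 : s < 1) (hqa : 0 ≤ q 0) (hqb : 0 ≤ q 1)
    (hg : 2 * s < g) (hk : 0 < θ 0 - θ 1) (hk1 : θ 0 - θ 1 < 1)
    (hθ1 : θ 0 ≤ (1 + (θ 0 - θ 1)) / 2) (hV1 : InvT PL B I 1 fl (sc 1))
    (hB : TieT θ B I lev fl sc 7 ∨ TieT θ B I lev fl sc 8) : False := by
  have hb : θ 1 < θ 0 := by linarith
  have hb2 : θ 1 < 2 * θ 0 := by linarith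
  obtain ⟨e, he, hce, hd, hdβ⟩ : ∃ e : ℝ, 0 < e ∧ 2 * s + e ≤ g ∧
      (DAl (θ 0) (θ 1) e ∨ (θ 0 = 1 / 2 ∧ θ 1 = 0)) ∧
      (2 * θ 0 - θ 1 - 1 < 0 → DAl (θ 0) (θ 1) e ∧ e * θ 0 < -(2 * θ 0 - θ 1 - 1)) := by
    by_cases hβ : 2 * θ 0 - θ 1 - 1 < 0
    · obtain ⟨e, he, he0, hd⟩ := exists_DAl (θ 0) (θ 1)
        (e0 := min (g - 2 * s) (-(2 * θ 0 - θ 1 - 1) / θ 0))
        (lt_min (by linarith) (div_pos (by linarith) hθ)) (fun h => absurd h hβ.ne)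
      have he1 : e < g - 2 * s := he0.trans_le (min_le_left _ _)
      have he2 : e * θ 0 < -(2 * θ 0 - θ 1 - 1) := by
        have := he0.trans_le (min_le_right _ _)
        rwa [lt_div_iff₀ hθ] at this
      exact ⟨e, he, by linarith, Or.inl hd, fun _ => ⟨hd, he2⟩⟩
    · by_cases hx : θ 0 = 1 / 2 ∧ θ 1 = 0
      · exact ⟨(g - 2 * s) / 2, by linarith, by linarith, Or.inr hx, fun h => absurd h hβ⟩
      · obtain ⟨e, he, he0, hd⟩ := exists_DAl (θ 0) (θ 1) (e0 := g - 2 * s) (by linarith)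
          (fun h h2 => hx ⟨h2, by linarith⟩)
        exact ⟨e, he, by linarith, Or.inl hd, fun h => absurd h hβ⟩
  have hS := sok_oSe (θ := θ 0) (θb := θ 1) he hb hb2
  have hL : Leg9 (oSe e) := leg_oSe he
  obtain ⟨v0, -, hv0, hv1, a, b', x, hh, lam, hX, O⟩ := exists_out9 C hR0 hR1 hθ hRg (T := Unit)
    (Bs := fun _ => oSe e) (sg := fun _ => 1) (fun _ => hS) (fun _ => hL) (N := univ)
    (Eventually.of_forall fun _ => mem_univ _)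
  obtain ⟨c0, hc0, hLW, hrec, ρ, hR⟩ := O.surf ()
  obtain ⟨l, α, h', Xb, H, lam2, ρ2, hl, -, -, P⟩ := plane9 O hS hL hc0 hR
    (v := 0) (c := 1) (p := 1) (Vis' := V3) (nat_le_oSe he) (fun k hk => by
      left
      rcases vis_flag C hk with rfl | rfl | rfl | rfl | rfl
      · refine ⟨Or.inl rfl, ?_⟩
        change (0:ℝ) ≤ 0 * _
        rw [zero_mul]
      · exact absurd hV1 hk
      · refine ⟨Or.inr (Or.inl rfl), ?_⟩
        change (0:ℝ) ≤ 0 * _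
        rw [zero_mul]
      · refine ⟨Or.inr (Or.inr (Or.inl rfl)), ?_⟩
        change (0:ℝ) ≤ 0 * _
        rw [zero_mul]
      · refine ⟨Or.inr (Or.inr (Or.inr rfl)), ?_⟩
        change (0:ℝ) ≤ 0 * _
        rw [zero_mul]) (N := univ) (Eventually.of_forall fun _ => mem_univ _) (y := 1) one_pos
  have hrec' : lam 0 (RL9.vec (nat9 1 (-(θ 0)) (-(θ 1)))) =
      DL g s (q 0) (q 1) 1 (-(θ 0)) (-(θ 1)) := by
    have h1 := O.rx.rcd 1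
    rw [mul_one, mul_one] at h1
    rw [RL9_nat]
    exact h1
  have hβ : 0 ≤ 2 * θ 0 - θ 1 - 1 ∨ (2 * θ 0 - θ 1 - 1 < 0 ∧ ρ 8 = 0) := by
    rcases le_or_gt 0 (2 * θ 0 - θ 1 - 1) with h | h
    · exact Or.inl h
    · exact Or.inr ⟨h, rD_oSe C hθ hRg hv0 hv1 O hc0 he hb hb2 (hdβ h).1 h (hdβ h).2 hR⟩
  have FU : FctU (θ 0 - θ 1) (fun w => (VisT B I fl sc 2 → w 7 < (2 * θ 0 - θ 1) * w 0) ∧
      (VisT B I fl sc 1 → w 8 < (2 * θ 0 - θ 1 - 1) * w 0)) (fun w => lam2 0 (RL9.vec w)) :=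
    fctU9 P C hθ hv0 hv1 hL (by change (1:ℝ) = 0 + 1; norm_num)
      (by change (2:ℝ) = 1 + 1; norm_num) (by change (1:ℝ) = 0 + 1; norm_num)
      (by change (1:ℝ) = 1 + 0; norm_num) (by change (1:ℝ) = 1 + 0; norm_num)
      (by change (0:ℝ) = (θ 0 - θ 1) * 0; rw [mul_zero]) hB
      (fun _ => by change (0:ℝ) ≤ (2 * θ 0 - θ 1) * 0; rw [mul_zero])
      (fun h => absurd hV1 h) fun w _ h => h
  have hW3 : W3At (fun w => lam2 0 (RL9.vec w)) := by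
    intro w R' ho h0 h6 h7 hLn
    refine FU.W3 w R' ho (by rw [h0, h6, mul_zero]) ⟨fun _ => ?_, fun h => absurd hV1 h⟩ hLn
    rw [h0, mul_zero]
    exact h7
  exact eUp_pd P C hs hs1 he hce hqa hqb hθ hk hk1 hθ1 hd (O.zero 0) hrec' hβ hW3

end ctx

/-- **`e`-tie, `T⁺`, `1/2 ≤ s`, `k < 1`** -/
theorem sfillE_up {η : ℝ} : SFill η VE fun _ s θ _ =>
    1 / 2 ≤ s → θ 0 - θ 1 < 1 → 2 * θ 0 ≤ 1 + (θ 0 - θ 1) → False := by
  intro G L r g s θ q Rg B I lev A f b vm w fr fl sc w0 sa sb δ R I0 I' ν own c₀ C hN hR0 hR1 hRg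
    hV hs hk1 hθ1
  have hk : 0 < θ 0 - θ 1 := KTie794.TieT.kB hV.1
  exact eUp_ctx C hR0 hR1 hN.θa (by linarith) hs hN.s1 hN.qa.le hN.qb.le
    (by linarith [hN.gpos]) hk hk1 (by linarith) hV.2.2 hV.1

/-- **double tie, `T⁺`, `1/2 ≤ s`, `k' < 1`** -/
theorem sfillD_up {η : ℝ} : SFill η VD fun _ s θ _ =>
    1 / 2 ≤ s → 2 * θ 0 - θ 1 < 1 → 2 * θ 0 ≤ 1 + (θ 0 - θ 1) → False := by
  intro G L r g s θ q Rg B I lev A f b vm w fr fl sc w0 sa sb δ R I0 I' ν own c₀ C hN hR0 hR1 hRg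
    hV hs hk1 hθ1
  have hk : 0 < θ 0 - θ 1 := KTie794.TieT.kB hV.1
  have hθ := hN.θa
  have hD : InvT PL B I 1 fl (sc 1) := by
    rcases C.out.clsD with h | h
    · exact h
    · exfalso
      have h1 := h.2.1
      change 0 < -(θ 1) - 2 * -(θ 0) - 1 at h1
      linarith
  exact eUp_ctx C hR0 hR1 hN.θa (by linarith) hs hN.s1 hN.qa.le hN.qb.le
    (by linarith [hN.gpos]) hk (by linarith) (by linarith) hD hV.1

/-- **`e`-tie, `T⁺`, `1/2 ≤ s`, `k < 1`, as a `Fill`** -/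
theorem fillE_up {η : ℝ} : Fill η VE fun _ s θ _ =>
    1 / 2 ≤ s → θ 0 - θ 1 < 1 → 2 * θ 0 ≤ 1 + (θ 0 - θ 1) → False :=
  fill_of sfillE_up

/-- **double tie, `T⁺`, `1/2 ≤ s`, `k' < 1`, as a `Fill`** -/
theorem fillD_up {η : ℝ} : Fill η VD fun _ s θ _ =>
    1 / 2 ≤ s → 2 * θ 0 - θ 1 < 1 → 2 * θ 0 ≤ 1 + (θ 0 - θ 1) → False :=
  fill_of sfillD_up

end Crest.Agent.R116.Th171
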