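import Crest.Agent.R116.EvL7_369
import Crest.Agent.R116.Kj1_899
import Crest.Agent.R116.Kst4_593
import Crest.Agent.R116.WinU_954

/-!
# R116, ties (helper369): windows on the tie planes, part 1: static data

Level slots `S`, dropped slots `Dr` (base raised there, not resolved), resolution `t`.

* `WSD S Dr` : the combinatorial conditions; `wsd_e` : `S = {0, 7, 8}`, `Dr = {1, 2}`; `wsd_k` :
  `S = {0, 2}`, `Dr = {1}`; `wsd_d` : `S = {0, 1, 2}`, `Dr = ∅`; `wsd_z` : `S = {0}`, `Dr = {1}`.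
* `stX S Dr K t` : static data; `stX_ok`.
* `cT S Dr t p` : `t` on `S`, `0` on `Dr`, `p` elsewhere; `legT`, `nuT` : legal set and profile of the
  model; `dropX Dr` : forget the slots of `Dr`; `model_drop`.
* `TieM` : the model.
-/

set_option autoImplicit false
set_option linter.unusedVariables false
set_option linter.unusedSectionVars false

open Finset Filter Topology

namespace Crest.Agent.R116.Tw369

open Crest.Agent.R138.Ex926
open Crest.Agent.R136.Net191 Crest.Agent.R136.Gf356 Crest.Agent.R136.Qg926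
open Crest.Agent.R116.ChL222 Crest.Agent.R116.PL504 Crest.Agent.R116.EvL504
open Crest.Agent.R116.EvD369

/-- the monomials without the slots of `Dr` -/
def monX (Dr : Finset (Fin 12)) : Mons 12 where
  mon := fun k => (monL.mon k).filter fun e => ∀ s ∈ Dr, e s = 0
  low := fun k e he s hs => monL.low k e (Finset.mem_filter.1 he).1 s hs
  ne := fun k e he => monL.ne k e (Finset.mem_filter.1 he).1

theorem mem_monX {Dr : Finset (Fin 12)} {k : Fin 12} {e : Fin 12 → ℕ} :
    e ∈ (monX Dr).mon k ↔ e ∈ monL.mon k ∧ ∀ s ∈ Dr, e s = 0 := Finset.mem_filter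

/-- combinatorial conditions on the level slots and the dropped slots -/
structure WSD (S Dr : Finset (Fin 12)) : Prop where
  z : (0 : Fin 12) ∈ S
  hSL : S ⊆ EvL504.SL
  hDr : ∀ s ∈ Dr, s = 1 ∨ s = 2
  dis : ∀ s ∈ S, s ∉ Dr
  lev : ∀ k ∈ S, ∀ e ∈ monL.mon k, (∀ s ∈ Dr, e s = 0) → ∃ s ∈ S, e s ≠ 0
  lin : ∀ k, k ∉ S → k ∉ Dr → ∀ e ∈ monL.mon k, (∀ s ∈ Dr, e s = 0) →
    ∃ s, s ∉ S ∧ s ∉ Dr ∧ e s ≠ 0

theorem wsd_e : WSD {0, 7, 8} {1, 2} where
  z := by decide
  hSL := by decide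
  hDr := by decide
  dis := by decide
  lev := by decide +kernel
  lin := by decide +kernel

theorem wsd_k : WSD {0, 2} {1} where
  z := by decide
  hSL := by decide
  hDr := by decide
  dis := by decide
  lev := by decide +kernel
  lin := by decide +kernel

theorem wsd_z : WSD {0} {1} where
  z := by decide
  hSL := by decide
  hDr := by decide
  dis := by decide
  lev := by decide +kernel
  lin := by decide +kernel

theorem wsd_d : WSD {0, 1, 2} ∅ where
  z := by decide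
  hSL := by decide
  hDr := by decide
  dis := by decide
  lev := by decide +kernel
  lin := by decide +kernel

/-- `t` on `S`, `0` on `Dr`, `p` elsewhere -/
def cT (S Dr : Finset (Fin 12)) (t : ℝ) (p : Fin 12 → ℝ) : Fin 12 → ℝ := fun k =>
  if k ∈ Dr then 0 else if k ∈ S then t else p k

/-- `0` on `S ∪ Dr`, `p` elsewhere -/
def cL (S Dr : Finset (Fin 12)) (p : Fin 12 → ℝ) : Fin 12 → ℝ := fun k =>
  if k ∈ Dr then 0 else if k ∈ S then 0 else p k

/-- **static data of the tie windows** -/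
noncomputable def stX (S Dr : Finset (Fin 12)) (K t : ℝ) : WSt 12 where
  S := S
  kz := 0
  top := fun k => if k ∈ Dr then 0 else t
  kap := fun s => K ^ wtL s
  Mw := monX Dr
  R' := t

section static

variable {S Dr : Finset (Fin 12)} {t : ℝ}

theorem sum_ge {e : Fin 12 → ℕ} {p : Fin 12 → ℝ} (hp : ∀ s, 0 ≤ p s) {s : Fin 12} (hs : e s ≠ 0) :
    p s ≤ ∑ k, (e k : ℝ) * p k := by
  have h1 : (e s : ℝ) * p s ≤ ∑ k, (e k : ℝ) * p k :=
    Finset.single_le_sum (f := fun k => (e k : ℝ) * p k)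
      (fun k _ => mul_nonneg (Nat.cast_nonneg _) (hp k)) (Finset.mem_univ s)
  have h2 : (1 : ℝ) ≤ e s := by exact_mod_cast Nat.one_le_iff_ne_zero.2 hs
  nlinarith [hp s]

theorem stX_top (K : ℝ) (k : Fin 12) : (stX S Dr K t).top k = if k ∈ Dr then 0 else t := rfl

theorem cut_lin (h : WSD S Dr) (K : ℝ) : cut S (stX S Dr K t).top 0 = cL S Dr fun _ => t := by
  funext k
  unfold cL
  by_cases hS : k ∈ S
  · rw [cut_of_mem hS, if_neg (h.dis k hS), if_pos hS]; rfl
  · rw [cut_of_notMem hS, stX_top, if_neg hS]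

theorem cut_lev (h : WSD S Dr) (K : ℝ) : cut S 0 (stX S Dr K t).top = cT S Dr t 0 := by
  funext k
  unfold cT
  by_cases hS : k ∈ S
  · rw [cut_of_mem hS, stX_top, if_neg (h.dis k hS), if_neg (h.dis k hS), if_pos hS]
  · rw [cut_of_notMem hS, if_neg hS]
    split_ifs <;> rfl

theorem cut_top (h : WSD S Dr) (K : ℝ) {p : Fin 12 → ℝ} (hp : ∀ s ∈ Dr, p s = 0) :
    cut S p (stX S Dr K t).top = cT S Dr t p := by
  funext k
  unfold cT
  by_cases hS : k ∈ S
  · rw [cut_of_mem hS, stX_top, if_neg (h.dis k hS), if_neg (h.dis k hS), if_pos hS]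
  · rw [cut_of_notMem hS, if_neg hS]
    split_ifs with h1
    · exact hp k h1
    · rfl

theorem top_cT (h : WSD S Dr) (K : ℝ) : (stX S Dr K t).top = cT S Dr t fun _ => t := by
  funext k
  rw [stX_top]
  unfold cT
  split_ifs <;> rfl

theorem legX {p : Fin 12 → ℝ} (h0 : ∀ k, 0 ≤ p k ∧ p k ≤ t)
    (hw : ∀ k, ∀ e ∈ monL.mon k, (∀ s ∈ Dr, e s = 0) → p k = 0 ∨ p k ≤ t ∧ ∃ s, e s ≠ 0 ∧ p s = t) :
    p ∈ Leg (monX Dr) t := by
  refine ⟨⟨fun k => (h0 k).1, fun k e he => ?_⟩, fun k => (h0 k).2⟩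
  obtain ⟨h1, h2⟩ := mem_monX.1 he
  rcases hw k e h1 h2 with h3 | ⟨h3, s, h4, h5⟩
  · rw [h3]
    exact Finset.sum_nonneg fun s _ => mul_nonneg (Nat.cast_nonneg _) (h0 s).1
  · have := sum_ge (fun s => (h0 s).1) h4
    linarith

theorem top_leg (h : WSD S Dr) (ht : 0 ≤ t) : (cT S Dr t fun _ => t) ∈ Leg (monX Dr) t := by
  have hv : ∀ k, (cT S Dr t fun _ => t) k = if k ∈ Dr then 0 else t := by
    intro k; unfold cT; split_ifs <;> rfl
  refine legX (fun k => ?_) fun k e he hD => ?_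
  · rw [hv]; split_ifs
    · exact ⟨le_rfl, ht⟩
    · exact ⟨ht, le_rfl⟩
  · right
    constructor
    · rw [hv]; split_ifs
      · exact ht
      · exact le_rfl
    · obtain ⟨s, hs⟩ := monL.ne k e he
      refine ⟨s, hs, ?_⟩
      rw [hv, if_neg fun h1 => hs (hD s h1)]

theorem lin_leg (h : WSD S Dr) (ht : 0 ≤ t) : (cL S Dr fun _ => t) ∈ Leg (monX Dr) t := by
  refine legX (fun k => ?_) fun k e he hD => ?_
  · unfold cL; split_ifs
    · exact ⟨le_rfl, ht⟩
    · exact ⟨le_rfl, ht⟩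
    · exact ⟨ht, le_rfl⟩
  · by_cases h1 : k ∈ Dr
    · left; unfold cL; rw [if_pos h1]
    by_cases h2 : k ∈ S
    · left; unfold cL; rw [if_neg h1, if_pos h2]
    right
    obtain ⟨s, s1, s2, s3⟩ := h.lin k h2 h1 e he hD
    refine ⟨by unfold cL; rw [if_neg h1, if_neg h2], s, s3, ?_⟩
    unfold cL
    rw [if_neg s2, if_neg s1]

theorem lev_leg (h : WSD S Dr) (ht : 0 ≤ t) : cT S Dr t 0 ∈ Leg (monX Dr) t := by
  refine legX (fun k => ?_) fun k e he hD => ?_
  · unfold cT; split_ifs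
    · exact ⟨le_rfl, ht⟩
    · exact ⟨ht, le_rfl⟩
    · exact ⟨le_rfl, ht⟩
  · by_cases h2 : k ∈ S
    · right
      obtain ⟨s, s1, s3⟩ := h.lev k h2 e he hD
      refine ⟨by unfold cT; rw [if_neg (h.dis k h2), if_pos h2], s, s3, ?_⟩
      unfold cT
      rw [if_neg (h.dis s s1), if_pos s1]
    · left; unfold cT; split_ifs <;> rfl

theorem stX_ok (h : WSD S Dr) {K : ℝ} (hK : 0 < K) (ht : 0 ≤ t) {D : Set (Fin 12 → ℝ)}
    (hD : Leg (monX Dr) t ⊆ D) : (stX S Dr K t).Ok monL D where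
  R0 := ht
  leg := hD
  top_leg := by rw [top_cT h]; exact top_leg h ht
  lin_leg := by
    show cut S (stX S Dr K t).top 0 ∈ _
    rw [cut_lin h]; exact lin_leg h ht
  lev_leg := by
    show cut S 0 (stX S Dr K t).top ∈ _
    rw [cut_lev h]; exact lev_leg h ht
  kzS := h.z
  kz0 := rfl
  kzw := by
    show (monX Dr).mon 0 = ∅
    exact Finset.filter_empty _
  kap := fun s => pow_pos hK _

/-- legal boxes of the model -/
def legT (S Dr : Finset (Fin 12)) (t : ℝ) : Set (Fin 12 → ℝ) := {p | cT S Dr t p ∈ Leg (monX Dr) t}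

/-- profile of the model -/
noncomputable def nuT (S Dr : Finset (Fin 12)) (t : ℝ) (lam : (Fin 12 → ℝ) → ℝ)
    (p : Fin 12 → ℝ) : ℝ := lam (cT S Dr t p) - lam (cT S Dr t fun _ => t)

/-- density of the tangent in the window -/
structure DensT (S Dr : Finset (Fin 12)) (t σ : ℝ) (lam : (Fin 12 → ℝ) → ℝ) : Prop where
  dens : lam (cT S Dr t fun _ => t) ≤ lam (cL S Dr fun _ => t) + lam (cT S Dr t 0)
  σ0 : 0 ≤ σ
  σ1 : σ ≤ 1
  frost : ∀ y, 0 ≤ y → y ≤ t → lam (Pi.single 0 y) ≤ -(σ * y)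

theorem DensT.st (h : WSD S Dr) {σ K : ℝ} {lam : (Fin 12 → ℝ) → ℝ} (H : DensT S Dr t σ lam) :
    (stX S Dr K t).Dens lam σ t where
  dens := by
    show lam (stX S Dr K t).top ≤ lam (cut S (stX S Dr K t).top 0) +
      lam (cut S 0 (stX S Dr K t).top)
    rw [cut_lin h, cut_lev h, top_cT h]
    exact H.dens
  σ0 := H.σ0
  σ1 := H.σ1
  hR := by
    show t ≤ (stX S Dr K t).top 0
    rw [stX_top, if_neg (h.dis 0 h.z)]
  frost := H.frost

end static

/-! ### forget slots -/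

/-- forget the slots of `Dr` -/
def dropX (Dr : Finset (Fin 12)) (G : RCfg (Fin 12)) : RCfg (Fin 12) where
  ρ := G.ρ
  L := G.L
  Z := G.Z
  I := G.I
  z := G.z
  rel k i l := LnS Dr (G.rel k i l)

theorem dropX_insert {j : Fin 12} {Dr Dr' : Finset (Fin 12)}
    (hD : ∀ s, s ∈ Dr ↔ s = j ∨ s ∈ Dr') (G : RCfg (Fin 12)) :
    dropX Dr G = EvL504.drop j (dropX Dr' G) := by
  have e : (fun k i l => LnS Dr (G.rel k i l)) =
      fun k i l s => if s = j then 0 else LnS Dr' (G.rel k i l) s := by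
    funext k i l s
    unfold LnS
    by_cases h1 : s = j
    · simp [hD, h1]
    · simp [hD, h1]
  unfold dropX EvL504.drop
  simp only [RCfg.mk.injEq, true_and]
  exact e

theorem dropX_empty (G : RCfg (Fin 12)) : dropX ∅ G = G := by
  have e : (fun k i l => LnS ∅ (G.rel k i l)) = G.rel := by
    funext k i l s
    simp [LnS]
  unfold dropX
  rw [e]

/-- `0` on `Dr` -/
theorem upd_LnS {j : Fin 12} {Dr Dr' : Finset (Fin 12)} (hD : ∀ s, s ∈ Dr ↔ s = j ∨ s ∈ Dr')
    (p : Fin 12 → ℝ) : LnS Dr' (Function.update p j 0) = LnS Dr p := by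
  funext s
  unfold LnS
  by_cases h1 : s = j
  · subst h1
    simp [hD]
  · simp [hD, h1]

/-- **models, the slots of `Dr` forgotten** -/
theorem model_drop {B : Base} {G : ℕ → RCfg (Fin 12)} {Leg : Set (Fin 12 → ℝ)}
    {ν : (Fin 12 → ℝ) → ℝ} {σ R D : ℝ} (H : RModel B G σ R Leg ν D)
    (hb : ∀ ε : ℝ, 0 < ε → ∀ᶠ n in (U : Filter ℕ), ∀ k i l, (i, k) ∈ (G n).I →
      (l, k) ∈ (G n).I → ∀ s, |(G n).rel k i l s| ≤ B.d n ^ (-ε)) (Dr : Finset (Fin 12)) :
    RModel B (fun n => dropX Dr (G n)) σ R {p | LnS Dr p ∈ Leg} (fun p => ν (LnS Dr p)) D := by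
  induction Dr using Finset.induction_on with
  | empty =>
    have e1 : (fun n => dropX ∅ (G n)) = G := funext fun n => dropX_empty _
    have e2 : ∀ p : Fin 12 → ℝ, LnS ∅ p = p := fun p => by funext s; simp [LnS]
    have e3 : {p : Fin 12 → ℝ | LnS ∅ p ∈ Leg} = Leg := by ext p; simp [e2]
    have e4 : (fun p => ν (LnS ∅ p)) = ν := by funext p; rw [e2]
    rw [e1, e3, e4]
    exact H
  | insert j Dr' hj ih =>
    have hD : ∀ s, s ∈ insert j Dr' ↔ s = j ∨ s ∈ Dr' := fun s => Finset.mem_insert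
    have e1 : (fun n => dropX (insert j Dr') (G n)) =
        fun n => EvL504.drop j (dropX Dr' (G n)) := funext fun n => dropX_insert hD _
    have e4 : (fun p => ν (LnS (insert j Dr') p)) =
        fun p => ν (LnS Dr' (Function.update p j 0)) := by
      funext p; rw [upd_LnS hD]
    rw [e1, e4]
    refine ih.drop (j := j) ?_ ?_
    · intro ε hε
      filter_upwards [hb ε hε] with n hn
      intro k i l hi hl
      show |LnS Dr' ((G n).rel k i l) j| ≤ _
      have e : LnS Dr' ((G n).rel k i l) j = (G n).rel k i l j := if_neg hj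
      rw [e]
      exact hn k i l hi hl j
    · intro p hp
      show LnS Dr' (Function.update p j 0) ∈ Leg
      rw [upd_LnS hD]
      exact hp

/-! ### the model of a tie window -/

/-- **model of a tie window** -/
structure TieM (S Dr Ts : Finset (Fin 12)) (σ t : ℝ) (lam : (Fin 12 → ℝ) → ℝ) (B' : Base)
    (G : ℕ → RCfg (Fin 12)) (own : ℕ → ℕ → ℕ → ℕ → Fin 12 → ℝ) (D : ℝ) : Prop where
  mod : RModel B' G σ t (legT S Dr t) (nuT S Dr t lam) D
  law : Kr710.LLaw B' G (S ∪ Dr) own t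
  own0 : ∀ n i k0 k, ∀ s ∈ Dr, own n i k0 k s = 0
  thin : ∀ j ∈ Ts, ∃ γ : ℝ, 0 < γ ∧ KW420.OwnThin B' G own j γ t

end Crest.Agent.R116.Tw369
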