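import Crest.Agent.R116.TieW1_369
import Crest.Agent.R116.Ctd_369

/-!
# R116, ties (helper369): windows on the tie planes, part 2: existence

* `TBase` : the base points (raised in the slots of `Dr`, on the tie in the slots of `S`).
* `TWin` : the window; `exists_twin`.
-/

set_option autoImplicit false
set_option linter.unusedVariables false
set_option linter.unusedSectionVars false

open Finset Filter Topology

namespace Crest.Agent.R116.Tw369

open Crest.Agent.R138.Ex926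
open Crest.Agent.R138.Mk163 (zc zl rho alive)
open Crest.Agent.R136.Net191 Crest.Agent.R136.Gf356 Crest.Agent.R136.Qg926
open Crest.Agent.R136.MkA627 Crest.Agent.R136.TD627 Crest.Agent.R136.Lq196
open Crest.Agent.R116.LZg725 Crest.Agent.R116.ChL222
open Crest.Agent.R116.EvL504 (WL Reg side natD LnS ownL)
open Crest.Agent.R116.PL504 (βL eL rL oL Shift nb DN prN wtL)
open Crest.Agent.R116.Gd222 (TSet sN PDL DT vb)
open Crest.Agent.R116.KI439
open Crest.Agent.R116.KF439 (PL Thin)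
open Crest.Agent.R116.Tw468 Crest.Agent.R116.CtxB468
open Crest.Agent.R116.EvD369 Crest.Agent.R116.Kst593

/-- **base points of the windows**: any legal points with the slots of `S` on the tie, converging
to the record point `rL .. v0` in the slots `≥ 3` -/
structure TBase (θ0 θ1 w0 sa sb v0 : ℝ) (S : Finset (Fin 12)) (X : ℕ → Fin 12 → ℝ)
    (v : ℕ → ℝ) : Prop where
  v00 : 0 < v0
  v01 : v0 < 1
  hv : Tendsto v atTop (𝓝 v0)
  z : ∀ l, X l 0 = w0 + v l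
  tie : ∀ l, ∀ k ∈ S, X l k = rL θ0 θ1 w0 sa sb (v l) k

/-- drop the first `N` terms -/
theorem TBase.tail {θ0 θ1 w0 sa sb v0 : ℝ} {S : Finset (Fin 12)} {X : ℕ → Fin 12 → ℝ}
    {v : ℕ → ℝ} (h : TBase θ0 θ1 w0 sa sb v0 S X v) (N : ℕ) :
    TBase θ0 θ1 w0 sa sb v0 S (fun l => X (l + N)) (fun l => v (l + N)) where
  v00 := h.v00
  v01 := h.v01
  hv := h.hv.comp (tendsto_add_atTop_nat N)
  z := fun l => h.z (l + N)
  tie := fun l => h.tie (l + N)

/-- tail of a tangent -/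
theorem tan_tail {V : Type*} [NormedAddCommGroup V] [NormedSpace ℝ V] {P D : Set V}
    {ν lam : V → ℝ} {x : ℕ → V} {h : ℕ → ℝ} (H : IsTan P D ν x h lam) (N : ℕ) :
    IsTan P D ν (fun l => x (l + N)) (fun l => h (l + N)) lam := fun C ε hε =>
  (tendsto_add_atTop_nat N).eventually (H C ε hε)

/-- **the window** -/
structure TWin (B : Base) (I0 I' : ℕ → Finset (ℕ × ℝ))
    (co : ∀ n : ℕ, ℕ × ℝ → ℕ × ℝ → Fin 12 → ℝ) (X : ℕ → Fin 12 → ℝ) (hh : ℕ → ℝ)
    (lam : (Fin 12 → ℝ) → ℝ) (S Dr Ts : Finset (Fin 12)) (Sl : Fin 12 → Set ℝ) (σ t : ℝ)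
    (k : ℕ → ℕ) (W : Wnd 12 (fun _ => ℕ × ℝ)) (N : ℕ → ℝ) (cw : ∀ n : ℕ, ℕ × ℝ → ℤ)
    (E' : ∀ n : ℕ, Finset (ℕ × ℝ)) (g : ℕ → ℝ) (ex : ℕ → ∀ n : ℕ, ℕ × ℝ → ℕ) : Prop where
  wl : WL W (cK0 monL 2) t
  hk : Tendsto k U atTop
  eB : W.B = B
  eI : W.I = I0
  eJ : W.J = I'
  eco : W.co = co
  eX : W.X = fun n => X (k n)
  ew : W.w = fun n => hh (k n)
  elam : W.lam = lam
  eS : W.S = S
  etop : W.top = fun j => if j ∈ Dr then 0 else t
  eM : W.Mw = monX Dr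
  eR : W.R' = t
  ekap : W.kap = fun j => cK0 monL 2 ^ wtL j
  base : ∀ n, W.B'.d n = B.d n ^ hh (k n)
  cl : ∀ᶠ n in (U : Filter ℕ), W.Cl n ⊆ I0 n
  rl : RLines W (fun _ x => x.1) N
  ws : ∀ j ∈ Ts, ∃ γ : ℝ, 0 < γ ∧ WStrip W (fun _ x => x.1) cw j (Sl j) N t γ
  pr : Wnd.Pruned W W.Cl E' g (exO W (fun _ x => x.1) ex)
  reg : ∀ᶠ n in (U : Filter ℕ), Reg W E' n
  mod : RModel W.B' (W.cfg E') σ t W.legW W.nu W.Dc

variable {G : Geo TSet (Fin 2)} {L : ℕ → ℕ → LRay} {r : ℕ → ℝ} {g s : ℝ} {θ q : Fin 2 → ℝ}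
    {Rg : ℝ} {B : Base} {I : ℕ → Finset (ℕ × ℝ)} {lev : ℕ → ℚ → ℕ} {A : ℕ → ℝ}
    {f : ℕ → ℚ → ℕ → ℤ → ℕ} {b : ℕ → ℚ → ℕ → TSet} {vm : ℕ → ℚ → ℝ} {w : Fin 2 → ℕ → ℚ → ℝ}
    {fr : ℕ → ℚ → ℕ × ℝ → LInc} {fl : ℕ → ℕ × ℝ → LInc} {sc : Fin 12 → ℕ → ℝ}
    {w0 sa sb δ R : ℝ} {I0 I' : ℕ → Finset (ℕ × ℝ)} {ν own : (Fin 12 → ℝ) → ℝ} {c₀ : ℝ}

/-- **existence of the window**, all conditions from the start -/
theorem exists_twin0 (ctx : CtxT G L r g s θ q Rg B I lev A f b vm w fr fl sc w0 sa sb δ R I0 I' ν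
      own c₀) {S Dr Ts : Finset (Fin 12)} (hw : WSD S Dr) {X : ℕ → Fin 12 → ℝ} {hh v : ℕ → ℝ}
    {t v0 σ : ℝ} (ht : 0 < t) (hpos : ∀ l, 0 < hh l) (hh0 : Tendsto hh atTop (𝓝 0))
    {D : Set (Fin 12 → ℝ)} {lam : (Fin 12 → ℝ) → ℝ} (htan : IsTan (Leg monL R) D ν X hh lam)
    (hD : Leg (monX Dr) t ⊆ D) (hb : TBase (θ 0) (θ 1) w0 sa sb v0 S X v)
    (hTs : Ts ⊆ S) (hβ : ∀ j ∈ Ts, 0 < βL (θ 0) (θ 1) j)
    {Sl : Fin 12 → Set ℝ} (hSl : ∀ j ∈ Ts, Sl j = {0} ∨ Sl j = Set.univ)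
    (hSt : ∀ j ∈ Ts, StC B I lev fl (sc j) j (βL (θ 0) (θ 1) j) (Sl j))
    (hvis : ∀ k, k ≠ 0 → VisT B I fl sc k → k ∈ S)
    (hden : DensT S Dr t σ lam)
    (hX : ∀ l, X l ∈ Leg monL R) (hv0 : ∀ l, 0 < v l) (hv1 : ∀ l, v l ≤ 1)
    (hr1 : ∀ j ∈ Ts, ∀ l, v l + hh l * (t / βL (θ 0) (θ 1) j) ≤ 1) :
    ∃ (k : ℕ → ℕ) (W : Wnd 12 (fun _ => ℕ × ℝ)) (N : ℕ → ℝ) (cw : ∀ n : ℕ, ℕ × ℝ → ℤ)
      (E' : ∀ n : ℕ, Finset (ℕ × ℝ)) (g' : ℕ → ℝ),
      TWin B I0 I' (PL504.coN B lev w w0 sa sb fl) X hh lam S Dr Ts Sl σ t k W N cw E' g'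
        (fun _ _ _ => 0) := by
  classical
  have hR : 0 ≤ R := by
    have h1 := (hX 0).1.nonneg 0
    have h2 := (hX 0).2 0
    linarith
  have hK1 : 1 ≤ cK0 monL 2 := cK0_one (by norm_num)
  have hK : 0 < cK0 monL 2 := by linarith
  obtain ⟨γ, hγ, HO⟩ := ostrips_of ctx.out.win.sys (fun k n v => rfl) ctx.out.win.hz w0 sa sb Ts
    hβ Sl hSl hSt
  have HO' := HO.sub (I' := I0) (Eventually.of_forall ctx.sub0)
  have hN := WinU954.nprof_of_ext hR ctx.ext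
  have hst := stX_ok hw hK ht.le hD
  have h00 : (0 : Fin 12 → ℝ) ∈ Leg (monX Dr) t :=
    ⟨⟨fun _ => le_rfl, fun k e _ => by simp⟩, fun _ => ht.le⟩
  have hz : ∀ l, X l 0 = w0 + v l := hb.z
  -- the own profile on the fibre
  have hown : ∀ l, ∀ y ∈ Leg monL R, (∀ k ∈ S, y k = X l k) → own y = (1 - s) * (1 - v l) := by
    intro l y hy hyS
    refine ctx.ext.own_rot y hy (v l) (hv0 l).le (hv1 l) ?_ ?_
    · rw [hyS 0 hw.z, hz]
    · intro k
      by_cases hk : k = 0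
      · subst hk
        rw [hyS 0 hw.z, hz]
        unfold oL
        rw [if_pos (Or.inl rfl)]
        exact le_rfl
      · by_cases hV : VisT B I fl sc k
        · have hkS := hvis k hk hV
          rw [CtxB468.oV hV, hyS k hkS, hb.tie l k hkS]
        · rw [CtxB468.oR hk hV]
          exact hy.2 k
  have g1 : ∀ᶠ l in (atTop : Filter ℕ),
      own (X l + hh l • cut (stX S Dr (cK0 monL 2) t).S (stX S Dr (cK0 monL 2) t).top 0) =
        own (X l) := by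
    filter_upwards [htan ‖cut (stX S Dr (cK0 monL 2) t).S (stX S Dr (cK0 monL 2) t).top 0‖ 1
      one_pos] with l hl
    have h1 := (hl _ (hst.leg hst.lin_leg) le_rfl).1
    have h2 := hown l _ h1 fun k hk => ?_
    · rw [h2, hown l _ (hX l) fun k _ => rfl]
    · have e : cut (stX S Dr (cK0 monL 2) t).S (stX S Dr (cK0 monL 2) t).top 0 k = 0 :=
        cut_of_mem hk
      simp only [Pi.add_apply, Pi.smul_apply, smul_eq_mul, e, mul_zero, add_zero]
  have g2 : ∀ j ∈ Ts, ∀ l, X l j = rL (θ 0) (θ 1) w0 sa sb 0 j + βL (θ 0) (θ 1) j * v l := by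
    intro j hj l
    rw [hb.tie l j (hTs hj), PL504.rL_lin]
  have g3 : ∀ l, own (X l) = (1 - s) * (1 - v l) := fun l => hown l _ (hX l) fun k _ => rfl
  obtain ⟨uq, k, hk, hk2⟩ := exists_swin hN hpos (hst.leg h00) htan hst
    (rl := fun _ x => x.1) (own := own) ctx.ext.oprof g1 HO' (fun j _ => (hγ j).le) hβ ctx.ext.s0
    ctx.ext.s1 hz hv0 hv1 ht hr1 g2 g3 (fun _ _ => 1) (fun _ => Base.Sub.const one_pos)
    (fun _ => (0, 0)) (Gd := I') (E := I') (Eventually.of_forall fun n => Subset.refl _)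
    (Eventually.of_forall fun n => Subset.refl _) (Sd := fun _ => 1) (Base.Sub.const one_pos)
    (Eventually.of_forall fun n => by rw [one_mul])
  obtain ⟨B', s₀, W, eW, b1, b2, -, c1, c2, c3, c4⟩ := hk2 k hk (Eventually.of_forall fun n => le_rfl)
  have hN2 : ∀ s, s ∉ EvL504.SL → s ∉ Dr := fun s hs h1 => by
    rcases hw.hDr s h1 with rfl | rfl <;> exact hs (by decide)
  have wl : WL W (cK0 monL 2) t := by
    subst eW
    exact
      { ok := c2
        hM := rfl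
        coc := fun n => Sd369.coc_N B lev w w0 sa sb fl n
        hK := le_rfl
        kap := fun s => rfl
        hS := hw.hSL
        kz := rfl
        topS := fun s hs => by
          show t ≤ if s ∈ Dr then 0 else t
          rw [if_neg (hw.dis s hs)]
        topL := fun s hs => by
          show t ≤ if s ∈ Dr then 0 else t
          rw [if_neg (hN2 s hs)] }
  have hmod : ∃ (E' : ∀ n : ℕ, Finset (ℕ × ℝ)) (g' : ℕ → ℝ),
      Wnd.Pruned W W.Cl E' g' (exO W (fun _ x => x.1) fun _ _ _ => 0) ∧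
      RModel W.B' (W.cfg E') σ t W.legW W.nu W.Dc := by
    subst eW
    obtain ⟨E', g', p1, p2, p3⟩ := (hden.st hw).model c2 c2.eok_class
      (exO _ (fun _ x => x.1) fun _ _ _ => 0) (g₀ := fun n => (n : ℝ))
      (tendsto_natCast_atTop_atTop.mono_left U_le_atTop)
    exact ⟨E', g', p1, p3⟩
  obtain ⟨E', g', p1, p3⟩ := hmod
  refine ⟨k, W, fun n => B.d n ^ (-(own (X (k n)))), fun n y => zc (lev n (uq (k n))) y.2, E', g', ?_⟩
  have hBd : ∀ n, W.B'.d n = B.d n ^ hh (k n) := by subst eW; exact b1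
  have hX' : W.X = fun n => X (k n) := by subst eW; rfl
  have hB' : W.B = B := by subst eW; rfl
  have hkap : W.kap = fun j => cK0 monL 2 ^ wtL j := by subst eW; rfl
  exact
    { wl := wl
      hk := hk
      eB := hB'
      eI := by subst eW; rfl
      eJ := by subst eW; rfl
      eco := by subst eW; rfl
      eX := hX'
      ew := by subst eW; rfl
      elam := by subst eW; rfl
      eS := by subst eW; rfl
      etop := by subst eW; rfl
      eM := by subst eW; rfl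
      eR := by subst eW; rfl
      ekap := hkap
      base := hBd
      cl := by
        filter_upwards [c2.ev_good] with n g1
        have := g1.clI
        subst eW
        exact this
      rl := c3
      ws := fun j hj => ⟨γ j / βL (θ 0) (θ 1) j, div_pos (hγ j) (hβ j hj), c4 j hj⟩
      pr := p1
      reg := WinU954.ev_reg_of c2 c2.eok_class p1
      mod := p3 }

end Crest.Agent.R116.Tw369
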