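import Crest.Agent.R116.TieW3_369
import Crest.Agent.R116.Ctd_369

/-!
# R116, ties (helper369): windows on the tie planes, part 4: visible slots coarser than their own level

* `exists_twinV` : `exists_twin`, a visible slot is in `S` or stays coarser than its own level;
* `wsd_ek` : `S = {0, 2, 7, 8}`, `Dr = {1}`; `wsd_dd` : `S = {0, 1, 2, 7, 8}`, `Dr = ∅`.
-/

set_option autoImplicit false
set_option linter.unusedVariables false
set_option linter.unusedSectionVars false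

open Finset Filter Topology

namespace Crest.Agent.R116.Tw369

open Crest.Agent.R138.Ex926
open Crest.Agent.R138.Mk163 (zc zl rho alive)
open Crest.Agent.R136.Net191 Crest.Agent.R136.Gf356 Crest.Agent.R136.Qg926
open Crest.Agent.R136.MkA627 Crest.Agent.R136.TD627 Crest.Agent.R136.Lq196
open Crest.Agent.R116.LZg725 Crest.Agent.R116.ChL222
open Crest.Agent.R116.EvL504 (WL Reg side natD LnS ownL)
open Crest.Agent.R116.PL504 (βL eL rL oL Shift nb DN prN wtL)
open Crest.Agent.R116.Gd222 (TSet sN PDL DT vb)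
open Crest.Agent.R116.KI439
open Crest.Agent.R116.KF439 (PL Thin)
open Crest.Agent.R116.Tw468 Crest.Agent.R116.CtxB468
open Crest.Agent.R116.EvD369 Crest.Agent.R116.Kst593

theorem wsd_ek : WSD {0, 2, 7, 8} {1} where
  z := by decide
  hSL := by decide
  hDr := by decide
  dis := by decide
  lev := by decide +kernel
  lin := by decide +kernel

theorem wsd_dd : WSD {0, 1, 2, 7, 8} ∅ where
  z := by decide
  hSL := by decide
  hDr := by decide
  dis := by decide
  lev := by decide +kernel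
  lin := by decide +kernel

variable {G : Geo TSet (Fin 2)} {L : ℕ → ℕ → LRay} {r : ℕ → ℝ} {g s : ℝ} {θ q : Fin 2 → ℝ}
    {Rg : ℝ} {B : Base} {I : ℕ → Finset (ℕ × ℝ)} {lev : ℕ → ℚ → ℕ} {A : ℕ → ℝ}
    {f : ℕ → ℚ → ℕ → ℤ → ℕ} {b : ℕ → ℚ → ℕ → TSet} {vm : ℕ → ℚ → ℝ} {w : Fin 2 → ℕ → ℚ → ℝ}
    {fr : ℕ → ℚ → ℕ × ℝ → LInc} {fl : ℕ → ℕ × ℝ → LInc} {sc : Fin 12 → ℕ → ℝ}
    {w0 sa sb δ R : ℝ} {I0 I' : ℕ → Finset (ℕ × ℝ)} {ν own : (Fin 12 → ℝ) → ℝ} {c₀ : ℝ}

/-- **existence of the window**, all conditions from the start -/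
theorem exists_twinV0 (ctx : CtxT G L r g s θ q Rg B I lev A f b vm w fr fl sc w0 sa sb δ R I0 I' ν
      own c₀) {S Dr Ts : Finset (Fin 12)} (hw : WSD S Dr) {X : ℕ → Fin 12 → ℝ} {hh v : ℕ → ℝ}
    {t v0 σ : ℝ} (ht : 0 < t) (hpos : ∀ l, 0 < hh l) (hh0 : Tendsto hh atTop (𝓝 0))
    {D : Set (Fin 12 → ℝ)} {lam : (Fin 12 → ℝ) → ℝ} (htan : IsTan (Leg monL R) D ν X hh lam)
    (hD : Leg (monX Dr) t ⊆ D) (hb : TBase (θ 0) (θ 1) w0 sa sb v0 S X v)
    (hTs : Ts ⊆ S) (hβ : ∀ j ∈ Ts, 0 < βL (θ 0) (θ 1) j)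
    {Sl : Fin 12 → Set ℝ} (hSl : ∀ j ∈ Ts, Sl j = {0} ∨ Sl j = Set.univ)
    (hSt : ∀ j ∈ Ts, StC B I lev fl (sc j) j (βL (θ 0) (θ 1) j) (Sl j))
    (hvis : ∀ k, k ≠ 0 → VisT B I fl sc k → k ∈ S ∨
      ∀ l, X l k + t * hh l ≤ rL (θ 0) (θ 1) w0 sa sb (v l) k)
    (hden : DensT S Dr t σ lam)
    (hX : ∀ l, X l ∈ Leg monL R) (hv0 : ∀ l, 0 < v l) (hv1 : ∀ l, v l ≤ 1)
    (hr1 : ∀ j ∈ Ts, ∀ l, v l + hh l * (t / βL (θ 0) (θ 1) j) ≤ 1) :
    ∃ (k : ℕ → ℕ) (W : Wnd 12 (fun _ => ℕ × ℝ)) (N : ℕ → ℝ) (cw : ∀ n : ℕ, ℕ × ℝ → ℤ)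
      (E' : ∀ n : ℕ, Finset (ℕ × ℝ)) (g' : ℕ → ℝ),
      TWin B I0 I' (PL504.coN B lev w w0 sa sb fl) X hh lam S Dr Ts Sl σ t k W N cw E' g'
        (fun _ _ _ => 0) := by
  classical
  have hR : 0 ≤ R := by
    have h1 := (hX 0).1.nonneg 0
    have h2 := (hX 0).2 0
    linarith
  have hK1 : 1 ≤ cK0 monL 2 := cK0_one (by norm_num)
  have hK : 0 < cK0 monL 2 := by linarith
  obtain ⟨γ, hγ, HO⟩ := ostrips_of ctx.out.win.sys (fun k n v => rfl) ctx.out.win.hz w0 sa sb Ts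
    hβ Sl hSl hSt
  have HO' := HO.sub (I' := I0) (Eventually.of_forall ctx.sub0)
  have hN := WinU954.nprof_of_ext hR ctx.ext
  have hst := stX_ok hw hK ht.le hD
  have h00 : (0 : Fin 12 → ℝ) ∈ Leg (monX Dr) t :=
    ⟨⟨fun _ => le_rfl, fun k e _ => by simp⟩, fun _ => ht.le⟩
  have hz : ∀ l, X l 0 = w0 + v l := hb.z
  -- the own profile on the fibre
  have hown : ∀ l, ∀ y ∈ Leg monL R, (∀ k ∈ S, y k = X l k) →
      (∀ k, y k ≤ X l k + t * hh l) → own y = (1 - s) * (1 - v l) := by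
    intro l y hy hyS hyt
    refine ctx.ext.own_rot y hy (v l) (hv0 l).le (hv1 l) ?_ ?_
    · rw [hyS 0 hw.z, hz]
    · intro k
      by_cases hk : k = 0
      · subst hk
        rw [hyS 0 hw.z, hz]
        unfold oL
        rw [if_pos (Or.inl rfl)]
        exact le_rfl
      · by_cases hV : VisT B I fl sc k
        · rw [CtxB468.oV hV]
          rcases hvis k hk hV with hkS | hkC
          · rw [hyS k hkS, hb.tie l k hkS]
          · exact (hyt k).trans (hkC l)
        · rw [CtxB468.oR hk hV]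
          exact hy.2 k
  have g1 : ∀ᶠ l in (atTop : Filter ℕ),
      own (X l + hh l • cut (stX S Dr (cK0 monL 2) t).S (stX S Dr (cK0 monL 2) t).top 0) =
        own (X l) := by
    filter_upwards [htan ‖cut (stX S Dr (cK0 monL 2) t).S (stX S Dr (cK0 monL 2) t).top 0‖ 1
      one_pos] with l hl
    have h1 := (hl _ (hst.leg hst.lin_leg) le_rfl).1
    have h2 := hown l _ h1 (fun k hk => ?_) (fun k => ?_)
    · rw [h2, hown l _ (hX l) (fun k _ => rfl) fun k => by
        have := mul_pos ht (hpos l)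
        linarith]
    · have e : cut (stX S Dr (cK0 monL 2) t).S (stX S Dr (cK0 monL 2) t).top 0 k = 0 :=
        cut_of_mem hk
      simp only [Pi.add_apply, Pi.smul_apply, smul_eq_mul, e, mul_zero, add_zero]
    · have e : cut (stX S Dr (cK0 monL 2) t).S (stX S Dr (cK0 monL 2) t).top 0 k ≤ t := by
        have e1 := cut_lin (t := t) hw (cK0 monL 2)
        have e2 : cut (stX S Dr (cK0 monL 2) t).S (stX S Dr (cK0 monL 2) t).top 0 k =
            cL S Dr (fun _ => t) k := congrFun e1 k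
        rw [e2]
        exact ((lin_leg hw ht.le).2 k)
      simp only [Pi.add_apply, Pi.smul_apply, smul_eq_mul]
      have := mul_le_mul_of_nonneg_left e (hpos l).le
      linarith
  have g2 : ∀ j ∈ Ts, ∀ l, X l j = rL (θ 0) (θ 1) w0 sa sb 0 j + βL (θ 0) (θ 1) j * v l := by
    intro j hj l
    rw [hb.tie l j (hTs hj), PL504.rL_lin]
  have g3 : ∀ l, own (X l) = (1 - s) * (1 - v l) := fun l => hown l _ (hX l) (fun k _ => rfl)
    fun k => by
      have := mul_pos ht (hpos l)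
      linarith
  obtain ⟨uq, k, hk, hk2⟩ := exists_swin hN hpos (hst.leg h00) htan hst
    (rl := fun _ x => x.1) (own := own) ctx.ext.oprof g1 HO' (fun j _ => (hγ j).le) hβ ctx.ext.s0
    ctx.ext.s1 hz hv0 hv1 ht hr1 g2 g3 (fun _ _ => 1) (fun _ => Base.Sub.const one_pos)
    (fun _ => (0, 0)) (Gd := I') (E := I') (Eventually.of_forall fun n => Subset.refl _)
    (Eventually.of_forall fun n => Subset.refl _) (Sd := fun _ => 1) (Base.Sub.const one_pos)
    (Eventually.of_forall fun n => by rw [one_mul])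
  obtain ⟨B', s₀, W, eW, b1, b2, -, c1, c2, c3, c4⟩ := hk2 k hk (Eventually.of_forall fun n => le_rfl)
  have hN2 : ∀ s, s ∉ EvL504.SL → s ∉ Dr := fun s hs h1 => by
    rcases hw.hDr s h1 with rfl | rfl <;> exact hs (by decide)
  have wl : WL W (cK0 monL 2) t := by
    subst eW
    exact
      { ok := c2
        hM := rfl
        coc := fun n => Sd369.coc_N B lev w w0 sa sb fl n
        hK := le_rfl
        kap := fun s => rfl
        hS := hw.hSL
        kz := rfl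
        topS := fun s hs => by
          show t ≤ if s ∈ Dr then 0 else t
          rw [if_neg (hw.dis s hs)]
        topL := fun s hs => by
          show t ≤ if s ∈ Dr then 0 else t
          rw [if_neg (hN2 s hs)] }
  have hmod : ∃ (E' : ∀ n : ℕ, Finset (ℕ × ℝ)) (g' : ℕ → ℝ),
      Wnd.Pruned W W.Cl E' g' (exO W (fun _ x => x.1) fun _ _ _ => 0) ∧
      RModel W.B' (W.cfg E') σ t W.legW W.nu W.Dc := by
    subst eW
    obtain ⟨E', g', p1, p2, p3⟩ := (hden.st hw).model c2 c2.eok_class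
      (exO _ (fun _ x => x.1) fun _ _ _ => 0) (g₀ := fun n => (n : ℝ))
      (tendsto_natCast_atTop_atTop.mono_left U_le_atTop)
    exact ⟨E', g', p1, p3⟩
  obtain ⟨E', g', p1, p3⟩ := hmod
  refine ⟨k, W, fun n => B.d n ^ (-(own (X (k n)))), fun n y => zc (lev n (uq (k n))) y.2, E', g', ?_⟩
  have hBd : ∀ n, W.B'.d n = B.d n ^ hh (k n) := by subst eW; exact b1
  have hX' : W.X = fun n => X (k n) := by subst eW; rfl
  have hB' : W.B = B := by subst eW; rfl
  have hkap : W.kap = fun j => cK0 monL 2 ^ wtL j := by subst eW; rfl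
  exact
    { wl := wl
      hk := hk
      eB := hB'
      eI := by subst eW; rfl
      eJ := by subst eW; rfl
      eco := by subst eW; rfl
      eX := hX'
      ew := by subst eW; rfl
      elam := by subst eW; rfl
      eS := by subst eW; rfl
      etop := by subst eW; rfl
      eM := by subst eW; rfl
      eR := by subst eW; rfl
      ekap := hkap
      base := hBd
      cl := by
        filter_upwards [c2.ev_good] with n g1
        have := g1.clI
        subst eW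
        exact this
      rl := c3
      ws := fun j hj => ⟨γ j / βL (θ 0) (θ 1) j, div_pos (hγ j) (hβ j hj), c4 j hj⟩
      pr := p1
      reg := WinU954.ev_reg_of c2 c2.eok_class p1
      mod := p3 }

/-- **existence of the window** -/
theorem exists_twinV (ctx : CtxT G L r g s θ q Rg B I lev A f b vm w fr fl sc w0 sa sb δ R I0 I' ν
      own c₀) {S Dr Ts : Finset (Fin 12)} (hw : WSD S Dr) {X : ℕ → Fin 12 → ℝ} {hh v : ℕ → ℝ}
    {t v0 σ : ℝ} (ht : 0 < t) (hpos : ∀ l, 0 < hh l) (hh0 : Tendsto hh atTop (𝓝 0))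
    {D : Set (Fin 12 → ℝ)} {lam : (Fin 12 → ℝ) → ℝ} (htan : IsTan (Leg monL R) D ν X hh lam)
    (hD : Leg (monX Dr) t ⊆ D) (hb : TBase (θ 0) (θ 1) w0 sa sb v0 S X v)
    (hTs : Ts ⊆ S) (hβ : ∀ j ∈ Ts, 0 < βL (θ 0) (θ 1) j)
    {Sl : Fin 12 → Set ℝ} (hSl : ∀ j ∈ Ts, Sl j = {0} ∨ Sl j = Set.univ)
    (hSt : ∀ j ∈ Ts, StC B I lev fl (sc j) j (βL (θ 0) (θ 1) j) (Sl j))
    (hvis : ∀ k, k ≠ 0 → VisT B I fl sc k → k ∈ S ∨
      ∀ᶠ l in atTop, X l k + t * hh l ≤ rL (θ 0) (θ 1) w0 sa sb (v l) k)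
    (hden : DensT S Dr t σ lam) :
    ∃ (k : ℕ → ℕ) (W : Wnd 12 (fun _ => ℕ × ℝ)) (N : ℕ → ℝ) (cw : ∀ n : ℕ, ℕ × ℝ → ℤ)
      (E' : ∀ n : ℕ, Finset (ℕ × ℝ)) (g' : ℕ → ℝ),
      TWin B I0 I' (PL504.coN B lev w w0 sa sb fl) X hh lam S Dr Ts Sl σ t k W N cw E' g'
        (fun _ _ _ => 0) := by
  have h00 : (0 : Fin 12 → ℝ) ∈ Leg (monX Dr) t :=
    ⟨⟨fun _ => le_rfl, fun k e _ => by simp⟩, fun _ => ht.le⟩
  have a1 : ∀ᶠ l in atTop, X l ∈ Leg monL R := by
    filter_upwards [htan ‖(0 : Fin 12 → ℝ)‖ 1 one_pos] with l hl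
    have := (hl 0 (hD h00) le_rfl).1
    rwa [smul_zero, add_zero] at this
  have a2 : ∀ᶠ l in atTop, 0 < v l := hb.hv.eventually_const_lt hb.v00
  have a3 : ∀ᶠ l in atTop, v l < 1 := hb.hv.eventually_lt_const hb.v01
  have a4 : ∀ j : Fin 12, ∀ᶠ l in atTop, v l + hh l * (t / βL (θ 0) (θ 1) j) < 1 := fun j => by
    have h1 : Tendsto (fun l => v l + hh l * (t / βL (θ 0) (θ 1) j)) atTop
        (𝓝 (v0 + 0 * (t / βL (θ 0) (θ 1) j))) := hb.hv.add (hh0.mul_const _)
    exact h1.eventually_lt_const (by rw [zero_mul, add_zero]; exact hb.v01)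
  have a5 : ∀ k : Fin 12, ∀ᶠ l in atTop, k ≠ 0 → VisT B I fl sc k → k ∈ S ∨
      X l k + t * hh l ≤ rL (θ 0) (θ 1) w0 sa sb (v l) k := fun k => by
    by_cases hk : k ≠ 0 ∧ VisT B I fl sc k
    · rcases hvis k hk.1 hk.2 with h | h
      · exact Eventually.of_forall fun l _ _ => Or.inl h
      · exact h.mono fun l hl _ _ => Or.inr hl
    · exact Eventually.of_forall fun l h1 h2 => (hk ⟨h1, h2⟩).elim
  have all := (((a1.and a2).and a3).and (eventually_all.2 a4)).and (eventually_all.2 a5)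
  obtain ⟨M, hM⟩ := eventually_atTop.1 all
  have hvis' : ∀ k, k ≠ 0 → VisT B I fl sc k → k ∈ S ∨
      ∀ l, X (l + M) k + t * hh (l + M) ≤ rL (θ 0) (θ 1) w0 sa sb (v (l + M)) k := by
    intro k h1 h2
    by_cases hS : k ∈ S
    · exact Or.inl hS
    · exact Or.inr fun l => ((hM (l + M) (Nat.le_add_left _ _)).2 k h1 h2).resolve_left hS
  obtain ⟨k, W, N, cw, E', g', T⟩ := exists_twinV0 ctx hw ht (fun l => hpos (l + M))
    (hh0.comp (tendsto_add_atTop_nat M)) (tan_tail htan M) hD (hb.tail M) hTs hβ hSl hSt hvis' hden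
    (fun l => (hM (l + M) (Nat.le_add_left _ _)).1.1.1.1)
    (fun l => (hM (l + M) (Nat.le_add_left _ _)).1.1.1.2)
    (fun l => (hM (l + M) (Nat.le_add_left _ _)).1.1.2.le)
    (fun j _ l => ((hM (l + M) (Nat.le_add_left _ _)).1.2 j).le)
  exact ⟨fun n => k n + M, W, N, cw, E', g',
    { wl := T.wl
      hk := tendsto_atTop_mono (fun n => Nat.le_add_right (k n) M) T.hk
      eB := T.eB
      eI := T.eI
      eJ := T.eJ
      eco := T.eco
      eX := T.eX
      ew := T.ew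
      elam := T.elam
      eS := T.eS
      etop := T.etop
      eM := T.eM
      eR := T.eR
      ekap := T.ekap
      base := T.base
      cl := T.cl
      rl := T.rl
      ws := T.ws
      pr := T.pr
      reg := T.reg
      mod := T.mod }⟩


end Crest.Agent.R116.Tw369
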