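import Crest.Agent.R116.Tk9_126
import Crest.Agent.R116.Tk5_299

/-!
# R116 (K side, ties), `KUp'` over the context, `k > 1`, final form (helper126)

* `tmK9`, **`kU9ctx`** : `CtxT`, `Out9` on `kU9`, `oP9` ⊢ `KUp'`
-/

set_option autoImplicit false
set_option linter.unusedVariables false
set_option linter.unusedSectionVars false

open Set Filter Topology MeasureTheory

namespace Crest.Agent.R116.Ku126

open Crest.Agent.R138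
open Crest.Agent.R138.Ex926 (Base U IsTan)
open Crest.Agent.R136
open Crest.Agent.R136.MkA627
open Crest.Agent.R136.TD627
open Crest.Agent.R136.Net191
open Crest.Agent.R136.Lq196
open Crest.Agent.R136.Qg926 Crest.Agent.R136.Gf356 Crest.Agent.R116.EvL504
open Crest.Agent.R116.ChL222
open Crest.Agent.R116.PL504 (nb rL DN eL βL oL Shift)
open Crest.Agent.R116.Sg337 (bx9 coneL DL natB)
open Crest.Agent.R116.Gd222 (TSet sN PDL DT)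
open Crest.Agent.R116.KI439 hiding kD
open Crest.Agent.R116.KF439 (PL)
open Crest.Agent.R116.CtxB468
open Crest.Agent.R116.Rcx363
open Crest.Agent.R116.Tq741
open Crest.Agent.R116.Tp139 hiding cl8
open Crest.Agent.R116.Tie460 (Pl KF' KUp')

/-- 299's `tm_k` in the form of the binder -/
theorem tmK9 {s k : ℝ} (hk : 1 < k) (hs0 : 0 ≤ s) (hs1 : s ≤ 1) : TmK9 s k :=
  fun hC P F W => Tk299.kf9 P hC hk hs0 hs1 F (fun w h7 h8 => ⟨h7, h8⟩)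
    (fun h => absurd trivial h) (fun _ => W)

section ctx

variable {G : Geo TSet (Fin 2)} {L : ℕ → ℕ → LRay} {r : ℕ → ℝ} {g s : ℝ} {θ q : Fin 2 → ℝ}
    {Rg : ℝ} {B : Base} {I : ℕ → Finset (ℕ × ℝ)} {lev : ℕ → ℚ → ℕ} {A : ℕ → ℝ}
    {f : ℕ → ℚ → ℕ → ℤ → ℕ} {b : ℕ → ℚ → ℕ → TSet} {vm : ℕ → ℚ → ℝ} {w : Fin 2 → ℕ → ℚ → ℝ}
    {fr : ℕ → ℚ → ℕ × ℝ → LInc} {fl : ℕ → ℕ × ℝ → LInc} {sc : Fin 12 → ℕ → ℝ}
    {w0 sa sb δ R : ℝ} {I0 I' : ℕ → Finset (ℕ × ℝ)} {ν own : (Fin 12 → ℝ) → ℝ} {c₀ : ℝ}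
    {v0 k : ℝ} {a b' : Fin 2} {x : ℕ → Fin 12 → ℝ} {hh : ℕ → ℝ}
    {lam : Fin 2 → (Fin 12 → ℝ) → ℝ} {T : Type*}

/-- **`KUp'` over the context, `k > 1`** -/
theorem kU9ctx
    (C : CtxT G L r g s θ q Rg B I lev A f b vm w fr fl sc w0 sa sb δ R I0 I' ν own c₀)
    (hs0 : 0 ≤ s) (hs1 : s < 1) (hθ : 0 < θ 0) (hk : 1 < k) (hb : θ 1 = 2 * θ 0 - k)
    (hk2 : 2 * θ 0 < k) (hv0 : 0 < v0) (hv1 : v0 < 1) (hI7 : InvT PL B I 7 fl (sc 7))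
    (hI8 : InvT PL B I 8 fl (sc 8))
    (hT : InvT PL B I 1 fl (sc 1) ∧ TieT θ B I lev fl sc 2 ∨ TieT θ B I lev fl sc 1)
    {Bs : T → Fin 9 → ℝ} {sgs : T → ℝ}
    (O : Out9 R s a b' (VisT B I fl sc) (θ 0) (θ 1) g (q 0) (q 1) Bs sgs
      (rL (θ 0) (θ 1) w0 sa sb v0) (fo ν own) x hh lam)
    {iU iP : T} (hU : Bs iU = kU9) (hU1 : sgs iU = 1) (hP : Bs iP = oP9) (hP1 : sgs iP = 1)
    (A' : Pl) : ∃ B', KUp' k (θ 0) s g (q 0) (q 1) A' B' :=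
  kU9ctx_of (tmK9 hk hs0 hs1.le) C hs0 hs1 hθ hk hb hk2 hv0 hv1 hI7 hI8 hT O hU hU1 hP hP1 A'

end ctx

end Crest.Agent.R116.Ku126
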