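import Crest.Agent.R116.TwF2_369

/-!
# R116, ties (helper369): (W3), (W2), (W3k) over the context, class letters

* `NBase`      : natural base (`nbase8` : `D` raised; `nbase9` : `D` natural)
* `u3`, `u2`   : (W3), (W2) at an `e`-tie; `E`, `D` invisible or strictly coarser than their own level
* `u3n`, `u2n` : the same, `G` exactly on its own level
* `k3`         : (W3k) at a `κ`-tie, `D` raised
-/

set_option autoImplicit false
set_option linter.unusedVariables false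
set_option linter.unusedSectionVars false

open Set Filter Topology

namespace Crest.Agent.R116.Tw369

open Crest.Agent.R138
open Crest.Agent.R138.Ex926 (Base U IsTan)
open Crest.Agent.R136
open Crest.Agent.R136.MkA627
open Crest.Agent.R136.TD627
open Crest.Agent.R136.Net191
open Crest.Agent.R136.Lq196
open Crest.Agent.R136.Qg926 Crest.Agent.R136.Gf356 Crest.Agent.R116.EvL504
open Crest.Agent.R116.ChL222
open Crest.Agent.R116.PL504 (nb rL DN eL βL oL Shift eL_wall)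
open Crest.Agent.R116.Sg337 (bx9)
open Crest.Agent.R116.Gd222 (TSet sN PDL DT)
open Crest.Agent.R116.KI439
open Crest.Agent.R116.KF439 (PL)
open Crest.Agent.R116.CtxB468
open Crest.Agent.R116.Kst593 Crest.Agent.R116.KW420
open Crest.Agent.R116.Rcx363 (fo fo_lip Prf)
open Crest.Agent.R116.RbM219
open Crest.Agent.R116.SgF665 (wl wl_add wl_smul LM0)
open Crest.Agent.R116.WinG954 (LM)
open Crest.Agent.R116.Tq741 Crest.Agent.R116.Tq794

/-- more slots in `Z` -/
theorem linS_mono {Z Z' : Finset (Fin 9)} (h : Z ⊆ Z') {Λ : V9 → ℝ} {w R : V9}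
    (hL : LinS Z Λ w R) : LinS Z' Λ w R := by
  obtain ⟨hh, Ψ, h1, h2, h3, h4⟩ := hL
  refine ⟨hh, fun d => Ψ d + ∑ u ∈ Z' \ Z, R u * d u, h1, h2, fun d d' hd h5 h6 => ?_,
    fun d hd => ?_⟩
  · have e1 := h3 d d' (fun t ht => hd t (h ht)) h5 h6
    have e2 : ∑ u ∈ Z' \ Z, R u * d u = ∑ u ∈ Z' \ Z, R u * d' u :=
      Finset.sum_congr rfl fun u hu => by rw [hd u (Finset.mem_sdiff.1 hu).1]
    show Ψ d + _ = Ψ d' + _
    rw [e1, e2]
  · have e : Ψ d + ∑ u ∈ Z' \ Z, R u * d u + ∑ t ∈ Z'ᶜ, R t * d t = Ψ d + ∑ t ∈ Zᶜ, R t * d t := by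
      rw [add_assoc]
      congr 1
      rw [← Finset.sum_union]
      · congr 1
        ext u
        simp only [Finset.mem_union, Finset.mem_sdiff, Finset.mem_compl]
        constructor
        · rintro (⟨-, h7⟩ | h7)
          · exact h7
          · exact fun h8 => h7 (h h8)
        · intro h7
          by_cases h8 : u ∈ Z'
          · exact Or.inl ⟨h8, h7⟩
          · exact Or.inr h8
      · rw [Finset.disjoint_left]
        intro u h7 h8
        exact (Finset.mem_compl.1 h8) (Finset.mem_sdiff.1 h7).1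
    rw [e]
    exact h4 d hd

/-- natural base; `D` raised above every multiple of the unit, or `D` live -/
structure NBase (E : V9 → Fin 12 → ℝ) (X : ℕ → Fin 12 → ℝ) (H : ℕ → ℝ) : Prop where
  hx : ∀ l k, ∀ e ∈ monL.mon k, e 1 = 0 → X l k = wl e (X l)
  hD : (∀ k, ∀ e ∈ monL.mon k, e 1 ≠ 0 → ∀ K : ℝ, ∀ᶠ l in atTop, X l k + K * H l ≤ wl e (X l)) ∨
    ((∀ w, E w = E9 w) ∧ ∀ l k, ∀ e ∈ monL.mon k, e 1 ≠ 0 → X l k ≤ wl e (X l))
  p3 : ∀ l, X l 3 = X l 4
  p5 : ∀ l, X l 5 = X l 6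
  p7 : ∀ l, X l 7 = X l 8

theorem mon_one' {k : Fin 12} {e : Fin 12 → ℕ} (he : e ∈ monL.mon k) : k ≠ 1 := (mon1 k e he).2

theorem wl_single' (e : Fin 12 → ℕ) (t : ℝ) :
    wl e (t • (Pi.single 1 1 : Fin 12 → ℝ)) = t * e 1 := by
  rw [wl_smul]
  congr 1
  unfold wl
  rw [Finset.sum_eq_single (1 : Fin 12)]
  · rw [Pi.single_eq_same, mul_one]
  · intro s _ hs
    rw [Pi.single_eq_of_ne hs, mul_zero]
  · intro h
    exact absurd (Finset.mem_univ _) h

theorem nbase8 {X : ℕ → Fin 12 → ℝ} {H : ℕ → ℝ} {zz c p dd : ℕ → ℝ}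
    (hXn : ∀ l, X l = eL (zz l) (c l) (p l) + dd l • (Pi.single 1 1 : Fin 12 → ℝ))
    (hdd : ∀ K : ℝ, ∀ᶠ l in atTop, K * H l ≤ dd l) : NBase E8 X H where
  hx := by
    intro l k e he h1
    rw [hXn l, wl_add, show wl e (eL (zz l) (c l) (p l)) = eL (zz l) (c l) (p l) k from
      eL_wall _ _ _ k he, wl_single', h1]
    simp only [Pi.add_apply, Pi.smul_apply, smul_eq_mul, Pi.single_eq_of_ne (mon_one' he)]
    simp
  hD := by
    left
    intro k e he h1 K
    filter_upwards [hdd K, hdd 0] with l hl hl0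
    rw [hXn l, wl_add, show wl e (eL (zz l) (c l) (p l)) = eL (zz l) (c l) (p l) k from
      eL_wall _ _ _ k he, wl_single']
    simp only [Pi.add_apply, Pi.smul_apply, smul_eq_mul, Pi.single_eq_of_ne (mon_one' he)]
    have h2 : (1:ℝ) ≤ e 1 := by exact_mod_cast Nat.one_le_iff_ne_zero.2 h1
    nlinarith
  p3 := fun l => by rw [hXn l]; simp [eL]
  p5 := fun l => by rw [hXn l]; simp [eL]
  p7 := fun l => by rw [hXn l]; simp [eL]

theorem nbase9 {X : ℕ → Fin 12 → ℝ} {H : ℕ → ℝ} {zz c p : ℕ → ℝ}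
    (hXn : ∀ l, X l = eL (zz l) (c l) (p l)) : NBase E9 X H where
  hx := by
    intro l k e he h1
    rw [hXn l]
    exact (eL_wall _ _ _ k he).symm
  hD := by
    right
    refine ⟨fun _ => rfl, fun l k e he _ => ?_⟩
    rw [hXn l]
    exact (eL_wall _ _ _ k he).symm.le
  p3 := fun l => by rw [hXn l]; simp [eL]
  p5 := fun l => by rw [hXn l]; simp [eL]
  p7 := fun l => by rw [hXn l]; simp [eL]

section nb

variable {E : V9 → Fin 12 → ℝ} {M : Set (Fin 12 → ℝ)} {X : ℕ → Fin 12 → ℝ} {H : ℕ → ℝ}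

/-- the walls without `D` -/
theorem NBase.walls (nb : NBase E X H) : (∀ n, X n 5 = X n 0 + X n 3) ∧
    (∀ n, X n 6 = X n 0 + X n 4) ∧ (∀ n, X n 7 = X n 2 + X n 3) ∧ (∀ n, X n 8 = X n 2 + X n 4) ∧
    (∀ n, X n 11 = X n 0 + X n 10) ∧ (∀ n, X n 11 = X n 5 + X n 7) ∧
    (∀ n, X n 11 = X n 6 + X n 8) ∧ (∀ n, X n 10 = X n 3 + X n 7) ∧
    (∀ n, X n 10 = X n 4 + X n 8) ∧ (∀ n, X n 11 = X n 2 + X n 9) := by
  have g : ∀ (l : ℕ) (k : Fin 12) (e : Fin 12 → ℕ), e ∈ mfL k → e 1 = 0 → X l k = wl e (X l) := nb.hx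
  refine ⟨fun n => ?_, fun n => ?_, fun n => ?_, fun n => ?_, fun n => ?_, fun n => ?_,
    fun n => ?_, fun n => ?_, fun n => ?_, fun n => ?_⟩
  · have := g n 5 ![1, 0, 0, 1, 0, 0, 0, 0, 0, 0, 0, 0] (by decide) rfl
    rw [wl12] at this; simpa using this
  · have := g n 6 ![1, 0, 0, 0, 1, 0, 0, 0, 0, 0, 0, 0] (by decide) rfl
    rw [wl12] at this; simpa using this
  · have := g n 7 ![0, 0, 1, 1, 0, 0, 0, 0, 0, 0, 0, 0] (by decide) rfl
    rw [wl12] at this; simpa using this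
  · have := g n 8 ![0, 0, 1, 0, 1, 0, 0, 0, 0, 0, 0, 0] (by decide) rfl
    rw [wl12] at this; simpa using this
  · have := g n 11 ![1, 0, 0, 0, 0, 0, 0, 0, 0, 0, 1, 0] (by decide) rfl
    rw [wl12] at this; simpa using this
  · have := g n 11 ![0, 0, 0, 0, 0, 1, 0, 1, 0, 0, 0, 0] (by decide) rfl
    rw [wl12] at this; simpa using this
  · have := g n 11 ![0, 0, 0, 0, 0, 0, 1, 0, 1, 0, 0, 0] (by decide) rfl
    rw [wl12] at this; simpa using this
  · have := g n 10 ![0, 0, 0, 1, 0, 0, 0, 1, 0, 0, 0, 0] (by decide) rfl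
    rw [wl12] at this; simpa using this
  · have := g n 10 ![0, 0, 0, 0, 1, 0, 0, 0, 1, 0, 0, 0] (by decide) rfl
    rw [wl12] at this; simpa using this
  · have := g n 11 ![0, 0, 1, 0, 0, 0, 0, 0, 0, 1, 0, 0] (by decide) rfl
    rw [wl12] at this; simpa using this

/-- the walls with `D` -/
theorem NBase.slD (nb : NBase E X H) {w : V9} :
    (w 6 < w 8 + w 3 → Slw X H (E w) 1 5 7) ∧ (w 6 < w 8 + w 3 → Slw X H (E w) 1 6 8) ∧
      (w 2 < w 8 + w 5 → Slw X H (E w) 1 9 10) ∧ (w 7 < w 0 + w 8 → Slw X H (E w) 0 1 2) := by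
  rcases nb.hD with h | ⟨h0, h⟩
  · have g : ∀ (k : Fin 12) (e : Fin 12 → ℕ), e ∈ mfL k → e 1 ≠ 0 → ∀ K : ℝ,
      ∀ᶠ l in atTop, X l k + K * H l ≤ wl e (X l) := h
    refine ⟨fun _ => Or.inr fun K => ?_, fun _ => Or.inr fun K => ?_, fun _ => Or.inr fun K => ?_,
      fun _ => Or.inr fun K => ?_⟩
    · filter_upwards [g 7 ![0, 1, 0, 0, 0, 1, 0, 0, 0, 0, 0, 0] (by decide) (by decide) K] with l hl
      rw [wl12] at hl; simpa using hl
    · filter_upwards [g 8 ![0, 1, 0, 0, 0, 0, 1, 0, 0, 0, 0, 0] (by decide) (by decide) K] with l hl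
      rw [wl12] at hl; simpa using hl
    · filter_upwards [g 10 ![0, 1, 0, 0, 0, 0, 0, 0, 0, 1, 0, 0] (by decide) (by decide) K] with l hl
      rw [wl12] at hl; simpa using hl
    · filter_upwards [g 2 ![1, 1, 0, 0, 0, 0, 0, 0, 0, 0, 0, 0] (by decide) (by decide) K] with l hl
      rw [wl12] at hl; simpa using hl
  · have g : ∀ (l : ℕ) (k : Fin 12) (e : Fin 12 → ℕ), e ∈ mfL k → e 1 ≠ 0 →
      X l k ≤ wl e (X l) := h
    refine ⟨fun hg => Or.inl ⟨Eventually.of_forall fun l => ?_, ?_⟩,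
      fun hg => Or.inl ⟨Eventually.of_forall fun l => ?_, ?_⟩,
      fun hg => Or.inl ⟨Eventually.of_forall fun l => ?_, ?_⟩,
      fun hg => Or.inl ⟨Eventually.of_forall fun l => ?_, ?_⟩⟩
    · have := g l 7 ![0, 1, 0, 0, 0, 1, 0, 0, 0, 0, 0, 0] (by decide) (by decide)
      rw [wl12] at this; simpa using this
    · rw [h0]; exact hg
    · have := g l 8 ![0, 1, 0, 0, 0, 0, 1, 0, 0, 0, 0, 0] (by decide) (by decide)
      rw [wl12] at this; simpa using this
    · rw [h0]; exact hg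
    · have := g l 10 ![0, 1, 0, 0, 0, 0, 0, 0, 0, 1, 0, 0] (by decide) (by decide)
      rw [wl12] at this; simpa using this
    · rw [h0]; exact hg
    · have := g l 2 ![1, 1, 0, 0, 0, 0, 0, 0, 0, 0, 0, 0] (by decide) (by decide)
      rw [wl12] at this; simpa using this
    · rw [h0]; exact hg

end nb

end Crest.Agent.R116.Tw369
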