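import Crest.Agent.R116.Tk4_538
import Crest.Agent.R116.TwF3_369
import Crest.Agent.R116.Pe0_794

/-!
# R116 (K side, ties), the bases of the plane `kUe` (helper538)

* `LM0_kUe` : the cone of the plane contains the cone without `D`
* `nbK`     : natural base with `D` raised above every multiple of the unit
* `tbK`     : `z` and `E` on their record levels
-/

set_option autoImplicit false
set_option linter.unusedVariables false
set_option linter.unusedSectionVars false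

open Set Filter Topology MeasureTheory

namespace Crest.Agent.R116.Tk538

open Crest.Agent.R136
open Crest.Agent.R138
open Dg219 (mw Walls)
open RbK219
open RbM219
open SgO219 (PP)
open Kz647
open Crest.Agent.R116.PL504 (eL)
open Crest.Agent.R116.Tq741
open Crest.Agent.R138.Ex926 (Base U IsTan)
open Crest.Agent.R136.Net191
open Crest.Agent.R116.ChL222
open Crest.Agent.R116.PL504 (rL βL eL_wall)
open Crest.Agent.R116.Rcx363
open Crest.Agent.R116.Pd363
open Crest.Agent.R116.SgF665 (wl wl_add wl_smul LM0)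
open Crest.Agent.R116.Tq794 (E9 mon_one wl_eL wl_single)
open Crest.Agent.R116.Tw369

theorem vec_kUe (e : ℝ) : RL9.vec (kUe e) = eL 0 1 2 + e • (Pi.single 1 1 : Fin 12 → ℝ) := by
  funext i
  fin_cases i <;> simp [RS.vec, RL9, cl9, kUe, eL] <;> norm_num

/-- the cone of the plane contains the cone without `D` -/
theorem LM0_kUe {θa θb e : ℝ} (he : 0 < e) : LM0 ⊆ L9B θa θb (kUe e) 1 := by
  intro c hc w hw
  have hk : w.1 ≠ 1 := mon_one w.2.2
  have h1 := hw.2.1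
  rw [one_smul, vec_kUe] at h1
  have h2 : (mw monL).rhs w (eL 0 1 2 + e • (Pi.single 1 1 : Fin 12 → ℝ)) =
      eL 0 1 2 w.1 + e * (w.2.1 1 : ℝ) := by
    change wl w.2.1 _ = _
    rw [wl_add, wl_eL _ _ _ w.1 w.2.2, wl_single]
  have h3 : (eL 0 1 2 + e • (Pi.single 1 1 : Fin 12 → ℝ)) ((mw monL).hd w) = eL 0 1 2 w.1 := by
    change (eL 0 1 2 + e • (Pi.single 1 1 : Fin 12 → ℝ)) w.1 = _
    rw [Pi.add_apply, Pi.smul_apply, Pi.single_eq_of_ne hk, smul_zero, add_zero]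
  rw [h2, h3] at h1
  have h4 : e * (w.2.1 1 : ℝ) = 0 := by linarith
  have h6 : w.2.1 1 = 0 := by
    have := (mul_eq_zero.1 h4).resolve_left he.ne'
    exact_mod_cast this
  exact hc w.1 w.2.1 w.2.2 h6

section planes

variable {R s : ℝ} {a b : Fin 2} {Vis' : Fin 12 → Prop} {θa θb w0 sa sb v0 κ : ℝ}
    {f : Fin 2 → (Fin 12 → ℝ) → ℝ} {X : ℕ → Fin 12 → ℝ} {h' H : ℕ → ℝ}
    {lam lam2 : Fin 2 → (Fin 12 → ℝ) → ℝ} {l α e : ℝ} {ρ ρ2 : Fin 9 → ℝ}

/-- the bases of the plane `kUe` -/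
theorem kUe_base
    (P : Pd9 R s a b Vis' θa θb w0 sa sb v0 κ (kUe e) 1 f lam ρ l α h' X H lam2 ρ2) :
    ∃ zz cc pp dd : ℕ → ℝ,
      ∀ m, X m = eL (zz m) (cc m) (pp m) + dd m • (Pi.single 1 1 : Fin 12 → ℝ) := by
  obtain ⟨V, E, -, -, -, hb⟩ := P.base
  refine ⟨fun m => w0 + (v0 + V m) + E m * 0, fun m => θa * (1 - (v0 + V m)) + sa + E m * 1,
    fun m => θb * (1 - (v0 + V m)) + sb + E m * 2, fun m => E m * e, fun m => ?_⟩
  funext k
  rw [hb m k]
  have e1 : kUe e (cl9 k) = eL 0 1 2 k + e * (Pi.single 1 1 : Fin 12 → ℝ) k := by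
    fin_cases k <;> simp [cl9, kUe, eL] <;> norm_num
  have e2 := Tq794.eL_lin (w0 + (v0 + V m)) (θa * (1 - (v0 + V m)) + sa)
    (θb * (1 - (v0 + V m)) + sb) 0 1 2 (E m) k
  have e3 : rL θa θb w0 sa sb (v0 + V m) k = eL (w0 + (v0 + V m)) (θa * (1 - (v0 + V m)) + sa)
    (θb * (1 - (v0 + V m)) + sb) k := rfl
  rw [e1, e3, Pi.add_apply, ← e2, Pi.smul_apply, smul_eq_mul]
  ring

theorem tanK (he : 0 < e)
    (P : Pd9 R s a b Vis' θa θb w0 sa sb v0 κ (kUe e) 1 f lam ρ l α h' X H lam2 ρ2) (j : Fin 2) :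
    IsTan (Leg monL R) LM0 (f j) X H (lam2 j) :=
  Rc683.tan_mono (P.tan j) Subset.rfl (LM0_kUe he)

/-- **natural base, `D` raised** -/
theorem nbK (he : 0 < e)
    (P : Pd9 R s a b Vis' θa θb w0 sa sb v0 κ (kUe e) 1 f lam ρ l α h' X H lam2 ρ2) :
    NBase E9 X H := by
  obtain ⟨zz, cc, pp, dd, hX⟩ := kUe_base P
  have h := nbase8 hX (Tq794.slack_of_tan P.pos (tanK he P 0) hX)
  refine ⟨h.hx, ?_, h.p3, h.p5, h.p7⟩
  rcases h.hD with h1 | ⟨h1, h2⟩
  · exact Or.inl h1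
  · exact Or.inr ⟨fun _ => rfl, h2⟩

/-- **`z` and `E` on their record levels** -/
theorem tbK (hv0 : 0 < v0) (hv1 : v0 < 1)
    (P : Pd9 R s a b Vis' θa θb w0 sa sb v0 κ (kUe e) 1 f lam ρ l α h' X H lam2 ρ2) :
    ∃ v : ℕ → ℝ, TBase θa θb w0 sa sb v0 {0, 2} X v := by
  obtain ⟨v, h1, h2, h3⟩ := P.tb (S := {0, 2}) (fun k hk => by
    rcases Finset.mem_insert.1 hk with rfl | hk
    · change (0:ℝ) = 0 * _
      rw [zero_mul]
    · rw [Finset.mem_singleton.1 hk]
      change (0:ℝ) = 0 * _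
      rw [zero_mul]) (c := 0) (fun k _ => by simp) strictMono_id (u := fun _ => 0)
    tendsto_const_nhds
  refine ⟨v, hv0, hv1, h1, fun m => ?_, fun m k hk => ?_⟩
  · have := h2 m
    simpa using this
  · have := h3 m k hk
    simpa using this

end planes

end Crest.Agent.R116.Tk538
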