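import Crest.Agent.R116.Tk5_538
import Crest.Agent.R116.TwF5_369

/-!
# R116 (K side, ties), plane data of `kUe` for the own-strip facts (helper538)

* `pbK` : 369's `PBase` on the plane `kUe`
-/

set_option autoImplicit false
set_option linter.unusedVariables false
set_option linter.unusedSectionVars false

open Set Filter Topology MeasureTheory

namespace Crest.Agent.R116.Tk538

open Crest.Agent.R136
open Crest.Agent.R138
open RbK219
open RbM219
open Kz647
open Crest.Agent.R116.PL504 (eL)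
open Crest.Agent.R116.Tq741
open Crest.Agent.R138.Ex926 (Base U IsTan)
open Crest.Agent.R136.MkA627 Crest.Agent.R136.TD627 Crest.Agent.R136.Net191
open Crest.Agent.R136.Lq196
open Crest.Agent.R116.ChL222
open Crest.Agent.R116.PL504 (rL βL Shift)
open Crest.Agent.R116.Gd222 (TSet sN)
open Crest.Agent.R116.KI439
open Crest.Agent.R116.KF439 (PL)
open Crest.Agent.R116.CtxB468
open Crest.Agent.R116.Rcx363
open Crest.Agent.R116.Pd363
open Crest.Agent.R116.WinG954 (LM)
open Crest.Agent.R116.SgF665 (wl LM0)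
open Crest.Agent.R116.Tq794 (E9)
open Crest.Agent.R116.Tw369

theorem LM_sub_LM0 : LM ⊆ LM0 := fun _ hp k e he _ => hp k e he

section planes

variable {R s : ℝ} {a b : Fin 2} {Vis' : Fin 12 → Prop} {θa θb w0 sa sb v0 κ : ℝ}
    {f : Fin 2 → (Fin 12 → ℝ) → ℝ} {X : ℕ → Fin 12 → ℝ} {h' H : ℕ → ℝ}
    {lam lam2 : Fin 2 → (Fin 12 → ℝ) → ℝ} {l α e : ℝ} {ρ ρ2 : Fin 9 → ℝ}

/-- **369's plane data on `kUe`** -/
theorem pbK (he : 0 < e) (hv0 : 0 < v0) (hv1 : v0 < 1)
    (P : Pd9 R s a b Vis' θa θb w0 sa sb v0 κ (kUe e) 1 f lam ρ l α h' X H lam2 ρ2) :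
    ∃ v : ℕ → ℝ, PBase θa θb w0 sa sb v0 R {0, 2} E9 LM (f 0) X H v (lam2 0) := by
  obtain ⟨v, hv⟩ := tbK hv0 hv1 P
  have hLM : LM ⊆ L9B θa θb (kUe e) 1 := LM_sub_LM0.trans (LM0_kUe he)
  refine ⟨v, P.pos, P.lim, Rc683.tan_mono (P.tan 0) Subset.rfl hLM, fun p hp q hq hpq => ?_,
    nbK he P, hv, fun j _ => (tendsto_pi_nhds.1 P.xlim) j⟩
  have := (P.prf.anti p (hLM hp) q (hLM hq) hpq).1
  linarith

end planes

end Crest.Agent.R116.Tk538
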