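import Crest.Agent.R116.Tk8_647

/-!
# R116 (K side, ties): the `κ`-plane, `k = 1`, with (K3) as a hypothesis (helper299)

`Crest.Agent.R116.Tk299.kf1K` is now helper647's (`Tk8_647`, the same statement and argument order);
this file only forwards the import.
-/
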