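import Crest.Agent.R116.Tp9_139
import Crest.Agent.R116.Pd3_363

/-!
# R116 (K side, ties), the static facts of the planes above the record over the context (helper139)

* `fctS_e8`, `fctS_k8`, `fctS_d8` : `Fct9` of `oS` in the regions `rg_e`, `rg_k`, `rg_d8`
* `fctS_e9`, `fctS_d9i`, `fctS_d9` : `Fct9` of `oS9` in the regions `rg_e`, `rg_d8`, `rg_d9`
-/

set_option autoImplicit false
set_option linter.unusedVariables false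
set_option linter.unusedSimpArgs false
set_option linter.unusedSectionVars false

open Set Filter Topology

namespace Crest.Agent.R116.Tp139

open Crest.Agent.R138
open Crest.Agent.R138.Ex926 (Base U IsTan)
open Crest.Agent.R136
open Crest.Agent.R136.MkA627
open Crest.Agent.R136.TD627
open Crest.Agent.R136.Net191
open Crest.Agent.R136.Lq196
open Crest.Agent.R136.Qg926 Crest.Agent.R136.Gf356 Crest.Agent.R116.EvL504
open Crest.Agent.R116.ChL222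
open Crest.Agent.R116.PL504 (nb rL DN eL βL oL Shift eL_wall)
open Crest.Agent.R116.Sg337 (bx9 DL coneL)
open Crest.Agent.R116.Gd222 (TSet sN PDL DT)
open Crest.Agent.R116.KI439
open Crest.Agent.R116.KF439 (PL)
open Crest.Agent.R116.CtxB468
open Crest.Agent.R116.Rcx363 (fo fo_lip Prf)
open Crest.Agent.R116.RbM219
open Crest.Agent.R116.RbK219 (RS)
open Crest.Agent.R116.Kz647
open Crest.Agent.R116.Pd363
open Crest.Agent.R116.Tq741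
open Crest.Agent.R116.Tq794 (E8 E9)
open Crest.Agent.R116.Pd3x363
open Dg219 (mw Walls)
open Sl741 (slice xt rs)

/-! ### the visible slots -/

section sk

variable {Vis' : Fin 12 → Prop} {θ θb : ℝ}

theorem bL0 : βL θ θb 0 = 1 := rfl
theorem bL1 : βL θ θb 1 = 2 * θ - θb - 1 := by
  show -θb - 2 * -θ - 1 = _; ring
theorem bL2 : βL θ θb 2 = 2 * θ - θb := by
  show -θb - 2 * -θ = _; ring
theorem bL7 : βL θ θb 7 = θ - θb := by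
  show -θb - -θ = _; ring
theorem bL8 : βL θ θb 8 = θ - θb := by
  show -θb - -θ = _; ring

theorem E8_0 (w : V9) : E8 w 0 = w 0 := rfl
theorem E8_2 (w : V9) : E8 w 2 = w 7 := rfl
theorem E8_7 (w : V9) : E8 w 7 = w 6 := rfl
theorem E8_8 (w : V9) : E8 w 8 = w 6 := rfl
theorem E9_0 (w : V9) : E9 w 0 = w 0 := rfl
theorem E9_1 (w : V9) : E9 w 1 = w 8 := rfl
theorem E9_2 (w : V9) : E9 w 2 = w 7 := rfl
theorem E9_7 (w : V9) : E9 w 7 = w 6 := rfl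
theorem E9_8 (w : V9) : E9 w 8 = w 6 := rfl

theorem sk_e8 (hV : ∀ j, Vis' j → j = 0 ∨ j = 7 ∨ j = 8) (w : V9) (_ : LegM 0 w)
    (h : w 6 < (θ - θb) * w 0) (j : Fin 12) (hj : Vis' j) : E8 w j ≤ w 0 * βL θ θb j := by
  rcases hV j hj with rfl | rfl | rfl
  · rw [E8_0, bL0]; linarith
  · rw [E8_7, bL7]; linarith
  · rw [E8_8, bL8]; linarith

theorem sk_k8 (hV : ∀ j, Vis' j → j = 0 ∨ j = 2) (w : V9) (_ : LegM 0 w)
    (h : w 7 < (2 * θ - θb) * w 0) (j : Fin 12) (hj : Vis' j) : E8 w j ≤ w 0 * βL θ θb j := by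
  rcases hV j hj with rfl | rfl
  · rw [E8_0, bL0]; linarith
  · rw [E8_2, bL2]; linarith

theorem sk_d8 (hV : ∀ j, Vis' j → j = 0 ∨ j = 2 ∨ j = 7 ∨ j = 8) (w : V9) (_ : LegM 0 w)
    (h : w 6 < (θ - θb) * w 0 ∧ w 7 < (2 * θ - θb) * w 0) (j : Fin 12) (hj : Vis' j) :
    E8 w j ≤ w 0 * βL θ θb j := by
  rcases hV j hj with rfl | rfl | rfl | rfl
  · rw [E8_0, bL0]; linarith
  · rw [E8_2, bL2]; linarith [h.2]
  · rw [E8_7, bL7]; linarith [h.1]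
  · rw [E8_8, bL8]; linarith [h.1]

theorem sk_e9 (hV : ∀ j, Vis' j → j = 0 ∨ j = 7 ∨ j = 8) (w : V9) (_ : LegM 0 w)
    (h : w 6 < (θ - θb) * w 0) (j : Fin 12) (hj : Vis' j) : E9 w j ≤ w 0 * βL θ θb j := by
  rcases hV j hj with rfl | rfl | rfl
  · rw [E9_0, bL0]; linarith
  · rw [E9_7, bL7]; linarith
  · rw [E9_8, bL8]; linarith

theorem sk_d9i (hV : ∀ j, Vis' j → j = 0 ∨ j = 2 ∨ j = 7 ∨ j = 8) (w : V9) (_ : LegM 0 w)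
    (h : w 6 < (θ - θb) * w 0 ∧ w 7 < (2 * θ - θb) * w 0) (j : Fin 12) (hj : Vis' j) :
    E9 w j ≤ w 0 * βL θ θb j := by
  rcases hV j hj with rfl | rfl | rfl | rfl
  · rw [E9_0, bL0]; linarith
  · rw [E9_2, bL2]; linarith [h.2]
  · rw [E9_7, bL7]; linarith [h.1]
  · rw [E9_8, bL8]; linarith [h.1]

theorem sk_d9 (hV : ∀ j, Vis' j → j = 0 ∨ j = 1 ∨ j = 2 ∨ j = 7 ∨ j = 8) (w : V9)
    (_ : LegM 0 w)
    (h : w 6 < (θ - θb) * w 0 ∧ w 7 < (2 * θ - θb) * w 0 ∧ w 8 < (2 * θ - θb - 1) * w 0)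
    (j : Fin 12) (hj : Vis' j) : E9 w j ≤ w 0 * βL θ θb j := by
  rcases hV j hj with rfl | rfl | rfl | rfl | rfl
  · rw [E9_0, bL0]; linarith
  · rw [E9_1, bL1]; linarith [h.2.2]
  · rw [E9_2, bL2]; linarith [h.2.1]
  · rw [E9_7, bL7]; linarith [h.1]
  · rw [E9_8, bL8]; linarith [h.1]

end sk

/-! ### over the context -/

section ctx

variable {G : Geo TSet (Fin 2)} {L : ℕ → ℕ → LRay} {r : ℕ → ℝ} {g s : ℝ} {θ q : Fin 2 → ℝ}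
    {Rg : ℝ} {B : Base} {I : ℕ → Finset (ℕ × ℝ)} {lev : ℕ → ℚ → ℕ} {A : ℕ → ℝ}
    {f : ℕ → ℚ → ℕ → ℤ → ℕ} {b : ℕ → ℚ → ℕ → TSet} {vm : ℕ → ℚ → ℝ} {w : Fin 2 → ℕ → ℚ → ℝ}
    {fr : ℕ → ℚ → ℕ × ℝ → LInc} {fl : ℕ → ℕ × ℝ → LInc} {sc : Fin 12 → ℕ → ℝ}
    {w0 sa sb δ R : ℝ} {I0 I' : ℕ → Finset (ℕ × ℝ)} {ν own : (Fin 12 → ℝ) → ℝ} {c₀ : ℝ}
    {Vis' : Fin 12 → Prop} {a b' : Fin 2} {v0 t κ l α : ℝ} {X : ℕ → Fin 12 → ℝ} {h' H : ℕ → ℝ}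
    {lam lam2 : Fin 2 → (Fin 12 → ℝ) → ℝ}

section e8

variable {ρ ρ2 : Fin 8 → ℝ}
  (P : Pd8 R s a b' Vis' (θ 0) (θ 1) w0 sa sb v0 t κ oS 1 (fo ν own) lam ρ l α h' X H lam2 ρ2)
  (C : CtxT G L r g s θ q Rg B I lev A f b vm w fr fl sc w0 sa sb δ R I0 I' ν own c₀)
  (hs0 : 0 ≤ s) (hs1 : s ≤ 1) (ht : t ≠ 0) (hθ : 0 < θ 0) (hv0 : 0 < v0) (hv1 : v0 < 1)
include P C hs0 hs1 ht hθ hv0 hv1

/-- `e`-tie, `D` frozen -/
theorem fctS_e8 (hV : ∀ j, Vis' j → j = 0 ∨ j = 7 ∨ j = 8) {k : ℝ} (hk : k = θ 0 - θ 1) :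
    Fct9 (fun w => w 6 < k * w 0) s (LamU (lam2 0)) := by
  subst hk
  exact pd8_fctS P C hs0 hs1 ht hθ hv0 hv1 fun w hw h j hj => sk_e8 hV w hw h j hj

/-- `κ`-tie, `D` frozen -/
theorem fctS_k8 (hV : ∀ j, Vis' j → j = 0 ∨ j = 2) {k' : ℝ} (hk : k' = 2 * θ 0 - θ 1) :
    Fct9 (fun w => w 7 < k' * w 0) s (LamU (lam2 0)) := by
  subst hk
  exact pd8_fctS P C hs0 hs1 ht hθ hv0 hv1 fun w hw h j hj => sk_k8 hV w hw h j hj

/-- double tie, `D` frozen -/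
theorem fctS_d8 (hV : ∀ j, Vis' j → j = 0 ∨ j = 2 ∨ j = 7 ∨ j = 8) {k k' : ℝ}
    (hk : k = θ 0 - θ 1) (hk' : k' = 2 * θ 0 - θ 1) :
    Fct9 (fun w => w 6 < k * w 0 ∧ w 7 < k' * w 0) s (LamU (lam2 0)) := by
  subst hk hk'
  exact pd8_fctS P C hs0 hs1 ht hθ hv0 hv1 fun w hw h j hj => sk_d8 hV w hw h j hj

end e8

section e9

variable {sg : ℝ} {ρ ρ2 : Fin 9 → ℝ}
  (P : Pd9 R s a b' Vis' (θ 0) (θ 1) w0 sa sb v0 κ oS9 sg (fo ν own) lam ρ l α h' X H lam2 ρ2)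
  (C : CtxT G L r g s θ q Rg B I lev A f b vm w fr fl sc w0 sa sb δ R I0 I' ν own c₀)
  (hs0 : 0 ≤ s) (hs1 : s ≤ 1) (hθ : 0 < θ 0) (hv0 : 0 < v0) (hv1 : v0 < 1)
include P C hs0 hs1 hθ hv0 hv1

/-- `e`-tie, `D` live -/
theorem fctS_e9 (hV : ∀ j, Vis' j → j = 0 ∨ j = 7 ∨ j = 8) {k : ℝ} (hk : k = θ 0 - θ 1) :
    Fct9 (fun w => w 6 < k * w 0) s (fun w => lam2 0 (RL9.vec w)) := by
  subst hk
  exact pd9_fctS P C hs0 hs1 hθ hv0 hv1 fun w hw h j hj => sk_e9 hV w hw h j hj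

/-- double tie, `D` live and invisible -/
theorem fctS_d9i (hV : ∀ j, Vis' j → j = 0 ∨ j = 2 ∨ j = 7 ∨ j = 8) {k k' : ℝ}
    (hk : k = θ 0 - θ 1) (hk' : k' = 2 * θ 0 - θ 1) :
    Fct9 (fun w => w 6 < k * w 0 ∧ w 7 < k' * w 0) s (fun w => lam2 0 (RL9.vec w)) := by
  subst hk hk'
  exact pd9_fctS P C hs0 hs1 hθ hv0 hv1 fun w hw h j hj => sk_d9i hV w hw h j hj

/-- double tie, `D` live -/
theorem fctS_d9 (hV : ∀ j, Vis' j → j = 0 ∨ j = 1 ∨ j = 2 ∨ j = 7 ∨ j = 8) {k k' : ℝ}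
    (hk : k = θ 0 - θ 1) (hk' : k' = 2 * θ 0 - θ 1) :
    Fct9 (fun w => w 6 < k * w 0 ∧ w 7 < k' * w 0 ∧ w 8 < (k' - 1) * w 0) s
      (fun w => lam2 0 (RL9.vec w)) := by
  subst hk hk'
  exact pd9_fctS P C hs0 hs1 hθ hv0 hv1 fun w hw h j hj => sk_d9 hV w hw h j hj

end e9

end ctx

end Crest.Agent.R116.Tp139
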