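import Crest.Agent.R116.Tp10_139
import Crest.Agent.R116.Th4_171

/-!
# R116 (K side, ties), the plane `oS9` above the record over the context (helper139)

* **`eUpD9`** : double tie, `k' > 1` : `EUp'` from `Pd9 .. oS9`, flags visible
* **`eUpE9`** : `e`-tie, `k > 1` : the same, `E` and `D` invisible
-/

set_option autoImplicit false
set_option linter.unusedVariables false
set_option linter.unusedSimpArgs false
set_option linter.unusedSectionVars false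

open Set Filter Topology

namespace Crest.Agent.R116.Tp139

open Crest.Agent.R138
open Crest.Agent.R138.Ex926 (Base U IsTan)
open Crest.Agent.R136
open Crest.Agent.R136.MkA627
open Crest.Agent.R136.TD627
open Crest.Agent.R136.Net191
open Crest.Agent.R136.Lq196
open Crest.Agent.R136.Qg926 Crest.Agent.R136.Gf356 Crest.Agent.R116.EvL504
open Crest.Agent.R116.ChL222
open Crest.Agent.R116.PL504 (nb rL DN eL βL oL Shift eL_wall)
open Crest.Agent.R116.Sg337 (bx9 DL coneL)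
open Crest.Agent.R116.Gd222 (TSet sN PDL DT)
open Crest.Agent.R116.KI439
open Crest.Agent.R116.KF439 (PL)
open Crest.Agent.R116.CtxB468
open Crest.Agent.R116.Rcx363 (fo fo_lip Prf)
open Crest.Agent.R116.RbM219
open Crest.Agent.R116.RbK219 (RS)
open Crest.Agent.R116.Kz647
open Crest.Agent.R116.Pd363
open Crest.Agent.R116.Tq741
open Crest.Agent.R116.Tq126 (cS cS9 sn8)
open Tie460
open Dg219 (mw Walls)
open Sl741 (slice xt rs)

section ctx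

variable {G : Geo TSet (Fin 2)} {L : ℕ → ℕ → LRay} {r : ℕ → ℝ} {g s : ℝ} {θ q : Fin 2 → ℝ}
    {Rg : ℝ} {B : Base} {I : ℕ → Finset (ℕ × ℝ)} {lev : ℕ → ℚ → ℕ} {A : ℕ → ℝ}
    {f : ℕ → ℚ → ℕ → ℤ → ℕ} {b : ℕ → ℚ → ℕ → TSet} {vm : ℕ → ℚ → ℝ} {w : Fin 2 → ℕ → ℚ → ℝ}
    {fr : ℕ → ℚ → ℕ × ℝ → LInc} {fl : ℕ → ℕ × ℝ → LInc} {sc : Fin 12 → ℕ → ℝ}
    {w0 sa sb δ R : ℝ} {I0 I' : ℕ → Finset (ℕ × ℝ)} {ν own : (Fin 12 → ℝ) → ℝ} {c₀ : ℝ}
    {Vis' : Fin 12 → Prop} {a b' : Fin 2} {v0 l α : ℝ} {X : ℕ → Fin 12 → ℝ} {h' H : ℕ → ℝ}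
    {lam lam2 : Fin 2 → (Fin 12 → ℝ) → ℝ} {ρ ρ2 : Fin 9 → ℝ}
  (P : Pd9 R s a b' Vis' (θ 0) (θ 1) w0 sa sb v0 (DL g s (q 0) (q 1) 0 1 1) oS9 1 (fo ν own) lam ρ
    l α h' X H lam2 ρ2)
  (C : CtxT G L r g s θ q Rg B I lev A f b vm w fr fl sc w0 sa sb δ R I0 I' ν own c₀)
  (hT : lam2 0 (RL9.vec (nat9 1 (-(θ 0)) (-(θ 1)))) =
    DL g s (q 0) (q 1) 1 (-(θ 0)) (-(θ 1)))
  (hs0 : 0 ≤ s) (hs1 : s ≤ 1) (hθ : 0 < θ 0) (hv0 : 0 < v0) (hv1 : v0 < 1)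
  (hB : TieT θ B I lev fl sc 7 ∨ TieT θ B I lev fl sc 8)
include P C hT hs0 hs1 hθ hv0 hv1 hB

/-- **`EUp'` above the record, double tie, `k' > 1`** -/
theorem eUpD9 (hV : ∀ j, Vis' j → j = 0 ∨ j = 1 ∨ j = 2 ∨ j = 7 ∨ j = 8) {k k' : ℝ}
    (hk0 : k = θ 0 - θ 1) (hk0' : k' = 2 * θ 0 - θ 1) (hk : 0 < k) (hk1 : 1 < k')
    (h12 : k ≠ 1 / 2) (h11 : k = 1 → k' ≤ 3)
    (K3 : k = 1 → ∀ φ, Cl9 (cS9 k) (dS9 (θ 0) (θ 1)) s (fun w => lam2 0 (RL9.vec w)) φ ρ2 →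
      K3U (cS9 k) s φ ρ2) {S : Pl} (ant : ρ2 1 ≤ S.m) (pos : q 0 ≤ ρ2 1) :
    ∃ B' : Pl, EUp' k (θ 0) s g (q 0) (q 1) S B' ∧ B'.d = 0 := by
  have F := fctS_d9 P C hs0 hs1 hθ hv0 hv1 hV hk0 hk0'
  have FU : FctU k (fun w : V9 => w 7 < k' * w 0 ∧ w 8 < (k' - 1) * w 0)
      (fun w => lam2 0 (RL9.vec w)) := by
    rw [hk0, hk0']
    refine Th171.fctU9 P C hθ hv0 hv1 leg_oS9 (by ev9; norm_num) (by ev9; norm_num)
      (by ev9; norm_num) (by ev9; norm_num) (by ev9; norm_num) (by ev9; norm_num) hB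
      (fun _ => by ev9; norm_num) (fun _ => by ev9; norm_num) fun w _ h => ⟨fun _ => h.1,
        fun _ => h.2⟩
  exact eUp9 P hT hθ hk (by linarith) (by linarith) hV hs0
    (rg_d9 hk hk1 h12 h11) F (fun _ => FU) K3 ant pos

/-- **`EUp'` above the record, `e`-tie, `k > 1`** -/
theorem eUpE9 (hV : ∀ j, Vis' j → j = 0 ∨ j = 7 ∨ j = 8)
    (hI : ∀ j, VisT B I fl sc j → j = 0 ∨ j = 7 ∨ j = 8) {k : ℝ}
    (hk0 : k = θ 0 - θ 1) (hk : 1 < k) {S : Pl} (ant : ρ2 1 ≤ S.m) (pos : q 0 ≤ ρ2 1) :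
    ∃ B' : Pl, EUp' k (θ 0) s g (q 0) (q 1) S B' ∧ B'.d = 0 := by
  have F := fctS_e9 P C hs0 hs1 hθ hv0 hv1 hV hk0
  have n2 : ¬ VisT B I fl sc 2 := fun h => by
    rcases hI 2 h with h | h | h <;> exact absurd h (by decide)
  have n1 : ¬ VisT B I fl sc 1 := fun h => by
    rcases hI 1 h with h | h | h <;> exact absurd h (by decide)
  have FU : FctU k (fun _ : V9 => True) (fun w => lam2 0 (RL9.vec w)) := by
    rw [hk0]
    refine Th171.fctU9 P C hθ hv0 hv1 leg_oS9 (by ev9; norm_num) (by ev9; norm_num)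
      (by ev9; norm_num) (by ev9; norm_num) (by ev9; norm_num) (by ev9; norm_num) hB
      (fun _ => by ev9; norm_num) (fun _ => by ev9; norm_num) fun w _ h => ⟨fun h => absurd h n2,
        fun h => absurd h n1⟩
  exact eUp9 P hT hθ (by linarith) (by linarith) (by linarith)
    (fun j hj => by
      rcases hV j hj with h | h | h
      · exact Or.inl h
      · exact Or.inr (Or.inr (Or.inr (Or.inl h)))
      · exact Or.inr (Or.inr (Or.inr (Or.inr h)))) hs0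
    (rg_e (by linarith)) F (fun _ => FU) (fun h => absurd h hk.ne') ant pos

end ctx

end Crest.Agent.R116.Tp139
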