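import Crest.Agent.R116.Tp11_139
import Crest.Agent.R116.K3u_337

/-!
# R116 (K side, ties), the double tie above the record, no binder (helper139)

* **`eUpD9C`** : double tie, `k' > 1`, `θ < k` : `EUp'` from `Pd9 .. oS9` over the context
-/

set_option autoImplicit false
set_option linter.unusedVariables false
set_option linter.unusedSimpArgs false
set_option linter.unusedSectionVars false

open Set Filter Topology

namespace Crest.Agent.R116.Tp139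

open Crest.Agent.R138
open Crest.Agent.R138.Ex926 (Base U IsTan)
open Crest.Agent.R136
open Crest.Agent.R136.MkA627
open Crest.Agent.R136.TD627
open Crest.Agent.R136.Net191
open Crest.Agent.R136.Lq196
open Crest.Agent.R136.Qg926 Crest.Agent.R136.Gf356 Crest.Agent.R116.EvL504
open Crest.Agent.R116.ChL222
open Crest.Agent.R116.PL504 (nb rL DN eL βL oL Shift eL_wall)
open Crest.Agent.R116.Sg337 (bx9 DL coneL)
open Crest.Agent.R116.Gd222 (TSet sN PDL DT)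
open Crest.Agent.R116.KI439
open Crest.Agent.R116.KF439 (PL)
open Crest.Agent.R116.CtxB468
open Crest.Agent.R116.Rcx363 (fo fo_lip Prf)
open Crest.Agent.R116.RbM219
open Crest.Agent.R116.RbK219 (RS)
open Crest.Agent.R116.Kz647
open Crest.Agent.R116.Pd363
open Crest.Agent.R116.Tq741
open Crest.Agent.R116.Tq126 (cS cS9 sn8)
open Tie460
open Dg219 (mw Walls)
open Sl741 (slice xt rs)

section ctx

variable {G : Geo TSet (Fin 2)} {L : ℕ → ℕ → LRay} {r : ℕ → ℝ} {g s : ℝ} {θ q : Fin 2 → ℝ}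
    {Rg : ℝ} {B : Base} {I : ℕ → Finset (ℕ × ℝ)} {lev : ℕ → ℚ → ℕ} {A : ℕ → ℝ}
    {f : ℕ → ℚ → ℕ → ℤ → ℕ} {b : ℕ → ℚ → ℕ → TSet} {vm : ℕ → ℚ → ℝ} {w : Fin 2 → ℕ → ℚ → ℝ}
    {fr : ℕ → ℚ → ℕ × ℝ → LInc} {fl : ℕ → ℕ × ℝ → LInc} {sc : Fin 12 → ℕ → ℝ}
    {w0 sa sb δ R : ℝ} {I0 I' : ℕ → Finset (ℕ × ℝ)} {ν own : (Fin 12 → ℝ) → ℝ} {c₀ : ℝ}
    {Vis' : Fin 12 → Prop} {a b' : Fin 2} {v0 l α : ℝ} {X : ℕ → Fin 12 → ℝ} {h' H : ℕ → ℝ}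
    {lam lam2 : Fin 2 → (Fin 12 → ℝ) → ℝ} {ρ ρ2 : Fin 9 → ℝ}

/-- **`EUp'` above the record, double tie, `k' > 1`, `θ < k`** -/
theorem eUpD9C
    (P : Pd9 R s a b' Vis' (θ 0) (θ 1) w0 sa sb v0 (DL g s (q 0) (q 1) 0 1 1) oS9 1 (fo ν own) lam
      ρ l α h' X H lam2 ρ2)
    (C : CtxT G L r g s θ q Rg B I lev A f b vm w fr fl sc w0 sa sb δ R I0 I' ν own c₀)
    (hT : lam2 0 (RL9.vec (nat9 1 (-(θ 0)) (-(θ 1)))) =
      DL g s (q 0) (q 1) 1 (-(θ 0)) (-(θ 1)))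
    (hs0 : 0 ≤ s) (hs1 : s ≤ 1) (hθ : 0 < θ 0) (hv0 : 0 < v0) (hv1 : v0 < 1)
    (hB : TieT θ B I lev fl sc 7 ∨ TieT θ B I lev fl sc 8)
    (hV : ∀ j, Vis' j → j = 0 ∨ j = 1 ∨ j = 2 ∨ j = 7 ∨ j = 8) {k k' : ℝ}
    (hk0 : k = θ 0 - θ 1) (hk0' : k' = 2 * θ 0 - θ 1) (hθk : θ 0 < k) (hk1 : 1 < k')
    {S : Pl} (ant : ρ2 1 ≤ S.m) (pos : q 0 ≤ ρ2 1) :
    ∃ B' : Pl, EUp' k (θ 0) s g (q 0) (q 1) S B' ∧ B'.d = 0 := by
  refine eUpD9 P C hT hs0 hs1 hθ hv0 hv1 hB hV hk0 hk0' (hθ.trans hθk) hk1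
    (fun h => by linarith) (fun h => by linarith) (fun hk φ Hc => ?_) ant pos
  subst hk
  refine K3u337.k3u9 P C hθ (by linarith) (by linarith) hv0 hv1 hB
    (fun i hi => Th171.vis_flag C hi) hV Hc ?_ ?_ ?_ ?_ <;> rw [cS9_one'] <;> decide

end ctx

end Crest.Agent.R116.Tp139
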