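import Crest.Agent.R116.Ts4_72
import Crest.Agent.R116.Ts1_654
import Crest.Agent.R116.Ts2p_604

/-!
# R116, cell (H4) (`e`-tie, `k = 1`, `1/2 ≤ s`): the end over the first tangent (helper72)

`G1` = first tangent of `ν` at a record point (`Prf coneL`, D-max).

* `fH G1 a b = G1 (P4 a b) - DL(-(a+b); b, -a)` : Lipschitz, `≤ 0`, `fH 0 0 = 0`
* `mc_mono` : 604's predicate `MC` passes from `P4 a b` to `P4 a' b`, `a ≤ a'`
* **`h4_core`** : the two rows `⊢ False` (654's `two_step`)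
-/

set_option autoImplicit false
set_option linter.unusedVariables false
set_option linter.unusedSectionVars false

open Filter Topology Set MeasureTheory

namespace Crest.Agent.R116.Ts72

open Crest.Agent.R138
open Crest.Agent.R138.Ex926 (Base U IsTan)
open Crest.Agent.R136
open Crest.Agent.R136.Net191
open Crest.Agent.R116.ChL222
open Crest.Agent.R116.Sg337 (bx9 coneL DL natB uC)
open Crest.Agent.R116.Rcx363
open Crest.Agent.R116.Ts2p604 (incC MC tend_pos uC_ne)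
open Dg262 (SupOn)

/-- `604`'s increments of `C`, over `coneL` -/
theorem raise_C {p : Fin 12 → ℝ} (hp : p ∈ coneL) {y : ℝ} (hy : 0 ≤ y) : p + y • uC ∈ coneL := by
  intro k e he
  have hk : uC k = 0 := by
    by_contra h
    rcases uC_ne h with rfl | rfl
    · change e ∈ mfL 3 at he
      simp [mfL] at he
    · change e ∈ mfL 4 at he
      simp [mfL] at he
  have h1 := hp k e he
  rw [Pi.add_apply, Pi.smul_apply, hk, smul_zero, add_zero]
  refine h1.trans (Finset.sum_le_sum fun s _ => ?_)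
  rw [Pi.add_apply]
  have h2 := Ts2p604.yuC_nonneg hy s
  have := mul_nonneg (Nat.cast_nonneg (α := ℝ) (e s)) h2
  nlinarith

theorem inc_cone {G1 : (Fin 12 → ℝ) → ℝ} (hs : SupOn G1 coneL) {p q : Fin 12 → ℝ}
    (hp : p ∈ coneL) (hq : q ∈ coneL) (hpq : p ≤ q) (h3 : p 3 = q 3) (h4 : p 4 = q 4) {y : ℝ}
    (hy : 0 ≤ y) : incC G1 q y ≤ incC G1 p y := by
  have hk : ∀ k, (y • uC) k ≠ 0 → p k = q k := fun k hk => by
    rw [Pi.smul_apply, smul_eq_mul] at hk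
    rcases uC_ne (fun h => hk (by rw [h, mul_zero])) with rfl | rfl
    · exact h3
    · exact h4
  have e1 : (p + y • uC) ⊔ q = q + y • uC := by
    funext k
    simp only [Pi.sup_apply, Pi.add_apply]
    by_cases h : (y • uC) k = 0
    · rw [h, add_zero, add_zero]; exact max_eq_right (hpq k)
    · rw [hk k h]; exact max_eq_left (by linarith [Ts2p604.yuC_nonneg hy k])
  have e2 : (p + y • uC) ⊓ q = p := by
    funext k
    simp only [Pi.inf_apply, Pi.add_apply]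
    by_cases h : (y • uC) k = 0
    · rw [h, add_zero]; exact min_eq_left (hpq k)
    · rw [hk k h]; exact min_eq_right (by linarith [Ts2p604.yuC_nonneg hy k])
  have h := hs (p + y • uC) (raise_C hp hy) q hq (by rw [e2]; exact hp)
    (by rw [e1]; exact raise_C hq hy)
  rw [e1, e2] at h
  unfold incC
  linarith

/-- **the predicate `MC` along the rays of `n0`** -/
theorem mc_mono {G1 : (Fin 12 → ℝ) → ℝ} (hs : SupOn G1 coneL) {κ : ℝ} {h : ℕ → ℝ}
    (hpos : ∀ l, 0 < h l) {a a' b : ℝ} (hb : 0 ≤ b) (haa : a ≤ a') (hM : MC G1 κ h (P4 a b)) :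
    MC G1 κ h (P4 a' b) := by
  obtain ⟨p0, p1, p2, p3, p4, p5, p6, p7, p8, p9, p10, p11⟩ := P4_v a b
  obtain ⟨q0, q1, q2, q3, q4, q5, q6, q7, q8, q9, q10, q11⟩ := P4_v a' b
  have hle : P4 a' b ≤ P4 a b := by
    intro k
    fin_cases k
    · show P4 a' b 0 ≤ P4 a b 0
      linarith
    · show P4 a' b 1 ≤ P4 a b 1
      linarith
    · show P4 a' b 2 ≤ P4 a b 2
      linarith
    · show P4 a' b 3 ≤ P4 a b 3
      linarith
    · show P4 a' b 4 ≤ P4 a b 4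
      linarith
    · show P4 a' b 5 ≤ P4 a b 5
      linarith
    · show P4 a' b 6 ≤ P4 a b 6
      linarith
    · show P4 a' b 7 ≤ P4 a b 7
      linarith
    · show P4 a' b 8 ≤ P4 a b 8
      linarith
    · show P4 a' b 9 ≤ P4 a b 9
      linarith
    · show P4 a' b 10 ≤ P4 a b 10
      linarith
    · show P4 a' b 11 ≤ P4 a b 11
      linarith
  exact Frequently.mono hM fun l hl => hl.trans
    (inc_cone hs (P4_mem hb) (P4_mem hb) hle (by rw [q3, p3]) (by rw [q4, p4]) (hpos l).le)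

/-- the function of the two steps -/
def fH (G1 : (Fin 12 → ℝ) → ℝ) (g s qa qb a b : ℝ) : ℝ :=
  G1 (P4 a b) - DL g s qa qb (-(a + b)) b (-a)

section core

variable {G1 : (Fin 12 → ℝ) → ℝ} {g s qa qb : ℝ}

theorem P4_zero : P4 0 0 = 0 := by
  funext k
  have h := P4_v 0 0
  obtain ⟨p0, p1, p2, p3, p4, p5, p6, p7, p8, p9, p10, p11⟩ := h
  fin_cases k <;> first
    | (show P4 0 0 0 = 0; rw [p0]; ring)
    | (show P4 0 0 1 = 0; rw [p1])
    | (show P4 0 0 2 = 0; rw [p2]; ring)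
    | (show P4 0 0 3 = 0; rw [p3])
    | (show P4 0 0 4 = 0; rw [p4])
    | (show P4 0 0 5 = 0; rw [p5]; ring)
    | (show P4 0 0 6 = 0; rw [p6]; ring)
    | (show P4 0 0 7 = 0; rw [p7]; ring)
    | (show P4 0 0 8 = 0; rw [p8]; ring)
    | (show P4 0 0 9 = 0; rw [p9]; ring)
    | (show P4 0 0 10 = 0; rw [p10]; ring)
    | (show P4 0 0 11 = 0; rw [p11]; ring)

theorem fH_zero (h0 : G1 0 = 0) : fH G1 g s qa qb 0 0 = 0 := by
  unfold fH DL
  rw [P4_zero, h0]; ring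

theorem fH_nonpos (ha : ∀ p ∈ coneL, ∀ q ∈ coneL, p ≤ q → 0 ≤ G1 p - G1 q)
    (hD : ∀ v x y : ℝ, G1 (natB v x y) ≤ DL g s qa qb v x y) {a b : ℝ} (hb : 0 ≤ b) :
    fH G1 g s qa qb a b ≤ 0 := by
  have h1 := ha (natB (-(a + b)) b (-a)) (natB_mem _ _ _) (P4 a b) (P4_mem hb) (by
    intro k
    unfold P4
    rw [Pi.add_apply, Pi.smul_apply, smul_eq_mul]
    by_cases hk : k = 1
    · subst hk; rw [Pi.single_eq_same]; linarith
    · rw [Pi.single_eq_of_ne hk]; linarith)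
  have h2 := hD (-(a + b)) b (-a)
  unfold fH
  linarith

theorem P4_sub (a b a' b' : ℝ) : ‖P4 a b - P4 a' b'‖ ≤ 2 * (|a - a'| + |b - b'|) := by
  obtain ⟨p0, p1, p2, p3, p4, p5, p6, p7, p8, p9, p10, p11⟩ := P4_v a b
  obtain ⟨q0, q1, q2, q3, q4, q5, q6, q7, q8, q9, q10, q11⟩ := P4_v a' b'
  have hx := abs_nonneg (a - a')
  have hy := abs_nonneg (b - b')
  obtain ⟨x1, x2⟩ := abs_le.1 (le_refl |a - a'|)
  obtain ⟨y1, y2⟩ := abs_le.1 (le_refl |b - b'|)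
  rw [pi_norm_le_iff_of_nonneg (by positivity)]
  intro k
  rw [Pi.sub_apply, Real.norm_eq_abs, abs_le]
  fin_cases k
  · show _ ≤ P4 a b 0 - P4 a' b' 0 ∧ P4 a b 0 - P4 a' b' 0 ≤ _
    rw [p0, q0]; constructor <;> linarith
  · show _ ≤ P4 a b 1 - P4 a' b' 1 ∧ P4 a b 1 - P4 a' b' 1 ≤ _
    rw [p1, q1]; constructor <;> linarith
  · show _ ≤ P4 a b 2 - P4 a' b' 2 ∧ P4 a b 2 - P4 a' b' 2 ≤ _
    rw [p2, q2]; constructor <;> linarith
  · show _ ≤ P4 a b 3 - P4 a' b' 3 ∧ P4 a b 3 - P4 a' b' 3 ≤ _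
    rw [p3, q3]; constructor <;> linarith
  · show _ ≤ P4 a b 4 - P4 a' b' 4 ∧ P4 a b 4 - P4 a' b' 4 ≤ _
    rw [p4, q4]; constructor <;> linarith
  · show _ ≤ P4 a b 5 - P4 a' b' 5 ∧ P4 a b 5 - P4 a' b' 5 ≤ _
    rw [p5, q5]; constructor <;> linarith
  · show _ ≤ P4 a b 6 - P4 a' b' 6 ∧ P4 a b 6 - P4 a' b' 6 ≤ _
    rw [p6, q6]; constructor <;> linarith
  · show _ ≤ P4 a b 7 - P4 a' b' 7 ∧ P4 a b 7 - P4 a' b' 7 ≤ _
    rw [p7, q7]; constructor <;> linarith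
  · show _ ≤ P4 a b 8 - P4 a' b' 8 ∧ P4 a b 8 - P4 a' b' 8 ≤ _
    rw [p8, q8]; constructor <;> linarith
  · show _ ≤ P4 a b 9 - P4 a' b' 9 ∧ P4 a b 9 - P4 a' b' 9 ≤ _
    rw [p9, q9]; constructor <;> linarith
  · show _ ≤ P4 a b 10 - P4 a' b' 10 ∧ P4 a b 10 - P4 a' b' 10 ≤ _
    rw [p10, q10]; constructor <;> linarith
  · show _ ≤ P4 a b 11 - P4 a' b' 11 ∧ P4 a b 11 - P4 a' b' 11 ≤ _
    rw [p11, q11]; constructor <;> linarith

theorem fH_lip (hL : ∀ p ∈ coneL, ∀ q ∈ coneL, |G1 p - G1 q| ≤ (12:ℝ) * dist p q) :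
    ∃ K : ℝ, 0 ≤ K ∧ ∀ a b a' b' : ℝ, 0 ≤ b → 0 ≤ b' →
      |fH G1 g s qa qb a b - fH G1 g s qa qb a' b'| ≤ K * (|a - a'| + |b - b'|) := by
  refine ⟨24 + (|DL g s qa qb (-1) 0 (-1)| + |DL g s qa qb (-1) 1 0|), by positivity,
    fun a b a' b' hb hb' => ?_⟩
  have h1 := hL _ (P4_mem hb (a := a)) _ (P4_mem hb' (a := a'))
  rw [dist_eq_norm] at h1
  have h2 := P4_sub a b a' b'
  have e : fH G1 g s qa qb a b - fH G1 g s qa qb a' b' = (G1 (P4 a b) - G1 (P4 a' b')) -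
      ((a - a') * DL g s qa qb (-1) 0 (-1) + (b - b') * DL g s qa qb (-1) 1 0) := by
    unfold fH DL; ring
  rw [e]
  set A := DL g s qa qb (-1) 0 (-1)
  set A' := DL g s qa qb (-1) 1 0
  have h3 : |(a - a') * A + (b - b') * A'| ≤ |a - a'| * |A| + |b - b'| * |A'| := by
    refine (abs_add_le _ _).trans ?_
    rw [abs_mul, abs_mul]
  refine (abs_sub _ _).trans ?_
  have hx := abs_nonneg (a - a')
  have hy := abs_nonneg (b - b')
  have hA := abs_nonneg A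
  have hA' := abs_nonneg A'
  have h4 : 0 ≤ |a - a'| * |A'| := mul_nonneg hx hA'
  have h5 : 0 ≤ |b - b'| * |A| := mul_nonneg hy hA
  nlinarith

/-- **the two rows give a contradiction** -/
theorem h4_core {a' b' : Fin 2} {Vis : Fin 12 → Prop} {β : Fin 12 → ℝ} {γ κ : ℝ} (hγ : 0 < γ)
    (hP : Prf coneL s a' b' Vis β G1) (h0 : G1 0 = 0)
    (hL : ∀ p ∈ coneL, ∀ q ∈ coneL, |G1 p - G1 q| ≤ (12:ℝ) * dist p q)
    (hD : ∀ v x y : ℝ, G1 (natB v x y) ≤ DL g s qa qb v x y) {h : ℕ → ℝ} (hpos : ∀ l, 0 < h l)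
    (hA : ∀ᵐ z : ℝ × ℝ, 0 < z.1 → 0 < z.2 → MC G1 κ h (P4 z.1 z.2) →
      ∀ d, HasDerivAt (fun a => fH G1 g s qa qb a z.2) d z.1 → γ ≤ d)
    (hB : ∀ᵐ z : ℝ × ℝ, 0 < z.1 → 0 < z.2 → ¬ MC G1 κ h (P4 z.1 z.2) →
      ∀ d, HasDerivAt (fun b => fH G1 g s qa qb z.1 b) d z.2 → γ ≤ d) : False := by
  obtain ⟨K, hK, hlip⟩ := fH_lip (g := g) (s := s) (qa := qa) (qb := qb) hL
  refine Ts654.two_step (τ := 1) (γ := γ) (K := K) one_pos hγ hK (f := fH G1 g s qa qb)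
    (fun b hb a _ a' _ => ?_) (fun a _ b hb b' hb' => ?_) ?_ (fun a _ b hb => ?_)
    (Hi := fun a b => MC G1 κ h (P4 a b)) (fun a ha a' ha' b hb haa hM => ?_) ?_ ?_
  · have := hlip a b a' b hb.1 hb.1
    rw [sub_self, abs_zero, add_zero] at this
    exact this
  · have := hlip a b a b' hb.1 hb'.1
    rw [sub_self, abs_zero, zero_add] at this
    exact this
  · rw [fH_zero h0]
    linarith
  · exact fH_nonpos (fun p hp q hq hpq => (hP.anti p hp q hq hpq).1) hD hb.1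
  · exact mc_mono hP.sm hpos hb.1.le haa hM
  · filter_upwards [hA] with z hz h1 h2 h3 d hd
    exact hz h1.1 h2.1 h3 d hd
  · filter_upwards [hB] with z hz h1 h2 h3 d hd
    exact hz h1.1 h2.1 h3 d hd

end core

end Crest.Agent.R116.Ts72
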