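import Crest.Agent.R116.Ts7_894
import Crest.Agent.R116.Ts5_905
import Crest.Agent.R116.Ts8_72

/-!
# R116 (K side, ties), cell (H4) (e-tie, `k = 1`, `s ≥ 1/2`): the rows over the context (helper894)

* `ptF_ctx` : 72's `h4_pt` + 905's `cl_pt` give `PtF`
* **`rowsH`** : hypotheses `hA`, `hB` of 72's `h4_core`
-/

set_option autoImplicit false
set_option linter.unusedVariables false
set_option linter.unusedSectionVars false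

open Filter Topology Set MeasureTheory

namespace Crest.Agent.R116.Ts894

open Crest.Agent.R138
open Crest.Agent.R138.Ex926 (Base U IsTan)
open Crest.Agent.R136
open Crest.Agent.R136.MkA627
open Crest.Agent.R136.TD627
open Crest.Agent.R136.Net191
open Crest.Agent.R136.Lq196
open Crest.Agent.R136.Dg219 (gC dhC nC OutS)
open Crest.Agent.R136.Qg926 Crest.Agent.R136.Gf356 Crest.Agent.R116.EvL504
open Crest.Agent.R116.ChL222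
open Crest.Agent.R116.PL504 (nb rL DN eL βL oL Shift eL_wall)
open Crest.Agent.R116.Sg337 (bx9 coneL DL natB eL_bx9 uC)
open Crest.Agent.R116.Gd222 (TSet sN PDL DT)
open Crest.Agent.R116.KI439
open Crest.Agent.R116.KF439 (PL)
open Crest.Agent.R116.CtxB468
open Crest.Agent.R116.Rcx363
open Crest.Agent.R116.RbM219
open Crest.Agent.R116.Tq741
open Crest.Agent.R116.KTie794
open Crest.Agent.R116.Tq794 (E8)
open Crest.Agent.R116.K3e160 (K3C)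
open Crest.Agent.R116.SgF665 (LM0)
open Crest.Agent.R116.Ts2p604 (MC)

variable {G : Geo TSet (Fin 2)} {L : ℕ → ℕ → LRay} {r : ℕ → ℝ} {g s : ℝ} {θ q : Fin 2 → ℝ}
    {Rg : ℝ} {B : Base} {I : ℕ → Finset (ℕ × ℝ)} {lev : ℕ → ℚ → ℕ} {A : ℕ → ℝ}
    {f : ℕ → ℚ → ℕ → ℤ → ℕ} {b : ℕ → ℚ → ℕ → TSet} {vm : ℕ → ℚ → ℝ} {w : Fin 2 → ℕ → ℚ → ℝ}
    {fr : ℕ → ℚ → ℕ × ℝ → LInc} {fl : ℕ → ℕ × ℝ → LInc} {sc : Fin 12 → ℕ → ℝ}
    {w0 sa sb δ R : ℝ} {I0 I' : ℕ → Finset (ℕ × ℝ)} {ν own : (Fin 12 → ℝ) → ℝ} {c₀ : ℝ}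

/-- **the facts at every point of the tie plane** -/
theorem ptF_ctx
    (C : CtxT G L r g s θ q Rg B I lev A f b vm w fr fl sc w0 sa sb δ R I0 I' ν own c₀)
    (hs0 : 0 ≤ s) (hs1 : s ≤ 1) (hθ : 0 < θ 0) (h1 : θ 0 - θ 1 = 1)
    (hVB : VisB θ B I lev fl sc) (hIE : InvE B I fl sc) {v0 : ℝ} (hv0 : 0 < v0) (hv1 : v0 < 1)
    {hh : ℕ → ℝ} (hpos : ∀ l, 0 < hh l) (hh0 : Tendsto hh atTop (𝓝 0))
    {g1 : Fin 2 → (Fin 12 → ℝ) → ℝ} (ht1 : ∀ j, IsTan (Leg monL R) coneL (fo ν own j)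
      (fun _ => rL (θ 0) (θ 1) w0 sa sb v0) hh (g1 j)) {a' b' : Fin 2}
    (hP1 : Prf coneL s a' b' (VisT B I fl sc) (βL (θ 0) (θ 1)) (g1 0)) : PtF s g1 := by
  intro x y hx hy k lam kpos k0 hl A φ r HO
  obtain ⟨hPr, hF, hK⟩ := Ts72.h4_pt C hs0 hs1 hθ h1 hVB hIE hv0 hv1 hpos hh0 ht1 hP1 (x := x) hy
    kpos k0 hl
  have hvis := Hm621.vis78 C hIE.2 hIE.1
  have hPZ := Pd363.pz_of hPr fun k hk => by
    rcases hvis k hk with h | h | h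
    · exact Or.inl h
    · exact Or.inr (Or.inr (Or.inr (Or.inl h)))
    · exact Or.inr (Or.inr (Or.inr (Or.inr h)))
  have HO' : OutS (gC Ts905.aF Ts905.bF) LM0 (dhC Ts905.aF Ts905.bF) (nC Ts905.aF Ts905.bF)
      (lam 0) A φ r := HO
  have Cl := Ts905.cl_pt HO' hPZ
  refine ⟨Ts905.cH, fun _ => 1, Ts905.Ph φ, Ts905.rh r, Ts905.plE_cH, Cl, hF,
    hK _ _ _ _ Cl Ts905.plE_cH, ?_, ?_⟩
  · rw [Ts905.val_n0 HO']; ring
  · exact Ts905.val_n1 HO'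

/-- **the rows of (H4) over the context** -/
theorem rowsH
    (C : CtxT G L r g s θ q Rg B I lev A f b vm w fr fl sc w0 sa sb δ R I0 I' ν own c₀)
    (hs2 : 1 / 2 ≤ s) (hs1 : s ≤ 1) (hθ : 0 < θ 0) (h1 : θ 0 - θ 1 = 1)
    (hVB : VisB θ B I lev fl sc) (hIE : InvE B I fl sc) {v0 : ℝ} (hv0 : 0 < v0) (hv1 : v0 < 1)
    {hh : ℕ → ℝ} (hpos : ∀ l, 0 < hh l) (hh0 : Tendsto hh atTop (𝓝 0))
    {g1 : Fin 2 → (Fin 12 → ℝ) → ℝ} (ht1 : ∀ j, IsTan (Leg monL R) coneL (fo ν own j)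
      (fun _ => rL (θ 0) (θ 1) w0 sa sb v0) hh (g1 j)) {a' b' : Fin 2}
    (hP1 : Prf coneL s a' b' (VisT B I fl sc) (βL (θ 0) (θ 1)) (g1 0)) {ε : ℝ} (hε : 0 < ε)
    {h : ℕ → ℝ} (kpos : ∀ l, 0 < h l) (k0 : Tendsto h atTop (𝓝 0)) {qa qb : ℝ} :
    (∀ᵐ z : ℝ × ℝ, 0 < z.1 → 0 < z.2 → MC (g1 0) (s + ε) h (Ts72.P4 z.1 z.2) →
      ∀ d, HasDerivAt (fun a => Ts72.fH (g1 0) g s qa qb a z.2) d z.1 → g - qb - 2 * s ≤ d) ∧
    ∀ᵐ z : ℝ × ℝ, 0 < z.1 → 0 < z.2 → ¬ MC (g1 0) (s + ε) h (Ts72.P4 z.1 z.2) →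
      ∀ d, HasDerivAt (fun b => Ts72.fH (g1 0) g s qa qb z.1 b) d z.2 →
        g + qa - 2 * s - ε ≤ d := by
  have hP := ptF_ctx C (by linarith) hs1 hθ h1 hVB hIE hv0 hv1 hpos hh0 ht1 hP1
  have hlip : ∀ j, ∀ p ∈ coneL, ∀ q ∈ coneL, |g1 j p - g1 j q| ≤ (12:ℝ) * dist p q :=
    fun j => SgO219.tan_lip hpos (ht1 j) (fo_lip C j)
  have key := fun n : ℕ => rows_ae (g1 := g1) (g := g) (s := s) (qa := qa) (qb := qb)
    (K := 12) (by norm_num) hlip hP1.anti hP1.sm hP hs2 hs1 hε kpos k0 (τ := (n : ℝ))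
  refine ⟨?_, ?_⟩
  · filter_upwards [ae_all_iff.2 fun n => (key n).1] with z hz h1 h2 hM d hd
    obtain ⟨n, hn⟩ := exists_nat_gt (max z.1 z.2)
    exact hz n ⟨h1, (le_max_left _ _).trans_lt hn⟩ ⟨h2, (le_max_right _ _).trans_lt hn⟩ hM d hd
  · filter_upwards [ae_all_iff.2 fun n => (key n).2] with z hz h1 h2 hM d hd
    obtain ⟨n, hn⟩ := exists_nat_gt (max z.1 z.2)
    exact hz n ⟨h1, (le_max_left _ _).trans_lt hn⟩ ⟨h2, (le_max_right _ _).trans_lt hn⟩ hM d hd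

end Crest.Agent.R116.Ts894
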