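import Crest.Agent.R116.Ts6_894
import Crest.Agent.R116.Ts3_905
import Crest.Agent.R116.Ts2p_604

/-!
# R116 (K side, ties), cell (H4) (e-tie, `k = 1`, `s ≥ 1/2`): the two rows a.e. (helper894)

* `f4 G g s qa qb a b = G (P4 a b) - DL .. (natural coordinates of P4 a b)`
* `PtF s g1` : facts at one point of the plane (72's `h4_pt` + 905's `cl_pt`)
* **`rows_ae`** : the hypotheses `hA`, `hB` of 654's `two_step`
-/

set_option autoImplicit false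
set_option linter.unusedVariables false
set_option linter.unusedSectionVars false

open Set Filter Topology MeasureTheory

namespace Crest.Agent.R116.Ts894

open Crest.Agent.R138
open Crest.Agent.R138.Ex926 (IsTan)
open Crest.Agent.R136
open Crest.Agent.R136.Net191
open Crest.Agent.R136.Dg219 (mw gC dhC nC gset lf gC_eq gC_zero Walls OutS dirC leg_outC leg_legal
  mw_full)
open Crest.Agent.R116.ChL222
open Crest.Agent.R116.Sg337 (bx9 natB coneL uC DL)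
open Crest.Agent.R116.SgF665 (wl wl_add wl_smul LM0 mem_LM0)
open Crest.Agent.R116.Tq794 (E8 E8_mem E8_zero)
open Crest.Agent.R116.Tq741
open Crest.Agent.R116.K3e160 (K3C)
open Crest.Agent.R116.Ts2p604 (MC not_MC_tan)
open RbM219 (nat9)
open Dg262 (SupOn)

/-- the function of the two-step argument -/
noncomputable def f4 (G : (Fin 12 → ℝ) → ℝ) (g s qa qb a b : ℝ) : ℝ :=
  G (P4 a b) - DL g s qa qb (-(a + b)) b (-a)

/-- the facts at one point of the plane -/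
def PtF (s : ℝ) (g1 : Fin 2 → (Fin 12 → ℝ) → ℝ) : Prop :=
  ∀ a b : ℝ, 0 < a → 0 < b → ∀ (k : ℕ → ℝ) (lam : Fin 2 → (Fin 12 → ℝ) → ℝ),
    (∀ l, 0 < k l) → Tendsto k atTop (𝓝 0) →
    (∀ j, IsTan coneL LM0 (g1 j) (fun _ => P4 a b) k (lam j)) →
    ∀ (A : ℝ × ℝ) (φ : ℕ → (Fin 12 → ℝ) → ℝ) (r : ℕ → ℝ),
      OutS (gC aF bF) LM0 (dhC aF bF) (nC aF bF) (lam 0) A φ r →
      ∃ (c : Fin 9 → Fin 9) (dl : V9) (φ' : Fin 9 → V9 → ℝ) (ρ : V9), PlE 1 c dl ∧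
        Cl9 c dl s (fun w => lam 0 (E8 w)) φ' ρ ∧
        Fct9 (fun w => w 6 < 1 * w 0) s (fun w => lam 0 (E8 w)) ∧ K3C c s φ' ρ ∧
        lam 0 (E8 (nat9 (-1) 0 (-1))) = -(10 / 11) * A.1 + 1 / 11 * A.2 ∧
        lam 0 (E8 (nat9 (-1) 1 0)) = A.2

theorem e8_C : E8 (e9 1) = uC := by
  funext i
  fin_cases i <;> simp [E8, bx9, e9, uC]

theorem leg_e1 : LegM 0 (e9 1) := by
  constructor <;> simp [e9]

theorem uC_LM0 : uC ∈ LM0 := by
  rw [← e8_C]; exact E8_mem leg_e1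

theorem zero_LM0 : (0 : Fin 12 → ℝ) ∈ LM0 := by
  rw [← E8_zero]; exact E8_mem leg_zero

/-- the rate of `C` -/
theorem rho1 {c : Fin 9 → Fin 9} {dl : V9} {s : ℝ} {lam : (Fin 12 → ℝ) → ℝ}
    {φ : Fin 9 → V9 → ℝ} {ρ : V9} (P : PlE 1 c dl) (H : Cl9 c dl s (fun w => lam (E8 w)) φ ρ) :
    ρ 1 = lam 0 - lam uC := by
  have hal : ∀ t', c t' = c 1 → t' = 1 := fun t' h => P.al (Or.inl rfl) t' h
  have h1 := H.incr leg_zero leg_e1 (c 1) fun i hi => by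
    rw [e9_ne (fun h => hi (by rw [h]))]; rfl
  rw [H.rate 1 0 fun t' ht' => by rw [hal t' ht'], H.rate 1 (e9 1) fun t' ht' => by
    rw [hal t' ht'], e9_same] at h1
  simp only [E8_zero, e8_C, Pi.zero_apply] at h1
  linarith

section

variable {g1 : Fin 2 → (Fin 12 → ℝ) → ℝ} {g s qa qb : ℝ} {a b d : ℝ} {D : ℝ × ℝ →L[ℝ] ℝ}

theorem der_a (hD : HasFDerivAt (fun z : ℝ × ℝ => g1 0 (P4 z.1 z.2)) D (a, b))
    (hd : HasDerivAt (fun a => f4 (g1 0) g s qa qb a b) d a) :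
    d = D (1, 0) - DL g s qa qb (-1) 0 (-1) := by
  have h1 : HasDerivAt (fun a : ℝ => (a, b)) ((1 : ℝ), (0 : ℝ)) a :=
    (hasDerivAt_id a).prodMk (hasDerivAt_const a b)
  have h2 : HasDerivAt (fun a : ℝ => g1 0 (P4 a b)) (D (1, 0)) a :=
    HasFDerivAt.comp_hasDerivAt (l := fun z : ℝ × ℝ => g1 0 (P4 z.1 z.2)) (l' := D)
      (f := fun a : ℝ => (a, b)) a hD h1
  have h3 : HasDerivAt (fun a : ℝ => DL g s qa qb (-(a + b)) b (-a))
      (DL g s qa qb (-1) 0 (-1)) a := by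
    have e : (fun a : ℝ => DL g s qa qb (-(a + b)) b (-a)) = fun a : ℝ =>
        DL g s qa qb (-1) 0 (-1) * a + DL g s qa qb (-b) b 0 := by
      funext a; unfold DL; ring
    rw [e]
    have := ((hasDerivAt_id a).const_mul (DL g s qa qb (-1) 0 (-1))).add_const
      (DL g s qa qb (-b) b 0)
    rw [mul_one] at this
    exact this
  exact hd.unique (h2.sub h3)

theorem der_b (hD : HasFDerivAt (fun z : ℝ × ℝ => g1 0 (P4 z.1 z.2)) D (a, b))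
    (hd : HasDerivAt (fun b => f4 (g1 0) g s qa qb a b) d b) :
    d = D (0, 1) - DL g s qa qb (-1) 1 0 := by
  have h1 : HasDerivAt (fun b : ℝ => (a, b)) ((0 : ℝ), (1 : ℝ)) b :=
    (hasDerivAt_const b a).prodMk (hasDerivAt_id b)
  have h2 : HasDerivAt (fun b : ℝ => g1 0 (P4 a b)) (D (0, 1)) b := hD.comp_hasDerivAt b h1
  have h3 : HasDerivAt (fun b : ℝ => DL g s qa qb (-(a + b)) b (-a))
      (DL g s qa qb (-1) 1 0) b := by
    have e : (fun b : ℝ => DL g s qa qb (-(a + b)) b (-a)) = fun b : ℝ =>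
        DL g s qa qb (-1) 1 0 * b + DL g s qa qb (-a) 0 (-a) := by
      funext a; unfold DL; ring
    rw [e]
    have := ((hasDerivAt_id b).const_mul (DL g s qa qb (-1) 1 0)).add_const
      (DL g s qa qb (-a) 0 (-a))
    rw [mul_one] at this
    exact this
  exact hd.unique (h2.sub h3)

/-- **the rows of (H4), a.e.** -/
theorem rows_ae {K : ℝ} (hK : 0 ≤ K)
    (hlip : ∀ j, ∀ p ∈ coneL, ∀ q ∈ coneL, |g1 j p - g1 j q| ≤ K * dist p q)
    (hm : ∀ p ∈ coneL, ∀ q ∈ coneL, p ≤ q → 0 ≤ g1 0 p - g1 0 q ∧ g1 0 p - g1 0 q ≤ ∑ i, (q i - p i))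
    (hs : SupOn (g1 0) coneL) (hP : PtF s g1) (hs2 : 1 / 2 ≤ s) (hs1 : s ≤ 1) {ε : ℝ}
    (hε : 0 < ε) {h : ℕ → ℝ} (hpos : ∀ l, 0 < h l) (h0 : Tendsto h atTop (𝓝 0)) {τ : ℝ} :
    (∀ᵐ z : ℝ × ℝ, z.1 ∈ Ioo 0 τ → z.2 ∈ Ioo 0 τ → MC (g1 0) (s + ε) h (P4 z.1 z.2) →
      ∀ d, HasDerivAt (fun a => f4 (g1 0) g s qa qb a z.2) d z.1 → g - qb - 2 * s ≤ d) ∧
    ∀ᵐ z : ℝ × ℝ, z.1 ∈ Ioo 0 τ → z.2 ∈ Ioo 0 τ → ¬ MC (g1 0) (s + ε) h (P4 z.1 z.2) →
      ∀ d, HasDerivAt (fun b => f4 (g1 0) g s qa qb z.1 b) d z.2 → g + qa - 2 * s - ε ≤ d := by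
  have key := h4_ae hK hlip hm hs
  have hk := fun (χ : ℕ → ℕ) (hχ : StrictMono χ) => h0.comp hχ.tendsto_atTop
  refine ⟨?_, ?_⟩
  · filter_upwards [key] with z hz h1 h2 hM d hd
    obtain ⟨D, hD, H⟩ := hz h2.1
    obtain ⟨ψ, hψ, hT⟩ := hM.tan hpos
    obtain ⟨χ, lam, hχ, hlam, φ, r, HO⟩ := H (fun l => h (ψ l)) (fun l => hpos _) (hk ψ hψ)
    have hκ := hT χ coneL LM0 (lam 0) (hlam 0) zero_LM0 uC_LM0
    obtain ⟨c, dl, φ', ρ, P, C, F, K3, e0, e1⟩ := hP z.1 z.2 h1.1 h2.1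
      (fun l => h (ψ (χ l))) lam (fun l => hpos _) ((hk ψ hψ).comp hχ.tendsto_atTop) hlam _ φ r HO
    have h3 := rho1 (lam := lam 0) P C
    have h4 := Ts905.rowA P C (by linarith) hs1 F K3 (by rw [h3]; linarith) (g := g) (qa := qa)
      (qb := qb)
    rw [der_a (g := g) (qa := qa) (qb := qb) hD hd]
    have h5 : lam 0 (E8 (nat9 (-1) 0 (-1))) = D (1, 0) := by
      rw [e0]; ring
    change _ ≤ lam 0 (E8 (nat9 (-1) 0 (-1))) - _ at h4
    rw [h5] at h4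
    exact h4
  · filter_upwards [key] with z hz h1 h2 hM d hd
    obtain ⟨D, hD, H⟩ := hz h2.1
    obtain ⟨χ, lam, hχ, hlam, φ, r, HO⟩ := H h hpos h0
    have hκ := not_MC_tan hM hpos hχ (hlam 0) zero_LM0 uC_LM0
    obtain ⟨c, dl, φ', ρ, P, C, F, K3, e0, e1⟩ := hP z.1 z.2 h1.1 h2.1
      (fun l => h (χ l)) lam (fun l => hpos _) (hk χ hχ) hlam _ φ r HO
    have h3 := rho1 (lam := lam 0) P C
    have h4 := Ts905.rowB P C hs2 hs1 F K3 hε.le (by rw [h3]; exact hκ) (g := g) (qa := qa)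
      (qb := qb)
    rw [der_b (g := g) (qa := qa) (qb := qb) hD hd]
    change _ ≤ lam 0 (E8 (nat9 (-1) 1 0)) - _ at h4
    rw [e1] at h4
    exact h4

end

end Crest.Agent.R116.Ts894
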