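import Crest.Agent.R116.TwF1_369
import Crest.Agent.R116.Rcx6_363

/-!
# R116, ties (helper369): own-strip facts at the class level

* `core`  : `LinS Z Λ w R` at a tied position gives a tie window at the raised base
* `NBase` : natural base (`D` raised or natural)
* `WU`    : (W3), (W2) at an `e`-tie, `G`, `D` invisible or strictly coarser than their own levels
            (`u3`, `u2`); `u3n`, `u2n` : `G` exactly on its own level (`S = {0, 2, 7, 8}`)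
* `k3`    : (W3k) at a `κ`-tie
-/

set_option autoImplicit false
set_option linter.unusedVariables false
set_option linter.unusedSectionVars false

open Set Filter Topology

namespace Crest.Agent.R116.Tw369

open Crest.Agent.R138
open Crest.Agent.R138.Ex926 (Base U IsTan)
open Crest.Agent.R136
open Crest.Agent.R136.MkA627
open Crest.Agent.R136.TD627
open Crest.Agent.R136.Net191
open Crest.Agent.R136.Lq196
open Crest.Agent.R136.Qg926 Crest.Agent.R136.Gf356 Crest.Agent.R116.EvL504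
open Crest.Agent.R116.ChL222
open Crest.Agent.R116.PL504 (nb rL DN eL βL oL Shift eL_wall)
open Crest.Agent.R116.Sg337 (bx9)
open Crest.Agent.R116.Gd222 (TSet sN PDL DT)
open Crest.Agent.R116.KI439
open Crest.Agent.R116.KF439 (PL)
open Crest.Agent.R116.CtxB468
open Crest.Agent.R116.Kst593
open Crest.Agent.R116.Rcx363 (fo fo_lip Prf)
open Crest.Agent.R116.RbM219
open Crest.Agent.R116.SgF665 (wl wl_add wl_smul LM0)
open Crest.Agent.R116.WinG954 (LM)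
open Crest.Agent.R116.Tq741 Crest.Agent.R116.Tq794

variable {G : Geo TSet (Fin 2)} {L : ℕ → ℕ → LRay} {r : ℕ → ℝ} {g s : ℝ} {θ q : Fin 2 → ℝ}
    {Rg : ℝ} {B : Base} {I : ℕ → Finset (ℕ × ℝ)} {lev : ℕ → ℚ → ℕ} {A : ℕ → ℝ}
    {f : ℕ → ℚ → ℕ → ℤ → ℕ} {b : ℕ → ℚ → ℕ → TSet} {vm : ℕ → ℚ → ℝ} {wt : Fin 2 → ℕ → ℚ → ℝ}
    {fr : ℕ → ℚ → ℕ × ℝ → LInc} {fl : ℕ → ℕ × ℝ → LInc} {sc : Fin 12 → ℕ → ℝ}
    {w0 sa sb δ R : ℝ} {I0 I' : ℕ → Finset (ℕ × ℝ)} {ν own : (Fin 12 → ℝ) → ℝ} {c₀ : ℝ}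

/-- a visible slot which is not level stays coarser than its own level -/
theorem Xs_vis {θ0 θ1 : ℝ} {X : ℕ → Fin 12 → ℝ} {H : ℕ → ℝ} {ew c0 : Fin 12 → ℝ} {ψ : ℕ → ℕ}
    {h' v : ℕ → ℝ} (hpos : ∀ l, 0 < H l) (hψ : StrictMono ψ) (hp' : ∀ m, 0 < h' m)
    (h0' : Tendsto h' atTop (𝓝 0)) {k : Fin 12} {u : ℝ}
    (hX : ∀ᶠ l in atTop, X l k ≤ rL θ0 θ1 w0 sa sb (v l) k) (hw : ew k < βL θ0 θ1 k * u) (t : ℝ) :
    ∀ᶠ m in atTop, Xs X H ew c0 ψ h' m k + t * (H (ψ m) * h' m) ≤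
      rL θ0 θ1 w0 sa sb (v (ψ m) + H (ψ m) * u) k := by
  set C : ℝ := |t| + |c0 k| with hC
  have e : t + c0 k ≤ C := by
    have h1 := le_abs_self t
    have h2 := le_abs_self (c0 k)
    rw [hC]; linarith
  have hlim : Tendsto (fun m => h' m * C) atTop (𝓝 0) := by simpa using h0'.mul_const C
  have h3 : ∀ᶠ m in atTop, h' m * C < βL θ0 θ1 k * u - ew k :=
    hlim.eventually_lt_const (by linarith)
  filter_upwards [hψ.tendsto_atTop.eventually hX, h3] with m m1 m2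
  rw [PL504.rL_lin] at m1
  rw [PL504.rL_lin, Xs_apply]
  have p := hpos (ψ m)
  have q1 := mul_le_mul_of_nonneg_left m2.le p.le
  have q2 := mul_le_mul_of_nonneg_left e (mul_pos p (hp' m)).le
  nlinarith

/-- a visible slot which is not level: on its own level or coarser and `w` moves it coarser, or
coarser by more than every multiple of the unit -/
def Vw (θ0 θ1 w0 sa sb : ℝ) (X : ℕ → Fin 12 → ℝ) (H v : ℕ → ℝ) (ew : Fin 12 → ℝ) (u : ℝ)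
    (k : Fin 12) : Prop :=
  ((∀ᶠ l in atTop, X l k ≤ rL θ0 θ1 w0 sa sb (v l) k) ∧ ew k < βL θ0 θ1 k * u) ∨
    ∀ K : ℝ, ∀ᶠ l in atTop, X l k + K * H l ≤ rL θ0 θ1 w0 sa sb (v l) k

/-- a visible slot which is not level stays coarser than its own level -/
theorem Xs_vw {θ0 θ1 : ℝ} {X : ℕ → Fin 12 → ℝ} {H : ℕ → ℝ} {ew c0 : Fin 12 → ℝ} {ψ : ℕ → ℕ}
    {h' v : ℕ → ℝ} (hpos : ∀ l, 0 < H l) (hψ : StrictMono ψ) (hp' : ∀ m, 0 < h' m)
    (h0' : Tendsto h' atTop (𝓝 0)) {k : Fin 12} {u : ℝ}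
    (h : Vw θ0 θ1 w0 sa sb X H v ew u k) (t : ℝ) :
    ∀ᶠ m in atTop, Xs X H ew c0 ψ h' m k + t * (H (ψ m) * h' m) ≤
      rL θ0 θ1 w0 sa sb (v (ψ m) + H (ψ m) * u) k := by
  rcases h with ⟨h1, h2⟩ | h1
  · exact Xs_vis hpos hψ hp' h0' h1 h2 t
  · have h3 : ∀ᶠ m in atTop, h' m < 1 := h0'.eventually_lt_const one_pos
    filter_upwards [hψ.tendsto_atTop.eventually
      (h1 (ew k + (|c0 k| + |t|) - βL θ0 θ1 k * u)), h3] with m m1 m2
    rw [PL504.rL_lin] at m1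
    rw [PL504.rL_lin, Xs_apply]
    have p := hpos (ψ m)
    have p' := hp' m
    have a1 := le_abs_self t
    have a2 := le_abs_self (c0 k)
    have q1 : h' m * (|c0 k| + |t|) ≤ |c0 k| + |t| := by
      have : 0 ≤ |c0 k| + |t| := by positivity
      nlinarith
    have q2 : h' m * (c0 k + t) ≤ h' m * (|c0 k| + |t|) :=
      mul_le_mul_of_nonneg_left (by linarith) p'.le
    have q3 := mul_le_mul_of_nonneg_left (q2.trans q1) p.le
    nlinarith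

/-- tangents at a shifted base point (120's `tan_shift`) -/
theorem tan_shiftW {V : Type*} [NormedAddCommGroup V] [NormedSpace ℝ V] {P D D' : Set V}
    {ν lam : V → ℝ} {x : ℕ → V} {h : ℕ → ℝ} (H : IsTan P D ν x h lam) {c0 : V}
    (h0 : (0 : V) ∈ D') (hD : ∀ c ∈ D', c0 + c ∈ D) :
    IsTan P D' ν (fun l => x l + h l • c0) h (fun c => lam (c0 + c) - lam c0) := by
  intro C ε hε
  have hc0 : c0 ∈ D := by have := hD 0 h0; rwa [add_zero] at this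
  filter_upwards [H (‖c0‖ + |C|) (ε / 2) (by positivity)] with l hl c hc hcC
  have a1 := hl (c0 + c) (hD c hc) ((norm_add_le _ _).trans (by
    have := le_abs_self C
    linarith))
  have a2 := hl c0 hc0 (by have := abs_nonneg C; linarith)
  have e1 : x l + h l • (c0 + c) = x l + h l • c0 + h l • c := by
    rw [smul_add, add_assoc]
  rw [e1] at a1
  refine ⟨a1.1, ?_⟩
  have b1 := abs_le.1 a1.2
  have b2 := abs_le.1 a2.2
  rw [abs_le]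
  constructor <;> nlinarith [b1.1, b1.2, b2.1, b2.2]

/-- **the window over a tied linear position** -/
theorem core (ctx : CtxT G L r g s θ q Rg B I lev A f b vm wt fr fl sc w0 sa sb δ R I0 I' ν own c₀)
    {E : V9 → Fin 12 → ℝ} {M : Set (Fin 12 → ℝ)} (em : EMd E M) {S Dr Ts : Finset (Fin 12)}
    (hw : WSD S Dr) {d0 : V9} (rz : Rz M Dr (E d0)) (hd0 : LegM 0 d0) (hd0S : ∀ k ∈ S, E d0 k = 0)
    {X : ℕ → Fin 12 → ℝ} {H v : ℕ → ℝ} {v0 : ℝ} (hpos : ∀ l, 0 < H l)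
    (hH0 : Tendsto H atTop (𝓝 0)) {lam2 : (Fin 12 → ℝ) → ℝ}
    (ht : IsTan (Leg monL R) M ν X H lam2)
    (hanti : ∀ p ∈ M, ∀ q ∈ M, p ≤ q → lam2 q ≤ lam2 p)
    (hb : TBase (θ 0) (θ 1) w0 sa sb v0 S X v)
    (hTs : Ts ⊆ S) (hβ : ∀ j ∈ Ts, 0 < βL (θ 0) (θ 1) j)
    {Sl : Fin 12 → Set ℝ} (hSl : ∀ j ∈ Ts, Sl j = {0} ∨ Sl j = Set.univ)
    (hSt : ∀ j ∈ Ts, StC B I lev fl (sc j) j (βL (θ 0) (θ 1) j) (Sl j))
    {Z : Finset (Fin 9)} {w Rw : V9} (hwl : LegM 0 w) (hwS : ∀ k ∈ S, E w k = βL (θ 0) (θ 1) k * w 0)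
    (hvis : ∀ k, k ≠ 0 → VisT B I fl sc k → k ∈ S ∨
      Vw (θ 0) (θ 1) w0 sa sb X H v (E w) (w 0) k)
    (hL : LinS Z (fun w => lam2 (E w)) w Rw)
    {dT dL dV : V9} (eT : cT S Dr 1 (fun _ => 1) = E dT) (eL : cL S Dr (fun _ => 1) = E dL)
    (eV : cT S Dr 1 0 = E dV) (lT : LegM 0 (dT + (1:ℝ) • d0)) (lL : LegM 0 (dL + (1:ℝ) • d0))
    (lV : LegM 0 (dV + (1:ℝ) • d0)) (z1 : ∀ u ∈ Z, dT u = dV u) (z2 : ∀ u ∈ Z, dL u = 0)
    (z3 : ∀ u ∈ Zᶜ, dT u = dL u + dV u) :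
    ∃ (ψ : ℕ → ℕ) (h' : ℕ → ℝ) (Q : (Fin 12 → ℝ) → ℝ) (Φ : V9 → ℝ), StrictMono ψ ∧
      (∀ m, 0 < h' m) ∧ Tendsto h' atTop (𝓝 0) ∧
      (∀ d d' : V9, (∀ u ∈ Z, d u = d' u) → LegM 0 (d + (1:ℝ) • d0) → LegM 0 (d' + (1:ℝ) • d0) →
        Φ d = Φ d') ∧
      (∀ d, LegM 0 (d + (1:ℝ) • d0) → Q (E d) = -(Φ d + ∑ u ∈ Zᶜ, Rw u * d u)) ∧
      TBase (θ 0) (θ 1) w0 sa sb v0 S (Xs X H (E w) ((1:ℝ) • E d0) ψ h')
        (fun m => v (ψ m) + H (ψ m) * w 0) ∧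
      ∃ (k : ℕ → ℕ) (W : Wnd 12 (fun _ => ℕ × ℝ)) (N : ℕ → ℝ) (cw : ∀ n : ℕ, ℕ × ℝ → ℤ)
        (E' : ∀ n : ℕ, Finset (ℕ × ℝ)) (g' : ℕ → ℝ),
        TWin B I0 I' (PL504.coN B lev wt w0 sa sb fl) (Xs X H (E w) ((1:ℝ) • E d0) ψ h')
          (fun m => H (ψ m) * h' m) Q S Dr Ts Sl 0 1 k W N cw E' g' (fun _ _ _ => 0) := by
  have hlip : ∃ K : ℝ, 0 ≤ K ∧ ∀ p ∈ M, ∀ q ∈ M, |lam2 p - lam2 q| ≤ K * ‖p - q‖ := by
    refine ⟨12, by norm_num, fun p hp' q hq' => ?_⟩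
    have := SgO219.tan_lip hpos ht (K := 12) (fo_lip ctx 0) p hp' q hq'
    rwa [dist_eq_norm] at this
  obtain ⟨ψ, h', lam3, Ψ, hψ, -, hp', h0', hT, hanti3, hΨ, hf⟩ := tan_Z em.cl em.z em.ad em.sm hpos
    ht hlip hanti em.lin (em.mem hwl) hL (Pr := fun _ _ => True)
    (fun _ => Eventually.of_forall fun _ => trivial)
  have h1d : LegM 0 ((1:ℝ) • d0) := by rw [one_smul]; exact hd0
  have hwz : E w 0 = w 0 := by
    have h1 := hwS 0 hw.z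
    have h2 : βL (θ 0) (θ 1) 0 = 1 := rfl
    rw [h1, h2, one_mul]
  set Q : (Fin 12 → ℝ) → ℝ := fun c => lam3 ((1:ℝ) • E d0 + c) - lam3 ((1:ℝ) • E d0) with hQ
  have hz : (0 : Fin 12 → ℝ) ∈ Leg (monX Dr) (1:ℝ) :=
    ⟨⟨fun _ => le_rfl, fun k e _ => by simp⟩, fun _ => zero_le_one⟩
  have hsh := tan_shiftW hT (c0 := (1:ℝ) • E d0) hz (rz 1 zero_le_one)
  have hform : ∀ d, LegM 0 (d + (1:ℝ) • d0) →
      Q (E d) = -(Ψ (d + (1:ℝ) • d0) - Ψ ((1:ℝ) • d0) + ∑ u ∈ Zᶜ, Rw u * d u) := fun d hd =>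
    lam_eq em hf h1d hd
  have hbase := Xs_base (ew := E w) (c0 := (1:ℝ) • E d0) (h' := h') hb hH0 hψ hwz hwS
    (by rw [Pi.smul_apply, hd0S 0 hw.z, smul_zero])
    (fun k hk => by rw [Pi.smul_apply, hd0S k hk, smul_zero])
  have hden : DensT S Dr 1 0 Q := by
    refine ⟨?_, le_rfl, zero_le_one, fun y hy _ => ?_⟩
    · rw [eT, eL, eV, hform _ lT, hform _ lL, hform _ lV]
      have a1 : Ψ (dT + (1:ℝ) • d0) = Ψ (dV + (1:ℝ) • d0) := hΨ _ _ (fun u hu => by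
        rw [Pi.add_apply, Pi.add_apply, z1 u hu]) lT lV
      have a2 : Ψ (dL + (1:ℝ) • d0) = Ψ ((1:ℝ) • d0) := hΨ _ _ (fun u hu => by
        rw [Pi.add_apply, z2 u hu, zero_add]) lL h1d
      have a3 : ∑ u ∈ Zᶜ, Rw u * dT u = ∑ u ∈ Zᶜ, Rw u * dL u + ∑ u ∈ Zᶜ, Rw u * dV u := by
        rw [← Finset.sum_add_distrib]
        exact Finset.sum_congr rfl fun u hu => by rw [z3 u hu]; ring
      rw [a1, a2, a3]
      linarith
    · have hs0 : Pi.single 0 y = E (y • e9 0) := by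
        have e1 : (y • e9 0) 8 = 0 := by simp [e9]
        rw [em.eq9 e1]
        funext k
        fin_cases k <;> simp [E9, bx9, e9]
      have hl1 : LegM 0 (e9 0) := by constructor <;> simp [e9]
      have hm1 : (1:ℝ) • E d0 ∈ M := em.sm _ zero_le_one _ (em.mem hd0)
      have hm2 : (1:ℝ) • E d0 + Pi.single 0 y ∈ M := by
        rw [hs0]
        have h9 := hl1.smul hy
        rw [mul_zero] at h9
        exact em.ad _ hm1 _ (em.mem h9)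
      have := hanti3 _ hm1 _ hm2 (by
        intro i
        rw [Pi.add_apply]
        have : 0 ≤ (Pi.single 0 y : Fin 12 → ℝ) i := by
          by_cases hi : i = 0
          · subst hi; simpa using hy
          · rw [Pi.single_eq_of_ne hi]
        linarith)
      show lam3 ((1:ℝ) • E d0 + Pi.single 0 y) - lam3 ((1:ℝ) • E d0) ≤ -(0 * y)
      linarith
  refine ⟨ψ, h', Q, fun d => Ψ (d + (1:ℝ) • d0) - Ψ ((1:ℝ) • d0), hψ, hp', h0', ?_, hform, hbase,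
    ?_⟩
  · intro d d' hu hd hd'
    show Ψ (d + (1:ℝ) • d0) - _ = Ψ (d' + (1:ℝ) • d0) - _
    rw [hΨ (d + (1:ℝ) • d0) (d' + (1:ℝ) • d0) (fun u hz => by
      rw [Pi.add_apply, Pi.add_apply, hu u hz]) hd hd']
  · exact exists_twinV ctx hw one_pos (fun m => mul_pos (hpos _) (hp' m)) (tend_hh hH0 hψ h0') hsh
      (Subset.refl _) hbase hTs hβ hSl hSt (fun k hk hV => by
        rcases hvis k hk hV with h1 | h1
        · exact Or.inl h1
        · exact Or.inr (Xs_vw hpos hψ hp' h0' h1 1)) hden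

end Crest.Agent.R116.Tw369
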