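import Crest.Agent.R116.TwF7_369

/-!
# R116, ties (helper369): (W3), (W2) at an `e`-tie, `G` exactly on its own level

* `TWin.w3n`, `TWin.w2n` : in the window, level slots `{0, 2, 7, 8}`
* `u3n`, `u2n`           : at a linear position
-/

set_option autoImplicit false
set_option linter.unusedVariables false
set_option linter.unusedSectionVars false

open Set Filter Topology

namespace Crest.Agent.R116.Tw369

open Crest.Agent.R138
open Crest.Agent.R138.Ex926 (Base U IsTan)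
open Crest.Agent.R136
open Crest.Agent.R136.MkA627
open Crest.Agent.R136.TD627
open Crest.Agent.R136.Net191
open Crest.Agent.R136.Lq196
open Crest.Agent.R136.Qg926 Crest.Agent.R136.Gf356 Crest.Agent.R116.EvL504
open Crest.Agent.R116.ChL222
open Crest.Agent.R116.PL504 (nb rL DN eL βL oL Shift eL_wall)
open Crest.Agent.R116.Sg337 (bx9)
open Crest.Agent.R116.Gd222 (TSet sN PDL DT)
open Crest.Agent.R116.KI439
open Crest.Agent.R116.KF439 (PL)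
open Crest.Agent.R116.CtxB468
open Crest.Agent.R116.Kst593 Crest.Agent.R116.KW420
open Crest.Agent.R116.Rcx363 (fo fo_lip Prf)
open Crest.Agent.R116.RbM219
open Crest.Agent.R116.SgF665 (wl wl_add wl_smul LM0)
open Crest.Agent.R116.WinG954 (LM)
open Crest.Agent.R116.Tq741 Crest.Agent.R116.Tq794

section wn

open Crest.Agent.R116.PL504

variable {B : Base} {I0 I' : ℕ → Finset (ℕ × ℝ)}
  {co : ∀ n : ℕ, ℕ × ℝ → ℕ × ℝ → Fin 12 → ℝ} {X : ℕ → Fin 12 → ℝ} {hh : ℕ → ℝ}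
  {lam : (Fin 12 → ℝ) → ℝ} {S Dr Ts : Finset (Fin 12)} {Sl : Fin 12 → Set ℝ} {σ t : ℝ}
  {k : ℕ → ℕ} {W : Wnd 12 (fun _ => ℕ × ℝ)} {N : ℕ → ℝ} {cw : ∀ n : ℕ, ℕ × ℝ → ℤ}
  {E' : ∀ n : ℕ, Finset (ℕ × ℝ)} {g' : ℕ → ℝ} {ex : ℕ → ∀ n : ℕ, ℕ × ℝ → ℕ}

/-- **(W3) in a window**: `C_b` against `C_a`, only `C_b = C_a + B` is tight -/
theorem TWin.w3n (T : TWin B I0 I' co X hh lam {0, 2, 7, 8} {1} Ts Sl σ t k W N cw E' g' ex)
    (ht : 0 < t) (hTs : Ts ⊆ {0, 2, 7, 8}) (hSl : ∀ j ∈ Ts, (0 : ℝ) ∈ Sl j)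
    {j : Fin 12} (hj : j = 7 ∨ j = 8) (hjT : j ∈ Ts) {u v : ℕ → ℝ}
    (hd : Dir W.B' (W.cfg E') (ownL W) u v t) (x3 : ∀ᶠ l in atTop, X l 10 = X l 3 + X l 7)
    (x4 : ∀ᶠ l in atTop, X l 10 = X l 4 + X l 8) (sl : Sl3 X hh t) {y : ℝ} (hy : 0 ≤ y)
    (hyt : y ≤ t) :
    lam (cT {0, 2, 7, 8} {1} t (bA y {10})) - lam (cT {0, 2, 7, 8} {1} t (bA y {3, 4, 10})) ≤
      lam (cT {0, 2, 7, 8} {1} t 0) - lam (cT {0, 2, 7, 8} {1} t (bA y {10})) := by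
  refine T.w_e wsd_ek ht hTs hSl hj hjT (P := 10) (C := 3) (C' := 4) hd.unit hd.tc hd.tow ?_
    (by decide) (by decide) (by decide) (by decide) (by decide +kernel) (by decide +kernel) hy hyt
  intro ε hε
  filter_upwards [T.reg, T.tight (i := 3) (j := 7) (m := 10) (by decide) x3,
    T.tight (i := 4) (j := 8) (m := 10) (by decide) x4,
    T.slack (i := 2) (j := 3) (m := 7) (by decide) sl.a,
    T.slack (i := 2) (j := 4) (m := 8) (by decide) sl.b,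
    T.slack (i := 1) (j := 5) (m := 7) (by decide) sl.c,
    T.slack (i := 1) (j := 6) (m := 8) (by decide) sl.d,
    T.slack (i := 1) (j := 9) (m := 10) (by decide) sl.e, ev_up W 103 t hε] with
    n r h1 h2 h3 h4 h5 h6 h7 h8 k0 k1 i l a1 a2 a3 a4
  have r0 := T.wl.r0 n
  refine (law10 T.wl r r0 h1 h2 h3 h4 h5 h6 h7 a1 a2 a3 a4).trans (le_trans (le_of_eq ?_) h8)
  ring

/-- **(W2) in a window**: `N` against `X`, only `N = X + B` is tight -/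
theorem TWin.w2n (T : TWin B I0 I' co X hh lam {0, 2, 7, 8} {1} Ts Sl σ t k W N cw E' g' ex)
    (ht : 0 < t) (hTs : Ts ⊆ {0, 2, 7, 8}) (hSl : ∀ j ∈ Ts, (0 : ℝ) ∈ Sl j)
    {j : Fin 12} (hj : j = 7 ∨ j = 8) (hjT : j ∈ Ts) {u v : ℕ → ℝ}
    (hd : Dir W.B' (W.cfg E') (ownL W) u v t) (x3 : ∀ᶠ l in atTop, X l 11 = X l 5 + X l 7)
    (x4 : ∀ᶠ l in atTop, X l 11 = X l 6 + X l 8) (sl : Sl2 X hh t) {y : ℝ} (hy : 0 ≤ y)
    (hyt : y ≤ t) :
    lam (cT {0, 2, 7, 8} {1} t (bA y {11})) - lam (cT {0, 2, 7, 8} {1} t (bA y {5, 6, 11})) ≤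
      lam (cT {0, 2, 7, 8} {1} t 0) - lam (cT {0, 2, 7, 8} {1} t (bA y {11})) := by
  refine T.w_e wsd_ek ht hTs hSl hj hjT (P := 11) (C := 5) (C' := 6) hd.unit hd.tx hd.tow ?_
    (by decide) (by decide) (by decide) (by decide) (by decide +kernel) (by decide +kernel) hy hyt
  intro ε hε
  filter_upwards [T.reg, T.tight (i := 5) (j := 7) (m := 11) (by decide) x3,
    T.tight (i := 6) (j := 8) (m := 11) (by decide) x4,
    T.slack (i := 0) (j := 3) (m := 5) (by decide) sl.a,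
    T.slack (i := 0) (j := 4) (m := 6) (by decide) sl.b,
    T.slack (i := 1) (j := 5) (m := 7) (by decide) sl.c,
    T.slack (i := 1) (j := 6) (m := 8) (by decide) sl.d,
    T.slack (i := 0) (j := 10) (m := 11) (by decide) sl.e,
    T.slack (i := 2) (j := 9) (m := 11) (by decide) sl.f, ev_up W 110 t hε] with
    n r h1 h2 h3 h4 h5 h6 h7 h7' h8 k0 k1 i l a1 a2 a3 a4
  have r0 := T.wl.r0 n
  refine (law11 T.wl r r0 h1 h2 h3 h4 h5 h6 h7 h7' a1 a2 a3 a4).trans (le_trans (le_of_eq ?_) h8)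
  ring

end wn

variable {G : Geo TSet (Fin 2)} {L : ℕ → ℕ → LRay} {r : ℕ → ℝ} {g s : ℝ} {θ q : Fin 2 → ℝ}
    {Rg : ℝ} {B : Base} {I : ℕ → Finset (ℕ × ℝ)} {lev : ℕ → ℚ → ℕ} {A : ℕ → ℝ}
    {f : ℕ → ℚ → ℕ → ℤ → ℕ} {b : ℕ → ℚ → ℕ → TSet} {vm : ℕ → ℚ → ℝ} {wt : Fin 2 → ℕ → ℚ → ℝ}
    {fr : ℕ → ℚ → ℕ × ℝ → LInc} {fl : ℕ → ℕ × ℝ → LInc} {sc : Fin 12 → ℕ → ℝ}
    {w0 sa sb δ R : ℝ} {I0 I' : ℕ → Finset (ℕ × ℝ)} {ν own : (Fin 12 → ℝ) → ℝ} {c₀ : ℝ}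


section etie

variable {E : V9 → Fin 12 → ℝ} {M : Set (Fin 12 → ℝ)} {X : ℕ → Fin 12 → ℝ} {H v : ℕ → ℝ} {v0 : ℝ}
  {lam2 : (Fin 12 → ℝ) → ℝ} {w Rw : V9}

/-- the window at an `e`-tied linear position, with the direction of the slab -/
theorem winN (ctx : CtxT G L r g s θ q Rg B I lev A f b vm wt fr fl sc w0 sa sb δ R I0 I' ν own c₀)
    (hθ0 : 0 < θ 0) {j : Fin 12} (hj : j = 7 ∨ j = 8) (hB : TieT θ B I lev fl sc j)
    (em : EMd E M) (rz : Rz M {1} (E dK))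
    (pb : PBaseG (θ 0) (θ 1) w0 sa sb v0 R {0, 2, 7, 8} E M ν X H v lam2)
    (hvX : ∀ k, k ≠ 0 → VisT B I fl sc k → k = 2 ∨ k = 7 ∨ k = 8 ∨
      Vw (θ 0) (θ 1) w0 sa sb X H v (E w) (w 0) k)
    (hwl : LegM 0 w) (h6 : w 6 = (θ 0 - θ 1) * w 0)
    (h7 : w 7 = (2 * θ 0 - θ 1) * w 0)
    (hL : LinS {0, 6, 7, 8} (fun w => lam2 (E w)) w Rw) :
    ∃ (ψ : ℕ → ℕ) (h' : ℕ → ℝ) (Q : (Fin 12 → ℝ) → ℝ) (Φ : V9 → ℝ), StrictMono ψ ∧
      (∀ m, 0 < h' m) ∧ Tendsto h' atTop (𝓝 0) ∧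
      (∀ d d' : V9, (∀ u ∈ ({0, 6, 7, 8} : Finset (Fin 9)), d u = d' u) →
        LegM 0 (d + (1:ℝ) • dK) → LegM 0 (d' + (1:ℝ) • dK) → Φ d = Φ d') ∧
      (∀ d, LegM 0 (d + (1:ℝ) • dK) → Q (E d) =
        -(Φ d + ∑ u ∈ ({0, 6, 7, 8} : Finset (Fin 9))ᶜ, Rw u * d u)) ∧
      ∃ (k : ℕ → ℕ) (W : Wnd 12 (fun _ => ℕ × ℝ)) (N : ℕ → ℝ) (cw : ∀ n : ℕ, ℕ × ℝ → ℤ)
        (E' : ∀ n : ℕ, Finset (ℕ × ℝ)) (g' : ℕ → ℝ),
        TWin B I0 I' (PL504.coN B lev wt w0 sa sb fl) (Xs X H (E w) ((1:ℝ) • E dK) ψ h')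
          (fun m => H (ψ m) * h' m) Q {0, 2, 7, 8} {1} {j} (fun _ => {0}) 0 1 k W N cw E' g'
          (fun _ _ _ => 0) ∧
        ∃ u u' : ℕ → ℝ, Dir W.B' (W.cfg E') (ownL W) u u' 1 := by
  obtain ⟨l0, l2, l3, l4, l5, l6, l7, l8, l9, l10, l11⟩ := em.lt w
  have hjS : ({j} : Finset (Fin 12)) ⊆ {0, 2, 7, 8} := by
    rcases hj with rfl | rfl <;> decide
  have hk : 0 < θ 0 - θ 1 := by
    have h1 := hB.2.1
    rcases hj with rfl | rfl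
    · rwa [βL7] at h1
    · rwa [βL8] at h1
  have eq1 : cT {0, 2, 7, 8} {1} 1 (fun _ => 1) = E ![1, 1, 1, 1, 1, 1, 1, 1, 0] := by
    rw [em.eq9 rfl]
    funext k
    fin_cases k <;> simp [cT, E9, bx9]
  have eq2 : cL {0, 2, 7, 8} {1} (fun _ => 1) = E ![0, 1, 1, 1, 1, 1, 0, 0, 0] := by
    rw [em.eq9 rfl]
    funext k
    fin_cases k <;> simp [cL, E9, bx9]
  have eq3 : cT {0, 2, 7, 8} {1} 1 0 = E ![1, 0, 0, 0, 0, 0, 1, 1, 0] := by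
    rw [em.eq9 rfl]
    funext k
    fin_cases k <;> simp [cT, E9, bx9]
  obtain ⟨ψ, h', Q, Φ, hψ, hp', h0', hΦ, hQ, hbase, k, W, N, cw, E', g', T⟩ :=
    core ctx em wsd_ek rz leg_dK
      (fun k hk => by
        refine E_dK_off em ?_
        rintro rfl; revert hk; decide) pb.pos pb.h0 pb.tan pb.anti pb.base hjS
      (fun i hi => by rw [Finset.mem_singleton.1 hi]; exact hB.2.1) (Sl := fun _ => {0})
      (fun _ _ => Or.inl rfl)
      (fun i hi => by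
        rw [Finset.mem_singleton.1 hi]
        exact stC_of_TwP (fun _ _ _ _ => rfl) hB.2.2.2) hwl
      (fun k hk => by
        have h3 : k = 0 ∨ k = 2 ∨ k = 7 ∨ k = 8 := by simpa using hk
        rcases h3 with rfl | rfl | rfl | rfl
        · rw [l0, βL0, one_mul]
        · rw [l2, βL2, h7]
        · rw [l7, βL7, h6]
        · rw [l8, βL8, h6])
      (fun k hk hV => by
        rcases hvX k hk hV with rfl | rfl | rfl | h
        · exact Or.inl (by decide)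
        · exact Or.inl (by decide)
        · exact Or.inl (by decide)
        · exact Or.inr h) hL eq1 eq2 eq3
      (by constructor <;> simp [dK] <;> norm_num) (by constructor <;> simp [dK] <;> norm_num)
      (by constructor <;> simp [dK] <;> norm_num) (by intro u hu; fin_cases u <;> simp at hu ⊢)
      (by intro u hu; fin_cases u <;> simp at hu ⊢) (by intro u hu; fin_cases u <;> simp at hu ⊢)
  have e3 : ∀ m, Xs X H (E w) ((1:ℝ) • E dK) ψ h' m 3 = Xs X H (E w) ((1:ℝ) • E dK) ψ h' m 4 := by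
    intro m
    rw [Xs_apply, Xs_apply, pb.nb.p3, l3, l4, Pi.smul_apply, Pi.smul_apply,
      E_dK_off em (by decide), E_dK_off em (by decide)]
  have e5 : ∀ m, Xs X H (E w) ((1:ℝ) • E dK) ψ h' m 5 = Xs X H (E w) ((1:ℝ) • E dK) ψ h' m 6 := by
    intro m
    rw [Xs_apply, Xs_apply, pb.nb.p5, l5, l6, Pi.smul_apply, Pi.smul_apply,
      E_dK_off em (by decide), E_dK_off em (by decide)]
  have e7 : ∀ m, Xs X H (E w) ((1:ℝ) • E dK) ψ h' m 7 = Xs X H (E w) ((1:ℝ) • E dK) ψ h' m 8 := by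
    intro m
    rw [Xs_apply, Xs_apply, pb.nb.p7, l7, l8, Pi.smul_apply, Pi.smul_apply,
      E_dK_off em (by decide), E_dK_off em (by decide)]
  obtain ⟨u, u', hd⟩ := TWin.dir ctx (tend_hh pb.h0 hψ h0') hbase
    (fun j hj => Xs_lim pb.h0 hψ h0' (pb.lim j hj)) (Eventually.of_forall e3)
    (Eventually.of_forall e5) (Eventually.of_forall e7) T hθ0 (by linarith) 1
  exact ⟨ψ, h', Q, Φ, hψ, hp', h0', hΦ, hQ, k, W, N, cw, E', g', T, u, u', hd⟩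

/-- **(W3) at an `e`-tie** -/
theorem u3n (ctx : CtxT G L r g s θ q Rg B I lev A f b vm wt fr fl sc w0 sa sb δ R I0 I' ν own c₀)
    (hθ0 : 0 < θ 0) {j : Fin 12} (hj : j = 7 ∨ j = 8) (hB : TieT θ B I lev fl sc j)
    (em : EMd E M) (rz : Rz M {1} (E dK))
    (pb : PBaseG (θ 0) (θ 1) w0 sa sb v0 R {0, 2, 7, 8} E M ν X H v lam2)
    (hvX : ∀ k, k ≠ 0 → VisT B I fl sc k → k = 2 ∨ k = 7 ∨ k = 8 ∨
      Vw (θ 0) (θ 1) w0 sa sb X H v (E w) (w 0) k)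
    (ho : One 5 w) (h6 : w 6 = (θ 0 - θ 1) * w 0)
    (h7 : w 7 = (2 * θ 0 - θ 1) * w 0)
    (hL : LinS {0, 6, 7, 8} (fun w => lam2 (E w)) w Rw) : Rw 1 ≤ Rw 2 := by
  obtain ⟨ψ, h', Q, Φ, hψ, hp', h0', hΦ, hQ, k, W, N, cw, E', g', T, u, u', hd⟩ :=
    winN ctx hθ0 hj hB em rz pb hvX (One.leg ho) h6 h7 hL
  obtain ⟨l0, l2, l3, l4, l5, l6, l7, l8, l9, l10, l11⟩ := em.lt w
  obtain ⟨X5, X6, X7, X8, X11, X11', X11'', X10, X10', X9⟩ := pb.nb.walls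
  have g0 : gap w 5 = 0 := ho.1
  change w 1 + w 6 - w 2 = 0 at g0
  have z : ∀ {k : Fin 12}, k ≠ 1 → ((1:ℝ) • E dK) k = 0 := fun h1 => by
    rw [Pi.smul_apply, E_dK_off em h1, smul_zero]
  have t1 := Xs_tight (H := H) (ψ := ψ) (h' := h') (ew := E w) (c0 := (1:ℝ) • E dK) X10
    (by rw [l10, l3, l7]; linarith)
    (by rw [z (by decide), z (by decide), z (by decide)]; ring)
  have t2 := Xs_tight (H := H) (ψ := ψ) (h' := h') (ew := E w) (c0 := (1:ℝ) • E dK) X10'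
    (by rw [l10, l4, l8]; linarith)
    (by rw [z (by decide), z (by decide), z (by decide)]; ring)
  have sl : Sl3 (Xs X H (E w) ((1:ℝ) • E dK) ψ h') (fun m => H (ψ m) * h' m) 1 := by
    constructor
    · exact Xs_slack pb.pos hψ hp' h0' (Or.inl ⟨Eventually.of_forall fun l => X7 l,
        by rw [l7, l2, l3]; exact One.g2 ho (by decide)⟩) 1
    · exact Xs_slack pb.pos hψ hp' h0' (Or.inl ⟨Eventually.of_forall fun l => X8 l,
        by rw [l8, l2, l4]; exact One.g2 ho (by decide)⟩) 1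
    · exact Xs_slack pb.pos hψ hp' h0' (pb.nb.slD.1 (One.g3 ho (by decide))) 1
    · exact Xs_slack pb.pos hψ hp' h0' (pb.nb.slD.2.1 (One.g3 ho (by decide))) 1
    · exact Xs_slack pb.pos hψ hp' h0' (pb.nb.slD.2.2.1 (One.g6 ho (by decide))) 1
  have key := T.w3n one_pos (by rcases hj with rfl | rfl <;> decide) (fun _ _ => rfl) hj
    (Finset.mem_singleton_self j) hd (Eventually.of_forall t1) (Eventually.of_forall t2) sl
    zero_le_one le_rfl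
  have b1 : cT {0, 2, 7, 8} {1} 1 (bA 1 {10}) = E ![1, 0, 1, 0, 0, 0, 1, 1, 0] := by
    rw [em.eq9 rfl]
    funext k
    fin_cases k <;> simp [cT, E9, bx9, bA]
  have b2 : cT {0, 2, 7, 8} {1} 1 (bA 1 {3, 4, 10}) = E ![1, 1, 1, 0, 0, 0, 1, 1, 0] := by
    rw [em.eq9 rfl]
    funext k
    fin_cases k <;> simp [cT, E9, bx9, bA]
  have b3 : cT {0, 2, 7, 8} {1} 1 0 = E ![1, 0, 0, 0, 0, 0, 1, 1, 0] := by
    rw [em.eq9 rfl]
    funext k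
    fin_cases k <;> simp [cT, E9, bx9]
  have lg1 : LegM 0 (![1, 0, 1, 0, 0, 0, 1, 1, 0] + (1:ℝ) • dK) := by
    constructor <;> simp [dK] <;> norm_num
  have lg2 : LegM 0 (![1, 1, 1, 0, 0, 0, 1, 1, 0] + (1:ℝ) • dK) := by
    constructor <;> simp [dK] <;> norm_num
  have lg3 : LegM 0 (![1, 0, 0, 0, 0, 0, 1, 1, 0] + (1:ℝ) • dK) := by
    constructor <;> simp [dK] <;> norm_num
  have f1 : Φ ![1, 0, 1, 0, 0, 0, 1, 1, 0] = Φ ![1, 0, 0, 0, 0, 0, 1, 1, 0] :=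
    hΦ _ _ (by intro u hu; fin_cases u <;> simp at hu ⊢) lg1 lg3
  have f2 : Φ ![1, 1, 1, 0, 0, 0, 1, 1, 0] = Φ ![1, 0, 0, 0, 0, 0, 1, 1, 0] :=
    hΦ _ _ (by intro u hu; fin_cases u <;> simp at hu ⊢) lg2 lg3
  rw [b1, b2, b3, hQ _ lg1, hQ _ lg2, hQ _ lg3, f1, f2, sumE, sumE, sumE] at key
  simp at key
  linarith

/-- **(W2) at an `e`-tie** -/
theorem u2n (ctx : CtxT G L r g s θ q Rg B I lev A f b vm wt fr fl sc w0 sa sb δ R I0 I' ν own c₀)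
    (hθ0 : 0 < θ 0) {j : Fin 12} (hj : j = 7 ∨ j = 8) (hB : TieT θ B I lev fl sc j)
    (em : EMd E M) (rz : Rz M {1} (E dK))
    (pb : PBaseG (θ 0) (θ 1) w0 sa sb v0 R {0, 2, 7, 8} E M ν X H v lam2)
    (hvX : ∀ k, k ≠ 0 → VisT B I fl sc k → k = 2 ∨ k = 7 ∨ k = 8 ∨
      Vw (θ 0) (θ 1) w0 sa sb X H v (E w) (w 0) k)
    (ho : One 8 w) (h6 : w 6 = (θ 0 - θ 1) * w 0)
    (h7 : w 7 = (2 * θ 0 - θ 1) * w 0)
    (hL : LinS {0, 6, 7, 8} (fun w => lam2 (E w)) w Rw) : Rw 3 ≤ Rw 4 := by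
  obtain ⟨ψ, h', Q, Φ, hψ, hp', h0', hΦ, hQ, k, W, N, cw, E', g', T, u, u', hd⟩ :=
    winN ctx hθ0 hj hB em rz pb hvX (One.leg ho) h6 h7 hL
  obtain ⟨l0, l2, l3, l4, l5, l6, l7, l8, l9, l10, l11⟩ := em.lt w
  obtain ⟨X5, X6, X7, X8, X11, X11', X11'', X10, X10', X9⟩ := pb.nb.walls
  have g0 : gap w 8 = 0 := ho.1
  change w 3 + w 6 - w 4 = 0 at g0
  have z : ∀ {k : Fin 12}, k ≠ 1 → ((1:ℝ) • E dK) k = 0 := fun h1 => by
    rw [Pi.smul_apply, E_dK_off em h1, smul_zero]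
  have t1 := Xs_tight (H := H) (ψ := ψ) (h' := h') (ew := E w) (c0 := (1:ℝ) • E dK) X11'
    (by rw [l11, l5, l7]; linarith)
    (by rw [z (by decide), z (by decide), z (by decide)]; ring)
  have t2 := Xs_tight (H := H) (ψ := ψ) (h' := h') (ew := E w) (c0 := (1:ℝ) • E dK) X11''
    (by rw [l11, l6, l8]; linarith)
    (by rw [z (by decide), z (by decide), z (by decide)]; ring)
  have sl : Sl2 (Xs X H (E w) ((1:ℝ) • E dK) ψ h') (fun m => H (ψ m) * h' m) 1 := by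
    constructor
    · exact Xs_slack pb.pos hψ hp' h0' (Or.inl ⟨Eventually.of_forall fun l => (X5 l).le,
        by rw [l5, l0, l3]; exact One.g1 ho (by decide)⟩) 1
    · exact Xs_slack pb.pos hψ hp' h0' (Or.inl ⟨Eventually.of_forall fun l => (X6 l).le,
        by rw [l6, l0, l4]; exact One.g1 ho (by decide)⟩) 1
    · exact Xs_slack pb.pos hψ hp' h0' (pb.nb.slD.1 (One.g3 ho (by decide))) 1
    · exact Xs_slack pb.pos hψ hp' h0' (pb.nb.slD.2.1 (One.g3 ho (by decide))) 1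
    · exact Xs_slack pb.pos hψ hp' h0' (Or.inl ⟨Eventually.of_forall fun l => (X11 l).le,
        by rw [l11, l0, l10]; exact One.g7 ho (by decide)⟩) 1
    · exact Xs_slack pb.pos hψ hp' h0' (Or.inl ⟨Eventually.of_forall fun l => X9 l,
        by rw [l11, l2, l9]; exact One.g9 ho (by decide)⟩) 1
  have key := T.w2n one_pos (by rcases hj with rfl | rfl <;> decide) (fun _ _ => rfl) hj
    (Finset.mem_singleton_self j) hd (Eventually.of_forall t1) (Eventually.of_forall t2) sl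
    zero_le_one le_rfl
  have b1 : cT {0, 2, 7, 8} {1} 1 (bA 1 {11}) = E ![1, 0, 0, 0, 1, 0, 1, 1, 0] := by
    rw [em.eq9 rfl]
    funext k
    fin_cases k <;> simp [cT, E9, bx9, bA]
  have b2 : cT {0, 2, 7, 8} {1} 1 (bA 1 {5, 6, 11}) = E ![1, 0, 0, 1, 1, 0, 1, 1, 0] := by
    rw [em.eq9 rfl]
    funext k
    fin_cases k <;> simp [cT, E9, bx9, bA]
  have b3 : cT {0, 2, 7, 8} {1} 1 0 = E ![1, 0, 0, 0, 0, 0, 1, 1, 0] := by
    rw [em.eq9 rfl]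
    funext k
    fin_cases k <;> simp [cT, E9, bx9]
  have lg1 : LegM 0 (![1, 0, 0, 0, 1, 0, 1, 1, 0] + (1:ℝ) • dK) := by
    constructor <;> simp [dK] <;> norm_num
  have lg2 : LegM 0 (![1, 0, 0, 1, 1, 0, 1, 1, 0] + (1:ℝ) • dK) := by
    constructor <;> simp [dK] <;> norm_num
  have lg3 : LegM 0 (![1, 0, 0, 0, 0, 0, 1, 1, 0] + (1:ℝ) • dK) := by
    constructor <;> simp [dK] <;> norm_num
  have f1 : Φ ![1, 0, 0, 0, 1, 0, 1, 1, 0] = Φ ![1, 0, 0, 0, 0, 0, 1, 1, 0] :=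
    hΦ _ _ (by intro u hu; fin_cases u <;> simp at hu ⊢) lg1 lg3
  have f2 : Φ ![1, 0, 0, 1, 1, 0, 1, 1, 0] = Φ ![1, 0, 0, 0, 0, 0, 1, 1, 0] :=
    hΦ _ _ (by intro u hu; fin_cases u <;> simp at hu ⊢) lg2 lg3
  rw [b1, b2, b3, hQ _ lg1, hQ _ lg2, hQ _ lg3, f1, f2, sumE, sumE, sumE] at key
  simp at key
  linarith



end etie

end Crest.Agent.R116.Tw369
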