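import Crest.Agent.R116.TieW3_369
import Crest.Agent.R116.KW6_420

/-!
# R116, ties (helper369): W3, W2, W3k in GENERAL UNITS

The window stands at any legal base; exactly the wall of the fact is tight, the others are slack.

* `twist_u` : 420's `twist_fib` without `LLaw`; `w_e`, `w_k` : the facts over the law of one slot;
* `law10`, `law11`, `law7` : the law of one slot in a window, general units;
* `w3_u`, `w2_u`, `w3k_u` : the facts in a window (`WL`, `Reg`, `RModel`, `OwnThin`, `Dir`).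
-/

set_option autoImplicit false
set_option linter.unusedVariables false
set_option linter.unusedSectionVars false

open Filter Topology Finset

namespace Crest.Agent.R116.Tw369

open Crest.Agent.R138.Ex926 (Base U)
open Crest.Agent.R136.Gf356 Crest.Agent.R136.Net191 Crest.Agent.R136.Qg926
open Crest.Agent.R116.ChL222 Crest.Agent.R116.PL504 Crest.Agent.R116.EvL504
open Crest.Agent.R116.KW420

section facts

variable {B : Base} {G : ℕ → RCfg (Fin 12)} {Leg : Set (Fin 12 → ℝ)} {ν : (Fin 12 → ℝ) → ℝ}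
  {σ R D x0 : ℝ} {S : Finset (Fin 12)} {own : ℕ → ℕ → ℕ → ℕ → Fin 12 → ℝ}

/-- `rel` is bounded -/
def RelB (B : Base) (G : ℕ → RCfg (Fin 12)) : Prop :=
  ∀ ε : ℝ, 0 < ε → ∀ᶠ n in (U : Filter ℕ), ∀ k i l, (i, k) ∈ (G n).I → (l, k) ∈ (G n).I →
    ∀ s, |(G n).rel k i l s| ≤ B.d n ^ (-ε)

/-- `own` is bounded -/
def OwnB (B : Base) (G : ℕ → RCfg (Fin 12)) (own : ℕ → ℕ → ℕ → ℕ → Fin 12 → ℝ) : Prop :=
  ∀ ε : ℝ, 0 < ε → ∀ᶠ n in (U : Filter ℕ), ∀ i k0 k, (i, k0) ∈ (G n).I →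
    (i, k) ∈ (G n).I → ∀ s, |own n i k0 k s| ≤ B.d n ^ (-ε)

/-- **`twist_fib` without the laws**: `pT ≤ 0` off the level slots -/
theorem twist_u (H : RModel B G σ R Leg ν D) (hx0 : 0 < x0) (bd : RelB B G)
    (relS : ∀ n k i l, ∀ s ∈ S, (G n).rel k i l s = 0)
    (i0 k0 : ℕ → ℕ) (h0 : ∀ᶠ n in (U : Filter ℕ), (i0 n, k0 n) ∈ (G n).I)
    (pS p' pT r : Fin 12 → ℝ) (hpS : pS ∈ Leg) (hp' : p' ∈ Leg) (hpT : pT ∈ Leg) (hr : r ∈ Leg)
    (hTr : ∀ j, pT j ≤ r j) (hlow : ∀ j, j ∈ S ∨ pT j ≤ 0) (τ : ℕ → ℕ → ℕ → ℝ) {j : Fin 12}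
    {γ x1 : ℝ} (hγ : 0 < γ) (hx1 : 0 < x1) (hO : OwnThin B G own j γ x1)
    (hcmp : ∀ ε : ℝ, 0 < ε → ∀ᶠ n in (U : Filter ℕ), ∀ i k, (i, k0 n) ∈ (G n).I →
      (i, k) ∈ (G n).I → |own n i (k0 n) k j| ≤ |τ n i k| + B.d n ^ (x0 - ε))
    {m : ℕ} {K0 : ℝ} (hsep : Sep B G pS p' r i0 k0 τ K0 m) :
    ν pS - ν p' ≤ ν pT - ν r := by
  classical
  obtain ⟨C1, hC1, hal⟩ := hal_of_own H hγ hx1 hx0 hO k0 τ hcmp
  have hD := H.D1
  have hU := H.toRUnif
  refine two_heights_R hU k0 (fun ε n => (G n).box pS ε (i0 n) (k0 n)) p' pT r hp' hpT hr hTr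
    (fun n => (G n).Z) (Eventually.of_forall fun n => ?_) (a := ν pS) (C1 := C1) (by linarith) ?_ ?_
    (fun ε n i k => B.d n ^ (C1 * ε) ≤ |τ n i k|) ?_ ?_ ?_
  · obtain ⟨⟨i1, k1⟩, hI1⟩ := H.nonempty n
    exact ⟨k1, H.memZ hI1⟩
  · intro ε hε
    exact Eventually.of_forall fun n i hi => H.memSlice.1 (RCfg.box_subset_slice hi)
  · intro ε hε
    filter_upwards [H.low pS hpS ε hε, h0] with n hn h0n
    exact (rpow_anti B n (by nlinarith)).trans (hn _ _ h0n)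
  · intro ε hε
    filter_upwards [hal ε hε] with n hn i hi T hT1 hT2
    exact hn i (H.memSlice.1 (RCfg.box_subset_slice hi)) T hT1 hT2
  · intro ε hε
    filter_upwards [bd ε hε] with n hn k hk i hi l hl h1 h2 j
    rw [H.base n]
    rcases hlow j with h3 | h3
    · rw [relS n k i l j h3, abs_zero]
      exact (rpos B n _).le
    · refine (hn k i l h1 h2 j).trans (rpow_anti B n ?_)
      nlinarith
  · intro C2 hC2
    obtain ⟨K, hK⟩ : ∃ K : ℝ, K = |K0| + C1 + C2 + 1 := ⟨_, rfl⟩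
    have hK0 : K0 ≤ K := by linarith [le_abs_self K0]
    have hKp : 0 < K := by linarith [abs_nonneg K0]
    refine ⟨(m : ℝ) * K + 1, by positivity, fun ε hε => ?_⟩
    filter_upwards [hsep K hK0 ε hε] with n hsn k hk i hi l hl h1 h2 g1 g2 hlr j
    have a1 : (B.d n ^ (-(K * ε)))⁻¹ ≤ |τ n i k| := by
      refine le_trans ?_ g1
      rw [← Real.rpow_neg (B.pos n).le, neg_neg]
      exact rpow_anti B n (by nlinarith [abs_nonneg K0])
    have a2 : ∀ s, |(G n).rel k i l s| ≤ B.d n ^ r s * B.d n ^ (-(K * ε)) := by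
      intro s
      have := hlr s
      rw [H.base n] at this
      refine this.trans ?_
      rw [← rpow_add']
      exact rpow_anti B n (by nlinarith [abs_nonneg K0])
    have := hsn k i hi l hl h1 h2 a1 a2 j
    rw [H.base n]
    refine this.trans ?_
    rw [pow_eps]
    exact rpow_anti B n (by nlinarith)

/-- bounds in a box -/
theorem box_b (H : RUnif B G Leg ν D) {i0 k0 : ℕ → ℕ}
    (h0 : ∀ᶠ n in (U : Filter ℕ), (i0 n, k0 n) ∈ (G n).I) {pS : Fin 12 → ℝ} (lS : pS ∈ Leg)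
    {K : ℝ} (hK : D * D + 1 ≤ K) {ε : ℝ} (hε : 0 < ε) : ∀ᶠ n in (U : Filter ℕ),
      8 ≤ B.d n ^ (-(K * ε)) ∧
      ∀ i ∈ (G n).box pS ε (i0 n) (k0 n), ∀ l ∈ (G n).box pS ε (i0 n) (k0 n),
      ∀ s, |(G n).rel (k0 n) i l s| ≤ B.d n ^ pS s * B.d n ^ (-(K * ε)) := by
  have hD := H.D1
  filter_upwards [box_pair H i0 k0 h0 pS lS hε, ev_const_le B hε 8] with n g1 g8
  have hK1 : 1 ≤ K := by nlinarith
  have e1 : B.d n ^ (-ε) ≤ B.d n ^ (-(K * ε)) := rpow_anti B n (by nlinarith)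
  refine ⟨g8.trans e1, fun i hi l hl s => ?_⟩
  have := g1 i hi l hl s
  rw [H.base n] at this
  refine this.trans ?_
  rw [← rpow_add']
  exact rpow_anti B n (by nlinarith)

/-- **e-tie fact over the law of one slot** : `(P, C, C') = (10, 3, 4)` or `(11, 5, 6)` -/
theorem w_e (H : RModel B G σ R Leg ν D) (hx0 : 0 < x0) (bd : RelB B G) (ob : OwnB B G own)
    (relS : ∀ n k i l, ∀ s ∈ S, (G n).rel k i l s = 0) {u v : ℕ → ℝ}
    (unit : ∀ n, u n ^ 2 + v n ^ 2 = 1) {P C C' : Fin 12}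
    (tc : ∀ ε : ℝ, 0 < ε → ∀ᶠ n in (U : Filter ℕ), ∀ k i l, (i, k) ∈ (G n).I → (l, k) ∈ (G n).I →
      |u n * (G n).rel k i l C + v n * (G n).rel k i l C'| ≤ B.d n ^ (x0 - ε))
    (tow : ∀ ε : ℝ, 0 < ε → ∀ᶠ n in (U : Filter ℕ), ∀ i k0 k, (i, k0) ∈ (G n).I →
      (i, k) ∈ (G n).I → |u n * own n i k0 k 7 + v n * own n i k0 k 8| ≤ B.d n ^ (x0 - ε))
    (law : ∀ ε : ℝ, 0 < ε → ∀ᶠ n in (U : Filter ℕ), ∀ k0 k i l, (i, k0) ∈ (G n).I →
      (l, k0) ∈ (G n).I → (i, k) ∈ (G n).I → (l, k) ∈ (G n).I →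
      |(G n).rel k i l P - ((G n).rel k0 i l P - own n i k0 k 7 * (G n).rel k0 i l C -
        own n i k0 k 8 * (G n).rel k0 i l C')| ≤ B.d n ^ (x0 - ε))
    {j : Fin 12} (hj : j = 7 ∨ j = 8) {γ x1 : ℝ} (hγ : 0 < γ) (hx1 : 0 < x1)
    (hO : OwnThin B G own j γ x1)
    (pS p' pT r : Fin 12 → ℝ) (hpS : pS ∈ Leg) (hp' : p' ∈ Leg) (hpT : pT ∈ Leg) (hr : r ∈ Leg)
    (hTr : ∀ j, pT j ≤ r j) (hlow : ∀ j, j ∈ S ∨ pT j ≤ 0) {y : ℝ} (hy : y ≤ x0)
    (hSP : y ≤ pS P) (hrP : y ≤ r P) (hpC : p' C ≤ y) (hpC' : p' C' ≤ y)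
    (hp : ∀ s, s ≠ C → s ≠ C' → p' s ≤ pS s) : ν pS - ν p' ≤ ν pT - ν r := by
  choose q hq using H.nonempty
  have h0 : ∀ᶠ n in (U : Filter ℕ), ((q n).1, (q n).2) ∈ (G n).I :=
    Eventually.of_forall fun n => hq n
  have hD := H.D1
  refine twist_u H hx0 bd relS (fun n => (q n).1) (fun n => (q n).2) h0 pS p' pT r hpS hp' hpT
    hr hTr hlow (fun n i k => -v n * own n i ((q n).2) k 7 + u n * own n i ((q n).2) k 8) hγ hx1 hO
    ?_ (m := 5) (K0 := D * D + 1) ?_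
  · -- comparison
    intro ε hε
    have e2 : 0 < ε / 2 := by linarith
    filter_upwards [tow (ε / 2) e2, ev_const_le B e2 2] with n hn h2 i k h1 h3
    set a := own n i ((q n).2) k 7 with ha
    set b := own n i ((q n).2) k 8 with hb
    have w := hn i _ k h1 h3
    have un := unit n
    have u1 : |u n| ≤ 1 := by rw [abs_le]; constructor <;> nlinarith [sq_nonneg (v n), sq_nonneg (u n - 1), sq_nonneg (u n + 1)]
    have v1 : |v n| ≤ 1 := by rw [abs_le]; constructor <;> nlinarith [sq_nonneg (u n), sq_nonneg (v n - 1), sq_nonneg (v n + 1)]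
    have up : B.d n ^ (x0 - ε / 2) ≤ B.d n ^ (x0 - ε) := rpow_anti B n (by linarith)
    have key : ∀ c : ℝ, (∃ p p' : ℝ, |p| ≤ 1 ∧ |p'| ≤ 1 ∧
        c = p * (-v n * a + u n * b) + p' * (u n * a + v n * b)) →
        |c| ≤ |-v n * a + u n * b| + B.d n ^ (x0 - ε) := by
      rintro c ⟨p, p', hp, hp', rfl⟩
      refine (abs_add_le _ _).trans (add_le_add ?_ ?_)
      · rw [abs_mul]
        exact mul_le_of_le_one_left (abs_nonneg _) hp
      · rw [abs_mul]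
        exact (mul_le_of_le_one_left (abs_nonneg _) hp').trans (w.trans up)
    rcases hj with rfl | rfl
    · refine key a ⟨-v n, u n, by rw [abs_neg]; exact v1, u1, ?_⟩
      linear_combination (-a) * un
    · refine key b ⟨u n, v n, u1, v1, ?_⟩
      linear_combination (-b) * un
  · intro K hK ε hε
    have hK1 : 1 ≤ K := by nlinarith
    filter_upwards [box_b H.toRUnif h0 hpS hK hε, tc ε hε, ob ε hε, law ε hε] with
      n hB htc hob hlaw k i hi l hl h1 h2 hτ hr' s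
    obtain ⟨hβ, cb⟩ := hB
    have I1 := H.toRUnif.memSlice.1 (RCfg.mem_box.1 hi).1
    have I2 := H.toRUnif.memSlice.1 (RCfg.mem_box.1 hl).1
    set β := B.d n ^ (-(K * ε)) with hβd
    have hβ0 : 0 < β := by linarith
    have hpow : ∀ t : ℝ, 0 < B.d n ^ t := fun t => rpos B n t
    have up : ∀ {t : ℝ}, y ≤ t → B.d n ^ t * β ≤ B.d n ^ y * β := fun ht =>
      mul_le_mul_of_nonneg_right (rpow_anti B n ht) hβ0.le
    have up' : B.d n ^ (x0 - ε) ≤ B.d n ^ y * β := by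
      rw [hβd, ← rpow_add']
      exact rpow_anti B n (by nlinarith)
    have ow : ∀ s, |own n i ((q n).2) k s| ≤ β := fun s =>
      (hob _ _ _ I1 h1 s).trans (rpow_anti B n (by nlinarith))
    obtain ⟨r3, r4⟩ := alg_w3 (hpow y) hβ (unit n) (ow 7) (ow 8) ((htc _ _ _ I1 I2).trans up')
      ((cb i hi l hl P).trans (up hSP)) ((hr' P).trans (up hrP))
      ((hlaw _ _ _ _ I1 I2 h1 h2).trans up') hτ
    have b5 : β ≤ β ^ 5 := by
      calc β = β ^ 1 := (pow_one β).symm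
        _ ≤ β ^ 5 := pow_le_pow_right₀ (by linarith) (by norm_num)
    by_cases hs3 : s = C
    · rw [hs3]
      exact r3.trans (mul_le_mul_of_nonneg_right (rpow_anti B n hpC) (by positivity))
    by_cases hs4 : s = C'
    · rw [hs4]
      exact r4.trans (mul_le_mul_of_nonneg_right (rpow_anti B n hpC') (by positivity))
    · refine (cb i hi l hl s).trans (mul_le_mul (rpow_anti B n (hp s hs3 hs4)) b5 hβ0.le
        (hpow _).le)

/-- **kappa-tie fact over the law of the slots `7`, `8`** -/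
theorem w_k (H : RModel B G σ R Leg ν D) (hx0 : 0 < x0) (bd : RelB B G) (ob : OwnB B G own)
    (relS : ∀ n k i l, ∀ s ∈ S, (G n).rel k i l s = 0)
    (law : ∀ ε : ℝ, 0 < ε → ∀ᶠ n in (U : Filter ℕ), ∀ k0 k i l, (i, k0) ∈ (G n).I →
      (l, k0) ∈ (G n).I → (i, k) ∈ (G n).I → (l, k) ∈ (G n).I →
      |(G n).rel k i l 7 - ((G n).rel k0 i l 7 + own n i k0 k 2 * (G n).rel k0 i l 3)| ≤
        B.d n ^ (x0 - ε) ∧
      |(G n).rel k i l 8 - ((G n).rel k0 i l 8 + own n i k0 k 2 * (G n).rel k0 i l 4)| ≤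
        B.d n ^ (x0 - ε))
    {γ x1 : ℝ} (hγ : 0 < γ) (hx1 : 0 < x1) (hO : OwnThin B G own 2 γ x1)
    (pS p' pT r : Fin 12 → ℝ) (hpS : pS ∈ Leg) (hp' : p' ∈ Leg) (hpT : pT ∈ Leg) (hr : r ∈ Leg)
    (hTr : ∀ j, pT j ≤ r j) (hlow : ∀ j, j ∈ S ∨ pT j ≤ 0) {y : ℝ} (hy : y ≤ x0)
    (hS7 : y ≤ pS 7) (hS8 : y ≤ pS 8) (hr7 : y ≤ r 7) (hr8 : y ≤ r 8)
    (hp3 : p' 3 ≤ y) (hp4 : p' 4 ≤ y)
    (hp : ∀ s, s ≠ 3 → s ≠ 4 → p' s ≤ pS s) : ν pS - ν p' ≤ ν pT - ν r := by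
  choose q hq using H.nonempty
  have h0 : ∀ᶠ n in (U : Filter ℕ), ((q n).1, (q n).2) ∈ (G n).I :=
    Eventually.of_forall fun n => hq n
  have hD := H.D1
  refine twist_u H hx0 bd relS (fun n => (q n).1) (fun n => (q n).2) h0 pS p' pT r hpS hp' hpT
    hr hTr hlow (fun n i k => own n i ((q n).2) k 2) hγ hx1 hO
    ?_ (m := 4) (K0 := D * D + 1) ?_
  · intro ε hε
    refine Eventually.of_forall fun n i k h1 h2 => ?_
    have := rpos B n (x0 - ε)
    linarith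
  · intro K hK ε hε
    have hK1 : 1 ≤ K := by nlinarith
    filter_upwards [box_b H.toRUnif h0 hpS hK hε, ob ε hε, law ε hε] with
      n hB hob hlaw k i hi l hl h1 h2 hτ hr' s
    obtain ⟨hβ, cb⟩ := hB
    have I1 := H.toRUnif.memSlice.1 (RCfg.mem_box.1 hi).1
    have I2 := H.toRUnif.memSlice.1 (RCfg.mem_box.1 hl).1
    set β := B.d n ^ (-(K * ε)) with hβd
    have hβ0 : 0 < β := by linarith
    have hpow : ∀ t : ℝ, 0 < B.d n ^ t := fun t => rpos B n t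
    have up : ∀ {t : ℝ}, y ≤ t → B.d n ^ t * β ≤ B.d n ^ y * β := fun ht =>
      mul_le_mul_of_nonneg_right (rpow_anti B n ht) hβ0.le
    have up' : B.d n ^ (x0 - ε) ≤ B.d n ^ y * β := by
      rw [hβd, ← rpow_add']
      exact rpow_anti B n (by nlinarith)
    have z0 : |(0 : ℝ)| ≤ β := by rw [abs_zero]; exact hβ0.le
    have z1 : |(0 : ℝ)| ≤ B.d n ^ y * β := by
      rw [abs_zero]; exact (mul_pos (hpow y) hβ0).le
    have L := hlaw _ _ _ _ I1 I2 h1 h2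
    have r3 : |(G n).rel ((q n).2) i l 3| ≤ B.d n ^ y * β ^ 4 :=
      alg_w3k (a1 := 0) (c' := 0) (a2 := own n i ((q n).2) k 2) (hpow y) hβ z0 z1
        ((cb i hi l hl 7).trans (up hS7)) ((hr' 7).trans (up hr7)) (by
        rw [zero_mul, mul_zero, add_zero]; exact L.1.trans up') hτ
    have r4 : |(G n).rel ((q n).2) i l 4| ≤ B.d n ^ y * β ^ 4 :=
      alg_w3k (a1 := 0) (c' := 0) (a2 := own n i ((q n).2) k 2) (hpow y) hβ z0 z1
        ((cb i hi l hl 8).trans (up hS8)) ((hr' 8).trans (up hr8)) (by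
        rw [zero_mul, mul_zero, add_zero]; exact L.2.trans up') hτ
    have b5 : β ≤ β ^ 4 := by
      calc β = β ^ 1 := (pow_one β).symm
        _ ≤ β ^ 4 := pow_le_pow_right₀ (by linarith) (by norm_num)
    by_cases hs3 : s = 3
    · rw [hs3]
      exact r3.trans (mul_le_mul_of_nonneg_right (rpow_anti B n hp3) (by positivity))
    by_cases hs4 : s = 4
    · rw [hs4]
      exact r4.trans (mul_le_mul_of_nonneg_right (rpow_anti B n hp4) (by positivity))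
    · refine (cb i hi l hl s).trans (mul_le_mul (rpow_anti B n (hp s hs3 hs4)) b5 hβ0.le
        (hpow _).le)

end facts

/-! ### the laws of one slot, general units -/

section laws

variable {ι : ℕ → Type*} [∀ n, DecidableEq (ι n)] {W : Wnd 12 ι} {K tp : ℝ}
  {E : ∀ n, Finset (ι n)}

theorem pr3 {a b c A Bc Cc T : ℝ} (ha : |a| ≤ A) (hb : |b| ≤ Bc) (h : A * Bc ≤ T) :
    |a * b| ≤ T := (bd2D ha hb).trans h

/-- slot `10` -/
theorem law10 (h : WL W K tp) {n : ℕ} (r : Reg W E n) {q : ℝ} (q0 : 0 ≤ q)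
    (T1 : side W n 3 * side W n 7 = side W n 10) (T2 : side W n 4 * side W n 8 = side W n 10)
    (s7 : side W n 2 * side W n 3 ≤ q * side W n 7) (s8 : side W n 2 * side W n 4 ≤ q * side W n 8)
    (s7' : side W n 1 * side W n 5 ≤ q * side W n 7)
    (s8' : side W n 1 * side W n 6 ≤ q * side W n 8)
    (s9 : side W n 1 * side W n 9 ≤ q * side W n 10)
    {k k' i l : ℕ} (hi : (i, k) ∈ (W.cfg E n).I)
    (hl : (l, k) ∈ (W.cfg E n).I) (hi' : (i, k') ∈ (W.cfg E n).I) (hl' : (l, k') ∈ (W.cfg E n).I) :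
    |(W.cfg E n).rel k' i l 10 - ((W.cfg E n).rel k i l 10 -
      EvL504.own W n i k' k 7 * (W.cfg E n).rel k i l 3 -
      EvL504.own W n i k' k 8 * (W.cfg E n).rel k i l 4)| ≤ 7 * q + 96 * W.B'.d n ^ tp := by
  have key := r.evoSL h hi hl hi' hl' (s := 10) (by decide)
  have hs := h.side_pos' n
  set o := EvL504.own W n i k' k with ho
  set c := (W.cfg E n).rel k i l with hc
  set D := side W n with hDd
  have o1 : ∀ s, |LvS SL o s| ≤ 1 := fun s => by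
    unfold LvS
    split_ifs
    · exact r.own_le h hi hi' s
    · rw [abs_zero]; exact zero_le_one
  have c1 : ∀ s, |LnS SL c s| ≤ 1 := fun s => by
    unfold LnS
    split_ifs
    · rw [abs_zero]; exact zero_le_one
    · exact r.rel_le h hi hl s
  set a : Fin 12 → ℝ := fun j => D j * LvS SL o j with ha
  set b : Fin 12 → ℝ := fun j => D j * LnS SL c j with hb
  have ab : ∀ (s : Fin 12) (u : ℝ), |u| ≤ 1 → |D s * u| ≤ D s := by
    intro s u hu
    rw [abs_mul, abs_of_pos (hs s)]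
    exact mul_le_of_le_one_right (hs s).le hu
  have a1 : ∀ s, |a s| ≤ D s := fun s => ab s _ (o1 s)
  have b1 : ∀ s, |b s| ≤ D s := fun s => ab s _ (c1 s)
  have l3 : LnS SL c 3 = c 3 := if_neg (by decide)
  have l4 : LnS SL c 4 = c 4 := if_neg (by decide)
  have l10 : LnS SL c 10 = c 10 := if_neg (by decide)
  have o7 : LvS SL o 7 = o 7 := if_pos (by decide)
  have o8 : LvS SL o 8 = o 8 := if_pos (by decide)
  have o10 : LvS SL o 10 = 0 := if_neg (by decide)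
  have p10 : 0 ≤ q * D 10 := mul_nonneg q0 (hs 10).le
  -- `a2 b3 ≤ q D7`, ...
  have u3 : |a 2 * b 3| ≤ q * D 7 := pr3 (c := 0) (Cc := 0) (a1 2) (b1 3) s7
  have u4 : |a 2 * b 4| ≤ q * D 8 := pr3 (c := 0) (Cc := 0) (a1 2) (b1 4) s8
  have v5 : |a 1 * b 5| ≤ q * D 7 := pr3 (c := 0) (Cc := 0) (a1 1) (b1 5) s7'
  have v6 : |a 1 * b 6| ≤ q * D 8 := pr3 (c := 0) (Cc := 0) (a1 1) (b1 6) s8'
  have v9 : |a 1 * b 9| ≤ q * D 10 := pr3 (c := 0) (Cc := 0) (a1 1) (b1 9) s9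
  have w3 : q * D 7 * D 3 = q * D 10 := by rw [mul_assoc, mul_comm (D 7), T1]
  have w4 : q * D 8 * D 4 = q * D 10 := by rw [mul_assoc, mul_comm (D 8), T2]
  have t1 : |a 2 * b 3 * b 3| ≤ q * D 10 := pr3 (c := 0) (Cc := 0) u3 (b1 3) w3.le
  have t2 : |a 2 * b 4 * b 4| ≤ q * D 10 := pr3 (c := 0) (Cc := 0) u4 (b1 4) w4.le
  have t3 : |a 1 * b 5 * b 3| ≤ q * D 10 := pr3 (c := 0) (Cc := 0) v5 (b1 3) w3.le
  have t4 : |a 1 * b 6 * b 4| ≤ q * D 10 := pr3 (c := 0) (Cc := 0) v6 (b1 4) w4.le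
  have e1 : b 10 - a 7 * b 3 - a 8 * b 4 = D 10 * (c 10 - o 7 * c 3 - o 8 * c 4) := by
    show D 10 * LnS SL c 10 - (D 7 * LvS SL o 7) * (D 3 * LnS SL c 3) -
      (D 8 * LvS SL o 8) * (D 4 * LnS SL c 4) = _
    rw [l10, o7, l3, o8, l4]
    linear_combination (-(o 7 * c 3)) * T1 - (o 8 * c 4) * T2
  have A : |comp a b 10 - D 10 * (c 10 - o 7 * c 3 - o 8 * c 4)| ≤ 7 * q * D 10 := by
    rw [← e1]
    have a10 : a 10 = 0 := by show D 10 * LvS SL o 10 = 0; rw [o10, mul_zero]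
    have e : comp a b 10 - (b 10 - a 7 * b 3 - a 8 * b 4) =
        -(a 2 * b 3 * b 3) / 2 - (a 2 * b 4 * b 4) / 2 - 2 * (a 1 * b 5 * b 3) -
        2 * (a 1 * b 6 * b 4) + 2 * (a 1 * b 9) := by
      have : comp a b 10 = a 10 + b 10 - a 7 * b 3 - a 8 * b 4 -
        a 2 * ((b 3 ^ 2 + b 4 ^ 2) / 2) - 2 * (a 1 * (b 5 * b 3 + b 6 * b 4 - b 9)) := rfl
      rw [this, a10]; ring
    rw [e]
    have g1 := abs_le.1 t1
    have g2 := abs_le.1 t2
    have g3 := abs_le.1 t3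
    have g4 := abs_le.1 t4
    have g5 := abs_le.1 v9
    have e7 : 7 * q * D 10 = 7 * (q * D 10) := by ring
    rw [abs_le, e7]
    constructor <;> linarith [g1.1, g1.2, g2.1, g2.2, g3.1, g3.2, g4.1, g4.2, g5.1, g5.2]
  have Bd : |compW W n (LvS SL o) (LnS SL c) 10 - (c 10 - o 7 * c 3 - o 8 * c 4)| ≤ 7 * q := by
    have e2 : compW W n (LvS SL o) (LnS SL c) 10 - (c 10 - o 7 * c 3 - o 8 * c 4) =
        (comp a b 10 - D 10 * (c 10 - o 7 * c 3 - o 8 * c 4)) / D 10 := by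
      unfold compW
      rw [sub_div, mul_div_cancel_left₀ _ (hs 10).ne']
    rw [e2, abs_div, abs_of_pos (hs 10), div_le_iff₀ (hs 10)]
    exact A
  have e3 := abs_sub_le ((W.cfg E n).rel k' i l 10) (compW W n (LvS SL o) (LnS SL c) 10)
    (c 10 - o 7 * c 3 - o 8 * c 4)
  linarith

/-- slot `11` -/
theorem law11 (h : WL W K tp) {n : ℕ} (r : Reg W E n) {q : ℝ} (q0 : 0 ≤ q)
    (T1 : side W n 5 * side W n 7 = side W n 11) (T2 : side W n 6 * side W n 8 = side W n 11)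
    (s5 : side W n 0 * side W n 3 ≤ q * side W n 5) (s6 : side W n 0 * side W n 4 ≤ q * side W n 6)
    (s7' : side W n 1 * side W n 5 ≤ q * side W n 7)
    (s8' : side W n 1 * side W n 6 ≤ q * side W n 8)
    (s11 : side W n 0 * side W n 10 ≤ q * side W n 11)
    (s11' : side W n 2 * side W n 9 ≤ q * side W n 11)
    {k k' i l : ℕ} (hi : (i, k) ∈ (W.cfg E n).I)
    (hl : (l, k) ∈ (W.cfg E n).I) (hi' : (i, k') ∈ (W.cfg E n).I) (hl' : (l, k') ∈ (W.cfg E n).I) :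
    |(W.cfg E n).rel k' i l 11 - ((W.cfg E n).rel k i l 11 -
      EvL504.own W n i k' k 7 * (W.cfg E n).rel k i l 5 -
      EvL504.own W n i k' k 8 * (W.cfg E n).rel k i l 6)| ≤ 14 * q + 96 * W.B'.d n ^ tp := by
  have key := r.evoSL h hi hl hi' hl' (s := 11) (by decide)
  have hs := h.side_pos' n
  have hSd := h.sides r.good
  set o := EvL504.own W n i k' k with ho
  set c := (W.cfg E n).rel k i l with hc
  set D := side W n with hDd
  have o1 : ∀ s, |LvS SL o s| ≤ 1 := fun s => by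
    unfold LvS
    split_ifs
    · exact r.own_le h hi hi' s
    · rw [abs_zero]; exact zero_le_one
  have c1 : ∀ s, |LnS SL c s| ≤ 1 := fun s => by
    unfold LnS
    split_ifs
    · rw [abs_zero]; exact zero_le_one
    · exact r.rel_le h hi hl s
  set a : Fin 12 → ℝ := fun j => D j * LvS SL o j with ha
  set b : Fin 12 → ℝ := fun j => D j * LnS SL c j with hb
  have ab : ∀ (s : Fin 12) (u : ℝ), |u| ≤ 1 → |D s * u| ≤ D s := by
    intro s u hu
    rw [abs_mul, abs_of_pos (hs s)]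
    exact mul_le_of_le_one_right (hs s).le hu
  have a1 : ∀ s, |a s| ≤ D s := fun s => ab s _ (o1 s)
  have b1 : ∀ s, |b s| ≤ D s := fun s => ab s _ (c1 s)
  have l5 : LnS SL c 5 = c 5 := if_neg (by decide)
  have l6 : LnS SL c 6 = c 6 := if_neg (by decide)
  have l11 : LnS SL c 11 = c 11 := if_neg (by decide)
  have o7 : LvS SL o 7 = o 7 := if_pos (by decide)
  have o8 : LvS SL o 8 = o 8 := if_pos (by decide)
  have o11 : LvS SL o 11 = 0 := if_neg (by decide)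
  have n11 : 0 ≤ q * D 11 := mul_nonneg q0 (hs 11).le
  have w7 : q * D 5 * D 7 = q * D 11 := by rw [mul_assoc, T1]
  have w8 : q * D 6 * D 8 = q * D 11 := by rw [mul_assoc, T2]
  have w7' : q * D 7 * D 5 = q * D 11 := by rw [mul_assoc, mul_comm (D 7), T1]
  have w8' : q * D 8 * D 6 = q * D 11 := by rw [mul_assoc, mul_comm (D 8), T2]
  have u10 : |a 0 * b 10| ≤ q * D 11 := pr3 (c := 0) (Cc := 0) (a1 0) (b1 10) s11
  have u3 : |a 0 * b 3| ≤ q * D 5 := pr3 (c := 0) (Cc := 0) (a1 0) (b1 3) s5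
  have u4 : |a 0 * b 4| ≤ q * D 6 := pr3 (c := 0) (Cc := 0) (a1 0) (b1 4) s6
  have t3 : |a 0 * b 3 * a 7| ≤ q * D 11 := pr3 (c := 0) (Cc := 0) u3 (a1 7) w7.le
  have t4 : |a 0 * b 4 * a 8| ≤ q * D 11 := pr3 (c := 0) (Cc := 0) u4 (a1 8) w8.le
  have t9 : |a 2 * b 9| ≤ q * D 11 := pr3 (c := 0) (Cc := 0) (a1 2) (b1 9) s11'
  have v3 : |a 2 * b 3| ≤ D 7 := pr3 (c := 0) (Cc := 0) (a1 2) (b1 3) hSd.w7
  have v4 : |a 2 * b 4| ≤ D 8 := pr3 (c := 0) (Cc := 0) (a1 2) (b1 4) hSd.w8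
  have t5 : |a 0 * b 3 * (a 2 * b 3)| ≤ q * D 11 := pr3 (c := 0) (Cc := 0) u3 v3 w7.le
  have t6 : |a 0 * b 4 * (a 2 * b 4)| ≤ q * D 11 := pr3 (c := 0) (Cc := 0) u4 v4 w8.le
  have x5 : |a 1 * b 5| ≤ q * D 7 := pr3 (c := 0) (Cc := 0) (a1 1) (b1 5) s7'
  have x6 : |a 1 * b 6| ≤ q * D 8 := pr3 (c := 0) (Cc := 0) (a1 1) (b1 6) s8'
  have y5 : |a 1 * b 5 * b 5| ≤ q * D 11 := pr3 (c := 0) (Cc := 0) x5 (b1 5) w7'.le
  have y6 : |a 1 * b 6 * b 6| ≤ q * D 11 := pr3 (c := 0) (Cc := 0) x6 (b1 6) w8'.le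
  have z3 : |a 0 * b 3| ≤ D 5 := pr3 (c := 0) (Cc := 0) (a1 0) (b1 3) hSd.w5
  have z4 : |a 0 * b 4| ≤ D 6 := pr3 (c := 0) (Cc := 0) (a1 0) (b1 4) hSd.w6
  have y3 : |a 1 * b 5 * (a 0 * b 3)| ≤ q * D 11 := pr3 (c := 0) (Cc := 0) x5 z3 w7'.le
  have y4 : |a 1 * b 6 * (a 0 * b 4)| ≤ q * D 11 := pr3 (c := 0) (Cc := 0) x6 z4 w8'.le
  have x9 : |a 1 * b 9| ≤ D 10 := pr3 (c := 0) (Cc := 0) (a1 1) (b1 9) hSd.w10''
  have y9 : |a 0 * (a 1 * b 9)| ≤ q * D 11 := pr3 (c := 0) (Cc := 0) (a1 0) x9 s11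
  have e1 : b 11 - a 7 * b 5 - a 8 * b 6 = D 11 * (c 11 - o 7 * c 5 - o 8 * c 6) := by
    show D 11 * LnS SL c 11 - (D 7 * LvS SL o 7) * (D 5 * LnS SL c 5) -
      (D 8 * LvS SL o 8) * (D 6 * LnS SL c 6) = _
    rw [l11, o7, l5, o8, l6]
    linear_combination (-(o 7 * c 5)) * T1 - (o 8 * c 6) * T2
  have A : |comp a b 11 - D 11 * (c 11 - o 7 * c 5 - o 8 * c 6)| ≤ 14 * q * D 11 := by
    rw [← e1]
    have a11 : a 11 = 0 := by show D 11 * LvS SL o 11 = 0; rw [o11, mul_zero]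
    have e : comp a b 11 - (b 11 - a 7 * b 5 - a 8 * b 6) =
        -(a 0 * b 10) + a 0 * b 3 * a 7 + a 0 * b 4 * a 8 - a 2 * b 9 +
        (a 0 * b 3 * (a 2 * b 3)) / 2 + (a 0 * b 4 * (a 2 * b 4)) / 2 - a 1 * b 5 * b 5 -
        a 1 * b 6 * b 6 + 2 * (a 1 * b 5 * (a 0 * b 3)) + 2 * (a 1 * b 6 * (a 0 * b 4)) -
        2 * (a 0 * (a 1 * b 9)) := by
      have : comp a b 11 = a 11 + b 11 - a 0 * b 10 - a 7 * (b 5 - a 0 * b 3) -
        a 8 * (b 6 - a 0 * b 4) - a 2 * (b 9 - a 0 * ((b 3 ^ 2 + b 4 ^ 2) / 2)) -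
        a 1 * (b 5 ^ 2 + b 6 ^ 2 - 2 * (a 0 * (b 5 * b 3 + b 6 * b 4 - b 9))) := rfl
      rw [this, a11]; ring
    rw [e]
    have g1 := abs_le.1 u10
    have g2 := abs_le.1 t3
    have g3 := abs_le.1 t4
    have g4 := abs_le.1 t9
    have g5 := abs_le.1 t5
    have g6 := abs_le.1 t6
    have g7 := abs_le.1 y5
    have g8 := abs_le.1 y6
    have g9 := abs_le.1 y3
    have g10 := abs_le.1 y4
    have g11 := abs_le.1 y9
    have e7 : 14 * q * D 11 = 14 * (q * D 11) := by ring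
    rw [abs_le, e7]
    constructor <;> linarith [g1.1, g1.2, g2.1, g2.2, g3.1, g3.2, g4.1, g4.2, g5.1, g5.2, g6.1,
      g6.2, g7.1, g7.2, g8.1, g8.2, g9.1, g9.2, g10.1, g10.2, g11.1, g11.2]
  have Bd : |compW W n (LvS SL o) (LnS SL c) 11 - (c 11 - o 7 * c 5 - o 8 * c 6)| ≤ 14 * q := by
    have e2 : compW W n (LvS SL o) (LnS SL c) 11 - (c 11 - o 7 * c 5 - o 8 * c 6) =
        (comp a b 11 - D 11 * (c 11 - o 7 * c 5 - o 8 * c 6)) / D 11 := by
      unfold compW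
      rw [sub_div, mul_div_cancel_left₀ _ (hs 11).ne']
    rw [e2, abs_div, abs_of_pos (hs 11), div_le_iff₀ (hs 11)]
    exact A
  have e3 := abs_sub_le ((W.cfg E n).rel k' i l 11) (compW W n (LvS SL o) (LnS SL c) 11)
    (c 11 - o 7 * c 5 - o 8 * c 6)
  linarith

/-- slots `7`, `8`, line slots, resolved -/
theorem law7 (h : WL W K tp) {n : ℕ} (r : Reg W E n) {q : ℝ} (q0 : 0 ≤ q)
    {s s3 s5 : Fin 12} (hs78 : (s = 7 ∧ s3 = 3 ∧ s5 = 5) ∨ (s = 8 ∧ s3 = 4 ∧ s5 = 6))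
    (hS : s ∉ W.S) (ht : tp ≤ W.top s)
    (T1 : side W n 2 * side W n s3 = side W n s)
    (s7' : side W n 1 * side W n s5 ≤ q * side W n s)
    {k k' i l : ℕ} (hi : (i, k) ∈ (W.cfg E n).I)
    (hl : (l, k) ∈ (W.cfg E n).I) (hi' : (i, k') ∈ (W.cfg E n).I) (hl' : (l, k') ∈ (W.cfg E n).I) :
    |(W.cfg E n).rel k' i l s - ((W.cfg E n).rel k i l s +
      EvL504.own W n i k' k 2 * (W.cfg E n).rel k i l s3)| ≤ 4 * q + 3 * W.B'.d n ^ tp := by
  have hsd := h.side_pos' n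
  have n3 : s3 ∉ SL := by rcases hs78 with ⟨-, rfl, -⟩ | ⟨-, rfl, -⟩ <;> decide
  have n5 : s5 ∉ SL := by rcases hs78 with ⟨-, -, rfl⟩ | ⟨-, -, rfl⟩ <;> decide
  -- the law
  have law : ∀ a c : Fin 12 → ℝ, |a 1| ≤ 1 → |c s5| ≤ 1 →
      |compW W n a c s - (a s + c s + a 2 * c s3)| ≤ 2 * q := by
    intro a c h1 h5
    have e : compW W n a c s - (a s + c s + a 2 * c s3) =
        2 * (side W n 1 * a 1 * (side W n s5 * c s5)) / side W n s := by
      have e1 : compW W n a c s = (side W n s * a s + side W n s * c s + side W n 2 * a 2 *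
          (side W n s3 * c s3) + 2 * (side W n 1 * a 1 * (side W n s5 * c s5))) / side W n s := by
        unfold compW
        congr 1
        rcases hs78 with ⟨rfl, rfl, rfl⟩ | ⟨rfl, rfl, rfl⟩ <;> rfl
      have hne := (hsd s).ne'
      rw [e1, eq_div_iff hne, sub_mul, div_mul_cancel₀ _ hne]
      linear_combination (a 2 * c s3) * T1
    rw [e, abs_div, abs_of_pos (hsd s), div_le_iff₀ (hsd s), abs_mul, abs_two]
    have q1 : |side W n 1 * a 1| ≤ side W n 1 := by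
      rw [abs_mul, abs_of_pos (hsd 1)]
      exact mul_le_of_le_one_right (hsd 1).le h1
    have q2 : |side W n s5 * c s5| ≤ side W n s5 := by
      rw [abs_mul, abs_of_pos (hsd s5)]
      exact mul_le_of_le_one_right (hsd s5).le h5
    have := (bd2D q1 q2).trans s7'
    nlinarith
  obtain ⟨a1, a2, a3⟩ := r.spec hi
  obtain ⟨b1, b2, b3⟩ := r.spec hl
  obtain ⟨c1, c2, c3⟩ := r.spec hi'
  obtain ⟨d1, d2, d3⟩ := r.spec hl'
  rw [r.rel_of hS, r.rel_of hS, r.rel_of (h.notS n3)]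
  have g := r.good
  have m1 := law (W.crd n (W.rep n i k') (W.rep n i k)) (W.crd n (W.rep n i k) (W.rep n l k))
    (h.crd_le g c1 a1 1) (h.crd_le g a1 b1 s5)
  rw [← h.crd_add] at m1
  have m2 := law (W.crd n (W.rep n i k') (W.rep n l k)) (W.crd n (W.rep n l k) (W.rep n l k'))
    (h.crd_le g c1 b1 1) (h.crd_le g b1 d1 s5)
  rw [← h.crd_add] at m2
  have o7 := h.crd_l g c1 a1 (c2.trans a2.symm) hS ht
  have p7 := h.crd_l g b1 d1 (b2.trans d2.symm) hS ht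
  have p3 := h.crd_l g b1 d1 (b2.trans d2.symm) (h.notS n3) (h.topL _ n3)
  have p2 : |W.crd n (W.rep n i k') (W.rep n l k) 2 *
      W.crd n (W.rep n l k) (W.rep n l k') s3| ≤ W.B'.d n ^ tp := by
    rw [abs_mul]
    have := mul_le_mul (h.crd_le g c1 b1 2) p3 (abs_nonneg _) (zero_le_one)
    linarith
  show |W.crd n (W.rep n i k') (W.rep n l k') s - (W.crd n (W.rep n i k) (W.rep n l k) s +
    W.crd n (W.rep n i k') (W.rep n i k) 2 * W.crd n (W.rep n i k) (W.rep n l k) s3)| ≤ _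
  rw [abs_le] at m1 m2 o7 p7 p2 ⊢
  constructor <;> linarith [m1.1, m1.2, m2.1, m2.2, o7.1, o7.2, p7.1, p7.2, p2.1, p2.2]

end laws

end Crest.Agent.R116.Tw369
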