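import Crest.Agent.R116.TwV_420
import Crest.Agent.R116.TwU2_369

/-!
# R116, ties (helper420): (W3k) at a D-tie, general units

Window `S = {0, 1, 2}`, no dropped slot, `D` tied (`1 ∈ Ts`), `E` tied or not; walls `E = z + D` and
`B = E + C` tight.

* `OwnZ`, `d_pinU`, `twist_core_EU` : `d_pin`, `twist_core_E` (KW4) without the law of motion.
* `law78d` : motion of the slots `7`, `8`; `ownCocU` : composition of the own motions.
* **`TWin.w3d`**.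
-/

set_option autoImplicit false
set_option linter.unusedVariables false
set_option linter.unusedSectionVars false

open Filter Topology Finset

namespace Crest.Agent.R116.KW420

open Crest.Agent.R138.Ex926 (Base U)
open Crest.Agent.R136.Gf356

section dtieU

variable {B : Base} {G : ℕ → RCfg (Fin 12)} {Leg : Set (Fin 12 → ℝ)} {ν : (Fin 12 → ℝ) → ℝ}
  {σ R D x0 : ℝ} {own : ℕ → ℕ → ℕ → ℕ → Fin 12 → ℝ}

/-- the own motion of the slot `0` is the height -/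
def OwnZ (B : Base) (G : ℕ → RCfg (Fin 12)) (own : ℕ → ℕ → ℕ → ℕ → Fin 12 → ℝ) (x : ℝ) : Prop :=
  ∀ ε : ℝ, 0 < ε → ∀ᶠ n in (U : Filter ℕ), ∀ i k0 k, (i, k0) ∈ (G n).I →
    (i, k) ∈ (G n).I → |own n i k0 k 0 + ((G n).z k - (G n).z k0)| ≤ B.d n ^ (x - ε)

/-- **pins at a D-tie** -/
theorem d_pinU (H : RModel B G σ R Leg ν D) (hσ : 0 < σ) (hR : 0 < R) (hx0 : 0 < x0)
    (hz0 : OwnZ B G own x0) (hoc : OwnCoc B G own x0) {γ x1 : ℝ} (hγ : 0 < γ) (hx1 : 0 < x1)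
    (hO : OwnThin B G own 1 γ x1) {pS : Fin 12 → ℝ} (hpS : pS ∈ Leg) :
    ∃ C1 : ℝ, 2 ≤ C1 ∧ ∃ e0 : ℝ, 0 < e0 ∧ ∀ ε : ℝ, 0 < ε → ε ≤ e0 → ∀ᶠ n in (U : Filter ℕ),
      ∃ i0 k0, (i0, k0) ∈ (G n).I ∧ ∃ S0 ⊆ (G n).box pS ε i0 k0,
        B.d n ^ (-ν pS + C1 * ε) ≤ (S0.card : ℝ) ∧ ∀ i ∈ S0, ∀ T ⊆ (G n).Z,
        (∀ k ∈ (G n).Z, (i, k) ∈ (G n).I → B.d n ^ (C1 * ε) ≤ |own n i k0 k 2| → k ∈ T) →
        B.d n ^ (C1 * ε) * ((G n).Z.card : ℝ) ≤ (T.card : ℝ) := by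
  classical
  have hD := H.D1
  have hU := H.toRUnif
  obtain ⟨Cw, hCw⟩ : ∃ Cw : ℝ, Cw = D * D + 2 := ⟨_, rfl⟩
  obtain ⟨c1, hc1⟩ : ∃ c1 : ℝ, c1 = (Cw + 2) / σ := ⟨_, rfl⟩
  obtain ⟨g1, hg1⟩ : ∃ g1 : ℝ, g1 = 4 / γ := ⟨_, rfl⟩
  obtain ⟨c2, hc2⟩ : ∃ c2 : ℝ, c2 = g1 + c1 + 1 := ⟨_, rfl⟩
  have hCw0 : 3 ≤ Cw := by nlinarith
  have hc10 : 5 ≤ c1 := by
    rw [hc1, le_div_iff₀ hσ]
    have := H.σ_le
    nlinarith
  have hσc : σ * c1 = Cw + 2 := by rw [hc1]; field_simp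
  have hg10 : 0 < g1 := by rw [hg1]; positivity
  have hγg : γ * g1 = 4 := by rw [hg1]; field_simp
  have hc20 : 6 ≤ c2 := by linarith
  refine ⟨c2, by linarith, min (x1 / g1) (min (R / c1) (x0 / (c2 + 1))),
    lt_min (by positivity) (lt_min (by positivity) (by positivity)), fun ε hε hεe => ?_⟩
  have e1 : g1 * ε ≤ x1 := by
    have := hεe.trans (min_le_left _ _)
    rw [le_div_iff₀ hg10] at this
    linarith
  have e2 : c1 * ε ≤ R := by
    have := hεe.trans ((min_le_right _ _).trans (min_le_left _ _))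
    rw [le_div_iff₀ (by linarith)] at this
    linarith
  have e3 : (c2 + 1) * ε ≤ x0 := by
    have := hεe.trans ((min_le_right _ _).trans (min_le_right _ _))
    rw [le_div_iff₀ (by linarith)] at this
    linarith
  have hDε : 0 < D * ε := by positivity
  filter_upwards [H.line ε hε, hO (g1 * ε) (by positivity) e1 ε hε,
    H.frost (c1 * ε) (by positivity) e2 ε hε, ev_const_le B hε 9, hz0 ε hε, hoc ε hε,
    H.low pS hpS ε hε, H.up pS hpS (D * ε) hDε, H.symm pS hpS ε hε]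
    with n hline hthin hfrost h9 hown0 hocn hlow hup hsymm
  have hpow : ∀ t : ℝ, 0 < B.d n ^ t := fun t => rpos B n t
  have gain : ∀ t : ℝ, 9 * B.d n ^ (t + ε) ≤ B.d n ^ t := by
    intro t
    have e : B.d n ^ t = B.d n ^ (-ε) * B.d n ^ (t + ε) := by
      rw [← rpow_add']; congr 1; ring
    rw [e]
    exact mul_le_mul_of_nonneg_right h9 (hpow _).le
  obtain ⟨⟨iq, kq⟩, hIq⟩ := H.nonempty n
  have hZ0 : (0 : ℝ) < ((G n).Z.card : ℝ) := by
    exact_mod_cast Finset.card_pos.2 ⟨kq, H.memZ hIq⟩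
  -- the pins of one line
  set bad : ℕ → ℕ → Prop := fun i k0 => 2 * (((G n).hts i).card : ℝ) <
      3 * ((((G n).hts i).filter fun k => |own n i k0 k 2| ≤ B.d n ^ (c2 * ε)).card : ℝ) with hbad
  have hbl : ∀ i ∈ (G n).L, ∀ T ⊆ (G n).hts i, (∀ k ∈ T, bad i k) →
      (T.card : ℝ) ≤ B.d n ^ (Cw * ε) * (((G n).hts i).card : ℝ) := by
    intro i hi T hT hTb
    have hA := hline i hi
    have hAm : ∀ k ∈ (G n).hts i, k ∈ (G n).Z ∧ (i, k) ∈ (G n).I := fun k hk => RCfg.mem_hts.1 hk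
    have hlp := line_pins ((G n).hts i) (G n).z (fun k0 k => own n i k0 k 0)
      (fun k0 k => own n i k0 k 1) (fun k0 k => own n i k0 k 2) (η := B.d n ^ (x0 - ε))
      (θ := B.d n ^ (c2 * ε)) (θ1 := B.d n ^ (g1 * ε)) (d := B.d n ^ (c1 * ε))
      (q := B.d n ^ (γ * (g1 * ε) - ε) * ((G n).Z.card : ℝ))
      (f := B.d n ^ (σ * (c1 * ε) - ε) * ((G n).Z.card : ℝ)) (hpow _).le (hpow _).le (hpow _)
      ?_ ?_ ?_ ?_ ?_ ?_ ?_ ?_ ?_
    · have h1 : (T.card : ℝ) ≤ ((((G n).hts i).filter fun k0 => 2 * (((G n).hts i).card : ℝ) <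
          3 * ((((G n).hts i).filter fun k => |own n i k0 k 2| ≤ B.d n ^ (c2 * ε)).card : ℝ)).card :
          ℝ) := by
        refine Nat.cast_le.2 (Finset.card_le_card fun k hk => Finset.mem_filter.2 ⟨hT hk, ?_⟩)
        exact hTb k hk
      refine h1.trans (hlp.trans ?_)
      have h2 : B.d n ^ (σ * (c1 * ε) - ε) = B.d n ^ (Cw * ε) * B.d n ^ ε := by
        rw [← rpow_add']
        congr 1
        rw [← mul_assoc, hσc]; ring
      rw [h2, mul_assoc]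
      exact mul_le_mul_of_nonneg_left hA (hpow _).le
    · -- 2 η ≤ d
      have h1 : B.d n ^ (x0 - ε) ≤ B.d n ^ (c1 * ε + ε) := rpow_anti B n (by nlinarith)
      have h2 := gain (c1 * ε)
      have := hpow (c1 * ε + ε)
      linarith
    · intro k1 hk1 k0 hk0
      exact hown0 i k1 k0 (hAm k1 hk1).2 (hAm k0 hk0).2
    · intro k0 hk0 k1 hk1 k hk
      exact (hocn i k0 k1 k (hAm k0 hk0).2 (hAm k1 hk1).2 (hAm k hk).2).1
    · intro k0 hk0 k1 hk1 k hk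
      exact (hocn i k0 k1 k (hAm k0 hk0).2 (hAm k1 hk1).2 (hAm k hk).2).2
    · -- θ1
      have h1 : B.d n ^ (x0 - ε) ≤ B.d n ^ (c2 * ε) := rpow_anti B n (by nlinarith)
      have h2 : (4 * B.d n ^ (c2 * ε) + 2 * B.d n ^ (x0 - ε)) / B.d n ^ (c1 * ε) ≤
          6 * B.d n ^ (g1 * ε + ε) := by
        rw [div_le_iff₀ (hpow _)]
        have e : 6 * B.d n ^ (g1 * ε + ε) * B.d n ^ (c1 * ε) = 6 * B.d n ^ (c2 * ε) := by
          rw [mul_assoc, ← rpow_add', hc2]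
          congr 2; ring
        rw [e]; linarith
      have h3 : B.d n ^ (x0 - ε) ≤ B.d n ^ (g1 * ε + ε) := rpow_anti B n (by nlinarith)
      have h4 := gain (g1 * ε)
      linarith
    · intro k0 hk0 T' hT' hTt
      refine hthin i k0 (hAm k0 hk0).2 T' (fun k hk => (hAm k (hT' hk)).1) ?_
      intro k hk
      exact ⟨(hAm k (hT' hk)).2, hTt k hk⟩
    · -- 3 q < |A|
      have h1 : B.d n ^ (γ * (g1 * ε) - ε) ≤ B.d n ^ (ε + ε) := rpow_anti B n (by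
        rw [← mul_assoc, hγg]; linarith)
      have h2 := gain ε
      have h3 : 9 * (B.d n ^ (γ * (g1 * ε) - ε) * ((G n).Z.card : ℝ)) ≤
          (((G n).hts i).card : ℝ) := by
        refine le_trans ?_ hA
        rw [← mul_assoc]
        exact mul_le_mul_of_nonneg_right (by linarith) hZ0.le
      have h4 : 0 < B.d n ^ (γ * (g1 * ε) - ε) * ((G n).Z.card : ℝ) := mul_pos (hpow _) hZ0
      linarith
    · intro k0 hk0 T' hT' hTt
      refine le_trans ?_ (hfrost k0 (hAm k0 hk0).1)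
      refine Nat.cast_le.2 (Finset.card_le_card fun k hk => ?_)
      unfold RCfg.hbox
      refine Finset.mem_filter.2 ⟨(hAm k (hT' hk)).1, ?_⟩
      rw [H.base n]
      exact hTt k hk
    · exact (mul_pos (hpow _) hZ0).le
  -- the pin
  obtain ⟨i0, k0, hI0, S0, hS0, hS0c, hS0b⟩ := good_pin (G n) (H.sub n) (H.nonempty n)
    (fun i k => (G n).box pS ε i k) (fun i k => (G n).box pS (D * ε) i k) bad
    (w := B.d n ^ (Cw * ε)) (Lb := B.d n ^ (-ν pS + ε)) (Ub := B.d n ^ (-ν pS - D * (D * ε)))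
    (by
      intro i k hik l hl
      obtain ⟨l1, l2⟩ := RCfg.mem_box.1 hl
      have l3 := H.memSlice.1 l1
      refine ⟨(RCfg.mem_slice.1 l1).1, l3, RCfg.mem_box.2 ⟨H.memSlice.2 hik, ?_⟩⟩
      exact hsymm k i l hik l3 l2)
    hbl (fun i k hik => hup i k hik) (fun i k hik => hlow i k hik) (hpow _).le
    (by
      have h1 : B.d n ^ (Cw * ε) * B.d n ^ (-ν pS - D * (D * ε)) =
          B.d n ^ (-ν pS + ε + ε) := by
        rw [← rpow_add', hCw]; congr 1; ring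
      rw [h1]
      have h2 := gain (-ν pS + ε)
      have := hpow (-ν pS + ε + ε)
      linarith)
  refine ⟨i0, k0, hI0, S0, hS0, ?_, ?_⟩
  · have h1 : B.d n ^ (-ν pS + c2 * ε) ≤ B.d n ^ (-ν pS + ε + ε) := rpow_anti B n (by nlinarith)
    have h2 := gain (-ν pS + ε)
    have := hpow (-ν pS + ε)
    linarith
  · intro i hi T hT hTk
    have hnb := hS0b i hi
    have hib := RCfg.mem_box.1 (hS0 hi)
    have hiL : i ∈ (G n).L := (RCfg.mem_slice.1 hib.1).1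
    have hA := hline i hiL
    rw [hbad] at hnb
    simp only [not_lt] at hnb
    have h2 : ((((G n).hts i).filter fun k => |own n i k0 k 2| ≤ B.d n ^ (c2 * ε)).card : ℝ) +
        ((((G n).hts i).filter fun k => ¬ |own n i k0 k 2| ≤ B.d n ^ (c2 * ε)).card : ℝ) =
        (((G n).hts i).card : ℝ) := by
      exact_mod_cast Finset.card_filter_add_card_filter_not (s := (G n).hts i)
        (fun k => |own n i k0 k 2| ≤ B.d n ^ (c2 * ε))
    have h3 : ((((G n).hts i).filter fun k => ¬ |own n i k0 k 2| ≤ B.d n ^ (c2 * ε)).card : ℝ) ≤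
        (T.card : ℝ) := by
      refine Nat.cast_le.2 (Finset.card_le_card fun k hk => ?_)
      obtain ⟨q1, q2⟩ := Finset.mem_filter.1 hk
      obtain ⟨q3, q4⟩ := RCfg.mem_hts.1 q1
      exact hTk k q3 q4 (not_le.1 q2).le
    have h4 : B.d n ^ (c2 * ε) ≤ B.d n ^ (ε + ε) := rpow_anti B n (by nlinarith)
    have h5 := gain ε
    have h6 : 9 * (B.d n ^ (c2 * ε) * ((G n).Z.card : ℝ)) ≤ (((G n).hts i).card : ℝ) := by
      refine le_trans ?_ hA
      rw [← mul_assoc]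
      exact mul_le_mul_of_nonneg_right (by linarith) hZ0.le
    have h7 : 0 < B.d n ^ (c2 * ε) * ((G n).Z.card : ℝ) := mul_pos (hpow _) hZ0
    linarith
/-- `twist_core` with pins which depend on `ε` -/
theorem twist_core_EU (H : RModel B G σ R Leg ν D) (i0 k0 : ℝ → ℕ → ℕ)
    (h0 : ∀ ε : ℝ, 0 < ε → ∀ᶠ n in (U : Filter ℕ), (i0 ε n, k0 ε n) ∈ (G n).I)
    (pS p' pT r : Fin 12 → ℝ)
    (hpS : pS ∈ Leg) (hp' : p' ∈ Leg) (hpT : pT ∈ Leg) (hr : r ∈ Leg) (hTr : ∀ j, pT j ≤ r j)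
    (hT : ∀ᶠ n in (U : Filter ℕ), ∀ k i l, (i, k) ∈ (G n).I → (l, k) ∈ (G n).I → ∀ s,
      |(G n).rel k i l s| ≤ B.d n ^ pT s)
    (τ : ℕ → ℕ → ℕ → ℕ → ℝ) {C1 : ℝ} (hC1 : 2 ≤ C1)
    (S0 : ℝ → ℕ → Finset ℕ)
    (hS0 : ∀ ε : ℝ, 0 < ε → ∀ᶠ n in (U : Filter ℕ), S0 ε n ⊆ (G n).box pS ε (i0 ε n) (k0 ε n))
    (hcard : ∀ ε : ℝ, 0 < ε → ∀ᶠ n in (U : Filter ℕ),
      B.d n ^ (-ν pS + C1 * ε) ≤ ((S0 ε n).card : ℝ))
    (hal : ∀ ε : ℝ, 0 < ε → ∀ᶠ n in (U : Filter ℕ), ∀ i ∈ S0 ε n, ∀ T ⊆ (G n).Z,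
      (∀ k ∈ (G n).Z, (i, k) ∈ (G n).I → B.d n ^ (C1 * ε) ≤ |τ n i (k0 ε n) k| → k ∈ T) →
      B.d n ^ (C1 * ε) * ((G n).Z.card : ℝ) ≤ (T.card : ℝ))
    {m : ℕ} {K0 : ℝ} (hsep : ∀ i1 k1 : ℕ → ℕ, (∀ᶠ n in (U : Filter ℕ), (i1 n, k1 n) ∈ (G n).I) →
      Sep B G pS p' r i1 k1 (fun n i k => τ n i (k1 n) k) K0 m) :
    ν pS - ν p' ≤ ν pT - ν r := by
  classical
  have hD := H.D1
  have hU := H.toRUnif
  obtain ⟨M, hM⟩ : ∃ M : ℝ, M = 3 * (D * D + 1) + C1 := ⟨_, rfl⟩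
  have hM0 : C1 ≤ M := by nlinarith
  refine two_heights_E hU k0 S0 p' pT r hp' hpT hr hTr (fun n => (G n).Z)
    (Eventually.of_forall fun n => ?_) (a := ν pS) (C1 := M) (by linarith) ?_ ?_
    (fun ε n i k => B.d n ^ (C1 * ε) ≤ |τ n i (k0 ε n) k|) ?_ ?_ ?_
  · obtain ⟨⟨i1, k1⟩, hI1⟩ := H.nonempty n
    exact ⟨k1, H.memZ hI1⟩
  · intro ε hε
    filter_upwards [hS0 ε hε] with n hn i hi
    exact H.memSlice.1 (RCfg.box_subset_slice (hn hi))
  · intro ε hε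
    filter_upwards [hcard ε hε] with n hn
    exact (rpow_anti B n (by nlinarith)).trans hn
  · intro ε hε
    filter_upwards [hal ε hε] with n hn i hi T hT1 hT2
    refine le_trans ?_ (hn i hi T hT1 hT2)
    exact mul_le_mul_of_nonneg_right (rpow_anti B n (by nlinarith)) (Nat.cast_nonneg _)
  · intro ε hε
    filter_upwards [hT] with n hn k hk i hi l hl h1 h2 s
    rw [H.base n]
    refine (hn k i l h1 h2 s).trans ?_
    exact rpow_anti B n (by nlinarith)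
  · intro C2 hC2
    obtain ⟨K, hK⟩ : ∃ K : ℝ, K = |K0| + C1 + C2 + 1 := ⟨_, rfl⟩
    have hK0 : K0 ≤ K := by linarith [le_abs_self K0]
    have hKp : 0 < K := by linarith [abs_nonneg K0]
    refine ⟨(m : ℝ) * K + 1, by positivity, fun ε hε => ?_⟩
    filter_upwards [hS0 ε hε, hsep (i0 ε) (k0 ε) (h0 ε hε) K hK0 ε hε]
      with n hn hsn k hk i hi l hl h1 h2 g1 g2 hlr j
    have a1 : (B.d n ^ (-(K * ε)))⁻¹ ≤ |τ n i (k0 ε n) k| := by
      refine le_trans ?_ g1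
      rw [← Real.rpow_neg (B.pos n).le, neg_neg]
      exact rpow_anti B n (by nlinarith [abs_nonneg K0])
    have a2 : ∀ s, |(G n).rel k i l s| ≤ B.d n ^ r s * B.d n ^ (-(K * ε)) := by
      intro s
      have := hlr s
      rw [H.base n] at this
      refine this.trans ?_
      rw [← rpow_add']
      exact rpow_anti B n (by nlinarith [abs_nonneg K0])
    have := hsn k i (hn hi) l (hn hl) h1 h2 a1 a2 j
    rw [H.base n]
    refine this.trans ?_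
    rw [pow_eps]
    exact rpow_anti B n (by nlinarith)

/-- slots of a pair of lines of the fibre at the pin -/
theorem exists_cbU (H : RUnif B G Leg ν D) {i0 k0 : ℕ → ℕ}
    (h0 : ∀ᶠ n in (U : Filter ℕ), (i0 n, k0 n) ∈ (G n).I) {pS : Fin 12 → ℝ} (lS : pS ∈ Leg)
    {K : ℝ} (hK : D * D + 1 ≤ K) {ε : ℝ} (hε : 0 < ε) : ∀ᶠ n in (U : Filter ℕ),
      8 ≤ B.d n ^ (-(K * ε)) ∧
      ∀ i ∈ (G n).box pS ε (i0 n) (k0 n), ∀ l ∈ (G n).box pS ε (i0 n) (k0 n), ∀ s,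
      |(G n).rel (k0 n) i l s| ≤ B.d n ^ pS s * B.d n ^ (-(K * ε)) := by
  have hD := H.D1
  filter_upwards [box_pair H i0 k0 h0 pS lS hε, ev_const_le B hε 8] with n g1 g8
  have hK1 : 1 ≤ K := by nlinarith
  have e1 : B.d n ^ (-ε) ≤ B.d n ^ (-(K * ε)) := rpow_anti B n (by nlinarith)
  refine ⟨g8.trans e1, fun i hi l hl s => ?_⟩
  have := g1 i hi l hl s
  rw [H.base n] at this
  refine this.trans ?_
  rw [← rpow_add']
  exact rpow_anti B n (by nlinarith)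

/-- separation at a D-tie -/
theorem sep_kd (H : RUnif B G Leg ν D) {t Q : ℝ}
    (law : ∀ s s3 s5 : Fin 12, (s = 7 ∧ s3 = 3 ∧ s5 = 5) ∨ (s = 8 ∧ s3 = 4 ∧ s5 = 6) →
      ∀ᶠ n in (U : Filter ℕ), ∀ k0 k i l, (i, k0) ∈ (G n).I →
      (l, k0) ∈ (G n).I → (i, k) ∈ (G n).I → (l, k) ∈ (G n).I →
      |(G n).rel k i l s - ((G n).rel k0 i l s + own n i k0 k 2 * (G n).rel k0 i l s3)| ≤
        2 * |(G n).rel k0 i l s5| + Q * B.d n ^ t)
    {i0 k0 : ℕ → ℕ}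
    (h0 : ∀ᶠ n in (U : Filter ℕ), (i0 n, k0 n) ∈ (G n).I) {pS p' r : Fin 12 → ℝ}
    (hpS : pS ∈ Leg) {y : ℝ} (hy : y ≤ t) (hS5 : y ≤ pS 5) (hS6 : y ≤ pS 6) (hS7 : y ≤ pS 7)
    (hS8 : y ≤ pS 8) (hr7 : y ≤ r 7)
    (hr8 : y ≤ r 8) (hp3 : p' 3 ≤ y) (hp4 : p' 4 ≤ y)
    (hp : ∀ s, s ≠ 3 → s ≠ 4 → p' s ≤ pS s) :
    Sep B G pS p' r i0 k0 (fun n i k => own n i (k0 n) k 2) (D * D + 1) 3 := by
  intro K hK ε hε
  have hD := H.D1
  have hK1 : 1 ≤ K := by nlinarith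
  filter_upwards [exists_cbU H h0 hpS hK hε, law 7 3 5 (Or.inl ⟨rfl, rfl, rfl⟩),
    law 8 4 6 (Or.inr ⟨rfl, rfl, rfl⟩), ev_const_le B hε Q]
    with n hcb hlaw7 hlaw8 hQ k i hi l hl h1 h2 hτ hr s
  obtain ⟨hβ, hcb⟩ := hcb
  have I1 := H.memSlice.1 (RCfg.mem_box.1 hi).1
  have I2 := H.memSlice.1 (RCfg.mem_box.1 hl).1
  have e1 : B.d n ^ (-ε) ≤ B.d n ^ (-(K * ε)) := rpow_anti B n (by nlinarith)
  have hQ' := hQ.trans e1
  have hpow : ∀ t : ℝ, 0 < B.d n ^ t := fun t => rpos B n t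
  have l7 := hlaw7 (k0 n) k i l I1 I2 h1 h2
  have l8 := hlaw8 (k0 n) k i l I1 I2 h1 h2
  set β := B.d n ^ (-(K * ε)) with hβd
  have hβ0 : 0 < β := by linarith
  have up : ∀ {t : ℝ}, y ≤ t → B.d n ^ t * β ≤ B.d n ^ y * β := fun ht =>
    mul_le_mul_of_nonneg_right (rpow_anti B n ht) hβ0.le
  have hQt : Q * B.d n ^ t ≤ B.d n ^ y * β := by
    rcases le_or_gt Q 0 with hQ0 | hQ0
    · have := mul_nonneg (neg_nonneg.2 hQ0) (hpow t).le
      have := mul_pos (hpow y) hβ0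
      linarith
    · rw [mul_comm]
      exact mul_le_mul (rpow_anti B n hy) hQ' hQ0.le (hpow y).le
  have fin : ∀ {w c d e : ℝ}, |w| ≤ B.d n ^ y * β → |c| ≤ B.d n ^ y * β →
      |e| ≤ B.d n ^ y * β →
      |w - (c + own n i (k0 n) k 2 * d)| ≤ 2 * |e| + Q * B.d n ^ t →
      |d| ≤ B.d n ^ y * β ^ 3 := by
    intro w c d e hw hc he hl
    refine div_thick (t := own n i (k0 n) k 2) (m := 2) (hpow y) hβ hτ ?_
    have e : own n i (k0 n) k 2 * d = w - c - (w - (c + own n i (k0 n) k 2 * d)) := by ring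
    rw [e]
    have p1 := abs_sub (w - c) (w - (c + own n i (k0 n) k 2 * d))
    have p2 := abs_sub w c
    have p3 : B.d n ^ y * β ^ 2 = β * (B.d n ^ y * β) := by ring
    rw [p3]
    have : 0 < B.d n ^ y * β := mul_pos (hpow y) hβ0
    nlinarith
  have r3 := fin ((hr 7).trans (up hr7)) ((hcb i hi l hl 7).trans (up hS7))
    ((hcb i hi l hl 5).trans (up hS5)) l7
  have r4 := fin ((hr 8).trans (up hr8)) ((hcb i hi l hl 8).trans (up hS8))
    ((hcb i hi l hl 6).trans (up hS6)) l8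
  have b5 : β ≤ β ^ 3 := by
    calc β = β ^ 1 := (pow_one β).symm
      _ ≤ β ^ 3 := pow_le_pow_right₀ (by linarith) (by norm_num)
  by_cases hs3 : s = 3
  · subst hs3
    exact r3.trans (mul_le_mul_of_nonneg_right (rpow_anti B n hp3) (by positivity))
  by_cases hs4 : s = 4
  · subst hs4
    exact r4.trans (mul_le_mul_of_nonneg_right (rpow_anti B n hp4) (by positivity))
  · refine (hcb i hi l hl s).trans
      (mul_le_mul (rpow_anti B n (hp s hs3 hs4)) b5 hβ0.le (hpow _).le)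

/-- **(W3k), D-tie**, over the laws which are used -/
theorem w3_dU (H : RModel B G σ R Leg ν D) (hσ : 0 < σ) (hR : 0 < R)
    (hx0 : 0 < x0) (hz0 : OwnZ B G own x0)
    (hoc : OwnCoc B G own x0) {γ x1 : ℝ} (hγ : 0 < γ) (hx1 : 0 < x1)
    (hO : OwnThin B G own 1 γ x1) {Q : ℝ}
    (law : ∀ s s3 s5 : Fin 12, (s = 7 ∧ s3 = 3 ∧ s5 = 5) ∨ (s = 8 ∧ s3 = 4 ∧ s5 = 6) →
      ∀ᶠ n in (U : Filter ℕ), ∀ k0 k i l, (i, k0) ∈ (G n).I →
      (l, k0) ∈ (G n).I → (i, k) ∈ (G n).I → (l, k) ∈ (G n).I →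
      |(G n).rel k i l s - ((G n).rel k0 i l s + own n i k0 k 2 * (G n).rel k0 i l s3)| ≤
        2 * |(G n).rel k0 i l s5| + Q * B.d n ^ x0)
    (pS p' pT r : Fin 12 → ℝ) (hpS : pS ∈ Leg) (hp' : p' ∈ Leg) (hpT : pT ∈ Leg) (hr : r ∈ Leg)
    (hTr : ∀ j, pT j ≤ r j)
    (hT : ∀ᶠ n in (U : Filter ℕ), ∀ k i l, (i, k) ∈ (G n).I → (l, k) ∈ (G n).I → ∀ s,
      |(G n).rel k i l s| ≤ B.d n ^ pT s) {y : ℝ} (hy : y ≤ x0) (hS5 : y ≤ pS 5)
    (hS6 : y ≤ pS 6) (hS7 : y ≤ pS 7) (hS8 : y ≤ pS 8) (hr7 : y ≤ r 7) (hr8 : y ≤ r 8)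
    (hp3 : p' 3 ≤ y) (hp4 : p' 4 ≤ y) (hp : ∀ s, s ≠ 3 → s ≠ 4 → p' s ≤ pS s) :
    ν pS - ν p' ≤ ν pT - ν r := by
  classical
  obtain ⟨C1, hC1, e0, he0, hd⟩ := d_pinU H hσ hR hx0 hz0 hoc hγ hx1 hO hpS
  set e' : ℝ → ℝ := fun ε => min ε e0 with he'
  have p1 : ∀ ε : ℝ, 0 < ε → 0 < e' ε := fun ε hε => lt_min hε he0
  have p2 : ∀ ε : ℝ, e' ε ≤ ε := fun ε => min_le_left _ _
  have p3 : ∀ ε : ℝ, e' ε ≤ e0 := fun ε => min_le_right _ _
  -- the statement chosen at `e' ε`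
  let P : ℝ → ℕ → ℕ × ℕ × Finset ℕ → Prop := fun ε n q => (q.1, q.2.1) ∈ (G n).I ∧
    q.2.2 ⊆ (G n).box pS ε q.1 q.2.1 ∧ B.d n ^ (-ν pS + C1 * ε) ≤ (q.2.2.card : ℝ) ∧
    ∀ i ∈ q.2.2, ∀ T ⊆ (G n).Z,
      (∀ k ∈ (G n).Z, (i, k) ∈ (G n).I → B.d n ^ (C1 * ε) ≤ |own n i q.2.1 k 2| → k ∈ T) →
      B.d n ^ (C1 * ε) * ((G n).Z.card : ℝ) ≤ (T.card : ℝ)
  let q : ℝ → ℕ → ℕ × ℕ × Finset ℕ := fun ε n =>
    if h : ∃ q, P (e' ε) n q then h.choose else (0, 0, ∅)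
  have hq : ∀ ε : ℝ, 0 < ε → ∀ᶠ n in (U : Filter ℕ), P (e' ε) n (q ε n) := by
    intro ε hε
    filter_upwards [hd (e' ε) (p1 ε hε) (p3 ε)] with n hn
    obtain ⟨i0, k0, h1, S0, h2, h3, h4⟩ := hn
    have hex : ∃ q, P (e' ε) n q := ⟨(i0, k0, S0), h1, h2, h3, h4⟩
    have e : q ε n = hex.choose := dif_pos hex
    rw [e]
    exact hex.choose_spec
  refine twist_core_EU H (fun ε n => (q ε n).1) (fun ε n => (q ε n).2.1) ?_ pS p' pT r hpS hp'
    hpT hr hTr hT (fun n i k0 k => own n i k0 k 2) hC1 (fun ε n => (q ε n).2.2) ?_ ?_ ?_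
    (fun i1 k1 h1 => sep_kd H.toRUnif law h1 hpS hy hS5 hS6 hS7 hS8 hr7 hr8 hp3 hp4 hp)
  · intro ε hε
    filter_upwards [hq ε hε] with n hn
    exact hn.1
  · intro ε hε
    filter_upwards [hq ε hε] with n hn i hi
    obtain ⟨a1, a2⟩ := RCfg.mem_box.1 (hn.2.1 hi)
    exact RCfg.mem_box.2 ⟨a1, H.loose_mono (fun _ => le_rfl) (p2 ε) a2⟩
  · intro ε hε
    filter_upwards [hq ε hε] with n hn
    refine (rpow_anti B n ?_).trans hn.2.2.1
    have := p2 ε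
    nlinarith
  · intro ε hε
    filter_upwards [hq ε hε] with n hn i hi T hT1 hT2
    have h1 : B.d n ^ (C1 * ε) ≤ B.d n ^ (C1 * e' ε) := rpow_anti B n (by
      have := p2 ε
      nlinarith)
    refine le_trans (mul_le_mul_of_nonneg_right h1 (Nat.cast_nonneg _))
      (hn.2.2.2 i hi T hT1 fun k hk hik ht => hT2 k hk hik (h1.trans ht))

end dtieU

/-! ### the laws in a window -/

section law

open Crest.Agent.R136.Net191 Crest.Agent.R136.Qg926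
open Crest.Agent.R116.ChL222 Crest.Agent.R116.PL504 Crest.Agent.R116.EvL504

variable {ι : ℕ → Type*} [∀ n, DecidableEq (ι n)] {W : Wnd 12 ι} {K tp : ℝ}
  {E : ∀ n, Finset (ι n)}

/-- product of two normalised coordinates, one of them small -/
theorem prS {S1 S2 T u v : ℝ} (h1 : 0 < S1) (h2 : 0 < S2) (hT : S1 * S2 ≤ T) (hu : |u| ≤ 1) :
    |S1 * u * (S2 * v)| ≤ |v| * T := by
  have e : S1 * u * (S2 * v) = (S1 * S2) * (u * v) := by ring
  have hp := mul_pos h1 h2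
  rw [e, abs_mul (S1 * S2), abs_of_pos hp, abs_mul u v]
  calc S1 * S2 * (|u| * |v|) ≤ T * (1 * |v|) :=
        mul_le_mul hT (mul_le_mul_of_nonneg_right hu (abs_nonneg _))
          (mul_nonneg (abs_nonneg _) (abs_nonneg _)) (hp.le.trans hT)
    _ = _ := by ring

/-- **the slots `7`, `8`**, resolved, wall `B = E + C` tight -/
theorem law78d (h : WL W K tp) {n : ℕ} (r : Reg W E n) {s s3 s5 : Fin 12}
    (hs78 : (s = 7 ∧ s3 = 3 ∧ s5 = 5) ∨ (s = 8 ∧ s3 = 4 ∧ s5 = 6))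
    (T : side W n 2 * side W n s3 = side W n s)
    (hS : s ∉ W.S) (ht : tp ≤ W.top s)
    {k k' i l : ℕ} (hi : (i, k) ∈ (W.cfg E n).I)
    (hl : (l, k) ∈ (W.cfg E n).I) (hi' : (i, k') ∈ (W.cfg E n).I) (hl' : (l, k') ∈ (W.cfg E n).I) :
    |(W.cfg E n).rel k' i l s - ((W.cfg E n).rel k i l s +
      own W n i k' k 2 * (W.cfg E n).rel k i l s3)| ≤
      2 * |(W.cfg E n).rel k i l s5| + 5 * W.B'.d n ^ tp := by
  have hsd := h.side_pos' n
  have hD := h.sides r.good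
  have n3 : s3 ∉ SL := by rcases hs78 with ⟨-, rfl, -⟩ | ⟨-, rfl, -⟩ <;> decide
  have n5 : s5 ∉ SL := by rcases hs78 with ⟨-, -, rfl⟩ | ⟨-, -, rfl⟩ <;> decide
  have w5 : side W n 1 * side W n s5 ≤ side W n s := by
    rcases hs78 with ⟨rfl, rfl, rfl⟩ | ⟨rfl, rfl, rfl⟩
    · exact hD.w7'
    · exact hD.w8'
  -- the law
  have law : ∀ a c : Fin 12 → ℝ, compW W n a c s =
      a s + c s + a 2 * c s3 + 2 * (side W n 1 * a 1 * (side W n s5 * c s5)) / side W n s := by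
    intro a c
    have e : compW W n a c s = (side W n s * a s + side W n s * c s + side W n 2 * a 2 *
        (side W n s3 * c s3) + 2 * (side W n 1 * a 1 * (side W n s5 * c s5))) / side W n s := by
      unfold compW
      congr 1
      rcases hs78 with ⟨rfl, rfl, rfl⟩ | ⟨rfl, rfl, rfl⟩ <;> rfl
    have f : side W n 2 * a 2 * (side W n s3 * c s3) = side W n s * (a 2 * c s3) := by
      rw [← T]; ring
    rw [e, f, div_eq_iff (hsd s).ne', add_mul, div_mul_cancel₀ _ (hsd s).ne']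
    ring
  have small : ∀ (a c : Fin 12 → ℝ), |a 1| ≤ 1 →
      |2 * (side W n 1 * a 1 * (side W n s5 * c s5)) / side W n s| ≤ 2 * |c s5| := by
    intro a c h1
    have := prS (v := c s5) (hsd 1) (hsd s5) w5 h1
    rw [abs_div, abs_of_pos (hsd s), div_le_iff₀ (hsd s), abs_mul, abs_two]
    linarith
  obtain ⟨a1, a2, a3⟩ := r.spec hi
  obtain ⟨b1, b2, b3⟩ := r.spec hl
  obtain ⟨c1, c2, c3⟩ := r.spec hi'
  obtain ⟨d1, d2, d3⟩ := r.spec hl'
  rw [r.rel_of hS, r.rel_of hS, r.rel_of (h.notS n3), r.rel_of (h.notS n5)]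
  have g := r.good
  have m1 := law (W.crd n (W.rep n i k') (W.rep n i k)) (W.crd n (W.rep n i k) (W.rep n l k))
  rw [← h.crd_add] at m1
  have m2 := law (W.crd n (W.rep n i k') (W.rep n l k)) (W.crd n (W.rep n l k) (W.rep n l k'))
  rw [← h.crd_add] at m2
  have o7 := h.crd_l g c1 a1 (c2.trans a2.symm) hS ht
  have p7 := h.crd_l g b1 d1 (b2.trans d2.symm) hS ht
  have p3 := h.crd_l g b1 d1 (b2.trans d2.symm) (h.notS n3) (h.topL _ n3)
  have p5 := h.crd_l g b1 d1 (b2.trans d2.symm) (h.notS n5) (h.topL _ n5)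
  have e1 := small (W.crd n (W.rep n i k') (W.rep n i k)) (W.crd n (W.rep n i k) (W.rep n l k))
    (h.crd_le g c1 a1 1)
  have e2 := small (W.crd n (W.rep n i k') (W.rep n l k)) (W.crd n (W.rep n l k) (W.rep n l k'))
    (h.crd_le g c1 b1 1)
  have e3 : |W.crd n (W.rep n i k') (W.rep n l k) 2 * W.crd n (W.rep n l k) (W.rep n l k') s3| ≤
      W.B'.d n ^ tp := by
    rw [abs_mul]
    have f2 := mul_le_mul (h.crd_le g c1 b1 2) p3 (abs_nonneg _) zero_le_one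
    linarith
  have fin : W.crd n (W.rep n i k') (W.rep n l k') s - (W.crd n (W.rep n i k) (W.rep n l k) s +
      own W n i k' k 2 * W.crd n (W.rep n i k) (W.rep n l k) s3) =
      W.crd n (W.rep n i k') (W.rep n i k) s +
      2 * (side W n 1 * W.crd n (W.rep n i k') (W.rep n i k) 1 *
        (side W n s5 * W.crd n (W.rep n i k) (W.rep n l k) s5)) / side W n s +
      W.crd n (W.rep n l k) (W.rep n l k') s +
      W.crd n (W.rep n i k') (W.rep n l k) 2 * W.crd n (W.rep n l k) (W.rep n l k') s3 +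
      2 * (side W n 1 * W.crd n (W.rep n i k') (W.rep n l k) 1 *
        (side W n s5 * W.crd n (W.rep n l k) (W.rep n l k') s5)) / side W n s := by
    have eo : own W n i k' k 2 = W.crd n (W.rep n i k') (W.rep n i k) 2 := rfl
    rw [eo]
    linarith
  rw [fin]
  rw [abs_le] at o7 p7 e1 e2 e3 ⊢
  constructor <;> linarith [o7.1, o7.2, p7.1, p7.2, e1.1, e1.2, e2.1, e2.2, e3.1, e3.2]

/-- **composition of the own motions**, wall `E = z + D` tight -/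
theorem ownCocU (h : WL W K tp) (hE : ∀ᶠ n in (U : Filter ℕ), Reg W E n)
    (T : ∀ᶠ n in (U : Filter ℕ), side W n 0 * side W n 1 = side W n 2) :
    OwnCoc W.B' (W.cfg E) (ownL W) tp := by
  intro ε hε
  filter_upwards [hE, T] with n r hT i k0 k1 k h0 h1 hk
  have e : ∀ s, ownL W n i k1 k s = compW W n (ownL W n i k0 k) (ownL W n i k1 k0) s := fun s =>
    h.crd_add (W.rep n i k) (W.rep n i k0) (W.rep n i k1) s
  have hsd := h.side_pos' n
  constructor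
  · have e1 : compW W n (ownL W n i k0 k) (ownL W n i k1 k0) 1 =
        ownL W n i k0 k 1 + ownL W n i k1 k0 1 := by
      show (side W n 1 * ownL W n i k0 k 1 + side W n 1 * ownL W n i k1 k0 1) / side W n 1 = _
      rw [div_eq_iff (hsd 1).ne']; ring
    rw [e 1, e1, sub_self, abs_zero]
    exact (rpos W.B' n _).le
  · have e1 : compW W n (ownL W n i k0 k) (ownL W n i k1 k0) 2 =
        ownL W n i k0 k 2 + ownL W n i k1 k0 2 - 2 * (ownL W n i k0 k 1 * ownL W n i k1 k0 0) := by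
      show (side W n 2 * ownL W n i k0 k 2 + side W n 2 * ownL W n i k1 k0 2 -
        2 * (side W n 1 * ownL W n i k0 k 1 * (side W n 0 * ownL W n i k1 k0 0))) / side W n 2 = _
      have f : side W n 1 * ownL W n i k0 k 1 * (side W n 0 * ownL W n i k1 k0 0) =
          side W n 2 * (ownL W n i k0 k 1 * ownL W n i k1 k0 0) := by
        rw [← hT]; ring
      rw [f, div_eq_iff (hsd 2).ne']; ring
    rw [e 2, e1, sub_self, abs_zero]
    exact (rpos W.B' n _).le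

/-- the own motion of the height -/
theorem ownZ_of (h : WL W K tp) (hE : ∀ᶠ n in (U : Filter ℕ), Reg W E n) :
    OwnZ W.B' (W.cfg E) (ownL W) tp := by
  intro ε hε
  filter_upwards [hE, ev_up W 2 tp hε] with n r hu
  intro i k0 k hi hi'
  have := r.own_z h hi hi'
  refine le_trans (le_of_eq ?_) (this.trans hu)
  congr 1
  show own W n i k k0 0 + ((W.cfg E n).z k - (W.cfg E n).z k0) = _
  ring

end law

/-! ### the fact in a window -/

section win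

open Crest.Agent.R136.Net191 Crest.Agent.R136.Qg926
open Crest.Agent.R116.ChL222 Crest.Agent.R116.PL504 Crest.Agent.R116.EvL504
open Crest.Agent.R116.Tw369

variable {B : Base} {I0 I' : ℕ → Finset (ℕ × ℝ)}
  {co : ∀ n : ℕ, ℕ × ℝ → ℕ × ℝ → Fin 12 → ℝ} {X : ℕ → Fin 12 → ℝ} {hh : ℕ → ℝ}
  {lam : (Fin 12 → ℝ) → ℝ} {S Dr Ts : Finset (Fin 12)} {Sl : Fin 12 → Set ℝ} {σ t : ℝ}
  {k : ℕ → ℕ} {W : Wnd 12 (fun _ => ℕ × ℝ)} {N : ℕ → ℝ} {cw : ∀ n : ℕ, ℕ × ℝ → ℤ}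
  {E' : ∀ n : ℕ, Finset (ℕ × ℝ)} {g' : ℕ → ℝ} {ex : ℕ → ∀ n : ℕ, ℕ × ℝ → ℕ}

/-- **(W3k) at a D-tie in a window**: `B` against `C_a`, `X` fine in the fibre; `E = z + D`, `B = E + C_a`
tight -/
theorem TWin.w3d (T : TWin B I0 I' co X hh lam {0, 1, 2} ∅ Ts Sl σ t k W N cw E' g' ex)
    (hσ : 0 < σ) (ht : 0 < t) (hTs : Ts ⊆ {0, 1, 2}) (hSl : ∀ j ∈ Ts, (0 : ℝ) ∈ Sl j)
    (hjT : (1 : Fin 12) ∈ Ts) (x2 : ∀ᶠ l in atTop, X l 2 = X l 0 + X l 1)
    (x3 : ∀ᶠ l in atTop, X l 7 = X l 2 + X l 3) (x4 : ∀ᶠ l in atTop, X l 8 = X l 2 + X l 4)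
    {y : ℝ} (hy : 0 ≤ y) (hyt : y ≤ t) :
    lam (cT {0, 1, 2} ∅ t (bA y {5, 6, 7, 8})) - lam (cT {0, 1, 2} ∅ t (bA y {3, 4, 5, 6, 7, 8})) ≤
      lam (cT {0, 1, 2} ∅ t 0) - lam (cT {0, 1, 2} ∅ t (bA y {7, 8})) := by
  have hw := wsd_d
  have eS := T.eS
  have n7 : (7 : Fin 12) ∉ W.S := by rw [eS]; decide
  have n8 : (8 : Fin 12) ∉ W.S := by rw [eS]; decide
  have t7 : t ≤ W.top 7 := by rw [T.etop]; exact le_of_eq (if_neg (by decide)).symm
  have t8 : t ≤ W.top 8 := by rw [T.etop]; exact le_of_eq (if_neg (by decide)).symm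
  obtain ⟨γ, hγ, hO⟩ := T.thin hTs hSl hjT (addF7 T.wl (by rw [eS]; exact hTs hjT) (Or.inl rfl))
  have hA : ∀ A : Finset (Fin 12), (A = {5, 6, 7, 8} ∨ A = {3, 4, 5, 6, 7, 8} ∨ A = {7, 8}) →
      ∀ k, k ∈ A → k ∉ ({0, 1, 2} : Finset (Fin 12)) →
      k ∉ (∅ : Finset (Fin 12)) → ∀ e ∈ monL.mon k, (∀ s ∈ (∅ : Finset (Fin 12)), e s = 0) →
      ∃ s, e s ≠ 0 ∧ s ∉ (∅ : Finset (Fin 12)) ∧
        (s ∈ ({0, 1, 2} : Finset (Fin 12)) ∨ s ∈ A) := by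
    rintro A (rfl | rfl | rfl) <;> decide +kernel
  have z : ∀ p : Fin 12 → ℝ, ∀ s ∈ (∅ : Finset (Fin 12)), p s = 0 := fun p s hs =>
    absurd hs (Finset.notMem_empty s)
  have l1 := T.leg_of hw (z _) (leg_bA hw hy hyt (hA {5, 6, 7, 8} (Or.inl rfl)))
  have l2 := T.leg_of hw (z _) (leg_bA hw hy hyt (hA {3, 4, 5, 6, 7, 8} (Or.inr (Or.inl rfl))))
  have l4 := T.leg_of hw (z _) (leg_bA hw hy hyt (hA {7, 8} (Or.inr (Or.inr rfl))))
  have l3 : (0 : Fin 12 → ℝ) ∈ W.legW := T.leg_of hw (z _) (lev_leg hw ht.le)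
  have key := w3_dU (Q := 5) T.mod hσ ht ht (ownZ_of T.wl T.reg)
    (ownCocU T.wl T.reg (T.tight (i := 0) (j := 1) (m := 2) (by decide) x2)) hγ ht hO
    (by
      rintro s s3 s5 (⟨rfl, rfl, rfl⟩ | ⟨rfl, rfl, rfl⟩)
      · filter_upwards [T.reg, T.tight (i := 2) (j := 3) (m := 7) (by decide) x3] with
          n r h1 k0 k1 i l a1 a2 a3 a4
        exact law78d T.wl r (Or.inl ⟨rfl, rfl, rfl⟩) h1 n7 t7 a1 a2 a3 a4
      · filter_upwards [T.reg, T.tight (i := 2) (j := 4) (m := 8) (by decide) x4] with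
          n r h1 k0 k1 i l a1 a2 a3 a4
        exact law78d T.wl r (Or.inr ⟨rfl, rfl, rfl⟩) h1 n8 t8 a1 a2 a3 a4)
    (bA y {5, 6, 7, 8}) (bA y {3, 4, 5, 6, 7, 8}) 0 (bA y {7, 8}) l1 l2 l3 l4
    (fun s => by
      show (0 : ℝ) ≤ bA y {7, 8} s
      unfold bA; split_ifs <;> first | exact le_rfl | assumption)
    (by
      filter_upwards [T.reg] with n r k i l hi hl s
      have e : W.B'.d n ^ ((0 : Fin 12 → ℝ) s) = 1 := Real.rpow_zero _
      rw [e]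
      exact r.rel_le T.wl hi hl s) hyt (bA_of (by decide)).ge (bA_of (by decide)).ge
    (bA_of (by decide)).ge (bA_of (by decide)).ge (bA_of (by decide)).ge (bA_of (by decide)).ge
    (bA_of (by decide)).le (bA_of (by decide)).le
    (fun s h3 h4 => by
      by_cases hs : s ∈ ({3, 4, 5, 6, 7, 8} : Finset (Fin 12))
      · rw [bA_of hs, bA_of]
        have : ∀ s : Fin 12, s ≠ 3 → s ≠ 4 → s ∈ ({3, 4, 5, 6, 7, 8} : Finset (Fin 12)) →
            s ∈ ({5, 6, 7, 8} : Finset (Fin 12)) := by decide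
        exact this s h3 h4 hs
      · rw [bA_off hs]
        unfold bA; split_ifs <;> first | exact le_rfl | assumption)
  rw [T.nu_eq hw (z _), T.nu_eq hw (z _), T.nu_eq hw (z _), T.nu_eq hw (z _)] at key
  linarith

end win

end Crest.Agent.R116.KW420
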