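import Crest.Agent.R116.Th4_171
import Crest.Agent.R116.Pd3_363
import Crest.Agent.R116.Tk8_126
import Crest.Agent.R116.Tq4_126
import Crest.Agent.R116.Tp7_139

/-!
# R116, double tie, `k' > 1`, side above the record (helper708)

* `plU_S9` : 139's table of `oS9` (`k ≠ 1 / 2`)
* `tvS9`   : 139's `TV` of `oS9` in the letters `rE`, `xE`, `hE`
* **`upD9`** : `CtxT`, `Out9` on `kD9`, `oS9`, `oP9` ⊢ `EUp'` (`θ < k`, `k' = θ + k > 1`)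
-/

set_option autoImplicit false
set_option linter.unusedVariables false
set_option linter.unusedSectionVars false

open Set Filter Topology MeasureTheory

namespace Crest.Agent.R116.Up708

open Crest.Agent.R138
open Crest.Agent.R138.Ex926 (Base U IsTan)
open Crest.Agent.R136
open Crest.Agent.R136.MkA627
open Crest.Agent.R136.TD627
open Crest.Agent.R136.Net191
open Crest.Agent.R136.Lq196
open Crest.Agent.R116.ChL222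
open Crest.Agent.R116.PL504 (nb rL DN eL βL oL Shift)
open Crest.Agent.R116.Sg337 (bx9 coneL DL natB)
open Crest.Agent.R116.Gd222 (TSet sN PDL DT)
open Crest.Agent.R116.KI439
open Crest.Agent.R116.KF439 (PL)
open Crest.Agent.R116.CtxB468
open Crest.Agent.R116.RbM219
open Crest.Agent.R116.RbK219 (SOk RS Par dl)
open Crest.Agent.R116.SgO219 (PP)
open Crest.Agent.R116.Kz647
open Crest.Agent.R116.Rcx363
open Crest.Agent.R116.Pd363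
open Crest.Agent.R116.Tq741
open Crest.Agent.R116.Tq126
open Crest.Agent.R116.Tp139 hiding cl8
open Crest.Agent.R116.Pos126 (posB8 posB9)
open Crest.Agent.R116.Tie460 (Pl EF' EUp')
open Dg219 (mw)
open Dg262 (SupOn)
open Sl741 (slice xt rs)

/-! ### the table -/

theorem cS9_one : cS9 1 = ![0, 1, 2, 2, 4, 5, 0, 0, 0] := by
  funext i
  fin_cases i <;> evc <;> norm_num [cS9]

theorem cS9_gen {k : ℝ} (h1 : k ≠ 1) (h : k ≠ 1 / 2) :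
    cS9 k = ![0, 1, 2, 3, 4, 5, 0, 0, 0] := by
  unfold cS9
  rw [if_neg h1, if_neg h]

/-- 139's table of `oS9` -/
theorem plU_S9 {θ θb k : ℝ} (h2 : k ≠ 1 / 2) :
    PlU k (cS9 k) (dl (nat9 1 (-θ) (-θb)) oS9 1) := by
  have d2 : dl (nat9 1 (-θ) (-θb)) oS9 1 2 = 1 := by
    unfold dl; rw [t2, if_neg one_ne_zero, mul_one]
  have d3 : dl (nat9 1 (-θ) (-θb)) oS9 1 3 = 1 := by
    unfold dl; rw [t3, if_neg one_ne_zero, mul_one]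
  by_cases h1 : k = 1
  · subst h1
    rw [cS9_one]
    refine ⟨by decide, by unfold Tp139.Al; decide, by unfold Tp139.Al; decide,
      fun h => absurd rfl h, fun _ => by unfold Tp139.Al; decide, fun h => absurd rfl h,
      fun _ => ⟨by decide, by decide, ?_⟩, fun h => absurd h (by norm_num), by decide⟩
    rw [d3, d2]
  · rw [cS9_gen h1 h2]
    exact ⟨by decide, by unfold Tp139.Al; decide, by unfold Tp139.Al; decide,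
      fun _ => by unfold Tp139.Al; decide, fun _ => by unfold Tp139.Al; decide,
      fun _ _ => by unfold Tp139.Al; decide, fun h => absurd h h1, fun h => absurd h h2,
      by decide⟩

section val

variable {s θ θb g qa qb : ℝ} {lam lam2 : Fin 2 → (Fin 12 → ℝ) → ℝ} {ρ ρ2 : Fin 9 → ℝ}
    {l α : ℝ} {h : ℕ → ℝ}

/-- **139's `TV` of the plane `oS9`** -/
theorem tvS9 (H : Half9 θ θb oS9 1 lam 0 ρ (DL g s qa qb 0 1 1) l α h lam2 ρ2)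
    (h0 : lam 0 0 = 0)
    (hrec : lam 0 (RL9.vec (nat9 1 (-θ) (-θb))) = DL g s qa qb 1 (-θ) (-θb)) (hθ : 0 < θ)
    (hb : θb < θ) (hb2 : θb < 2 * θ - 1) (h2 : θ - θb ≠ 1 / 2) {φ : Fin 9 → V9 → ℝ}
    (C : Cl9 (cS9 (θ - θb)) (dl (nat9 1 (-θ) (-θb)) oS9 1) s (fun w => lam2 0 (RL9.vec w)) φ
      ρ2) :
    TV θ θb s g qa qb (ρ2 0) (ρ2 1) (rE (cS9 (θ - θb)) φ) (1 - xE (cS9 (θ - θb)) φ) (ρ2 4)
      (1 - hE (cS9 (θ - θb)) φ) := by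
  have eκ : DL g s qa qb 0 1 1 = -(4 + qa + qb) := by unfold DL; ring
  rw [eκ] at H
  have P := plU_S9 (θ := θ) (θb := θb) h2
  have hH : (1 - hE (cS9 (θ - θb)) φ) = ρ2 5 := by
    rw [hE_al C (P.a5 h2)]; ring
  rw [hH]
  by_cases h1 : θ - θb = 1
  · refine tv9_1 H h0 hrec hθ hb2 h1 ?_
    obtain ⟨c3, c23, d3⟩ := P.c3 h1
    have e1 := C.rate 3 (e9 3 + (1:ℝ) • e9 2) fun t' ht' => by
      rcases c23 t' (ht'.trans c3) with rfl | rfl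
      · rw [d3]
        simp [e9]
      · rfl
    have e2 : φ (cS9 (θ - θb) 3) 0 = 0 := C.zero_of 3 fun _ _ => rfl
    have e3 : (0 : V9) + (1:ℝ) • e9 3 = e9 3 := by rw [zero_add, one_smul]
    unfold rE xE
    rw [e3, ← c3, e1, e2]
    simp [e9]
  · have hx : (1 - xE (cS9 (θ - θb)) φ) = ρ2 3 := by
      rw [xE_al C (P.a3 h1)]; ring
    have hr : rE (cS9 (θ - θb)) φ = ρ2 2 := rE_al C (P.a2 h1 h2)
    rw [hx, hr]
    exact Tp139.tv9 H h0 hrec hθ hb hb2 h1 h2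

end val

section plane

variable {R s : ℝ} {a b : Fin 2} {Vis : Fin 12 → Prop} {θ k g qa qb w0 sa sb v0 : ℝ}
    {T : Type*} {Bs : T → Fin 9 → ℝ} {sgs : T → ℝ} {f : Fin 2 → (Fin 12 → ℝ) → ℝ}
    {x0 : Fin 12 → ℝ} {x : ℕ → Fin 12 → ℝ} {hh : ℕ → ℝ} {lam : Fin 2 → (Fin 12 → ℝ) → ℝ}

/-- **`EUp'` from the planes**; `hK` = the facts on the plane -/
theorem oS9up
    (O : Out9 R s a b Vis θ (θ - k) g qa qb Bs sgs (rL θ (θ - k) w0 sa sb v0) f x hh lam)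
    (hs : 0 ≤ s) (hθ : 0 < θ) (hk : 0 < k) (hk1 : 1 < θ + k) (hθk : θ < k)
    (hVis : ∀ j, Vis j → j = 0 ∨ j = 1 ∨ j = 2 ∨ j = 7 ∨ j = 8)
    {cm cp cP : ℝ} {ρm ρp ρP : Fin 9 → ℝ} (hcm : 0 < cm) (hcp : 0 < cp) (hcP : 0 < cP)
    (hMm : (srf9 θ (θ - k) kD9 (-1)).LW (mw monL) cm ⊆ PP (mw monL))
    (hRm : Rates9 θ (θ - k) kD9 (-1) cm (lam 0) ρm)
    (hMp : (srf9 θ (θ - k) oS9 1).LW (mw monL) cp ⊆ PP (mw monL))
    (hRp : Rates9 θ (θ - k) oS9 1 cp (lam 0) ρp)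
    (hMP : (srf9 θ (θ - k) oP9 1).LW (mw monL) cP ⊆ PP (mw monL))
    (hRP : Rates9 θ (θ - k) oP9 1 cP (lam 0) ρP)
    (hK : ∀ {l α : ℝ} {h' : ℕ → ℝ} {X : ℕ → Fin 12 → ℝ} {H : ℕ → ℝ}
      {lam2 : Fin 2 → (Fin 12 → ℝ) → ℝ} {ρ2 : Fin 9 → ℝ} {φ : Fin 9 → V9 → ℝ},
      Pd9 R s a b Vis θ (θ - k) w0 sa sb v0 (DL g s qa qb 0 1 1) oS9 1 f lam ρp l α h' X H
        lam2 ρ2 →
      Cl9 (cS9 k) (dl (nat9 1 (-θ) (-(θ - k))) oS9 1) s (fun w => lam2 0 (RL9.vec w)) φ ρ2 →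
      EF' s k (plS s (ρ2 0) (ρ2 1) (rE (cS9 k) φ) (1 - xE (cS9 k) φ) (ρ2 4)
        (1 - hE (cS9 k) φ)))
    {A : Pl} (hA : A.m = ρm 1) : ∃ B, EUp' k θ s g qa qb A B := by
  have hb1 : θ - k < θ := by linarith
  have hb2 : θ - k < 2 * θ - 1 := by linarith
  have hb0 : θ - k < 0 := by linarith
  have hsp : SupOn (lam 0) (PP (mw monL)) := by rw [← coneL_PP]; exact O.rx.prf.sm
  have hV : ∀ j, Vis j → (Vis j ∧ oS9 (cl9 j) ≤ oS9 0 * βL θ (θ - k) j) ∨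
      oS9 (cl9 j) < oS9 0 * βL θ (θ - k) j := by
    intro j hj
    refine Or.inl ⟨hj, ?_⟩
    rw [t0, zero_mul]
    rcases hVis j hj with rfl | rfl | rfl | rfl | rfl
    · exact le_of_eq rfl
    · exact le_of_eq rfl
    · exact le_of_eq rfl
    · exact le_of_eq rfl
    · exact le_of_eq rfl
  have hn : nat9 0 1 1 ≤ oS9 := by
    refine all9 ?_ ?_ ?_ ?_ ?_ ?_ ?_ ?_ ?_ <;> ev9 <;> norm_num
  obtain ⟨l, α, h', X, H, lam2, ρ2, hl, -, -, P⟩ := plane9 (Vis' := Vis) O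
    (sok_oS9 hb1 hb2 hθ) leg_oS9 hcp hRp (v := 0) (c := 1) (p := 1) hn hV (N := univ) (by simp)
    one_pos
  obtain ⟨φ, C⟩ := P.cls (sok_oS9 hb1 hb2 hθ) hVis (hc_oS9 hθ hk hk1 rfl)
    (hz_oS9 hθ hk hk1 rfl) (hG_oS9 hθ hk hk1 rfl)
  have h2 : k ≠ 1 / 2 := by intro h; rw [h] at hk1 hθk; linarith
  have hrec : lam 0 (RL9.vec (nat9 1 (-θ) (-(θ - k)))) = DL g s qa qb 1 (-θ) (-(θ - k)) := by
    have h2 := O.rx.rcd 1
    rw [mul_one, mul_one] at h2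
    rw [← h2]
    exact congrArg (lam 0) (RL9_nat 1 (-θ) (-(θ - k)))
  have tv : TV θ (θ - k) s g qa qb (ρ2 0) (ρ2 1) (rE (cS9 k) φ) (1 - xE (cS9 k) φ) (ρ2 4)
      (1 - hE (cS9 k) φ) := by
    have e : θ - (θ - k) = k := by ring
    have h3 := tvS9 (θb := θ - k) (φ := φ) P.half (O.zero 0) hrec hθ hb1 hb2
      (by rw [e]; exact h2) (by rw [e]; exact C)
    rwa [e] at h3
  have em : ρ2 1 = ρp 1 := P.half.eq 1 (A1_ne9 hθ)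
  refine ⟨_, hK P C, tv.tan, tv.ver, ?_, ?_⟩
  · show ρ2 1 ≤ A.m
    rw [em, hA]
    exact ant_d9 (k := θ + k) hsp hθ hcm hcp hk1 (by ring) hb1 hMm hMp hRm hRp
  · show qa ≤ ρ2 1
    rw [em]
    have h3 := pos_e9 (k := k) hsp hθ hcp hcP hk hk1 rfl hb0 hMp hMP hRp hRP
    have h4 := posB9 (s := s) (g := g) (qa := qa) (qb := qb) (lam := lam 0) O.rx.prf.ab
      O.rx.prf.anti O.rx.prf.cost (O.zero 0) O.rx.dmax hcP hθ (by linarith) (by linarith) hRP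
    exact h4.trans h3

/-- `oS9up` with `θb` -/
theorem oS9up' {θb : ℝ} (hb : θb = θ - k)
    (O : Out9 R s a b Vis θ θb g qa qb Bs sgs (rL θ θb w0 sa sb v0) f x hh lam)
    (hs : 0 ≤ s) (hθ : 0 < θ) (hk : 0 < k) (hk1 : 1 < θ + k) (hθk : θ < k)
    (hVis : ∀ j, Vis j → j = 0 ∨ j = 1 ∨ j = 2 ∨ j = 7 ∨ j = 8)
    {cm cp cP : ℝ} {ρm ρp ρP : Fin 9 → ℝ} (hcm : 0 < cm) (hcp : 0 < cp) (hcP : 0 < cP)
    (hMm : (srf9 θ θb kD9 (-1)).LW (mw monL) cm ⊆ PP (mw monL))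
    (hRm : Rates9 θ θb kD9 (-1) cm (lam 0) ρm)
    (hMp : (srf9 θ θb oS9 1).LW (mw monL) cp ⊆ PP (mw monL))
    (hRp : Rates9 θ θb oS9 1 cp (lam 0) ρp)
    (hMP : (srf9 θ θb oP9 1).LW (mw monL) cP ⊆ PP (mw monL))
    (hRP : Rates9 θ θb oP9 1 cP (lam 0) ρP)
    (hK : ∀ {l α : ℝ} {h' : ℕ → ℝ} {X : ℕ → Fin 12 → ℝ} {H : ℕ → ℝ}
      {lam2 : Fin 2 → (Fin 12 → ℝ) → ℝ} {ρ2 : Fin 9 → ℝ} {φ : Fin 9 → V9 → ℝ},
      Pd9 R s a b Vis θ θb w0 sa sb v0 (DL g s qa qb 0 1 1) oS9 1 f lam ρp l α h' X H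
        lam2 ρ2 →
      Cl9 (cS9 k) (dl (nat9 1 (-θ) (-θb)) oS9 1) s (fun w => lam2 0 (RL9.vec w)) φ ρ2 →
      EF' s k (plS s (ρ2 0) (ρ2 1) (rE (cS9 k) φ) (1 - xE (cS9 k) φ) (ρ2 4)
        (1 - hE (cS9 k) φ)))
    {A : Pl} (hA : A.m = ρm 1) : ∃ B, EUp' k θ s g qa qb A B := by
  subst hb
  exact oS9up O hs hθ hk hk1 hθk hVis hcm hcp hcP hMm hRm hMp hRp hMP hRP hK hA

end plane

section ctx

variable {G : Geo TSet (Fin 2)} {L : ℕ → ℕ → LRay} {r : ℕ → ℝ} {g s : ℝ} {θ q : Fin 2 → ℝ}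
    {Rg : ℝ} {B : Base} {I : ℕ → Finset (ℕ × ℝ)} {lev : ℕ → ℚ → ℕ} {A : ℕ → ℝ}
    {f : ℕ → ℚ → ℕ → ℤ → ℕ} {b : ℕ → ℚ → ℕ → TSet} {vm : ℕ → ℚ → ℝ} {w : Fin 2 → ℕ → ℚ → ℝ}
    {fr : ℕ → ℚ → ℕ × ℝ → LInc} {fl : ℕ → ℕ × ℝ → LInc} {sc : Fin 12 → ℕ → ℝ}
    {w0 sa sb δ R : ℝ} {I0 I' : ℕ → Finset (ℕ × ℝ)} {ν own : (Fin 12 → ℝ) → ℝ} {c₀ : ℝ}
    {v0 : ℝ} {a b' : Fin 2} {x : ℕ → Fin 12 → ℝ} {hh : ℕ → ℝ}
    {lam : Fin 2 → (Fin 12 → ℝ) → ℝ} {T : Type*} {Bs : T → Fin 9 → ℝ} {sgs : T → ℝ}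

/-- **`EUp'` over the context**, double tie (or `e`-tie), `k' > 1`, `θ < k` -/
theorem upD9
    (C : CtxT G L r g s θ q Rg B I lev A f b vm w fr fl sc w0 sa sb δ R I0 I' ν own c₀)
    (hs0 : 0 ≤ s) (hs1 : s ≤ 1) (hθ : 0 < θ 0) (hk1 : 1 < 2 * θ 0 - θ 1)
    (hb0 : θ 1 < 0) (hv0 : 0 < v0) (hv1 : v0 < 1)
    (hB : TieT θ B I lev fl sc 7 ∨ TieT θ B I lev fl sc 8)
    (O : Out9 R s a b' (VisT B I fl sc) (θ 0) (θ 1) g (q 0) (q 1) Bs sgs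
      (rL (θ 0) (θ 1) w0 sa sb v0) (fo ν own) x hh lam)
    {cm cp cP : ℝ} {ρm ρp ρP : Fin 9 → ℝ} (hcm : 0 < cm) (hcp : 0 < cp) (hcP : 0 < cP)
    (hMm : (srf9 (θ 0) (θ 1) kD9 (-1)).LW (mw monL) cm ⊆ PP (mw monL))
    (hRm : Rates9 (θ 0) (θ 1) kD9 (-1) cm (lam 0) ρm)
    (hMp : (srf9 (θ 0) (θ 1) oS9 1).LW (mw monL) cp ⊆ PP (mw monL))
    (hRp : Rates9 (θ 0) (θ 1) oS9 1 cp (lam 0) ρp)
    (hMP : (srf9 (θ 0) (θ 1) oP9 1).LW (mw monL) cP ⊆ PP (mw monL))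
    (hRP : Rates9 (θ 0) (θ 1) oP9 1 cP (lam 0) ρP)
    (K3 : θ 0 - θ 1 = 1 → ∀ {κ l α : ℝ} {h' : ℕ → ℝ} {X : ℕ → Fin 12 → ℝ} {H : ℕ → ℝ}
      {lam2 : Fin 2 → (Fin 12 → ℝ) → ℝ} {ρ2 : Fin 9 → ℝ} {φ : Fin 9 → V9 → ℝ},
      Pd9 R s a b' (VisT B I fl sc) (θ 0) (θ 1) w0 sa sb v0 κ oS9 1 (fo ν own) lam ρp l α h'
        X H lam2 ρ2 →
      Cl9 (cS9 (θ 0 - θ 1)) (dl (nat9 1 (-(θ 0)) (-(θ 1))) oS9 1) s
        (fun w => lam2 0 (RL9.vec w)) φ ρ2 → K3U (cS9 (θ 0 - θ 1)) s φ ρ2)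
    {A' : Pl} (hA : A'.m = ρm 1) :
    ∃ B', EUp' (θ 0 - θ 1) (θ 0) s g (q 0) (q 1) A' B' := by
  have hk : 0 < θ 0 - θ 1 := by linarith
  have h2 : θ 0 - θ 1 ≠ 1 / 2 := by intro h; linarith
  refine oS9up' (by ring) O hs0 hθ hk (by linarith) (by linarith) (fun j hj => Th171.vis_flag C hj)
    hcm hcp hcP hMm hRm hMp hRp hMP hRP (fun {l α h' X H lam2 ρ2 φ} P Cl => ?_) hA
  have F : Fct9 (fun w => w 6 < (θ 0 - θ 1) * w 0 ∧ w 7 < (2 * θ 0 - θ 1) * w 0 ∧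
      w 8 < (2 * θ 0 - θ 1 - 1) * w 0) s (fun w => lam2 0 (RL9.vec w)) :=
    Pd3x363.pd9_fctS P C hs0 hs1 hθ hv0 hv1 fun w hw hS j hj => by
      obtain ⟨h6, h7, h8⟩ := hS
      rcases Th171.vis_flag C hj with rfl | rfl | rfl | rfl | rfl
      · show w 0 ≤ w 0 * 1
        linarith
      · show w 8 ≤ w 0 * (-(θ 1) - 2 * -(θ 0) - 1)
        linarith
      · show w 7 ≤ w 0 * (-(θ 1) - 2 * -(θ 0))
        linarith
      · show w 6 ≤ w 0 * (-(θ 1) - -(θ 0))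
        linarith
      · show w 6 ≤ w 0 * (-(θ 1) - -(θ 0))
        linarith
  have FU : FctU (θ 0 - θ 1) (fun w => w 7 < (2 * θ 0 - θ 1) * w 0 ∧
      w 8 < (2 * θ 0 - θ 1 - 1) * w 0) (fun w => lam2 0 (RL9.vec w)) :=
    Th171.fctU9 P C hθ hv0 hv1 leg_oS9 (by rw [t3, t0, t1]; norm_num)
      (by rw [t5, t1, t3]; norm_num) (by rw [t4, t0, t2]; norm_num)
      (by rw [t4, t3, t6]; norm_num) (by rw [t2, t1, t6]; norm_num) (by rw [t6, t0]; ring) hB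
      (fun _ => by rw [t7, t0]; linarith) (fun _ => by rw [t8, t0]; linarith)
      fun w hw hS => ⟨fun _ => hS.1, fun _ => hS.2⟩
  have Rg' : RgU (θ 0 - θ 1) (2 * θ 0 - θ 1) (2 * θ 0 - θ 1 - 1)
      (fun w => w 6 < (θ 0 - θ 1) * w 0 ∧ w 7 < (2 * θ 0 - θ 1) * w 0 ∧
        w 8 < (2 * θ 0 - θ 1 - 1) * w 0)
      (fun w => w 7 < (2 * θ 0 - θ 1) * w 0 ∧ w 8 < (2 * θ 0 - θ 1 - 1) * w 0) :=
    { k0 := hk
      k1 := by linarith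
      k2 := by linarith
      sk := fun w h6 h7 h8 => ⟨h6, h7, h8⟩
      sg := fun w h7 h8 => ⟨h7, h8⟩
      h12 := fun h => absurd h h2
      h11 := fun h => ⟨by linarith, by linarith⟩ }
  exact efU Cl (plU_S9 h2) Rg' F hs0 (Or.inl rfl) (Or.inl rfl) (Or.inl rfl) (fun _ => FU)
    (fun h => K3 h P Cl)

end ctx

end Crest.Agent.R116.Up708
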