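import Crest.Agent.R116.Up9_708
import Crest.Agent.R116.K3u_337
import Crest.Agent.R116.FlD3a_538

/-!
# R116, double tie, `k' > 1`, side above the record, no binder (helper708)

* **`upD9F`** : `upD9` with 337's (K3) plugged in
* **`upD3 : UpD3 η`** : 538's binder
* **`fillD3`** : cell D3
-/

set_option autoImplicit false
set_option linter.unusedVariables false
set_option linter.unusedSectionVars false

open Set Filter Topology MeasureTheory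

namespace Crest.Agent.R116.Up708

open Crest.Agent.R138
open Crest.Agent.R138.Ex926 (Base U IsTan)
open Crest.Agent.R136
open Crest.Agent.R136.MkA627
open Crest.Agent.R136.TD627
open Crest.Agent.R136.Net191
open Crest.Agent.R136.Lq196
open Crest.Agent.R116.ChL222
open Crest.Agent.R116.PL504 (nb rL DN eL βL oL Shift)
open Crest.Agent.R116.Sg337 (bx9 coneL DL natB)
open Crest.Agent.R116.Gd222 (TSet sN PDL DT)
open Crest.Agent.R116.KI439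
open Crest.Agent.R116.KF439 (PL)
open Crest.Agent.R116.CtxB468
open Crest.Agent.R116.RbM219
open Crest.Agent.R116.RbK219 (SOk RS Par dl)
open Crest.Agent.R116.SgO219 (PP)
open Crest.Agent.R116.Kz647
open Crest.Agent.R116.Rcx363
open Crest.Agent.R116.Pd363
open Crest.Agent.R116.Tq741
open Crest.Agent.R116.Tq126
open Crest.Agent.R116.Tp139 hiding cl8
open Crest.Agent.R116.Tie460 (Pl EF' EUp')
open Crest.Agent.R116.D3538
open Dg219 (mw)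

section ctx

variable {G : Geo TSet (Fin 2)} {L : ℕ → ℕ → LRay} {r : ℕ → ℝ} {g s : ℝ} {θ q : Fin 2 → ℝ}
    {Rg : ℝ} {B : Base} {I : ℕ → Finset (ℕ × ℝ)} {lev : ℕ → ℚ → ℕ} {A : ℕ → ℝ}
    {f : ℕ → ℚ → ℕ → ℤ → ℕ} {b : ℕ → ℚ → ℕ → TSet} {vm : ℕ → ℚ → ℝ} {w : Fin 2 → ℕ → ℚ → ℝ}
    {fr : ℕ → ℚ → ℕ × ℝ → LInc} {fl : ℕ → ℕ × ℝ → LInc} {sc : Fin 12 → ℕ → ℝ}
    {w0 sa sb δ R : ℝ} {I0 I' : ℕ → Finset (ℕ × ℝ)} {ν own : (Fin 12 → ℝ) → ℝ} {c₀ : ℝ}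
    {v0 : ℝ} {a b' : Fin 2} {x : ℕ → Fin 12 → ℝ} {hh : ℕ → ℝ}
    {lam : Fin 2 → (Fin 12 → ℝ) → ℝ} {T : Type*} {Bs : T → Fin 9 → ℝ} {sgs : T → ℝ}

/-- **`EUp'` over the context**, `k' > 1`, `θ < k`, no binder -/
theorem upD9F
    (C : CtxT G L r g s θ q Rg B I lev A f b vm w fr fl sc w0 sa sb δ R I0 I' ν own c₀)
    (hs0 : 0 ≤ s) (hs1 : s ≤ 1) (hθ : 0 < θ 0) (hk1 : 1 < 2 * θ 0 - θ 1)
    (hb0 : θ 1 < 0) (hv0 : 0 < v0) (hv1 : v0 < 1)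
    (hB : TieT θ B I lev fl sc 7 ∨ TieT θ B I lev fl sc 8)
    (O : Out9 R s a b' (VisT B I fl sc) (θ 0) (θ 1) g (q 0) (q 1) Bs sgs
      (rL (θ 0) (θ 1) w0 sa sb v0) (fo ν own) x hh lam)
    {cm cp cP : ℝ} {ρm ρp ρP : Fin 9 → ℝ} (hcm : 0 < cm) (hcp : 0 < cp) (hcP : 0 < cP)
    (hMm : (srf9 (θ 0) (θ 1) kD9 (-1)).LW (mw monL) cm ⊆ PP (mw monL))
    (hRm : Rates9 (θ 0) (θ 1) kD9 (-1) cm (lam 0) ρm)
    (hMp : (srf9 (θ 0) (θ 1) oS9 1).LW (mw monL) cp ⊆ PP (mw monL))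
    (hRp : Rates9 (θ 0) (θ 1) oS9 1 cp (lam 0) ρp)
    (hMP : (srf9 (θ 0) (θ 1) oP9 1).LW (mw monL) cP ⊆ PP (mw monL))
    (hRP : Rates9 (θ 0) (θ 1) oP9 1 cP (lam 0) ρP)
    {A' : Pl} (hA : A'.m = ρm 1) :
    ∃ B', EUp' (θ 0 - θ 1) (θ 0) s g (q 0) (q 1) A' B' := by
  refine upD9 C hs0 hs1 hθ hk1 hb0 hv0 hv1 hB O hcm hcp hcP hMm hRm hMp hRp hMP hRP
    (fun hk {κ l α h' X H lam2 ρ2 φ} P Cl => ?_) hA
  refine K3u337.k3u9 P C hθ (by linarith) hk hv0 hv1 hB (fun j hj => Th171.vis_flag C hj)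
    (fun j hj => Th171.vis_flag C hj) Cl ?_ ?_ ?_ ?_
  · rw [hk, cS9_one]; decide
  · rw [hk, cS9_one]; decide
  · rw [hk, cS9_one]; decide
  · rw [hk, cS9_one]; decide

end ctx

/-- **538's binder** -/
theorem upD3 {η : ℝ} : UpD3 η := by
  intro G L r g s θ q Rg B I lev A f b vm w fr fl sc w0 sa sb δ R I0 I' ν own c₀ v0 a b' x hh lam
    cm cp cP ρm ρp ρP C hN hV hb0 hk1 _ hv0 hv1 O hcm hMm hRm hcp hMp hRp hcP hMP hRP A' hA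
  exact upD9F C hN.s0 hN.s1.le hN.θa hk1 hb0 hv0 hv1 hV.1 O hcm hcp hcP hMm hRm hMp hRp hMP hRP hA

/-- **cell D3** (538's assembly, 388's `T⁻`, this `T⁺`) -/
theorem fillD3 {η : ℝ} (hη : η < 1) :
    KTie794.Fill η FlH850.VD fun g s θ q => 1 < 2 * θ 0 - θ 1 →
      Tie460.DTie' (θ 0 - θ 1) (2 * θ 0 - θ 1) (θ 0) s (g + 2 * s) (q 0) (q 1) :=
  fillD3_of hη upD3

end Crest.Agent.R116.Up708
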