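import Mathlib
import Crest.Agent.R116.Xc1_794
import Crest.Agent.R116.Xa3_794

/-!
# R116 (K side), block X1-C, class `Xc`, part 2 (helper794): LOW for sequences
-/

set_option autoImplicit false

open Finset Filter Topology

namespace Crest.Agent.R116.Xc2794

open Crest.Agent.R138.Ex926 Crest.Agent.R138.Dp76 Crest.Agent.R138.Ps627
open Crest.Agent.R138.Ps926 (dpow_small)
open Crest.Agent.R138.Mk163 (zc zl rho alive own)
open Crest.Agent.R138.MkRef627 (lc kc own_one alive_mono mem_alive card_class own_lower)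
open Crest.Agent.R138.MkZoom779 (zc_nested)
open Crest.Agent.R116.Xa794 (TS)
open Crest.Agent.R116.Xa2794 (lc_nested class_fib_ge class_fib_le)
open Crest.Agent.R116.Xa3794
open Crest.Agent.R116.Xc794 Crest.Agent.R116.Xc1794

variable {Ln ι S : Type} [Fintype ι]

section

variable {B : Base} {I : ℕ → Finset (ℕ × ℝ)} {lev : ℕ → ℚ → ℕ} {Λ : ℝ → ℝ}

set_option maxHeartbeats 1000000 in
open Classical in
/-- **LOW, sequence form.** -/
theorem low_seqC (h : Sq B I lev Λ) (𝒯 : Set (TS Ln ι S)) (Ψ : ℝ → (ι → ℝ) → ℝ) {bb : ℝ}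
    (hUB : UB 𝒯 Ψ bb) {T : ℕ → TS Ln ι S} (hT : ∀ n, T n ∈ 𝒯) {L : ℕ → ℕ → Ln} {N : ℕ → ℕ}
    (hfin : ∀ (n i : ℕ) (J : ℤ) (s : (ι → ℕ) × S), (T n).adm i J s → ∀ j, s.1 j ≤ N n)
    (hNd : ∀ ε : ℝ, 0 < ε → ∀ᶠ n in (U : Filter ℕ), (N n : ℝ) ≤ B.d n ^ (-ε))
    {u v : ℚ} (hu : 0 ≤ u) (huv : u < v) (hv : v ≤ 1)
    {A : ℕ → Finset (ℕ × ℝ)} (hA : ∀ n, A n ⊆ I n)
    (hcl : ∀ᶠ n in (U : Filter ℕ), ∀ x ∈ A n, ∀ y ∈ I n, lc (lev n v) y = lc (lev n v) x → y ∈ A n)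
    {f : ℕ → ℕ → ℤ → ℕ} {b : ℕ → ℕ → (ι → ℕ) × S} {a : ℕ → ι → ℕ}
    (hmk : ∀ᶠ n in (U : Filter ℕ), ∀ x ∈ A n,
      (T n).mem (lev n v) (zc (lev n v) x.2) (b n (f n x.1 (zc (lev n v) x.2))) (L n x.1) ∧
        (T n).adm (lev n v) (zc (lev n v) x.2) (b n (f n x.1 (zc (lev n v) x.2))) ∧
        (b n (f n x.1 (zc (lev n v) x.2))).1 = a n)
    {D1 : ℕ → ℝ} (hD1 : ∀ n, 0 < D1 n)
    (hsz : ∀ᶠ n in (U : Filter ℕ), ∀ x ∈ A n, D1 n * (T n).vol (lev n v) (a n) ≤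
        (((alive (A n) (lev n v) (zc (lev n v) x.2)).filter fun s =>
          f n s (zc (lev n v) x.2) = f n x.1 (zc (lev n v) x.2)).card : ℝ))
    {D0 : ℕ → ℝ} {η : ℝ} (hη : 0 < η)
    (hD : ∀ᶠ n in (U : Filter ℕ),
      D0 n ≤ B.d n ^ (η + bb * ((v : ℝ) - u) + 2 * (Λ v - Λ u)) * D1 n) :
    ∀ᶠ n in (U : Filter ℕ), ∀ J ⊆ A n, B.d n ^ (η / 20) * ((I n).card : ℝ) ≤ (J.card : ℝ) →
      ∃ (c : ℤ) (s : (ι → ℕ) × S), (T n).adm (lev n u) c s ∧
        D0 n * capP (T n) Ψ (lev n v) (a n) (lev n u) s.1 <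
          (((alive J (lev n u) c).filter fun t => (T n).mem (lev n u) c s (L n t)).card : ℝ) := by
  have huvR : (u : ℝ) < v := by exact_mod_cast huv
  have hw0 : (0 : ℝ) < (v : ℝ) - u := by linarith
  have hw1 : (v : ℝ) - u ≤ 1 := by
    have h1 : (v : ℝ) ≤ 1 := by exact_mod_cast hv
    have h2 : (0 : ℝ) ≤ u := by exact_mod_cast hu
    linarith
  set w : ℝ := (v : ℝ) - u with hw
  obtain ⟨δ0, hδ0, M0, hM0⟩ := hUB (η / 10) (by positivity)
  have hlim := h.lev_lim u v hu huv.le hv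
  -- the exponent of `Kf`
  have hlim2 : Tendsto (fun n => ((bb + η / 10 + 2) * ((lev n v : ℝ) - lev n u)) * Real.log 2 /
      B.L n) U (𝓝 ((bb + η / 10 + 2) * w)) := by
    refine (hlim.const_mul (bb + η / 10 + 2)).congr fun n => ?_
    ring
  have hK : ∀ᶠ n in (U : Filter ℕ), ((bb + η / 10 + 2) * ((lev n v : ℝ) - lev n u)) * Real.log 2 /
      B.L n < (bb + η / 10 + 2) * w + η / 10 := hlim2.eventually_lt_const (by linarith [hη])
  have hlim3 : Tendsto (fun n => (δ0 * ((lev n v : ℝ) - lev n u)) * Real.log 2 /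
      B.L n) U (𝓝 (δ0 * w)) := by
    refine (hlim.const_mul δ0).congr fun n => ?_
    ring
  have hK2 : ∀ᶠ n in (U : Filter ℕ), δ0 * w / 2 < (δ0 * ((lev n v : ℝ) - lev n u)) * Real.log 2 /
      B.L n := hlim3.eventually_const_lt (by nlinarith [mul_pos hδ0 hw0])
  have hcard := h.card (δ0 * w / 2) (by positivity)
  have hNev := hNd (δ0 * w / 2) (by positivity)
  have hfu := h.fib u hu (huv.le.trans hv) (η / 100) (by positivity)
  have hfv := h.fib v (hu.trans huv.le) hv (η / 100) (by positivity)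
  have hsm : ∀ᶠ n in (U : Filter ℕ), B.d n ^ (η / 20) < 1 / 4 :=
    dpow_small B (c := η / 20) (by positivity) (by norm_num)
  filter_upwards [hcl, hmk, hsz, hD, hK, hK2, hcard, hfu, hfv, hsm,
    h.lev_ge hu huv hv M0, h.lev_ge hu huv hv 1, h.ne, hNev] with n hcl hmk hsz hD hK hK2 hcard hfu
    hfv hsm hM0' hM1 hne hNev J hJ hJc
  obtain ⟨M, hM⟩ : ∃ M, lev n v = lev n u + M := ⟨lev n v - lev n u, by omega⟩
  have hMR : (lev n v : ℝ) - lev n u = M := by rw [hM]; push_cast; ring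
  have hM0'' : M0 ≤ M := by omega
  have hM1' : 1 ≤ M := by omega
  rw [hMR] at hK hK2
  rw [hM] at hcl hmk hsz hfv ⊢
  have hIc : (0 : ℝ) < ((I n).card : ℝ) := by exact_mod_cast card_pos.2 hne
  refine cfg_lowC (T n) Ψ (N := N n) (Kf := (2 : ℝ) ^ ((bb + η / 10) * M) * 4 ^ M)
    (Kl := (2 : ℝ) ^ (δ0 * M)) (hfin n) ?_ hM1' (hA n) hJ hcl (L n) (f n) (b n) (a n) hmk (hD1 n) hsz
    (lu := B.d n ^ (-(1 - (u : ℝ)) + (Λ 1 - Λ u) + η / 100))
    (lv := B.d n ^ (-(1 - (v : ℝ)) + (Λ 1 - Λ v) + η / 100))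
    (hv := B.d n ^ (-(1 - (v : ℝ)) + (Λ 1 - Λ v) - η / 100))
    (δ := B.d n ^ (η / 10)) (dpow_pos B n _) (dpow_pos B n _) (dpow_pos B n _) (dpow_pos B n _)
    (fun x hx => (hfu x hx).1) hfv ?_ ?_ ?_
  · intro F hF hFM hFN hFc
    have := hM0 (T n) (hT n) F hF (by rw [hFM]; exact hM0'') (by rw [hFM]; exact hFc)
      (by rw [hFM, hFN]; exact hNev.trans (le_two_rpow hK2.le))
    rw [hFM] at this
    exact this
  · -- density
    have e : B.d n ^ (η / 10) = B.d n ^ (η / 20) * B.d n ^ (η / 20) := by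
      rw [← dpow_add]; congr 1; ring
    have hp := dpow_pos B n (η / 20)
    refine lt_of_lt_of_le ?_ hJc
    rw [e]
    have : 3 * (B.d n ^ (η / 20) * B.d n ^ (η / 20)) < B.d n ^ (η / 20) := by nlinarith
    exact mul_lt_mul_of_pos_right this hIc
  · -- logarithmic size
    refine hcard.trans ?_
    exact le_two_rpow hK2.le
  · -- the numerical inequality
    have e1 : (2 : ℝ) ^ ((bb + η / 10) * M) * 4 ^ M = (2 : ℝ) ^ ((bb + η / 10 + 2) * M) := by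
      have : (4 : ℝ) ^ M = (2 : ℝ) ^ (2 * (M : ℝ)) := by
        rw [Real.rpow_mul (by norm_num)]
        norm_num
      rw [this, ← Real.rpow_add two_pos]
      congr 1; ring
    rw [e1]
    have hKf : (2 : ℝ) ^ ((bb + η / 10 + 2) * M) ≤ B.d n ^ (-((bb + η / 10 + 2) * w + η / 10)) :=
      two_rpow_le hK.le
    have hD1n := hD1 n
    have h1 : (2 : ℝ) ^ ((bb + η / 10 + 2) * M) * D0 n ≤
        (2 : ℝ) ^ ((bb + η / 10 + 2) * M) *
          (B.d n ^ (η + bb * w + 2 * (Λ v - Λ u)) * D1 n) :=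
      mul_le_mul_of_nonneg_left hD (Real.rpow_pos_of_pos two_pos _).le
    have h2 : (2 : ℝ) ^ ((bb + η / 10 + 2) * M) *
          (B.d n ^ (η + bb * w + 2 * (Λ v - Λ u)) * D1 n) ≤
        B.d n ^ (-((bb + η / 10 + 2) * w + η / 10)) *
          (B.d n ^ (η + bb * w + 2 * (Λ v - Λ u)) * D1 n) :=
      mul_le_mul_of_nonneg_right hKf (mul_pos (dpow_pos B n _) hD1n).le
    refine lt_of_le_of_lt (h1.trans h2) ?_
    have e2 : B.d n ^ (-((bb + η / 10 + 2) * w + η / 10)) *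
          (B.d n ^ (η + bb * w + 2 * (Λ v - Λ u)) * D1 n) =
        B.d n ^ (η - η / 10 - η / 10 * w - 2 * w + 2 * (Λ v - Λ u)) * D1 n := by
      rw [← mul_assoc, ← dpow_add]
      congr 2; ring
    have e3 : B.d n ^ (η / 10) * B.d n ^ (-(1 - (v : ℝ)) + (Λ 1 - Λ v) + η / 100) /
          B.d n ^ (-(1 - (v : ℝ)) + (Λ 1 - Λ v) - η / 100) * D1 n *
        (B.d n ^ (η / 10) * B.d n ^ (-(1 - (u : ℝ)) + (Λ 1 - Λ u) + η / 100) /
          B.d n ^ (-(1 - (v : ℝ)) + (Λ 1 - Λ v) - η / 100)) ^ 2 =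
        B.d n ^ (3 * (η / 10) + 6 * (η / 100) - 2 * w + 2 * (Λ v - Λ u)) * D1 n := by
      rw [← dpow_add, ← Real.rpow_sub (B.pos n), ← dpow_add, ← Real.rpow_sub (B.pos n),
        ← Real.rpow_natCast, ← Real.rpow_mul (B.pos n).le, mul_right_comm, ← dpow_add]
      congr 2
      rw [hw]; push_cast; ring
    rw [e2, e3]
    refine mul_lt_mul_of_pos_right ?_ hD1n
    refine Real.rpow_lt_rpow_of_exponent_gt (B.pos n) (B.lt n) ?_
    nlinarith

end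

end Crest.Agent.R116.Xc2794
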